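import Crest.Agent.R147.Cl684Expl

/-!
Row 147 (helper684): the finite volume AKN bound for the number of closed edges joining two
distinct clusters which meet a given root set.
-/

set_option autoImplicit false

namespace Crest.Agent.R147.Cl

open Finset Crest.Agent.R159.FV
open scoped Classical

universe u
variable {V : Type u}

/-- closed edges of `E` joining two distinct clusters meeting `R` -/
noncomputable def contact (E S : Finset (Sym2 V)) (R : Set V) : Finset (Sym2 V) :=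
  E.filter (fun e => ∃ a b, e = s(a, b) ∧ a ∈ cl S R ∧ b ∈ cl S R ∧ ¬ conn S a b)

/-- the cluster of `v` inside `Λ` -/
noncomputable def clus (Λ : Finset V) (S : Finset (Sym2 V)) (v : V) : Finset V :=
  Λ.filter (fun u => conn S v u)

/-- the clusters meeting `R` -/
noncomputable def CC (Λ : Finset V) (S : Finset (Sym2 V)) (R : Finset V) : Finset (Finset V) :=
  R.image (clus Λ S)

/-- fluctuation sum over the edges touching `C` -/
noncomputable def MC (w : Sym2 V → ℝ) (E S : Finset (Sym2 V)) (C : Finset V) : ℝ :=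
  ∑ e ∈ E.filter (fun e => ∃ v ∈ e, v ∈ C), ((if e ∈ S then 1 else 0) - w e)

theorem mem_clus {Λ : Finset V} {S : Finset (Sym2 V)} {v u : V} :
    u ∈ clus Λ S v ↔ u ∈ Λ ∧ conn S v u := by
  unfold clus; rw [Finset.mem_filter]

theorem clus_eq {Λ : Finset V} {S : Finset (Sym2 V)} {v u : V} (h : conn S v u) :
    clus Λ S v = clus Λ S u := by
  ext x
  rw [mem_clus, mem_clus]
  exact ⟨fun hx => ⟨hx.1, h.symm.trans hx.2⟩, fun hx => ⟨hx.1, h.trans hx.2⟩⟩

theorem clus_eq_iff {Λ : Finset V} {S : Finset (Sym2 V)} {v u : V} (hu : u ∈ Λ) :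
    clus Λ S v = clus Λ S u ↔ conn S v u := by
  constructor
  · intro h
    have : u ∈ clus Λ S v := by rw [h, mem_clus]; exact ⟨hu, conn_refl S u⟩
    exact (mem_clus.1 this).2
  · exact clus_eq

theorem mem_CC {Λ : Finset V} {S : Finset (Sym2 V)} {R : Finset V} {C : Finset V} {v : V}
    (hv : v ∈ Λ) : (C ∈ CC Λ S R ∧ v ∈ C) ↔ (v ∈ cl S (↑R : Set V) ∧ C = clus Λ S v) := by
  constructor
  · rintro ⟨h1, h2⟩
    obtain ⟨r, hr, rfl⟩ := Finset.mem_image.1 h1
    have h3 := (mem_clus.1 h2).2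
    exact ⟨⟨r, hr, h3⟩, clus_eq h3⟩
  · rintro ⟨⟨r, hr, hrv⟩, rfl⟩
    refine ⟨Finset.mem_image.2 ⟨r, hr, clus_eq hrv⟩, mem_clus.2 ⟨hv, conn_refl S v⟩⟩

/-- each edge is touched by `[e ∈ T] + [e ∈ contact]` clusters of `CC`. -/
theorem card_touch {Λ : Finset V} {E S : Finset (Sym2 V)} {R : Finset V}
    (hE : ∀ e ∈ E, ∀ v ∈ e, v ∈ Λ) {e : Sym2 V} (he : e ∈ E) :
    (((CC Λ S R).filter (fun C => ∃ v ∈ e, v ∈ C)).card : ℝ) =
      (if e ∈ T E S (↑R : Set V) then 1 else 0) + (if e ∈ contact E S (↑R : Set V) then 1 else 0) := by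
  induction e using Sym2.ind with
  | _ a b =>
  have ha : a ∈ Λ := hE _ he a (Sym2.mem_mk_left a b)
  have hb : b ∈ Λ := hE _ he b (Sym2.mem_mk_right a b)
  have hset : (CC Λ S R).filter (fun C => ∃ v ∈ s(a, b), v ∈ C) =
      (if a ∈ cl S (↑R : Set V) then {clus Λ S a} else ∅) ∪
        (if b ∈ cl S (↑R : Set V) then {clus Λ S b} else ∅) := by
    ext C
    rw [Finset.mem_filter, Finset.mem_union]
    constructor
    · rintro ⟨h1, v, hv, hvC⟩
      rcases Sym2.mem_iff.1 hv with rfl | rfl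
      · obtain ⟨h2, h3⟩ := (mem_CC ha).1 ⟨h1, hvC⟩
        left; rw [if_pos h2, Finset.mem_singleton]; exact h3
      · obtain ⟨h2, h3⟩ := (mem_CC hb).1 ⟨h1, hvC⟩
        right; rw [if_pos h2, Finset.mem_singleton]; exact h3
    · rintro (h | h)
      · by_cases h2 : a ∈ cl S (↑R : Set V)
        · rw [if_pos h2, Finset.mem_singleton] at h
          obtain ⟨h3, h4⟩ := (mem_CC (C := C) ha).2 ⟨h2, h⟩
          exact ⟨h3, a, Sym2.mem_mk_left a b, h4⟩
        · rw [if_neg h2] at h; simp at h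
      · by_cases h2 : b ∈ cl S (↑R : Set V)
        · rw [if_pos h2, Finset.mem_singleton] at h
          obtain ⟨h3, h4⟩ := (mem_CC (C := C) hb).2 ⟨h2, h⟩
          exact ⟨h3, b, Sym2.mem_mk_right a b, h4⟩
        · rw [if_neg h2] at h; simp at h
  have hT : s(a, b) ∈ T E S (↑R : Set V) ↔ (a ∈ cl S (↑R : Set V) ∨ b ∈ cl S (↑R : Set V)) := by
    rw [mem_T]
    constructor
    · rintro ⟨_, v, hv, hvc⟩
      rcases Sym2.mem_iff.1 hv with rfl | rfl
      · exact Or.inl hvc
      · exact Or.inr hvc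
    · rintro (h | h)
      · exact ⟨he, a, Sym2.mem_mk_left a b, h⟩
      · exact ⟨he, b, Sym2.mem_mk_right a b, h⟩
  have hCo : s(a, b) ∈ contact E S (↑R : Set V) ↔
      (a ∈ cl S (↑R : Set V) ∧ b ∈ cl S (↑R : Set V) ∧ ¬ conn S a b) := by
    unfold contact
    rw [Finset.mem_filter]
    constructor
    · rintro ⟨_, c, d, hcd, hc, hd, hn⟩
      rcases Sym2.eq_iff.1 hcd with ⟨rfl, rfl⟩ | ⟨rfl, rfl⟩
      · exact ⟨hc, hd, hn⟩
      · exact ⟨hd, hc, fun h => hn h.symm⟩
    · rintro ⟨h1, h2, h3⟩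
      exact ⟨he, a, b, rfl, h1, h2, h3⟩
  rw [hset]
  simp only [hT, hCo]
  by_cases h1 : a ∈ cl S (↑R : Set V) <;> by_cases h2 : b ∈ cl S (↑R : Set V)
  · by_cases h3 : conn S a b
    · simp [h1, h2, h3, clus_eq h3]
    · have h4 : clus Λ S a ≠ clus Λ S b := fun h => h3 ((clus_eq_iff hb).1 h)
      rw [if_pos h1, if_pos h2, Finset.card_union_of_disjoint (by simpa using h4)]
      simp only [Finset.card_singleton, h1, h2, h3]
      norm_num
  · simp [h1, h2]
  · simp [h1, h2]
  · simp [h1, h2]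

/-- the decomposition of the fluctuation of the explored set into clusters. -/
theorem sum_MC (w : Sym2 V → ℝ) {Λ : Finset V} {E S : Finset (Sym2 V)} {R : Finset V}
    (hE : ∀ e ∈ E, ∀ v ∈ e, v ∈ Λ) :
    ∑ C ∈ CC Λ S R, MC w E S C =
      M w E S (↑R : Set V) - ∑ e ∈ contact E S (↑R : Set V), w e := by
  have h1 : ∑ C ∈ CC Λ S R, MC w E S C =
      ∑ e ∈ E, ((if e ∈ S then 1 else 0) - w e) *
        (((CC Λ S R).filter (fun C => ∃ v ∈ e, v ∈ C)).card : ℝ) := by
    unfold MC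
    simp_rw [Finset.sum_filter]
    rw [Finset.sum_comm]
    apply Finset.sum_congr rfl
    intro e _
    rw [← Finset.sum_filter, Finset.sum_const, nsmul_eq_mul, mul_comm]
  rw [h1]
  have h2 : ∀ e ∈ E, ((if e ∈ S then 1 else 0) - w e) *
        (((CC Λ S R).filter (fun C => ∃ v ∈ e, v ∈ C)).card : ℝ) =
      (if e ∈ T E S (↑R : Set V) then ((if e ∈ S then (1 : ℝ) else 0) - w e) else 0) -
        (if e ∈ contact E S (↑R : Set V) then w e else 0) := by
    intro e he
    rw [card_touch hE he]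
    by_cases h3 : e ∈ contact E S (↑R : Set V)
    · have h4 : e ∈ T E S (↑R : Set V) := by
        obtain ⟨_, a, b, rfl, h5, _, _⟩ := Finset.mem_filter.1 h3
        exact mem_T.2 ⟨he, a, Sym2.mem_mk_left a b, h5⟩
      have h6 : e ∉ S := by
        obtain ⟨_, a, b, rfl, _, _, h5⟩ := Finset.mem_filter.1 h3
        exact fun h => h5 (conn_of_mem h)
      rw [if_pos h3, if_pos h4, if_pos h4, if_pos h3, if_neg h6]
      ring
    · rw [if_neg h3, if_neg h3]
      by_cases h4 : e ∈ T E S (↑R : Set V)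
      · rw [if_pos h4, if_pos h4]; ring
      · rw [if_neg h4, if_neg h4]; ring
  rw [Finset.sum_congr rfl h2, Finset.sum_sub_distrib]
  unfold M
  congr 1
  · rw [← Finset.sum_filter]
    apply Finset.sum_congr _ (fun _ _ => rfl)
    ext e
    rw [Finset.mem_filter]
    exact ⟨fun h => h.2, fun h => ⟨(mem_T.1 h).1, h⟩⟩
  · rw [← Finset.sum_filter]
    apply Finset.sum_congr _ (fun _ _ => rfl)
    ext e
    rw [Finset.mem_filter]
    exact ⟨fun h => h.2, fun h => ⟨(Finset.mem_filter.1 h).1, h⟩⟩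

theorem cl_singleton {S : Finset (Sym2 V)} {x v : V} : v ∈ cl S {x} ↔ conn S x v := by
  constructor
  · rintro ⟨r, rfl, h⟩; exact h
  · intro h; exact ⟨x, rfl, h⟩

theorem T_clus {Λ : Finset V} {E S : Finset (Sym2 V)} (hE : ∀ e ∈ E, ∀ v ∈ e, v ∈ Λ) (x : V) :
    E.filter (fun e => ∃ v ∈ e, v ∈ clus Λ S x) = T E S {x} := by
  ext e
  rw [Finset.mem_filter, mem_T]
  constructor
  · rintro ⟨h1, v, hv, hvc⟩
    exact ⟨h1, v, hv, cl_singleton.2 (mem_clus.1 hvc).2⟩
  · rintro ⟨h1, v, hv, hvc⟩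
    exact ⟨h1, v, hv, mem_clus.2 ⟨hE e h1 v hv, cl_singleton.1 hvc⟩⟩

theorem MC_clus (w : Sym2 V → ℝ) {Λ : Finset V} {E S : Finset (Sym2 V)}
    (hE : ∀ e ∈ E, ∀ v ∈ e, v ∈ Λ) (x : V) : MC w E S (clus Λ S x) = M w E S {x} := by
  unfold MC M
  rw [T_clus hE]

theorem abs_M_le (w : Sym2 V → ℝ) {E S : Finset (Sym2 V)} (h0 : ∀ e ∈ E, 0 ≤ w e)
    (h1 : ∀ e ∈ E, w e ≤ 1) (R : Set V) : |M w E S R| ≤ (T E S R).card := by
  unfold M
  calc _ ≤ ∑ e ∈ T E S R, |(if e ∈ S then (1 : ℝ) else 0) - w e| := Finset.abs_sum_le_sum_abs _ _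
    _ ≤ ∑ e ∈ T E S R, (1 : ℝ) := by
        apply Finset.sum_le_sum
        intro e he
        have h2 := h0 e (mem_T.1 he).1
        have h3 := h1 e (mem_T.1 he).1
        split_ifs
        · rw [abs_le]; constructor <;> linarith
        · rw [abs_le]; constructor <;> linarith
    _ = _ := by simp

theorem card_T_le {Λ : Finset V} {E S : Finset (Sym2 V)} (hE : ∀ e ∈ E, ∀ v ∈ e, v ∈ Λ)
    {D : ℕ} (hD : ∀ v ∈ Λ, (E.filter (fun e => v ∈ e)).card ≤ D) (x : V) :
    (T E S {x}).card ≤ D * (clus Λ S x).card := by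
  rw [← T_clus hE]
  have : E.filter (fun e => ∃ v ∈ e, v ∈ clus Λ S x) ⊆
      (clus Λ S x).biUnion (fun v => E.filter (fun e => v ∈ e)) := by
    intro e he
    obtain ⟨h1, v, hv, hvc⟩ := Finset.mem_filter.1 he
    exact Finset.mem_biUnion.2 ⟨v, hvc, Finset.mem_filter.2 ⟨h1, hv⟩⟩
  calc _ ≤ _ := Finset.card_le_card this
    _ ≤ ∑ v ∈ clus Λ S x, (E.filter (fun e => v ∈ e)).card := Finset.card_biUnion_le
    _ ≤ ∑ v ∈ clus Λ S x, D := Finset.sum_le_sum (fun v hv => hD v (mem_clus.1 hv).1)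
    _ = _ := by rw [Finset.sum_const, smul_eq_mul, mul_comm]

/-- local fluctuation density of big clusters -/
noncomputable def dens (w : Sym2 V → ℝ) (K : ℕ) (E S : Finset (Sym2 V)) (x : V) : ℝ :=
  if K ≤ (T E S {x}).card then |M w E S {x}| / (T E S {x}).card else 0

theorem dens_nonneg (w : Sym2 V → ℝ) (K : ℕ) (E S : Finset (Sym2 V)) (x : V) :
    0 ≤ dens w K E S x := by
  unfold dens; split_ifs
  · positivity
  · exact le_rfl

/-- deterministic bound for the number of contact edges -/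
theorem sum_abs_MC_le (w : Sym2 V → ℝ) {Λ : Finset V} {E S : Finset (Sym2 V)} {R : Finset V}
    (h0 : ∀ e ∈ E, 0 ≤ w e) (h1 : ∀ e ∈ E, w e ≤ 1)
    (hE : ∀ e ∈ E, ∀ v ∈ e, v ∈ Λ) (hR : R ⊆ Λ)
    {D : ℕ} (hD : ∀ v ∈ Λ, (E.filter (fun e => v ∈ e)).card ≤ D) {K : ℕ} (hK : 0 < K) :
    ∑ C ∈ CC Λ S R, |MC w E S C| ≤ K * R.card + D * ∑ x ∈ Λ, dens w K E S x := by
  have hcl : ∀ C ∈ CC Λ S R, |MC w E S C| ≤ K + D * ∑ x ∈ C, dens w K E S x := by
    intro C hC
    obtain ⟨r, hr, rfl⟩ := Finset.mem_image.1 hC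
    have hd : ∀ x ∈ clus Λ S r, dens w K E S x = dens w K E S r := by
      intro x hx
      have hc : conn S r x := (mem_clus.1 hx).2
      have hT : T E S {x} = T E S {r} := by
        rw [← T_clus hE, ← T_clus hE, clus_eq hc]
      have hM : M w E S {x} = M w E S {r} := by unfold M; rw [hT]
      unfold dens
      rw [hT, hM]
    rw [Finset.sum_congr rfl hd, Finset.sum_const, nsmul_eq_mul, MC_clus w hE]
    have hcard := card_T_le (S := S) hE hD r
    by_cases hb : K ≤ (T E S {r}).card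
    · have hpos : (0 : ℝ) < (T E S {r}).card := by
        have : 0 < (T E S {r}).card := lt_of_lt_of_le hK hb
        exact_mod_cast this
      have hle : ((T E S {r}).card : ℝ) ≤ D * (clus Λ S r).card := by exact_mod_cast hcard
      have hdd : dens w K E S r = |M w E S {r}| / (T E S {r}).card := by
        unfold dens; rw [if_pos hb]
      rw [hdd]
      have h5 : |M w E S {r}| ≤ D * (((clus Λ S r).card : ℝ) *
          (|M w E S {r}| / (T E S {r}).card)) := by
        have h6 : |M w E S {r}| = ((T E S {r}).card : ℝ) * (|M w E S {r}| / (T E S {r}).card) := by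
          field_simp
        calc |M w E S {r}| = ((T E S {r}).card : ℝ) * (|M w E S {r}| / (T E S {r}).card) := h6
          _ ≤ (D * (clus Λ S r).card) * (|M w E S {r}| / (T E S {r}).card) :=
            mul_le_mul_of_nonneg_right hle (div_nonneg (abs_nonneg _) (Nat.cast_nonneg _))
          _ = _ := by ring
      have : (0 : ℝ) ≤ K := Nat.cast_nonneg K
      linarith
    · have h2 := abs_M_le (S := S) w h0 h1 {r}
      have h3 : ((T E S {r}).card : ℝ) ≤ K := by exact_mod_cast (not_le.1 hb).le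
      have h4 : (0 : ℝ) ≤ D * (((clus Λ S r).card : ℝ) * dens w K E S r) :=
        mul_nonneg (Nat.cast_nonneg D) (mul_nonneg (Nat.cast_nonneg _) (dens_nonneg w K E S r))
      linarith
  calc _ ≤ ∑ C ∈ CC Λ S R, (K + D * ∑ x ∈ C, dens w K E S x) := Finset.sum_le_sum hcl
    _ = (CC Λ S R).card * K + D * ∑ C ∈ CC Λ S R, ∑ x ∈ C, dens w K E S x := by
        rw [Finset.sum_add_distrib, Finset.sum_const, nsmul_eq_mul, Finset.mul_sum]
    _ ≤ K * R.card + D * ∑ x ∈ Λ, dens w K E S x := by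
        apply add_le_add
        · rw [mul_comm]
          apply mul_le_mul_of_nonneg_left _ (Nat.cast_nonneg K)
          exact_mod_cast Finset.card_image_le
        · apply mul_le_mul_of_nonneg_left _ (Nat.cast_nonneg D)
          have hdis : Set.PairwiseDisjoint (↑(CC Λ S R) : Set (Finset V)) id := by
            intro C1 h1 C2 h2 hne
            obtain ⟨r1, _, rfl⟩ := Finset.mem_image.1 h1
            obtain ⟨r2, _, rfl⟩ := Finset.mem_image.1 h2
            rw [Function.onFun, Finset.disjoint_left]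
            intro x hx1 hx2
            apply hne
            rw [clus_eq (mem_clus.1 hx1).2, clus_eq (mem_clus.1 hx2).2]
          have : ∑ C ∈ CC Λ S R, ∑ x ∈ C, dens w K E S x =
              ∑ x ∈ (CC Λ S R).biUnion id, dens w K E S x := by
            rw [Finset.sum_biUnion hdis]; rfl
          rw [this]
          apply Finset.sum_le_sum_of_subset_of_nonneg
          · intro x hx
            obtain ⟨C, hC, hxC⟩ := Finset.mem_biUnion.1 hx
            obtain ⟨r, _, rfl⟩ := Finset.mem_image.1 hC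
            exact (mem_clus.1 hxC).1
          · intro x _ _; exact dens_nonneg w K E S x

/-- Jensen for `Ex` -/
theorem sq_Ex_le {α : Type*} [DecidableEq α] {E : Finset α} {w : α → ℝ}
    (h0 : ∀ e ∈ E, 0 ≤ w e) (h1 : ∀ e ∈ E, w e ≤ 1) (f : Finset α → ℝ) :
    (Ex E w f) ^ 2 ≤ Ex E w (fun S => f S ^ 2) := by
  have h := Ex_nonneg h0 h1 (f := fun S => (f S - Ex E w f) ^ 2) (fun S _ => sq_nonneg _)
  have h2 : Ex E w (fun S => (f S - Ex E w f) ^ 2) =
      Ex E w (fun S => f S ^ 2) - (Ex E w f) ^ 2 := by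
    have e1 : (fun S => (f S - Ex E w f) ^ 2) =
        fun S => (f S ^ 2 - (2 * Ex E w f) * f S) + (Ex E w f) ^ 2 := by
      funext S; ring
    rw [e1, Ex_add, Ex_sub, Ex_mul_left, Ex_const]
    ring
  rw [h2] at h
  linarith

/-- the coefficients `c n = 1 / max(n, K)²` -/
noncomputable def ck (K n : ℕ) : ℝ := 1 / (max n K : ℕ) ^ 2

theorem ck_nonneg (K n : ℕ) : 0 ≤ ck K n := by unfold ck; positivity

theorem ck_antitone {K : ℕ} (hK : 0 < K) : Antitone (ck K) := by
  intro a b hab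
  unfold ck
  apply one_div_le_one_div_of_le
  · have : 0 < max a K := lt_of_lt_of_le hK (le_max_right _ _)
    positivity
  · have : (max a K : ℕ) ≤ max b K := max_le_max hab le_rfl
    have h2 : ((max a K : ℕ) : ℝ) ≤ ((max b K : ℕ) : ℝ) := by exact_mod_cast this
    exact pow_le_pow_left₀ (Nat.cast_nonneg _) h2 2

theorem sum_ck_le {K : ℕ} (hK : 0 < K) (n : ℕ) :
    ∑ j ∈ Finset.range n, ck K (j + 1) ≤ 2 / K := by
  have hK0 : (0 : ℝ) < K := by exact_mod_cast hK
  -- potential: `B n = (K - n)^+ / K² + 1 / max(n,K)`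
  have key : ∀ n : ℕ, ∑ j ∈ Finset.range n, ck K (j + 1) ≤
      2 / K - ((max n K - n : ℕ) / (K : ℝ) ^ 2 + 1 / (max n K : ℕ)) := by
    intro n
    induction n with
    | zero =>
      simp only [Finset.range_zero, Finset.sum_empty, Nat.zero_max, Nat.sub_zero]
      have : (K : ℝ) / (K : ℝ) ^ 2 + 1 / K = 2 / K := by field_simp; norm_num
      rw [this]; simp
    | succ n ih =>
      rw [Finset.sum_range_succ]
      have step : ck K (n + 1) + ((max (n + 1) K - (n + 1) : ℕ) / (K : ℝ) ^ 2 +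
          1 / (max (n + 1) K : ℕ)) ≤ (max n K - n : ℕ) / (K : ℝ) ^ 2 + 1 / (max n K : ℕ) := by
        unfold ck
        by_cases hn : n + 1 ≤ K
        · rw [max_eq_right hn, max_eq_right (by omega : n ≤ K)]
          have : ((K - n : ℕ) : ℝ) = ((K - (n + 1) : ℕ) : ℝ) + 1 := by
            have : K - n = K - (n + 1) + 1 := by omega
            rw [this]; push_cast; ring
          rw [this]
          have : (((K - (n + 1) : ℕ) : ℝ) + 1) / (K : ℝ) ^ 2 =
            ((K - (n + 1) : ℕ) : ℝ) / (K : ℝ) ^ 2 + 1 / (K : ℝ) ^ 2 := by ring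
          rw [this]
          linarith
        · have hn' : K ≤ n := by omega
          rw [max_eq_left (by omega : K ≤ n + 1), max_eq_left hn']
          simp only [Nat.sub_self, Nat.cast_zero, zero_div, zero_add]
          have hn0 : (0 : ℝ) < n := by
            have : 0 < n := lt_of_lt_of_le hK hn'
            exact_mod_cast this
          push_cast
          rw [div_add_div _ _ (by positivity) (by positivity), div_le_div_iff₀ (by positivity) hn0]
          ring_nf
          nlinarith [hn0, sq_nonneg (n : ℝ)]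
      linarith
  have h1 := key n
  have h2 : (0 : ℝ) ≤ (max n K - n : ℕ) / (K : ℝ) ^ 2 + 1 / (max n K : ℕ) := by positivity
  linarith

theorem ex_dens_le (w : Sym2 V → ℝ) (E : Finset (Sym2 V)) (h0 : ∀ e ∈ E, 0 ≤ w e)
    (h1 : ∀ e ∈ E, w e ≤ 1) {K : ℕ} (hK : 0 < K) (x : V) :
    Ex E w (fun S => dens w K E S x) ≤ Real.sqrt (1 / (2 * K)) := by
  apply Real.le_sqrt_of_sq_le
  refine le_trans (sq_Ex_le h0 h1 _) ?_
  have h2 := ex_c_M2 w E h0 h1 (ck K) (ck_nonneg K) (ck_antitone hK) (2 / K) (sum_ck_le hK) {x}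
  have hK0 : (0 : ℝ) < K := by exact_mod_cast hK
  have h3 : (2 / (K : ℝ)) / 4 = 1 / (2 * K) := by field_simp; norm_num
  rw [h3] at h2
  refine le_trans (Ex_mono h0 h1 ?_) h2
  intro S _
  unfold dens
  by_cases hb : K ≤ (T E S {x}).card
  · rw [if_pos hb]
    unfold ck
    rw [max_eq_left hb, div_pow, sq_abs]
    apply le_of_eq
    ring
  · rw [if_neg hb]
    have h4 := ck_nonneg K (T E S {x}).card
    have h5 : (0 : ℝ) ^ 2 = 0 := by norm_num
    rw [h5]
    exact mul_nonneg h4 (sq_nonneg _)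

/-- **finite volume AKN bound**: the expected (weighted) number of closed edges joining two
distinct clusters meeting `R` -/
theorem akn (w : Sym2 V → ℝ) {Λ : Finset V} {E : Finset (Sym2 V)} {R : Finset V}
    (h0 : ∀ e ∈ E, 0 ≤ w e) (h1 : ∀ e ∈ E, w e ≤ 1)
    (hE : ∀ e ∈ E, ∀ v ∈ e, v ∈ Λ) (hR : R ⊆ Λ)
    {D : ℕ} (hD : ∀ v ∈ Λ, (E.filter (fun e => v ∈ e)).card ≤ D) {K : ℕ} (hK : 0 < K) :
    ∑ e ∈ E, w e * Pr E w (fun S => e ∈ contact E S (↑R : Set V)) ≤
      K * R.card + D * (Λ.card * Real.sqrt (1 / (2 * K))) := by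
  have e1 : ∑ e ∈ E, w e * Pr E w (fun S => e ∈ contact E S (↑R : Set V)) =
      Ex E w (fun S => ∑ e ∈ contact E S (↑R : Set V), w e) := by
    unfold Pr
    simp_rw [← Ex_mul_left]
    rw [← Ex_sum]
    apply Ex_congr
    intro S _
    have : contact E S (↑R : Set V) = E.filter (fun e => e ∈ contact E S (↑R : Set V)) := by
      ext e
      rw [Finset.mem_filter]
      exact ⟨fun h => ⟨(Finset.mem_filter.1 h).1, h⟩, fun h => h.2⟩
    rw [this, Finset.sum_filter]
    apply Finset.sum_congr rfl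
    intro e _
    by_cases h : e ∈ contact E S (↑R : Set V)
    · rw [ind_true (by rw [← this]; exact h), if_pos h, mul_one]
    · rw [ind_false (by rw [← this]; exact h), if_neg h, mul_zero]
  rw [e1]
  have e2 : Ex E w (fun S => ∑ e ∈ contact E S (↑R : Set V), w e) =
      Ex E w (fun S => M w E S (↑R : Set V)) -
        Ex E w (fun S => ∑ C ∈ CC Λ S R, MC w E S C) := by
    rw [← Ex_sub]
    apply Ex_congr
    intro S _
    rw [sum_MC w hE]; ring
  rw [e2, ex_M w E h0 h1]
  have e3 : (0 : ℝ) - Ex E w (fun S => ∑ C ∈ CC Λ S R, MC w E S C) =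
      Ex E w (fun S => -∑ C ∈ CC Λ S R, MC w E S C) := by
    have := Ex_mul_left E w (-1) (fun S => ∑ C ∈ CC Λ S R, MC w E S C)
    simp only [neg_mul, one_mul] at this
    rw [this]; ring
  rw [e3]
  calc _ ≤ Ex E w (fun S => K * R.card + D * ∑ x ∈ Λ, dens w K E S x) := by
        apply Ex_mono h0 h1
        intro S _
        refine le_trans ?_ (sum_abs_MC_le w h0 h1 hE hR hD hK)
        calc _ ≤ |∑ C ∈ CC Λ S R, MC w E S C| := neg_le_abs _
          _ ≤ _ := Finset.abs_sum_le_sum_abs _ _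
    _ = K * R.card + D * ∑ x ∈ Λ, Ex E w (fun S => dens w K E S x) := by
        rw [Ex_add, Ex_const, Ex_mul_left, Ex_sum]
    _ ≤ _ := by
        have : ∑ x ∈ Λ, Ex E w (fun S => dens w K E S x) ≤
            Λ.card * Real.sqrt (1 / (2 * K)) := by
          calc _ ≤ ∑ x ∈ Λ, Real.sqrt (1 / (2 * K)) :=
                Finset.sum_le_sum (fun x _ => ex_dens_le w E h0 h1 hK x)
            _ = _ := by rw [Finset.sum_const, nsmul_eq_mul]
        have hD0 : (0 : ℝ) ≤ D := Nat.cast_nonneg D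
        nlinarith

end Crest.Agent.R147.Cl
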