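import Crest.Agent.R147.Cl684Tol
import Crest.Agent.R147.Cl684Geo
import Crest.Agent.R147.Cl684Contact

/-!
Row 147, classical blocks (helper684): uniqueness of the infinite cluster for Bernoulli bond
percolation on amenable quasi-transitive graphs (Burton--Keane; the proof below is the one of
Aizenman--Kesten--Newman / Gandolfi--Grimmett--Russo through the contact inequality `akn`).
-/

set_option autoImplicit false

open Crest.ProbabilityR.Percolation MeasureTheory ProbabilityTheory unitInterval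
open Crest.Agent.R159 Crest.Agent.R159.Sharp

namespace Crest.Agent.R147.Cl

open scoped Classical

universe u
variable {V : Type u} {G : SimpleGraph V}

/-- `x` and `y` lie in two distinct infinite clusters. -/
def Two (G : SimpleGraph V) (x y : V) (ω : Set (Sym2 V)) : Prop :=
  Inf.InfAt G ω x ∧ Inf.InfAt G ω y ∧ ¬ (openSubgraph G ω).Reachable x y

theorem Two.symm {x y : V} {ω : Set (Sym2 V)} (h : Two G x y ω) : Two G y x ω :=
  ⟨h.2.1, h.1, fun h' => h.2.2 h'.symm⟩

theorem measurableSet_two [Countable V] (G : SimpleGraph V) (x y : V) :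
    MeasurableSet {ω : Set (Sym2 V) | Two G x y ω} :=
  (Inf.measurableSet_infAt G x).inter ((Inf.measurableSet_infAt G y).inter
    (Inf.measurableSet_reachable G x y).compl)

/-- inner boundary -/
noncomputable def ibd (G : SimpleGraph V) (Λ : Finset V) : Finset V :=
  Λ.filter (fun v => ∃ u, u ∉ Λ ∧ G.Adj v u)

theorem mem_ibd {Λ : Finset V} {v : V} : v ∈ ibd G Λ ↔ v ∈ Λ ∧ ∃ u, u ∉ Λ ∧ G.Adj v u := by
  unfold ibd
  rw [Finset.mem_filter]

/-- finite-volume connections are infinite-volume connections -/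
theorem conn_reachable {E S : Finset (Sym2 V)} {ω : Set (Sym2 V)} (hE : (↑E : Set (Sym2 V)) ⊆ G.edgeSet)
    (hS : (↑S : Set (Sym2 V)) = ω ∩ ↑E) {a b : V} (h : conn S a b) :
    (openSubgraph G ω).Reachable a b := by
  unfold conn at h
  induction h with
  | refl => exact SimpleGraph.Reachable.refl _
  | @tail b c _ hbc ih =>
    refine ih.trans (SimpleGraph.Adj.reachable ?_)
    rw [Inf.openSubgraph_adj]
    have h1 : s(b, c) ∈ (↑S : Set (Sym2 V)) := hbc
    rw [hS] at h1
    exact ⟨h1.1, hE h1.2⟩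

/-- exit lemma -/
theorem mem_cl_of_exit (hloc : ∀ v : V, (G.neighborSet v).Finite) {Λ : Finset V}
    {S : Finset (Sym2 V)} {ω : Set (Sym2 V)} (hS : (↑S : Set (Sym2 V)) = ω ∩ ↑(inE hloc Λ))
    {x y : V} (hx : x ∈ Λ) (hy : y ∉ Λ) (h : (openSubgraph G ω).Reachable x y) :
    x ∈ cl S (↑(ibd G Λ) : Set V) := by
  rw [SimpleGraph.reachable_iff_reflTransGen] at h
  have key : (y ∈ Λ ∧ conn S x y) ∨ x ∈ cl S (↑(ibd G Λ) : Set V) := by
    clear hy
    induction h with
    | refl => exact Or.inl ⟨hx, conn_refl S x⟩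
    | @tail b c _ hbc ih =>
      rcases ih with ⟨hb, hxb⟩ | ih
      · rw [Inf.openSubgraph_adj] at hbc
        by_cases hc : c ∈ Λ
        · refine Or.inl ⟨hc, hxb.trans (conn_of_mem ?_)⟩
          have h1 : s(b, c) ∈ (↑S : Set (Sym2 V)) := by
            rw [hS]
            refine ⟨hbc.1, ?_⟩
            rw [Finset.mem_coe, mem_inE]
            exact ⟨hbc.2, hb, hc⟩
          exact h1
        · refine Or.inr ⟨b, ?_, hxb.symm⟩
          rw [Finset.mem_coe, mem_ibd]
          exact ⟨hb, c, hc, hbc.2⟩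
      · exact Or.inr ih
  rcases key with h' | h'
  · exact absurd h'.1 hy
  · exact h'

theorem mem_cl_of_infAt (hloc : ∀ v : V, (G.neighborSet v).Finite) {Λ : Finset V}
    {S : Finset (Sym2 V)} {ω : Set (Sym2 V)} (hS : (↑S : Set (Sym2 V)) = ω ∩ ↑(inE hloc Λ))
    {x : V} (hx : x ∈ Λ) (h : Inf.InfAt G ω x) :
    x ∈ cl S (↑(ibd G Λ) : Set V) := by
  rw [Inf.infAt_iff_finset] at h
  obtain ⟨y, hy, hxy⟩ := h Λ
  exact mem_cl_of_exit hloc hS hx hy hxy

theorem inE_subset_edgeSet (hloc : ∀ v : V, (G.neighborSet v).Finite) (Λ : Finset V) :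
    (↑(inE hloc Λ) : Set (Sym2 V)) ⊆ G.edgeSet := by
  intro e he
  induction e using Sym2.ind with
  | _ a b =>
    rw [Finset.mem_coe, mem_inE] at he
    exact he.1

/-- the probability that the two ends of an edge are in distinct infinite clusters is at most the
probability that the edge is a contact edge in a finite box -/
theorem two_le_contact [Countable V] (hloc : ∀ v : V, (G.neighborSet v).Finite) (p : I)
    (Λ : Finset V) {a b : V} (hab : G.Adj a b) (ha : a ∈ Λ) (hb : b ∈ Λ) :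
    (setBernoulli G.edgeSet p).real {ω | Two G a b ω} ≤
      FV.Pr (inE hloc Λ) (fun _ => (p : ℝ))
        (fun S => s(a, b) ∈ contact (inE hloc Λ) S (↑(ibd G Λ) : Set V)) := by
  have h1 := Inf.setBer_real_Pr G.edgeSet p (inE hloc Λ) (inE_subset_edgeSet hloc Λ)
    (fun ξ => ∃ S : Finset (Sym2 V), (↑S : Set (Sym2 V)) = ξ ∧
      s(a, b) ∈ contact (inE hloc Λ) S (↑(ibd G Λ) : Set V))
  have h2 : FV.Pr (inE hloc Λ) (fun _ => (p : ℝ))
        (fun S => s(a, b) ∈ contact (inE hloc Λ) S (↑(ibd G Λ) : Set V)) =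
      FV.Pr (inE hloc Λ) (fun _ => (p : ℝ)) (fun S' => ∃ S : Finset (Sym2 V),
        (↑S : Set (Sym2 V)) = (↑S' : Set (Sym2 V)) ∧
        s(a, b) ∈ contact (inE hloc Λ) S (↑(ibd G Λ) : Set V)) := by
    apply FV.Pr_congr
    intro S _
    constructor
    · intro h
      exact ⟨S, rfl, h⟩
    · rintro ⟨S', hS', h⟩
      rw [Finset.coe_inj] at hS'
      rwa [hS'] at h
  rw [h2]
  refine le_trans ?_ (le_of_eq h1)
  apply measureReal_mono
  · intro ω hω
    obtain ⟨h3, h4, h5⟩ := hω
    have hfin : (ω ∩ (↑(inE hloc Λ) : Set (Sym2 V))).Finite :=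
      (Finset.finite_toSet _).subset Set.inter_subset_right
    refine ⟨hfin.toFinset, hfin.coe_toFinset, ?_⟩
    unfold contact
    rw [Finset.mem_filter]
    refine ⟨(mem_inE hloc).2 ⟨hab, ha, hb⟩, a, b, rfl, ?_, ?_, ?_⟩
    · exact mem_cl_of_infAt hloc hfin.coe_toFinset ha h3
    · exact mem_cl_of_infAt hloc hfin.coe_toFinset hb h4
    · intro h
      exact h5 (conn_reachable (inE_subset_edgeSet hloc Λ) hfin.coe_toFinset h)
  · exact measure_ne_top _ _

theorem infAt_openIso (φ : G ≃g G) (ω : Set (Sym2 V)) (x : V) :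
    Inf.InfAt G (Sym2.map φ ⁻¹' ω) x ↔ Inf.InfAt G ω (φ x) := by
  unfold Inf.InfAt
  have h : {y | (openSubgraph G ω).Reachable (φ x) y} =
      φ '' {y | (openSubgraph G (Sym2.map φ ⁻¹' ω)).Reachable x y} := by
    ext y
    constructor
    · intro hy
      refine ⟨φ.symm y, ?_, φ.apply_symm_apply y⟩
      change (openSubgraph G (Sym2.map φ ⁻¹' ω)).Reachable x (φ.symm y)
      rw [Inf.reachable_openIso, φ.apply_symm_apply]
      exact hy
    · rintro ⟨z, hz, rfl⟩
      change (openSubgraph G ω).Reachable (φ x) (φ z)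
      rw [← Inf.reachable_openIso]
      exact hz
  rw [h, Set.infinite_image_iff φ.injective.injOn]

theorem two_aut [Countable V] (p : I) (φ : G ≃g G) (x y : V) :
    (setBernoulli G.edgeSet p).real {ω | Two G (φ x) (φ y) ω} =
      (setBernoulli G.edgeSet p).real {ω | Two G x y ω} := by
  rw [← Inf.setBernoulli_aut G φ p (measurableSet_two G x y)]
  congr 1
  ext ω
  simp only [Set.mem_ofPred_eq]
  unfold Two
  rw [infAt_openIso, infAt_openIso, Inf.reachable_openIso]

/-- event attached to an unordered pair -/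
def TwoE (G : SimpleGraph V) (e : Sym2 V) (ω : Set (Sym2 V)) : Prop :=
  ∃ a b, e = s(a, b) ∧ Two G a b ω

theorem twoE_mk {a b : V} {ω : Set (Sym2 V)} : TwoE G s(a, b) ω ↔ Two G a b ω := by
  constructor
  · rintro ⟨c, d, h, h'⟩
    rcases Sym2.eq_iff.1 h with ⟨rfl, rfl⟩ | ⟨rfl, rfl⟩
    · exact h'
    · exact h'.symm
  · intro h
    exact ⟨a, b, rfl, h⟩

/-- `(E-edge sum)`: the AKN bound for the box `Λ`. -/
theorem sum_two_le [Countable V] (hloc : ∀ v : V, (G.neighborSet v).Finite) (p : I)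
    {D : ℕ} (hD : ∀ v, (nb hloc v).card ≤ D) (Λ : Finset V) {K : ℕ} (hK : 0 < K) :
    p * ∑ e ∈ inE hloc Λ, (setBernoulli G.edgeSet p).real {ω | TwoE G e ω} ≤
      K * (ibd G Λ).card + D * (Λ.card * Real.sqrt (1 / (2 * K))) := by
  have hE : ∀ e ∈ inE hloc Λ, ∀ v ∈ e, v ∈ Λ := by
    intro e he v hv
    induction e using Sym2.ind with
    | _ a b =>
      rw [mem_inE] at he
      rcases Sym2.mem_iff.1 hv with rfl | rfl
      · exact he.2.1
      · exact he.2.2
  have hR : ibd G Λ ⊆ Λ := Finset.filter_subset _ _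
  have hD' : ∀ v ∈ Λ, ((inE hloc Λ).filter (fun e => v ∈ e)).card ≤ D := by
    intro v _
    refine le_trans ?_ (hD v)
    have : (inE hloc Λ).filter (fun e => v ∈ e) ⊆ (nb hloc v).image (fun u => s(v, u)) := by
      intro e he
      rw [Finset.mem_filter] at he
      induction e using Sym2.ind with
      | _ a b =>
        obtain ⟨h1, h2⟩ := he
        rw [mem_inE] at h1
        rw [Finset.mem_image]
        rcases Sym2.mem_iff.1 h2 with rfl | rfl
        · exact ⟨b, (mem_nb hloc).2 h1.1, rfl⟩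
        · exact ⟨a, (mem_nb hloc).2 h1.1.symm, Sym2.eq_swap⟩
    exact le_trans (Finset.card_le_card this) Finset.card_image_le
  refine le_trans ?_ (akn (fun _ => (p : ℝ)) (Λ := Λ) (E := inE hloc Λ) (R := ibd G Λ)
    (fun _ _ => p.2.1) (fun _ _ => p.2.2) hE hR hD' hK)
  rw [Finset.mul_sum]
  apply Finset.sum_le_sum
  intro e he
  apply mul_le_mul_of_nonneg_left _ p.2.1
  induction e using Sym2.ind with
  | _ a b =>
    rw [mem_inE] at he
    simp only [twoE_mk]
    exact two_le_contact hloc p Λ he.1 he.2.1 he.2.2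

end Crest.Agent.R147.Cl
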