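import Crest.Agent.R147.Cl684Uniq

/-!
Row 147, classical blocks (helper684): comparison of the probabilities of a large cluster at two
parameters, `P_q(|T| ≥ k)² ≤ (1 + (q-p)²/(p(1-p)))^k P_p(|T| ≥ k)` (Cauchy--Schwarz along the
exploration), and the consequence `θ(q)² ≤ c^N · D · χ_N(p) / N`.
-/

set_option autoImplicit false

open Crest.ProbabilityR.Percolation MeasureTheory ProbabilityTheory unitInterval
open Crest.Agent.R159 Crest.Agent.R159.FV Crest.Agent.R159.Sharp

namespace Crest.Agent.R147.Cl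

open scoped Classical

universe u
variable {V : Type u}

/-- probability that the cluster of the roots touches at least `k` edges -/
noncomputable def FT (w : Sym2 V → ℝ) (E : Finset (Sym2 V)) (R : Set V) (k : ℕ) : ℝ :=
  Pr E w (fun S => k ≤ (T E S R).card)

theorem FT_zero (w : Sym2 V → ℝ) (E : Finset (Sym2 V)) (R : Set V) : FT w E R 0 = 1 := by
  unfold FT
  rw [Pr_congr (B := fun _ => True) w (fun S _ => by simp)]
  unfold Pr
  rw [show (fun _ : Finset (Sym2 V) => ind True) = fun _ => (1 : ℝ) from by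
    funext _; exact ind_true trivial, Ex_one]

theorem FT_insert (w : Sym2 V → ℝ) {E : Finset (Sym2 V)} {e : Sym2 V} (he : e ∉ E) {R : Set V}
    (heR : ∃ v ∈ e, v ∈ R) (k : ℕ) :
    FT w (insert e E) R (k + 1) =
      w e * FT w E (R ∪ {v | v ∈ e}) k + (1 - w e) * FT w E R k := by
  unfold FT Pr
  rw [Ex_insert he]
  congr 1
  · congr 1
    apply Ex_congr
    intro S _
    apply ind_congr
    simp only [card_T_insert_open he heR]
    omega
  · congr 1
    apply Ex_congr
    intro S _
    apply ind_congr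
    simp only [card_T_insert_closed he heR]
    omega

theorem FT_succ_of_no {E : Finset (Sym2 V)} {R : Set V} (w : Sym2 V → ℝ)
    (h : ∀ e ∈ E, ∀ v ∈ e, v ∉ R) (k : ℕ) : FT w E R (k + 1) = 0 := by
  unfold FT Pr
  have : Ex E w (fun S => ind (k + 1 ≤ (T E S R).card)) = Ex E w (fun _ => 0) := by
    apply Ex_congr
    intro S hS
    rw [T_eq_empty hS h]
    exact ind_false (by simp)
  rw [this, Ex_const]

/-- the Cauchy--Schwarz comparison of two parameters -/
theorem FT_sq_le {p q : ℝ} (hp0 : 0 < p) (hp1 : p < 1) :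
    ∀ (E : Finset (Sym2 V)) (R : Set V) (k : ℕ),
      FT (fun _ => q) E R k ^ 2 ≤
        (1 + (q - p) ^ 2 / (p * (1 - p))) ^ k * FT (fun _ => p) E R k := by
  intro E
  have hp1' : 0 < 1 - p := by linarith
  set c : ℝ := 1 + (q - p) ^ 2 / (p * (1 - p)) with hc
  have hc1 : 1 ≤ c := by
    rw [hc]
    have : 0 ≤ (q - p) ^ 2 / (p * (1 - p)) := by positivity
    linarith
  have hc0 : 0 ≤ c := by linarith
  induction hk : E.card generalizing E with
  | zero =>
    intro R k
    have hE : E = ∅ := Finset.card_eq_zero.1 hk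
    subst hE
    cases k with
    | zero => rw [FT_zero, FT_zero]; simp
    | succ k =>
      rw [FT_succ_of_no (fun _ => q) (by simp), FT_succ_of_no (fun _ => p) (by simp)]
      simp
  | succ n ih =>
    intro R k
    cases k with
    | zero => rw [FT_zero, FT_zero]; simp
    | succ k =>
      by_cases hR : ∃ e ∈ E, ∃ v ∈ e, v ∈ R
      · obtain ⟨e, heE, he⟩ := hR
        obtain ⟨F, heF, rfl⟩ : ∃ F, e ∉ F ∧ insert e F = E :=
          ⟨E.erase e, Finset.notMem_erase e E, Finset.insert_erase heE⟩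
        have hkF : F.card = n := by
          rw [Finset.card_insert_of_notMem heF] at hk
          omega
        rw [FT_insert (fun _ => q) heF he, FT_insert (fun _ => p) heF he]
        have i1 := ih F hkF (R ∪ {v | v ∈ e}) k
        have i2 := ih F hkF R k
        set a := FT (fun _ => q) F (R ∪ {v | v ∈ e}) k
        set b := FT (fun _ => q) F R k
        set a' := FT (fun _ => p) F (R ∪ {v | v ∈ e}) k
        set b' := FT (fun _ => p) F R k
        have h1 : (q * a + (1 - q) * b) ^ 2 ≤ c * (p * a ^ 2 + (1 - p) * b ^ 2) := by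
          have h2 : c * (p * a ^ 2 + (1 - p) * b ^ 2) - (q * a + (1 - q) * b) ^ 2 =
              (p * (1 - q) * a - (1 - p) * q * b) ^ 2 / (p * (1 - p)) := by
            rw [hc]
            field_simp
            ring
          have h3 : 0 ≤ (p * (1 - q) * a - (1 - p) * q * b) ^ 2 / (p * (1 - p)) := by positivity
          linarith
        calc (q * a + (1 - q) * b) ^ 2 ≤ c * (p * a ^ 2 + (1 - p) * b ^ 2) := h1
          _ ≤ c * (p * (c ^ k * a') + (1 - p) * (c ^ k * b')) := by
              apply mul_le_mul_of_nonneg_left _ hc0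
              exact add_le_add (mul_le_mul_of_nonneg_left i1 hp0.le)
                (mul_le_mul_of_nonneg_left i2 hp1'.le)
          _ = c ^ (k + 1) * (p * a' + (1 - p) * b') := by ring
      · have hno : ∀ e ∈ E, ∀ v ∈ e, v ∉ R := fun e he v hv hvR => hR ⟨e, he, v, hv, hvR⟩
        rw [FT_succ_of_no (fun _ => q) hno, FT_succ_of_no (fun _ => p) hno]
        simp

variable {G : SimpleGraph V}

theorem exists_exit_edge {r : V → V → Prop} {C : Set V} {x y : V}
    (h : Relation.ReflTransGen r x y) (hx : x ∈ C) (hy : y ∉ C) :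
    ∃ u v, u ∈ C ∧ v ∉ C ∧ r u v := by
  induction h with
  | refl => exact absurd hx hy
  | @tail b c _ hbc ih =>
    by_cases hb : b ∈ C
    · exact ⟨b, c, hb, hy, hbc⟩
    · exact ih hb

/-- an infinite cluster touches at least `M` edges of the box of radius `M`. -/
theorem le_card_T_of_infAt (hloc : ∀ v : V, (G.neighborSet v).Finite) {M : ℕ}
    {S : Finset (Sym2 V)} {ω : Set (Sym2 V)} {x : V}
    (hS : (↑S : Set (Sym2 V)) = ω ∩ ↑(inE hloc (th hloc M {x}))) (h : Inf.InfAt G ω x) :
    M ≤ (T (inE hloc (th hloc M {x})) S {x}).card := by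
  have key : ∀ j, j ≤ M → ∃ (C : Finset V) (B : Finset (Sym2 V)), x ∈ C ∧ C ⊆ th hloc j {x} ∧
      (∀ v ∈ C, conn S x v) ∧ B ⊆ S ∧ (∀ e ∈ B, ∀ v ∈ e, v ∈ C) ∧ B.card = j := by
    intro j
    induction j with
    | zero =>
      intro _
      refine ⟨{x}, ∅, Finset.mem_singleton_self x, Finset.Subset.refl _, ?_, by simp, by simp,
        by simp⟩
      intro v hv
      rw [Finset.mem_singleton] at hv
      rw [hv]
      exact conn_refl S x
    | succ j ih =>
      intro hj
      obtain ⟨C, B, hxC, hC, hconn, hBS, hBC, hBcard⟩ := ih (by omega)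
      obtain ⟨y, hyC, hxy⟩ := (Inf.infAt_iff_finset G ω x).1 h C
      rw [SimpleGraph.reachable_iff_reflTransGen] at hxy
      obtain ⟨u, v, hu, hv, huv⟩ := exists_exit_edge (C := (↑C : Set V)) hxy hxC hyC
      rw [Inf.openSubgraph_adj] at huv
      have hu' : u ∈ C := hu
      have hv' : v ∉ C := hv
      have hvth : v ∈ th hloc (j + 1) {x} := by
        rw [th_succ, mem_nbh]
        exact Or.inr ⟨u, hC hu', huv.2⟩
      have hsS : s(u, v) ∈ S := by
        have : s(u, v) ∈ (↑S : Set (Sym2 V)) := by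
          rw [hS]
          refine ⟨huv.1, ?_⟩
          rw [Finset.mem_coe, mem_inE]
          exact ⟨huv.2, th_mono_n hloc (by omega) _ (hC hu'), th_mono_n hloc hj _ hvth⟩
        exact this
      refine ⟨insert v C, insert s(u, v) B, Finset.mem_insert_of_mem hxC, ?_, ?_, ?_, ?_, ?_⟩
      · intro z hz
        rcases Finset.mem_insert.1 hz with rfl | hz
        · exact hvth
        · exact th_le_succ hloc j _ (hC hz)
      · intro z hz
        rcases Finset.mem_insert.1 hz with rfl | hz
        · exact (hconn u hu').trans (conn_of_mem hsS)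
        · exact hconn z hz
      · intro e he
        rcases Finset.mem_insert.1 he with rfl | he
        · exact hsS
        · exact hBS he
      · intro e he z hz
        rcases Finset.mem_insert.1 he with rfl | he
        · rcases Sym2.mem_iff.1 hz with rfl | rfl
          · exact Finset.mem_insert_of_mem hu'
          · exact Finset.mem_insert_self _ _
        · exact Finset.mem_insert_of_mem (hBC e he z hz)
      · rw [Finset.card_insert_of_notMem, hBcard]
        intro he
        exact hv' (hBC _ he v (Sym2.mem_mk_right u v))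
  obtain ⟨C, B, hxC, hC, hconn, hBS, hBC, hBcard⟩ := key M le_rfl
  refine le_trans (le_of_eq hBcard.symm) (Finset.card_le_card ?_)
  intro e he
  rw [mem_T]
  have heS : e ∈ (↑S : Set (Sym2 V)) := hBS he
  rw [hS] at heS
  refine ⟨heS.2, ?_⟩
  induction e using Sym2.ind with
  | _ a b =>
    exact ⟨a, Sym2.mem_mk_left a b, x, rfl, hconn a (hBC _ he a (Sym2.mem_mk_left a b))⟩

theorem th0_le_FT [Countable V] (hloc : ∀ v : V, (G.neighborSet v).Finite) (q : I) (x : V)
    (N : ℕ) :
    th0 G q x ≤ FT (fun _ => (q : ℝ)) (inE hloc (th hloc N {x})) {x} N := by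
  set E := inE hloc (th hloc N {x}) with hE
  have h1 := Inf.setBer_real_Pr G.edgeSet q E (inE_subset_edgeSet hloc _)
    (fun ξ => ∃ S : Finset (Sym2 V), (↑S : Set (Sym2 V)) = ξ ∧ N ≤ (T E S {x}).card)
  have h2 : FT (fun _ => (q : ℝ)) E {x} N =
      FV.Pr E (fun _ => (q : ℝ)) (fun S' => ∃ S : Finset (Sym2 V),
        (↑S : Set (Sym2 V)) = (↑S' : Set (Sym2 V)) ∧ N ≤ (T E S {x}).card) := by
    apply FV.Pr_congr
    intro S _
    constructor
    · intro h
      exact ⟨S, rfl, h⟩
    · rintro ⟨S', hS', h⟩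
      rw [Finset.coe_inj] at hS'
      rwa [hS'] at h
  rw [h2]
  refine le_trans ?_ (le_of_eq h1)
  apply measureReal_mono
  · intro ω hω
    have hfin : (ω ∩ (↑E : Set (Sym2 V))).Finite :=
      (Finset.finite_toSet _).subset Set.inter_subset_right
    exact ⟨hfin.toFinset, hfin.coe_toFinset, le_card_T_of_infAt hloc hfin.coe_toFinset hω⟩
  · exact measure_ne_top _ _

theorem edges_at_le (hloc : ∀ v : V, (G.neighborSet v).Finite) {D : ℕ}
    (hD : ∀ v, (nb hloc v).card ≤ D) (Λ : Finset V) (v : V) :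
    ((inE hloc Λ).filter (fun e => v ∈ e)).card ≤ D := by
  refine le_trans ?_ (hD v)
  have : (inE hloc Λ).filter (fun e => v ∈ e) ⊆ (nb hloc v).image (fun u => s(v, u)) := by
    intro e he
    rw [Finset.mem_filter] at he
    induction e using Sym2.ind with
    | _ a b =>
      obtain ⟨h1, h2⟩ := he
      rw [mem_inE] at h1
      rw [Finset.mem_image]
      rcases Sym2.mem_iff.1 h2 with rfl | rfl
      · exact ⟨b, (mem_nb hloc).2 h1.1, rfl⟩
      · exact ⟨a, (mem_nb hloc).2 h1.1.symm, Sym2.eq_swap⟩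
  exact le_trans (Finset.card_le_card this) Finset.card_image_le

theorem inE_endpoints (hloc : ∀ v : V, (G.neighborSet v).Finite) {Λ : Finset V} :
    ∀ e ∈ inE hloc Λ, ∀ v ∈ e, v ∈ Λ := by
  intro e he v hv
  induction e using Sym2.ind with
  | _ a b =>
    rw [mem_inE] at he
    rcases Sym2.mem_iff.1 hv with rfl | rfl
    · exact he.2.1
    · exact he.2.2

theorem conn_con {E S : Finset (Sym2 V)} (hE : (↑E : Set (Sym2 V)) ⊆ G.edgeSet) (hS : S ⊆ E)
    {a b : V} (h : conn S a b) : con G S a b := by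
  unfold con
  refine conn_reachable (ω := (↑S : Set (Sym2 V))) hE ?_ h
  rw [Set.inter_eq_left.2]
  exact_mod_cast hS

/-- Markov: `N P_p(|T| ≥ N) ≤ D ∑_{y ∈ Λ} τ_p(x,y)`. -/
theorem FT_le_chi [Countable V] (hloc : ∀ v : V, (G.neighborSet v).Finite) {D : ℕ}
    (hD : ∀ v, (nb hloc v).card ≤ D) (p : I) (x : V) (Λ : Finset V) (N : ℕ) :
    N * FT (fun _ => (p : ℝ)) (inE hloc Λ) {x} N ≤ D * ∑ y ∈ Λ, connectProb G p x y := by
  have h0 : ∀ e ∈ inE hloc Λ, (0 : ℝ) ≤ (fun _ : Sym2 V => (p : ℝ)) e := fun _ _ => p.2.1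
  have h1 : ∀ e ∈ inE hloc Λ, (fun _ : Sym2 V => (p : ℝ)) e ≤ 1 := fun _ _ => p.2.2
  have hE := inE_subset_edgeSet hloc Λ
  calc (N : ℝ) * FT (fun _ => (p : ℝ)) (inE hloc Λ) {x} N
      = Ex (inE hloc Λ) (fun _ => (p : ℝ))
          (fun S => N * ind (N ≤ (T (inE hloc Λ) S {x}).card)) := by
        unfold FT Pr
        rw [Ex_mul_left]
    _ ≤ Ex (inE hloc Λ) (fun _ => (p : ℝ)) (fun S => D * ∑ y ∈ Λ, ind (con G S x y)) := by
        apply Ex_mono h0 h1
        intro S hS
        have h2 : (N : ℝ) * ind (N ≤ (T (inE hloc Λ) S {x}).card) ≤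
            (T (inE hloc Λ) S {x}).card := by
          by_cases h : N ≤ (T (inE hloc Λ) S {x}).card
          · rw [ind_true h, mul_one]
            exact_mod_cast h
          · rw [ind_false h, mul_zero]
            exact Nat.cast_nonneg _
        have h3 : ((T (inE hloc Λ) S {x}).card : ℝ) ≤ D * (clus Λ S x).card := by
          exact_mod_cast card_T_le (inE_endpoints hloc) (fun v _ => edges_at_le hloc hD Λ v) x
        have h4 : ((clus Λ S x).card : ℝ) ≤ ∑ y ∈ Λ, ind (con G S x y) := by
          unfold clus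
          rw [Finset.card_filter]
          push_cast
          apply Finset.sum_le_sum
          intro y _
          by_cases h : conn S x y
          · rw [if_pos h, ind_true (conn_con hE hS h)]
          · rw [if_neg h]
            exact ind_nonneg _
        refine h2.trans (h3.trans ?_)
        exact mul_le_mul_of_nonneg_left h4 (Nat.cast_nonneg _)
    _ = D * ∑ y ∈ Λ, Pr (inE hloc Λ) (fun _ => (p : ℝ)) (fun S => con G S x y) := by
        rw [Ex_mul_left, Ex_sum]
        rfl
    _ ≤ D * ∑ y ∈ Λ, connectProb G p x y := by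
        apply mul_le_mul_of_nonneg_left _ (Nat.cast_nonneg _)
        apply Finset.sum_le_sum
        intro y _
        exact Pr_con_le_connectProb G p x y _

/-- `θ(q)² N ≤ (1 + (q-p)²/(p(1-p)))^N D χ_N(p)` -/
theorem th0_sq_le [Countable V] (hloc : ∀ v : V, (G.neighborSet v).Finite) {D : ℕ}
    (hD : ∀ v, (nb hloc v).card ≤ D) (p q : I) (hp0 : 0 < (p : ℝ)) (hp1 : (p : ℝ) < 1) (x : V)
    (N : ℕ) :
    N * th0 G q x ^ 2 ≤ (1 + ((q : ℝ) - p) ^ 2 / (p * (1 - p))) ^ N *
      (D * ∑ y ∈ th hloc N {x}, connectProb G p x y) := by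
  have h1 := th0_le_FT (G := G) hloc q x N
  have h2 := FT_sq_le (p := (p : ℝ)) (q := (q : ℝ)) hp0 hp1 (inE hloc (th hloc N {x})) {x} N
  have h3 := FT_le_chi (G := G) hloc hD p x (th hloc N {x}) N
  have h4 : th0 G q x ^ 2 ≤ FT (fun _ => (q : ℝ)) (inE hloc (th hloc N {x})) {x} N ^ 2 :=
    pow_le_pow_left₀ (th0_nonneg G q x) h1 2
  have hc : 0 ≤ (1 + ((q : ℝ) - p) ^ 2 / (p * (1 - p))) ^ N := by
    have : 0 < 1 - (p : ℝ) := by linarith
    positivity
  calc (N : ℝ) * th0 G q x ^ 2
      ≤ N * ((1 + ((q : ℝ) - p) ^ 2 / (p * (1 - p))) ^ N *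
        FT (fun _ => (p : ℝ)) (inE hloc (th hloc N {x})) {x} N) :=
        mul_le_mul_of_nonneg_left (h4.trans h2) (Nat.cast_nonneg _)
    _ = (1 + ((q : ℝ) - p) ^ 2 / (p * (1 - p))) ^ N *
        (N * FT (fun _ => (p : ℝ)) (inE hloc (th hloc N {x})) {x} N) := by ring
    _ ≤ _ := mul_le_mul_of_nonneg_left h3 hc

end Crest.Agent.R147.Cl
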