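import Crest.Agent.R147.Cl684Exp

/-!
Row 147, classical blocks (helper684): graphs with infinitely many bounded cutsets have `p_c = 1`.
In particular graphs which fibre over `ℤ` with bounded fibres, and graphs of linear growth
(infinitely often).
-/

set_option autoImplicit false

open Crest.ProbabilityR.Percolation MeasureTheory ProbabilityTheory unitInterval Filter
open Crest.Agent.R159 Crest.Agent.R159.FV Crest.Agent.R159.Sharp
open scoped Topology

namespace Crest.Agent.R147.Cl

open scoped Classical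

universe u
variable {V : Type u} {G : SimpleGraph V}

section fin
variable {α : Type u}

theorem dependsOn_disjoint (D : Finset α) : DependsOn D (fun S : Finset α => Disjoint D S) := by
  intro S T h
  apply propext
  show Disjoint D S ↔ Disjoint D T
  rw [Finset.disjoint_iff_inter_eq_empty, Finset.disjoint_iff_inter_eq_empty,
    Finset.inter_comm D S, h, Finset.inter_comm T D]

theorem Pr_disjoint_ge {p : ℝ} (hp1 : p ≤ 1) {E : Finset α} :
    ∀ D : Finset α, D ⊆ E → (1 - p) ^ D.card ≤ Pr E (fun _ => p) (fun S => Disjoint D S) := by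
  intro D
  induction D using Finset.induction_on with
  | empty =>
    intro _
    rw [Pr_congr (B := fun _ => True) _ (fun S _ => by simp)]
    unfold Pr
    rw [show (fun _ : Finset α => FV.ind True) = fun _ => (1 : ℝ) from by
      funext _; exact FV.ind_true trivial, Ex_one]
    simp
  | insert e D he ih =>
    intro hE
    have heE : e ∈ E := hE (Finset.mem_insert_self e D)
    have hDE : D ⊆ E := fun x hx => hE (Finset.mem_insert_of_mem hx)
    have h1 : Pr E (fun _ => p) (fun S => Disjoint (insert e D) S) =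
        Pr E (fun _ => p) (fun S => e ∉ S ∧ Disjoint D S) := by
      apply Pr_congr
      intro S _
      rw [Finset.disjoint_insert_left]
    have hdep : DependsOn {e} (fun S : Finset α => e ∉ S) := by
      intro S T h
      apply propext
      have : e ∈ S ∩ {e} ↔ e ∈ T ∩ {e} := by rw [h]
      simpa using not_congr this
    rw [h1, Pr_and_of_disjoint (Finset.singleton_subset_iff.2 heE) hDE
      (by simpa using he) _ hdep (dependsOn_disjoint D), Pr_not, Pr_mem heE,
      Finset.card_insert_of_notMem he, pow_succ, mul_comm]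
    exact mul_le_mul_of_nonneg_left (ih hDE) (by linarith)

/-- independence of disjoint cutsets -/
theorem Pr_all_hit_le {p : ℝ} (hp0 : 0 ≤ p) (hp1 : p ≤ 1) {E : Finset α} {M : ℕ} :
    ∀ (L : List (Finset α)), (∀ D ∈ L, D ⊆ E) → (∀ D ∈ L, D.card ≤ M) →
      L.Pairwise (fun D D' => Disjoint D D') →
      Pr E (fun _ => p) (fun S => ∀ D ∈ L, ¬ Disjoint D S) ≤ (1 - (1 - p) ^ M) ^ L.length := by
  intro L
  induction L with
  | nil =>
    intro _ _ _
    have := Pr_le_one (E := E) (w := fun _ => p) (fun _ _ => hp0) (fun _ _ => hp1)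
      (fun S => ∀ D ∈ ([] : List (Finset α)), ¬ Disjoint D S)
    simpa using this
  | cons D L ih =>
    intro hE hM hdis
    rw [List.pairwise_cons] at hdis
    have h1 : Pr E (fun _ => p) (fun S => ∀ D' ∈ D :: L, ¬ Disjoint D' S) =
        Pr E (fun _ => p) (fun S => ¬ Disjoint D S ∧ ∀ D' ∈ L, ¬ Disjoint D' S) := by
      apply Pr_congr
      intro S _
      simp
    set U : Finset α := L.foldr (fun D' U => D' ∪ U) ∅ with hU
    have hmemU : ∀ x, x ∈ U ↔ ∃ D' ∈ L, x ∈ D' := by
      intro x
      rw [hU]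
      clear hU ih hE hM hdis h1
      induction L with
      | nil => simp
      | cons a L ih => simp [ih]
    have hUE : U ⊆ E := by
      intro x hx
      obtain ⟨D', hD', hx'⟩ := (hmemU x).1 hx
      exact hE D' (List.mem_cons_of_mem _ hD') hx'
    have hDU : Disjoint D U := by
      rw [Finset.disjoint_left]
      intro x hx hxU
      obtain ⟨D', hD', hx'⟩ := (hmemU x).1 hxU
      exact Finset.disjoint_left.1 (hdis.1 D' hD') hx hx'
    have hdepU : DependsOn U (fun S : Finset α => ∀ D' ∈ L, ¬ Disjoint D' S) := by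
      intro S T h
      apply propext
      have key : ∀ D' ∈ L, (Disjoint D' S ↔ Disjoint D' T) := by
        intro D' hD'
        have hsub : D' ⊆ U := fun x hx => (hmemU x).2 ⟨D', hD', hx⟩
        rw [Finset.disjoint_left, Finset.disjoint_left]
        constructor
        · intro h' x hx hxT
          have : x ∈ T ∩ U := Finset.mem_inter.2 ⟨hxT, hsub hx⟩
          rw [← h] at this
          exact h' hx (Finset.mem_inter.1 this).1
        · intro h' x hx hxS
          have : x ∈ S ∩ U := Finset.mem_inter.2 ⟨hxS, hsub hx⟩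
          rw [h] at this
          exact h' hx (Finset.mem_inter.1 this).1
      constructor
      · intro h' D' hD' h2
        exact h' D' hD' ((key D' hD').2 h2)
      · intro h' D' hD' h2
        exact h' D' hD' ((key D' hD').1 h2)
    have hdepD : DependsOn D (fun S : Finset α => ¬ Disjoint D S) := by
      intro S T h
      have := dependsOn_disjoint D S T h
      simp only at this ⊢
      rw [this]
    have hD : Pr E (fun _ => p) (fun S => ¬ Disjoint D S) ≤ 1 - (1 - p) ^ M := by
      rw [Pr_not]
      have h2 := Pr_disjoint_ge hp1 D (hE D List.mem_cons_self)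
      have h3 : (1 - p) ^ M ≤ (1 - p) ^ D.card :=
        pow_le_pow_of_le_one (by linarith) (by linarith) (hM D List.mem_cons_self)
      linarith
    have hL := ih (fun D' hD' => hE D' (List.mem_cons_of_mem _ hD'))
      (fun D' hD' => hM D' (List.mem_cons_of_mem _ hD')) hdis.2
    rw [h1, Pr_and_of_disjoint (hE D List.mem_cons_self) hUE hDU _ hdepD hdepU,
      List.length_cons, pow_succ, mul_comm]
    have h4 : 0 ≤ 1 - (1 - p) ^ M := by
      have : (1 - p) ^ M ≤ 1 := pow_le_one₀ (by linarith) (by linarith)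
      linarith
    exact mul_le_mul hL hD (Pr_nonneg (fun _ _ => hp0) (fun _ _ => hp1) _) (by positivity)

end fin

/-- cutset hypothesis: arbitrarily far cutsets of size at most `M` -/
def HasCuts (G : SimpleGraph V) (M : ℕ) (o : V) : Prop :=
  ∀ B : Finset V, ∃ E : Finset (Sym2 V), (↑E : Set (Sym2 V)) ⊆ G.edgeSet ∧ E.card ≤ M ∧
    (∀ a b, s(a, b) ∈ E → ¬ (a ∈ B ∧ b ∈ B)) ∧ ¬ Inf.InfAt G (G.edgeSet \ ↑E) o

theorem exists_disjoint_cuts {M : ℕ} {o : V} (h : HasCuts G M o) (n : ℕ) :
    ∃ L : List (Finset (Sym2 V)), L.length = n ∧ (∀ D ∈ L, (↑D : Set (Sym2 V)) ⊆ G.edgeSet) ∧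
      (∀ D ∈ L, D.card ≤ M) ∧ L.Pairwise (fun D D' => Disjoint D D') ∧
      ∀ D ∈ L, ¬ Inf.InfAt G (G.edgeSet \ ↑D) o := by
  induction n with
  | zero => exact ⟨[], rfl, by simp, by simp, List.Pairwise.nil, by simp⟩
  | succ n ih =>
    obtain ⟨L, hlen, hE, hM, hdis, hcut⟩ := ih
    -- endpoints of the previous cutsets
    set U : Finset (Sym2 V) := L.foldr (fun D' U => D' ∪ U) ∅ with hU
    have hmemU : ∀ x, x ∈ U ↔ ∃ D' ∈ L, x ∈ D' := by
      intro x
      rw [hU]
      clear hU hlen hE hM hdis hcut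
      induction L with
      | nil => simp
      | cons a L ih => simp [ih]
    set B : Finset V := U.biUnion (fun e => e.toFinset) with hB
    obtain ⟨E, h1, h2, h3, h4⟩ := h B
    refine ⟨E :: L, by simp [hlen], ?_, ?_, ?_, ?_⟩
    · intro D hD
      rcases List.mem_cons.1 hD with rfl | hD
      · exact h1
      · exact hE D hD
    · intro D hD
      rcases List.mem_cons.1 hD with rfl | hD
      · exact h2
      · exact hM D hD
    · rw [List.pairwise_cons]
      refine ⟨fun D hD => ?_, hdis⟩
      rw [Finset.disjoint_left]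
      intro e heE heD
      induction e using Sym2.ind with
      | _ a b =>
        apply h3 a b heE
        have heU : s(a, b) ∈ U := (hmemU _).2 ⟨D, hD, heD⟩
        constructor
        · exact Finset.mem_biUnion.2 ⟨_, heU, by simp⟩
        · exact Finset.mem_biUnion.2 ⟨_, heU, by simp⟩
    · intro D hD
      rcases List.mem_cons.1 hD with rfl | hD
      · exact h4
      · exact hcut D hD

theorem th0_eq_zero_of_cuts [Countable V] {M : ℕ} {o : V} (h : HasCuts G M o) (p : I)
    (hp : (p : ℝ) < 1) : th0 G p o = 0 := by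
  apply le_antisymm _ (th0_nonneg G p o)
  set r : ℝ := 1 - (1 - (p : ℝ)) ^ M with hr
  have hr1 : r < 1 := by
    rw [hr]
    have : 0 < (1 - (p : ℝ)) ^ M := pow_pos (by linarith) _
    linarith
  have hr0 : 0 ≤ r := by
    rw [hr]
    have : (1 - (p : ℝ)) ^ M ≤ 1 := pow_le_one₀ (by linarith) (by linarith [p.2.1])
    linarith
  have hle : ∀ n : ℕ, th0 G p o ≤ r ^ n := by
    intro n
    obtain ⟨L, hlen, hE, hM, hdis, hcut⟩ := exists_disjoint_cuts h n
    set U : Finset (Sym2 V) := L.foldr (fun D' U => D' ∪ U) ∅ with hU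
    have hmemU : ∀ x, x ∈ U ↔ ∃ D' ∈ L, x ∈ D' := by
      intro x
      rw [hU]
      clear hU hlen hE hM hdis hcut
      induction L with
      | nil => simp
      | cons a L ih => simp [ih]
    have hUE : (↑U : Set (Sym2 V)) ⊆ G.edgeSet := by
      intro x hx
      obtain ⟨D', hD', hx'⟩ := (hmemU x).1 hx
      exact hE D' hD' hx'
    have h1 := Inf.setBer_real_Pr G.edgeSet p U hUE
      (fun ξ => ∀ D ∈ L, ∃ e ∈ D, e ∈ ξ)
    have h2 : FV.Pr U (fun _ => (p : ℝ)) (fun S => ∀ D ∈ L, ∃ e ∈ D, e ∈ (↑S : Set (Sym2 V))) =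
        Pr U (fun _ => (p : ℝ)) (fun S => ∀ D ∈ L, ¬ Disjoint D S) := by
      apply Pr_congr
      intro S _
      simp only [Finset.not_disjoint_iff, Finset.mem_coe]
    have h3 : th0 G p o ≤ (setBernoulli G.edgeSet p).real
        {ω | ∀ D ∈ L, ∃ e ∈ D, e ∈ ω ∩ (↑U : Set (Sym2 V))} := by
      unfold th0
      apply measureReal_mono _ (measure_ne_top _ _)
      intro ω hω D hD
      by_contra hcon
      push Not at hcon
      apply hcut D hD
      have h4 : openSubgraph G ω ≤ openSubgraph G (G.edgeSet \ ↑D) := by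
        intro a b hab
        rw [Inf.openSubgraph_adj] at hab ⊢
        refine ⟨⟨hab.2, ?_⟩, hab.2⟩
        intro hD'
        exact hcon _ hD' ⟨hab.1, (hmemU _).2 ⟨D, hD, hD'⟩⟩
      have hω' : {y | (openSubgraph G ω).Reachable o y}.Infinite := hω
      exact Set.Infinite.mono (fun y hy => SimpleGraph.Reachable.mono h4 hy) hω'
    rw [h1, h2] at h3
    have h5 := Pr_all_hit_le (p := (p : ℝ)) p.2.1 p.2.2 (E := U) (M := M) L
      (fun D hD x hx => (hmemU x).2 ⟨D, hD, hx⟩) hM hdis
    rw [hlen] at h5
    refine h3.trans (le_trans (le_of_eq ?_) h5)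
    congr!
  have hlim := tendsto_pow_atTop_nhds_zero_of_lt_one hr0 hr1
  exact ge_of_tendsto' hlim hle

/-- **(C1)** infinitely many bounded cutsets imply `p_c = 1`. -/
theorem pc_eq_one_of_cuts [Infinite V] (hconn : G.Connected)
    (hloc : ∀ v : V, (G.neighborSet v).Finite) {M : ℕ} {o : V} (h : HasCuts G M o) :
    bondCriticalValue G = 1 := by
  have : Countable V := Inf.countable_of_connected G hconn hloc
  apply le_antisymm (bondCriticalValue_le_one G)
  unfold bondCriticalValue
  apply le_csInf
  · refine ⟨1, 1, ?_, rfl⟩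
    simp only [Set.mem_ofPred_eq]
    rw [setBernoulli_one, Measure.dirac_apply_of_mem]
    · exact one_pos
    · simp only [Set.mem_ofPred_eq]
      rw [Inf.hasInfiniteCluster_iff]
      refine ⟨o, ?_⟩
      unfold Inf.InfAt
      rw [Inf.openSubgraph_edgeSet]
      have : {y | G.Reachable o y} = Set.univ := by
        ext y; simp [hconn.preconnected o y]
      rw [this]
      exact Set.infinite_univ
  · rintro _ ⟨p, hp, rfl⟩
    by_contra hlt
    push Not at hlt
    have h0 : ∀ x, th0 G p x = 0 := by
      intro x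
      by_contra hne
      have hpos : 0 < th0 G p x := lt_of_le_of_ne (th0_nonneg G p x) (Ne.symm hne)
      have hp0 : 0 < (p : ℝ) := by
        rcases lt_or_eq_of_le p.2.1 with h | h
        · exact h
        · exfalso
          have : p = 0 := Subtype.ext h.symm
          rw [this, th0_zero] at hpos
          exact lt_irrefl _ hpos
      -- transport positivity to `o`
      have hall : ∀ y, 0 < th0 G p y := by
        intro y
        obtain ⟨w⟩ := hconn.preconnected x y
        clear hne
        induction w with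
        | nil => exact hpos
        | @cons a b y hab w ih =>
          apply ih
          have h1 := setBer_insert_le G.edgeSet p s(a, b) hab (Inf.measurableSet_infAt G b)
          have h2 : th0 G p a ≤ (setBernoulli G.edgeSet p).real
              {ω | insert s(a, b) ω ∈ {ω | Inf.InfAt G ω b}} := by
            apply measureReal_mono _ (measure_ne_top _ _)
            intro ω hω
            have h3 : Inf.InfAt G (insert s(a, b) ω) a :=
              Inf.InfAt.mono G (Set.subset_insert _ _) hω
            refine Inf.InfAt.of_reachable G (SimpleGraph.Adj.reachable ?_) h3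
            rw [Inf.openSubgraph_adj]
            exact ⟨Set.mem_insert _ _, hab⟩
          have h4 : 0 < (p : ℝ) * th0 G p a := mul_pos hp0 hpos
          have h5 : (p : ℝ) * th0 G p a ≤ th0 G p b :=
            (mul_le_mul_of_nonneg_left h2 hp0.le).trans h1
          linarith
      have := hall o
      rw [th0_eq_zero_of_cuts h p hlt] at this
      exact lt_irrefl _ this
    rw [Set.mem_ofPred_eq, measure_hasInf_eq_zero p h0] at hp
    exact lt_irrefl _ hp

theorem card_toE_le (hloc : ∀ v : V, (G.neighborSet v).Finite) {D : ℕ}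
    (hD : ∀ v, (nb hloc v).card ≤ D) (W : Finset V) : (toE hloc W).card ≤ W.card * D := by
  unfold toE
  refine Finset.card_biUnion_le_card_mul _ _ _ fun v _ => ?_
  exact Finset.card_image_le.trans (hD v)

/-- a vertex cutset `W` blocking all exits from a finite set `A ∋ o` -/
theorem not_infAt_of_vertex_cut (hloc : ∀ v : V, (G.neighborSet v).Finite) {o : V}
    {A : Set V} (hA : A.Finite) (ho : o ∈ A) (W : Finset V)
    (h : ∀ a b, a ∈ A → G.Adj a b → b ∉ A → b ∈ W) :
    ¬ Inf.InfAt G (G.edgeSet \ ↑(toE hloc W)) o := by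
  intro hinf
  apply hinf
  apply hA.subset
  intro y hy
  have hy' : (openSubgraph G (G.edgeSet \ ↑(toE hloc W))).Reachable o y := hy
  rw [SimpleGraph.reachable_iff_reflTransGen] at hy'
  by_contra hyA
  obtain ⟨u, v, hu, hv, huv⟩ := exists_exit_edge hy' ho hyA
  rw [Inf.openSubgraph_adj] at huv
  apply huv.1.2
  rw [Finset.mem_coe, mem_toE]
  exact ⟨huv.2, Or.inr (h u v hu huv.2 hv)⟩

/-- **(C2)** graphs fibring over `ℤ` with bounded fibres have bounded cutsets. -/
theorem hasCuts_of_strip (hloc : ∀ v : V, (G.neighborSet v).Finite) {D : ℕ}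
    (hD : ∀ v, (nb hloc v).card ≤ D) (Φ : V → ℤ) {C0 m : ℕ}
    (hΦ : ∀ x y, G.Adj x y → |Φ x - Φ y| ≤ C0) (hfin : ∀ i, (Φ ⁻¹' {i}).Finite)
    (hcard : ∀ i, (Φ ⁻¹' {i}).ncard ≤ m) (o : V) :
    HasCuts G ((2 * ((C0 + 1) * m)) * D) o := by
  intro B
  obtain ⟨L, hL⟩ : ∃ L : ℤ, ∀ b ∈ insert o B, |Φ b| < L := by
    refine ⟨((insert o B).sup (fun b => (Φ b).natAbs) : ℕ) + 1, fun b hb => ?_⟩
    have h1 := Finset.le_sup (f := fun b => (Φ b).natAbs) hb
    rw [Int.abs_eq_natAbs]
    exact Int.lt_add_one_of_le (by exact_mod_cast h1)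
  set W1 : Finset V := (Finset.range (C0 + 1)).biUnion (fun j => (hfin (L + j)).toFinset) with hW1
  set W2 : Finset V := (Finset.range (C0 + 1)).biUnion (fun j => (hfin (-(L + j))).toFinset)
    with hW2
  have hcW : ∀ i, ((hfin i).toFinset).card ≤ m := by
    intro i
    rw [← Set.ncard_eq_toFinset_card _ (hfin i)]
    exact hcard i
  have hW1c : W1.card ≤ (C0 + 1) * m := by
    have := Finset.card_biUnion_le_card_mul (Finset.range (C0 + 1))
      (fun j : ℕ => (hfin (L + j)).toFinset) m (fun j _ => hcW _)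
    rwa [Finset.card_range] at this
  have hW2c : W2.card ≤ (C0 + 1) * m := by
    have := Finset.card_biUnion_le_card_mul (Finset.range (C0 + 1))
      (fun j : ℕ => (hfin (-(L + j))).toFinset) m (fun j _ => hcW _)
    rwa [Finset.card_range] at this
  have hmW1 : ∀ v, v ∈ W1 ↔ L ≤ Φ v ∧ Φ v ≤ L + C0 := by
    intro v
    rw [hW1, Finset.mem_biUnion]
    simp only [Finset.mem_range, Set.Finite.mem_toFinset, Set.mem_preimage, Set.mem_singleton_iff]
    constructor
    · rintro ⟨j, hj, h⟩
      omega
    · rintro ⟨h1, h2⟩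
      exact ⟨(Φ v - L).toNat, by omega, by omega⟩
  have hmW2 : ∀ v, v ∈ W2 ↔ Φ v ≤ -L ∧ -(L + C0) ≤ Φ v := by
    intro v
    rw [hW2, Finset.mem_biUnion]
    simp only [Finset.mem_range, Set.Finite.mem_toFinset, Set.mem_preimage, Set.mem_singleton_iff]
    constructor
    · rintro ⟨j, hj, h⟩
      omega
    · rintro ⟨h1, h2⟩
      exact ⟨(-Φ v - L).toNat, by omega, by omega⟩
  have hWB : ∀ v ∈ W1 ∪ W2, v ∉ B := by
    intro v hv hvB
    have h1 := hL v (Finset.mem_insert_of_mem hvB)
    rw [abs_lt] at h1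
    rcases Finset.mem_union.1 hv with h | h
    · rw [hmW1] at h
      omega
    · rw [hmW2] at h
      omega
  refine ⟨toE hloc (W1 ∪ W2), toE_subset_edgeSet hloc _, ?_, ?_, ?_⟩
  · refine (card_toE_le hloc hD _).trans (Nat.mul_le_mul_right _ ?_)
    refine (Finset.card_union_le _ _).trans ?_
    omega
  · intro a b hab hB
    rw [mem_toE] at hab
    rcases hab.2 with h | h
    · exact hWB a h hB.1
    · exact hWB b h hB.2
  · apply not_infAt_of_vertex_cut hloc (A := {v | |Φ v| < L})
    · have hsub : {v | |Φ v| < L} ⊆ ⋃ i ∈ Finset.Icc (-L) L, Φ ⁻¹' {i} := by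
        intro v hv
        have hv' : |Φ v| < L := hv
        rw [abs_lt] at hv'
        rw [Set.mem_iUnion₂]
        exact ⟨Φ v, Finset.mem_Icc.2 ⟨hv'.1.le, hv'.2.le⟩, rfl⟩
      exact (Set.Finite.biUnion (Finset.finite_toSet _) fun i _ => hfin i).subset hsub
    · exact hL o (Finset.mem_insert_self o B)
    · intro a b ha hab hb
      have ha' : |Φ a| < L := ha
      have hb' : ¬ |Φ b| < L := hb
      have h1 := hΦ a b hab
      rw [abs_lt] at ha' hb'
      rw [abs_le] at h1
      rw [Finset.mem_union, hmW1, hmW2]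
      omega

theorem pc_eq_one_of_strip [Infinite V] (hconn : G.Connected)
    (hloc : ∀ v : V, (G.neighborSet v).Finite) {D : ℕ}
    (hD : ∀ v, (nb hloc v).card ≤ D) (Φ : V → ℤ) {C0 m : ℕ}
    (hΦ : ∀ x y, G.Adj x y → |Φ x - Φ y| ≤ C0) (hfin : ∀ i, (Φ ⁻¹' {i}).Finite)
    (hcard : ∀ i, (Φ ⁻¹' {i}).ncard ≤ m) : bondCriticalValue G = 1 :=
  pc_eq_one_of_cuts hconn hloc (hasCuts_of_strip hloc hD Φ hΦ hfin hcard (Classical.arbitrary V))

/-- **(C3)** linear growth infinitely often implies bounded cutsets. -/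
theorem hasCuts_of_linear (hconn : G.Connected) (hloc : ∀ v : V, (G.neighborSet v).Finite) {D : ℕ}
    (hD : ∀ v, (nb hloc v).card ≤ D) {C : ℕ} {o : V}
    (h : ∃ᶠ n in atTop, (th hloc n {o}).card ≤ C * (n + 1)) :
    HasCuts G (2 * C * D) o := by
  intro B
  obtain ⟨r, hr⟩ : ∃ r, B ⊆ th hloc r {o} := by
    have hw : ∀ b : V, ∃ w : G.Walk o b, True := fun b => ⟨(hconn.preconnected o b).some, trivial⟩
    choose w _ using hw
    refine ⟨B.sup (fun b => (w b).length), fun b hb => ?_⟩
    rw [mem_th]
    exact ⟨o, Finset.mem_singleton_self o, w b, Finset.le_sup (f := fun b => (w b).length) hb⟩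
  obtain ⟨n, hn, hcard⟩ := (Filter.frequently_atTop.1 h) (2 * r + 1)
  -- a small sphere
  obtain ⟨j, hj1, hj2⟩ : ∃ j, r ≤ j ∧ (th hloc (j + 1) {o} \ th hloc j {o}).card ≤ 2 * C := by
    by_contra hcon
    push Not at hcon
    have key : ∀ i, (2 * C + 1) * i ≤ (th hloc (r + i) {o}).card := by
      intro i
      induction i with
      | zero => simp
      | succ i ih =>
        have h1 := hcon (r + i) (by omega)
        have h2 : (th hloc (r + i + 1) {o} \ th hloc (r + i) {o}).card +
            (th hloc (r + i) {o}).card = (th hloc (r + i + 1) {o}).card :=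
          Finset.card_sdiff_add_card_eq_card (th_le_succ hloc _ _)
        have h3 : (2 * C + 1) * (i + 1) = (2 * C + 1) * i + (2 * C + 1) := by ring
        have h7 : r + (i + 1) = r + i + 1 := by omega
        rw [h3, h7]
        omega
    have h4 := key (n - r)
    rw [Nat.add_sub_cancel' (by omega)] at h4
    obtain ⟨i, rfl⟩ : ∃ i, n = 2 * r + 1 + i := ⟨n - (2 * r + 1), by omega⟩
    have h5 : 2 * r + 1 + i - r = r + 1 + i := by omega
    rw [h5] at h4
    have h6 := h4.trans hcard
    nlinarith
  refine ⟨toE hloc (th hloc (j + 1) {o} \ th hloc j {o}), toE_subset_edgeSet hloc _, ?_, ?_, ?_⟩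
  · exact (card_toE_le hloc hD _).trans (Nat.mul_le_mul_right _ hj2)
  · intro a b hab hB
    rw [mem_toE] at hab
    have hBj : ∀ v ∈ B, v ∈ th hloc j {o} := fun v hv => th_mono_n hloc hj1 _ (hr hv)
    rcases hab.2 with h | h
    · exact (Finset.mem_sdiff.1 h).2 (hBj a hB.1)
    · exact (Finset.mem_sdiff.1 h).2 (hBj b hB.2)
  · apply not_infAt_of_vertex_cut hloc (A := (↑(th hloc j {o}) : Set V))
    · exact Finset.finite_toSet _
    · exact subset_th hloc j {o} (Finset.mem_singleton_self o)
    · intro a b ha hab hb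
      rw [Finset.mem_sdiff]
      refine ⟨?_, hb⟩
      rw [th_succ, mem_nbh]
      exact Or.inr ⟨a, ha, hab⟩

theorem pc_eq_one_of_linear [Infinite V] (hconn : G.Connected)
    (hloc : ∀ v : V, (G.neighborSet v).Finite) (hqt : IsQuasiTransitive G) {C : ℕ} {o : V}
    (h : ∃ᶠ n in atTop, (th hloc n {o}).card ≤ C * (n + 1)) : bondCriticalValue G = 1 := by
  obtain ⟨D, hD⟩ := exists_degree_bound hloc hqt
  exact pc_eq_one_of_cuts hconn hloc (hasCuts_of_linear hconn hloc hD h)

end Crest.Agent.R147.Cl
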