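import Crest.Agent.R147.DustAn
import Crest.Agent.R147.Cl684Expl

/-!
Row 147 (helper326): THE DUST THEOREM (finite graph, independent bonds).

`A = {C(x), C(y) macroscopic, x not connected to y}`, `Q = {no vertex of B is in a macroscopic
cluster}` (macroscopic = any increasing family of vertex sets).  Then `P(A ∩ Q)^4 ≤ P(Q) P(A)^4`.

Proof: relative entropy along the exploration of the clusters of `B`.
-/

set_option autoImplicit false

namespace Crest.Agent.R147.Dust

open Finset Crest.Agent.R159.FV Crest.Agent.R147.Cl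
open scoped Classical

universe u
variable {V : Type u}

/-! ### the events -/

/-- the two macroscopic distinct clusters -/
def EvA (mac : Set V → Prop) (x y : V) (ω : Finset (Sym2 V)) : Prop :=
  mac (cl ω {x}) ∧ mac (cl ω {y}) ∧ ¬ conn ω x y

/-- no macroscopic cluster meets `B` -/
def EvQ (mac : Set V → Prop) (B : Set V) (ω : Finset (Sym2 V)) : Prop :=
  ∀ b ∈ B, ¬ mac (cl ω {b})

def EvAQ (mac : Set V → Prop) (x y : V) (B : Set V) (ω : Finset (Sym2 V)) : Prop :=
  EvA mac x y ω ∧ EvQ mac B ω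

theorem mem_cl_single {ω : Finset (Sym2 V)} {x v : V} : v ∈ cl ω {x} ↔ conn ω x v := by
  constructor
  · rintro ⟨r, hr, h⟩
    rw [Set.mem_singleton_iff] at hr
    rwa [hr] at h
  · intro h; exact ⟨x, rfl, h⟩

theorem cl_mono {ω ω' : Finset (Sym2 V)} (h : ω ⊆ ω') (R : Set V) : cl ω R ⊆ cl ω' R := by
  rintro v ⟨r, hr, hv⟩
  exact ⟨r, hr, hv.mono h⟩

theorem EvA_symm {mac : Set V → Prop} {x y : V} {ω : Finset (Sym2 V)} :
    EvA mac x y ω ↔ EvA mac y x ω := by
  unfold EvA
  constructor
  · rintro ⟨h1, h2, h3⟩; exact ⟨h2, h1, fun h => h3 h.symm⟩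
  · rintro ⟨h1, h2, h3⟩; exact ⟨h2, h1, fun h => h3 h.symm⟩

/-- `e` touches `S` -/
def tch (e : Sym2 V) (S : Set V) : Prop := ∃ a ∈ e, a ∈ S

/-- adding an edge which does not touch the cluster of `x` does not change it -/
theorem cl_insert_of_not_tch {ω : Finset (Sym2 V)} {x : V} {e : Sym2 V}
    (h : ¬ tch e (cl ω {x})) : cl (insert e ω) {x} = cl ω {x} := by
  apply Set.Subset.antisymm
  · intro v hv
    rw [mem_cl_single] at hv ⊢
    unfold conn at hv
    induction hv with
    | refl => exact conn_refl ω x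
    | @tail b c _ hbc ih =>
      rcases Finset.mem_insert.1 hbc with h1 | h1
      · exact absurd ⟨b, by rw [← h1]; exact Sym2.mem_mk_left b c, mem_cl_single.2 ih⟩ h
      · exact ih.trans (conn_of_mem h1)
  · exact cl_mono (Finset.subset_insert e ω) _

theorem cl_insert_of_not_tch' {ω : Finset (Sym2 V)} {x : V} {e : Sym2 V}
    (h : ¬ tch e (cl (insert e ω) {x})) : cl (insert e ω) {x} = cl ω {x} := by
  apply cl_insert_of_not_tch
  rintro ⟨a, ha, ha'⟩
  exact h ⟨a, ha, cl_mono (Finset.subset_insert e ω) _ ha'⟩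

theorem cl_insert_eq_iff {ω : Finset (Sym2 V)} {x : V} {e : Sym2 V} {S : Set V}
    (h : ¬ tch e S) : cl (insert e ω) {x} = S ↔ cl ω {x} = S := by
  constructor
  · intro hS
    rw [← cl_insert_of_not_tch' (by rw [hS]; exact h), hS]
  · intro hS
    rw [cl_insert_of_not_tch (by rw [hS]; exact h), hS]

section Geometry

variable {mac : Set V → Prop} (hmac : ∀ S T : Set V, S ⊆ T → mac S → mac T)
include hmac

/-- under `Q`, vertices of macroscopic clusters are not reached from `B` -/
theorem not_mem_clB {B : Set V} {ω : Finset (Sym2 V)} (hQ : EvQ mac B ω) {x v : V}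
    (hx : mac (cl ω {x})) (hv : v ∈ cl ω {x}) : v ∉ cl ω B := by
  rintro ⟨b, hb, hbv⟩
  apply hQ b hb
  apply hmac _ _ _ hx
  intro z hz
  rw [mem_cl_single] at hz hv ⊢
  exact hbv.trans (hv.symm.trans hz)

/-- closing an edge at the explored set -/
theorem close {B : Set V} {ω : Finset (Sym2 V)} {x y : V} {e : Sym2 V}
    (he : tch e (cl ω B)) (h : EvAQ mac x y B (insert e ω)) :
    EvAQ mac x y B ω ∧ ¬ tch e (cl ω {x}) ∧ ¬ tch e (cl ω {y}) := by
  obtain ⟨⟨h1, h2, h3⟩, hQ⟩ := h
  obtain ⟨u, hue, hu⟩ := he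
  have hsub : ω ⊆ insert e ω := Finset.subset_insert e ω
  -- all endpoints of `e` are reached from `B` in `insert e ω`
  have hend : ∀ a ∈ e, a ∈ cl (insert e ω) B := by
    intro a ha
    have hu' : u ∈ cl (insert e ω) B := cl_mono hsub _ hu
    by_cases hau : a = u
    · rw [hau]; exact hu'
    · have : e = s(u, a) := (Sym2.mem_and_mem_iff (fun h => hau h.symm)).1 ⟨hue, ha⟩
      exact mem_cl_of_conn hu' (conn_of_mem (by rw [← this]; exact Finset.mem_insert_self _ _))
  have hx : ¬ tch e (cl (insert e ω) {x}) := by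
    rintro ⟨a, ha, ha'⟩
    exact not_mem_clB hmac hQ h1 ha' (hend a ha)
  have hy : ¬ tch e (cl (insert e ω) {y}) := by
    rintro ⟨a, ha, ha'⟩
    exact not_mem_clB hmac hQ h2 ha' (hend a ha)
  have ex := cl_insert_of_not_tch' hx
  have ey := cl_insert_of_not_tch' hy
  refine ⟨⟨⟨by rw [← ex]; exact h1, by rw [← ey]; exact h2, fun h => h3 (h.mono hsub)⟩, ?_⟩,
    by rw [← ex]; exact hx, by rw [← ey]; exact hy⟩
  intro b hb hm
  exact hQ b hb (hmac _ _ (cl_mono hsub _) hm)

/-- an edge at the explored set cannot touch both `C(x)` and `C(y)` -/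
theorem not_both {B : Set V} {ω : Finset (Sym2 V)} {x y : V} {e : Sym2 V}
    (he : tch e (cl ω B)) (h : EvAQ mac x y B ω) (hx : tch e (cl ω {x})) (hy : tch e (cl ω {y})) :
    False := by
  obtain ⟨⟨h1, h2, h3⟩, hQ⟩ := h
  obtain ⟨u, hue, hu⟩ := he
  obtain ⟨a, hae, ha⟩ := hx
  obtain ⟨b, hbe, hb⟩ := hy
  have hua : u ≠ a := fun h => not_mem_clB hmac hQ h1 ha (h ▸ hu)
  have hub : u ≠ b := fun h => not_mem_clB hmac hQ h2 hb (h ▸ hu)
  have e1 : e = s(u, a) := (Sym2.mem_and_mem_iff hua).1 ⟨hue, hae⟩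
  have e2 : e = s(u, b) := (Sym2.mem_and_mem_iff hub).1 ⟨hue, hbe⟩
  have hab : a = b := by
    rw [e1] at e2
    rcases Sym2.eq_iff.1 e2 with ⟨_, h⟩ | ⟨h, h'⟩
    · exact h
    · exact absurd h hub
  rw [mem_cl_single] at ha hb
  rw [← hab] at hb
  exact h3 (ha.trans hb.symm)

end Geometry

/-! ### the functions of the state -/

/-- probability of `P` given the explored open edges `O` (unexplored edges `E`) -/
noncomputable def pf (w : Sym2 V → ℝ) (E O : Finset (Sym2 V)) (P : Finset (Sym2 V) → Prop) : ℝ :=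
  Ex E w (fun T => ind (P (O ∪ T)))

theorem pf_insert (w : Sym2 V → ℝ) {E O : Finset (Sym2 V)} {e : Sym2 V} (he : e ∉ E)
    (P : Finset (Sym2 V) → Prop) :
    pf w (insert e E) O P = w e * pf w E (insert e O) P + (1 - w e) * pf w E O P := by
  unfold pf
  rw [Ex_insert he]
  congr 2
  apply Ex_congr
  intro T _
  rw [Finset.union_insert, Finset.insert_union]

section W

variable {w : Sym2 V → ℝ} {E O : Finset (Sym2 V)} (h0 : ∀ e ∈ E, 0 < w e) (h1 : ∀ e ∈ E, w e < 1)
include h0 h1

theorem pf_nonneg (P : Finset (Sym2 V) → Prop) : 0 ≤ pf w E O P :=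
  Ex_nonneg (fun e he => (h0 e he).le) (fun e he => (h1 e he).le) (fun _ _ => ind_nonneg _)

theorem pf_mono {P P' : Finset (Sym2 V) → Prop} (h : ∀ T, T ⊆ E → P (O ∪ T) → P' (O ∪ T)) :
    pf w E O P ≤ pf w E O P' :=
  Ex_mono (fun e he => (h0 e he).le) (fun e he => (h1 e he).le) (fun T hT => ind_mono (h T hT))

theorem wt_pos {T : Finset (Sym2 V)} : 0 < wt E w T := by
  unfold wt
  apply Finset.prod_pos
  intro e he
  split_ifs
  · exact h0 e he
  · linarith [h1 e he]

omit h0 h1 in
theorem exists_of_pf_pos {P : Finset (Sym2 V) → Prop} (h : 0 < pf w E O P) :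
    ∃ T, T ⊆ E ∧ P (O ∪ T) := by
  by_contra hcon
  push Not at hcon
  have : pf w E O P = 0 := by
    unfold pf
    rw [Ex_congr w (g := fun _ => 0) (fun T hT => ind_false (hcon T hT)), Ex_const]
  linarith

theorem pf_pos_of {P : Finset (Sym2 V) → Prop} {T : Finset (Sym2 V)} (hT : T ⊆ E)
    (hP : P (O ∪ T)) : 0 < pf w E O P := by
  unfold pf Ex
  apply Finset.sum_pos'
  · intro S _
    exact mul_nonneg (wt_pos h0 h1).le (ind_nonneg _)
  · refine ⟨T, Finset.mem_powerset.2 hT, ?_⟩
    show 0 < wt E w T * ind (P (O ∪ T))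
    rw [ind_true hP, mul_one]; exact wt_pos h0 h1

end W

/-- `cS = P(C(x) = S | state)` -/
noncomputable def cS (w : Sym2 V → ℝ) (x : V) (S : Set V) (E O : Finset (Sym2 V)) : ℝ :=
  pf w E O (fun ω => cl ω {x} = S)

/-- `mS = P(A, Q, C(x) = S | state)` -/
noncomputable def mS (w : Sym2 V → ℝ) (mac : Set V → Prop) (x y : V) (B : Set V) (S : Set V)
    (E O : Finset (Sym2 V)) : ℝ :=
  pf w E O (fun ω => EvAQ mac x y B ω ∧ cl ω {x} = S)

/-- edges off `S` -/
noncomputable def off (E : Finset (Sym2 V)) (S : Set V) : Finset (Sym2 V) :=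
  E.filter (fun e => ¬ tch e S)

/-- `bS = P(C(y) macroscopic off S)` -/
noncomputable def bS (w : Sym2 V → ℝ) (mac : Set V → Prop) (y : V) (S : Set V)
    (E₀ : Finset (Sym2 V)) : ℝ :=
  Ex (off E₀ S) w (fun T => ind (mac (cl T {y})))

noncomputable def term (w : Sym2 V → ℝ) (mac : Set V → Prop) (x y : V) (B : Set V)
    (E₀ : Finset (Sym2 V)) (S : Set V) (E O : Finset (Sym2 V)) : ℝ :=
  mS w mac x y B S E O * Real.log (cS w x S E O * bS w mac y S E₀) - phi (mS w mac x y B S E O)

/-- the possible values of `C(x)` -/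
noncomputable def idx (x : V) (E₀ : Finset (Sym2 V)) : Finset (Set V) :=
  E₀.powerset.image (fun T => cl T {x})

noncomputable def Psi (w : Sym2 V → ℝ) (mac : Set V → Prop) (x y : V) (B : Set V)
    (E₀ : Finset (Sym2 V)) (E O : Finset (Sym2 V)) : ℝ :=
  ∑ S ∈ idx x E₀, term w mac x y B E₀ S E O

/-! ### the leaf inequality `mS ≤ cS * bS` -/

theorem dependsOn_cl {O E : Finset (Sym2 V)} {x : V} {S : Set V} :
    DependsOn (E.filter (fun e => tch e S)) (fun T => ind (cl (O ∪ (T ∩ E)) {x} = S)) := by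
  intro T T' hTT'
  have key : ∀ T T' : Finset (Sym2 V),
      T ∩ E.filter (fun e => tch e S) = T' ∩ E.filter (fun e => tch e S) →
      cl (O ∪ (T ∩ E)) {x} = S → cl (O ∪ (T' ∩ E)) {x} = S := by
    intro T T' h hS
    have hedge : ∀ e : Sym2 V, tch e S → (e ∈ O ∪ (T ∩ E) ↔ e ∈ O ∪ (T' ∩ E)) := by
      intro e he
      rw [Finset.mem_union, Finset.mem_union, Finset.mem_inter, Finset.mem_inter]
      have h' := Finset.ext_iff.1 h e
      rw [Finset.mem_inter, Finset.mem_inter, Finset.mem_filter] at h'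
      tauto
    apply Set.Subset.antisymm
    · intro v hv
      rw [mem_cl_single] at hv
      unfold conn at hv
      induction hv with
      | refl => rw [← hS, mem_cl_single]; exact conn_refl _ x
      | @tail b c _ hbc ih =>
        have hb : s(b, c) ∈ O ∪ (T ∩ E) := (hedge _ ⟨b, Sym2.mem_mk_left b c, ih⟩).2 hbc
        rw [← hS, mem_cl_single] at ih ⊢
        exact ih.trans (conn_of_mem hb)
    · intro v hv
      rw [← hS, mem_cl_single] at hv
      rw [mem_cl_single]
      unfold conn at hv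
      induction hv with
      | refl => exact conn_refl _ x
      | @tail b c hxb hbc ih =>
        have hbS : b ∈ S := by rw [← hS, mem_cl_single]; exact hxb
        exact ih.trans (conn_of_mem ((hedge _ ⟨b, Sym2.mem_mk_left b c, hbS⟩).1 hbc))
  by_cases h : cl (O ∪ (T ∩ E)) {x} = S
  · simp only
    rw [ind_true h, ind_true (key T T' hTT' h)]
  · simp only
    rw [ind_false h, ind_false (fun h' => h (key T' T hTT'.symm h'))]

theorem mS_le {w : Sym2 V → ℝ} {mac : Set V → Prop} (hmac : ∀ S T : Set V, S ⊆ T → mac S → mac T)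
    {x y : V} {B : Set V} {E₀ E O : Finset (Sym2 V)} {S : Set V} (hE : E ⊆ E₀)
    (h0 : ∀ e ∈ E₀, 0 < w e) (h1 : ∀ e ∈ E₀, w e < 1)
    (hO : ∀ e ∈ O, ∀ a ∈ e, a ∈ cl O B) :
    mS w mac x y B S E O ≤ cS w x S E O * bS w mac y S E₀ := by
  have h0' : ∀ e ∈ E, 0 ≤ w e := fun e he => (h0 e (hE he)).le
  have h1' : ∀ e ∈ E, w e ≤ 1 := fun e he => (h1 e (hE he)).le
  set f : Finset (Sym2 V) → ℝ := fun T => ind (cl (O ∪ (T ∩ E)) {x} = S) with hf
  set g : Finset (Sym2 V) → ℝ := fun T => ind (mac (cl (T ∩ off E S) {y})) with hg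
  have hgdep : DependsOn (off E S) g := by
    intro T T' h
    simp only [hg]
    rw [h]
  have step1 : mS w mac x y B S E O ≤ Ex E w (fun T => f T * g T) := by
    unfold mS pf
    apply Ex_mono h0' h1'
    intro T hT
    have hTE : T ∩ E = T := Finset.inter_eq_left.2 hT
    by_cases h : EvAQ mac x y B (O ∪ T) ∧ cl (O ∪ T) {x} = S
    · rw [ind_true h]
      obtain ⟨⟨⟨ha1, ha2, ha3⟩, hQ⟩, hS⟩ := h
      have hfT : f T = 1 := by
        simp only [hf]; rw [hTE]; exact ind_true hS
      have hgT : g T = 1 := by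
        simp only [hg]
        apply ind_true
        apply hmac _ _ _ ha2
        intro v hv
        rw [mem_cl_single] at hv ⊢
        unfold conn at hv
        induction hv with
        | refl => exact conn_refl _ y
        | @tail b c hyb hbc ih =>
          apply ih.trans
          apply conn_of_mem
          have hbY : b ∈ cl (O ∪ T) {y} := mem_cl_single.2 hyb
          have hyc : conn (O ∪ T) y c := Relation.ReflTransGen.tail hyb hbc
          have hbO : s(b, c) ∉ O := by
            intro hbO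
            have : b ∈ cl O B := hO _ hbO b (Sym2.mem_mk_left b c)
            exact not_mem_clB hmac hQ ha2 hbY (cl_mono Finset.subset_union_left _ this)
          have hbT : s(b, c) ∈ T := by
            rcases Finset.mem_union.1 hbc with h | h
            · exact absurd h hbO
            · exact h
          rw [Finset.mem_inter]
          refine ⟨hbT, ?_⟩
          unfold off
          rw [Finset.mem_filter]
          refine ⟨hT hbT, ?_⟩
          rintro ⟨a, ha, haS⟩
          rw [← hS, mem_cl_single] at haS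
          rcases Sym2.mem_iff.1 ha with rfl | rfl
          · exact ha3 (haS.trans (mem_cl_single.1 hbY).symm)
          · exact ha3 (haS.trans hyc.symm)
      rw [hfT, hgT, mul_one]
    · rw [ind_false h]
      exact mul_nonneg (ind_nonneg _) (ind_nonneg _)
  have step2 : Ex E w (fun T => f T * g T) = Ex E w f * Ex E w g :=
    Ex_mul_of_disjoint (D₁ := E.filter (fun e => tch e S)) (D₂ := off E S)
      (Finset.filter_subset _ _) (Finset.filter_subset _ _)
      (Finset.disjoint_filter_filter_not _ _ _) w dependsOn_cl hgdep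
  have e1 : Ex E w f = cS w x S E O := by
    unfold cS pf
    apply Ex_congr
    intro T hT
    simp only [hf]
    rw [Finset.inter_eq_left.2 hT]
  have e2 : Ex E w g = Ex (off E S) w (fun T => ind (mac (cl T {y}))) := by
    rw [Ex_marginal (Finset.filter_subset _ _) w hgdep]
    apply Ex_congr
    intro T hT
    simp only [hg]
    rw [Finset.inter_eq_left.2 (show T ⊆ off E S from hT)]
  have hsub : off E S ⊆ off E₀ S := Finset.filter_subset_filter _ hE
  have e3 : Ex (off E S) w (fun T => ind (mac (cl T {y}))) ≤ bS w mac y S E₀ := by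
    unfold bS
    apply Ex_mono_volume hsub
      (fun e he => (h0 e (Finset.mem_of_mem_filter e he)).le)
      (fun e he => (h1 e (Finset.mem_of_mem_filter e he)).le)
    intro T T' hTT'
    exact ind_mono (hmac _ _ (cl_mono hTT' _))
  rw [step2, e1, e2] at step1
  have hc : 0 ≤ cS w x S E O :=
    pf_nonneg (fun e he => h0 e (hE he)) (fun e he => h1 e (hE he)) _
  exact step1.trans (mul_le_mul_of_nonneg_left e3 hc)


/-! ### sums over the value of the cluster -/

theorem pf_congr {w : Sym2 V → ℝ} {E O : Finset (Sym2 V)} {P P' : Finset (Sym2 V) → Prop}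
    (h : ∀ T, T ⊆ E → (P (O ∪ T) ↔ P' (O ∪ T))) : pf w E O P = pf w E O P' := by
  unfold pf
  apply Ex_congr
  intro T hT
  exact ind_congr (h T hT)

theorem cl_mem_idx {x : V} {E₀ E O T : Finset (Sym2 V)} (hE : E ⊆ E₀) (hO : O ⊆ E₀) (hT : T ⊆ E) :
    cl (O ∪ T) {x} ∈ idx x E₀ := by
  unfold idx
  rw [Finset.mem_image]
  exact ⟨O ∪ T, Finset.mem_powerset.2 (Finset.union_subset hO (hT.trans hE)), rfl⟩

/-- sum over the values of the cluster in a subset `s` of the possible values -/
theorem sum_pf {w : Sym2 V → ℝ} {x : V} {E₀ E O : Finset (Sym2 V)} (hE : E ⊆ E₀) (hO : O ⊆ E₀)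
    (P : Finset (Sym2 V) → Prop) (D : Set V → Prop) [DecidablePred D] :
    ∑ S ∈ (idx x E₀).filter D, pf w E O (fun ω => P ω ∧ cl ω {x} = S)
      = pf w E O (fun ω => P ω ∧ D (cl ω {x})) := by
  unfold pf
  rw [← Ex_sum]
  apply Ex_congr
  intro T hT
  by_cases h : P (O ∪ T) ∧ D (cl (O ∪ T) {x})
  · rw [ind_true h]
    rw [Finset.sum_eq_single (cl (O ∪ T) {x})]
    · exact ind_true ⟨h.1, rfl⟩
    · intro S _ hS
      exact ind_false (fun h' => hS h'.2.symm)
    · intro hn
      exact absurd (Finset.mem_filter.2 ⟨cl_mem_idx hE hO hT, h.2⟩) hn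
  · rw [ind_false h]
    apply Finset.sum_eq_zero
    intro S hS
    apply ind_false
    rintro ⟨h1, h2⟩
    apply h
    rw [Finset.mem_filter] at hS
    exact ⟨h1, by rw [h2]; exact hS.2⟩

theorem sum_mS {w : Sym2 V → ℝ} {mac : Set V → Prop} {x y : V} {B : Set V}
    {E₀ E O : Finset (Sym2 V)} (hE : E ⊆ E₀) (hO : O ⊆ E₀) (D : Set V → Prop) [DecidablePred D] :
    ∑ S ∈ (idx x E₀).filter D, mS w mac x y B S E O
      = pf w E O (fun ω => EvAQ mac x y B ω ∧ D (cl ω {x})) := by
  unfold mS
  exact sum_pf hE hO _ D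

/-! ### the step -/

/-- entropy step of the left hand side -/
theorem neg_log_step {p a b q r : ℝ} (hp0 : 0 < p) (hp1 : p < 1) (ha : 0 ≤ a) (hb : 0 ≤ b)
    (haq : a ≤ q) (hbr : b ≤ r) :
    -(p * a + (1 - p) * b) * Real.log (p * q + (1 - p) * r) ≤
      p * (-a * Real.log q) + (1 - p) * (-b * Real.log r) + J p a b := by
  have hp1' : 0 < 1 - p := by linarith
  have hq : 0 ≤ q := ha.trans haq
  have hr : 0 ≤ r := hb.trans hbr
  have key := log_sum2 (a := p * a) (a' := (1 - p) * b) (m := p * q) (m' := (1 - p) * r)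
    (by positivity) (by positivity) (by positivity) (by positivity)
    (fun h => by
      have : 0 < a := (pos_iff_pos_of_mul_pos h).1 hp0
      exact mul_pos hp0 (lt_of_lt_of_le this haq))
    (fun h => by
      have : 0 < b := (pos_iff_pos_of_mul_pos h).1 hp1'
      exact mul_pos hp1' (lt_of_lt_of_le this hbr))
  have e1 : ∀ c t s : ℝ, 0 < c → 0 ≤ t → t ≤ s →
      phi (c * t) - c * t * Real.log (c * s) = c * phi t - c * (t * Real.log s) := by
    intro c t s hc ht hts
    rcases ht.eq_or_lt with rfl | ht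
    · simp [phi]
    · have hs : 0 < s := lt_of_lt_of_le ht hts
      rw [phi_mul hc.le ht.le, Real.log_mul hc.ne' hs.ne']
      ring
  rw [e1 p a q hp0 ha haq, e1 (1 - p) b r hp1' hb hbr] at key
  unfold J
  linarith


section Step

variable {w : Sym2 V → ℝ} {mac : Set V → Prop}
  (hmac : ∀ S T : Set V, S ⊆ T → mac S → mac T)
  {x y : V} {B : Set V} {E₀ E O : Finset (Sym2 V)} {e : Sym2 V}
  (hE : insert e E ⊆ E₀) (heE : e ∉ E) (hO : ∀ f ∈ O, ∀ a ∈ f, a ∈ cl O B)
  (h0 : ∀ e ∈ E₀, 0 < w e) (h1 : ∀ e ∈ E₀, w e < 1) (he : tch e (cl O B))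

omit hmac in
/-- a set not touched by `e` -/
theorem cS_insert_of_not_tch {S : Set V} (hS : ¬ tch e S) :
    cS w x S E (insert e O) = cS w x S E O := by
  unfold cS pf
  apply Ex_congr
  intro T _
  rw [Finset.insert_union]
  exact ind_congr (cl_insert_eq_iff hS)

include heE in
theorem term_untouched {S : Set V} (hS : ¬ tch e S) :
    term w mac x y B E₀ S (insert e E) O
      = w e * term w mac x y B E₀ S E (insert e O) + (1 - w e) * term w mac x y B E₀ S E O
        + J (w e) (mS w mac x y B S E (insert e O)) (mS w mac x y B S E O) := by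
  have hc : cS w x S (insert e E) O = cS w x S E O := by
    have h : cS w x S (insert e E) O = w e * cS w x S E (insert e O) + (1 - w e) * cS w x S E O :=
      pf_insert w heE _
    rw [h, cS_insert_of_not_tch hS]; ring
  have hm : mS w mac x y B S (insert e E) O
      = w e * mS w mac x y B S E (insert e O) + (1 - w e) * mS w mac x y B S E O :=
    pf_insert w heE _
  unfold term
  rw [hc, hm, cS_insert_of_not_tch hS]
  unfold J
  ring

include hmac hE heE hO h0 h1 he in
theorem term_touched {S : Set V} (hS : tch e S) :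
    term w mac x y B E₀ S (insert e E) O
      = w e * term w mac x y B E₀ S E (insert e O) + (1 - w e) * term w mac x y B E₀ S E O := by
  have hEE : E ⊆ E₀ := (Finset.subset_insert e E).trans hE
  have h0' : ∀ e ∈ E, 0 < w e := fun e he => h0 e (hEE he)
  have h1' : ∀ e ∈ E, w e < 1 := fun e he => h1 e (hEE he)
  have hwe : w e < 1 := h1 e (hE (Finset.mem_insert_self e E))
  have htch : ∀ T : Finset (Sym2 V), tch e (cl (O ∪ T) B) := by
    intro T
    obtain ⟨u, hu, hu'⟩ := he
    exact ⟨u, hu, cl_mono Finset.subset_union_left _ hu'⟩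
  -- mS after opening is zero
  have hmo : mS w mac x y B S E (insert e O) = 0 := by
    by_contra hne
    have hpos : 0 < mS w mac x y B S E (insert e O) :=
      lt_of_le_of_ne (pf_nonneg h0' h1' _) (Ne.symm hne)
    obtain ⟨T, hT, hA, hST⟩ := exists_of_pf_pos hpos
    rw [Finset.insert_union] at hA hST
    obtain ⟨_, hx, _⟩ := close hmac (htch T) hA
    have : cl (insert e (O ∪ T)) {x} = cl (O ∪ T) {x} := cl_insert_of_not_tch hx
    rw [← this, hST] at hx
    exact hx hS
  have hm : mS w mac x y B S (insert e E) O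
      = w e * mS w mac x y B S E (insert e O) + (1 - w e) * mS w mac x y B S E O :=
    pf_insert w heE _
  have hto : term w mac x y B E₀ S E (insert e O) = 0 := by
    unfold term
    rw [hmo, phi_zero]; ring
  rw [hto, mul_zero, zero_add]
  rw [hmo, mul_zero, zero_add] at hm
  rcases (pf_nonneg h0' h1' (O := O) (fun ω => EvAQ mac x y B ω ∧ cl ω {x} = S)).eq_or_lt with hz | hpos
  · have hz' : mS w mac x y B S E O = 0 := hz.symm
    unfold term
    rw [hm, hz', mul_zero, phi_zero]; ring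
  · have hpos' : 0 < mS w mac x y B S E O := hpos
    -- the other endpoint is off S
    obtain ⟨T, hT, hA, hST⟩ := exists_of_pf_pos hpos
    obtain ⟨u, hue, hu⟩ := he
    have huS : u ∉ S := by
      intro huS
      have := not_mem_clB hmac hA.2 hA.1.1 (v := u) (by rw [hST]; exact huS)
      exact this (cl_mono Finset.subset_union_left _ hu)
    obtain ⟨a, hae, haS⟩ := hS
    have hua : u ≠ a := fun h => huS (h ▸ haS)
    have hco : cS w x S E (insert e O) = 0 := by
      unfold cS pf
      rw [Ex_congr w (g := fun _ => 0) ?_, Ex_const]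
      intro T' _
      apply ind_false
      intro hS'
      apply huS
      have ha' : conn (insert e O ∪ T') x a := by rw [← mem_cl_single, hS']; exact haS
      rw [← hS', mem_cl_single]
      apply ha'.trans
      apply conn_of_mem
      have : e = s(a, u) := (Sym2.mem_and_mem_iff (Ne.symm hua)).1 ⟨hae, hue⟩
      rw [← this]
      exact Finset.mem_union_left _ (Finset.mem_insert_self e O)
    have hc : cS w x S (insert e E) O = (1 - w e) * cS w x S E O := by
      have h : cS w x S (insert e E) O = w e * cS w x S E (insert e O) + (1 - w e) * cS w x S E O :=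
        pf_insert w heE _
      rw [h, hco, mul_zero, zero_add]
    have hle := mS_le (w := w) hmac (x := x) (y := y) (B := B) (S := S) hEE h0 h1 hO
    have hcb : 0 < cS w x S E O * bS w mac y S E₀ := lt_of_lt_of_le hpos' hle
    unfold term
    rw [hm, hc, phi_mul (by linarith) hpos'.le, mul_assoc (1 - w e) (cS w x S E O),
      Real.log_mul (by linarith) hcb.ne']
    ring

include hmac hE heE hO h0 h1 he in
/-- the step for `Psi` -/
theorem Psi_step (hOE : O ⊆ E₀) :
    w e * Psi w mac x y B E₀ E (insert e O) + (1 - w e) * Psi w mac x y B E₀ E O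
      + J (w e) (pf w E (insert e O) (EvAQ mac x y B))
          (pf w E O (fun ω => EvAQ mac x y B ω ∧ ¬ tch e (cl ω {x})))
      ≤ Psi w mac x y B E₀ (insert e E) O := by
  have hEE : E ⊆ E₀ := (Finset.subset_insert e E).trans hE
  have h0' : ∀ e ∈ E, 0 < w e := fun e he => h0 e (hEE he)
  have h1' : ∀ e ∈ E, w e < 1 := fun e he => h1 e (hEE he)
  have he0 : e ∈ E₀ := hE (Finset.mem_insert_self e E)
  have hwe0 : 0 < w e := h0 e he0
  have hwe : w e < 1 := h1 e he0
  have htch : ∀ T : Finset (Sym2 V), tch e (cl (O ∪ T) B) := by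
    intro T
    obtain ⟨u, hu, hu'⟩ := he
    exact ⟨u, hu, cl_mono Finset.subset_union_left _ hu'⟩
  have hOE' : insert e O ⊆ E₀ := Finset.insert_subset he0 hOE
  have key : ∀ S ∈ idx x E₀, term w mac x y B E₀ S (insert e E) O
      = w e * term w mac x y B E₀ S E (insert e O) + (1 - w e) * term w mac x y B E₀ S E O
        + (if ¬ tch e S then J (w e) (mS w mac x y B S E (insert e O)) (mS w mac x y B S E O)
            else 0) := by
    intro S _
    by_cases hS : tch e S
    · rw [if_neg (not_not.2 hS), add_zero]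
      exact term_touched hmac hE heE hO h0 h1 he hS
    · rw [if_pos hS]
      exact term_untouched heE hS
  have hsum : Psi w mac x y B E₀ (insert e E) O
      = w e * Psi w mac x y B E₀ E (insert e O) + (1 - w e) * Psi w mac x y B E₀ E O
        + ∑ S ∈ (idx x E₀).filter (fun S => ¬ tch e S),
            J (w e) (mS w mac x y B S E (insert e O)) (mS w mac x y B S E O) := by
    unfold Psi
    rw [Finset.sum_congr rfl key, Finset.sum_add_distrib, Finset.sum_add_distrib,
      ← Finset.mul_sum, ← Finset.mul_sum, ← Finset.sum_filter]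
  rw [hsum]
  have hJ := J_sum ((idx x E₀).filter (fun S => ¬ tch e S)) hwe0 hwe
    (fun S => mS w mac x y B S E (insert e O)) (fun S => mS w mac x y B S E O)
    (fun S _ => pf_nonneg h0' h1' _) (fun S _ => pf_nonneg h0' h1' _)
  rw [sum_mS hEE hOE' (fun S => ¬ tch e S), sum_mS hEE hOE (fun S => ¬ tch e S)] at hJ
  have hmo : pf w E (insert e O) (fun ω => EvAQ mac x y B ω ∧ ¬ tch e (cl ω {x}))
      = pf w E (insert e O) (EvAQ mac x y B) := by
    apply pf_congr
    intro T _
    constructor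
    · exact fun h => h.1
    · intro h
      refine ⟨h, ?_⟩
      rw [Finset.insert_union] at h ⊢
      obtain ⟨_, hx, _⟩ := close hmac (htch T) h
      rw [cl_insert_of_not_tch hx]
      exact hx
  rw [hmo] at hJ
  linarith

end Step


/-! ### the induction -/

theorem term_nonneg {w : Sym2 V → ℝ} {mac : Set V → Prop}
    (hmac : ∀ S T : Set V, S ⊆ T → mac S → mac T)
    {x y : V} {B : Set V} {E₀ E O : Finset (Sym2 V)} {S : Set V} (hE : E ⊆ E₀)
    (h0 : ∀ e ∈ E₀, 0 < w e) (h1 : ∀ e ∈ E₀, w e < 1)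
    (hO : ∀ e ∈ O, ∀ a ∈ e, a ∈ cl O B) :
    0 ≤ term w mac x y B E₀ S E O := by
  have hle := mS_le (w := w) hmac (x := x) (y := y) (B := B) (S := S) hE h0 h1 hO
  have hm : 0 ≤ mS w mac x y B S E O :=
    pf_nonneg (fun e he => h0 e (hE he)) (fun e he => h1 e (hE he)) _
  unfold term
  rcases hm.eq_or_lt with hz | hpos
  · rw [← hz, phi_zero]; simp
  · have := Real.log_le_log hpos hle
    unfold phi
    have := mul_le_mul_of_nonneg_left this hm
    linarith

theorem pf_EvAQ_le {w : Sym2 V → ℝ} {mac : Set V → Prop} {x y : V} {B : Set V}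
    {E O : Finset (Sym2 V)} (h0 : ∀ e ∈ E, 0 < w e) (h1 : ∀ e ∈ E, w e < 1) :
    pf w E O (EvAQ mac x y B) ≤ pf w E O (EvQ mac B) :=
  pf_mono h0 h1 (fun _ _ h => h.2)

/-- clusters of `B` are not changed by edges which do not touch them -/
theorem cl_union_of_not_tch {B : Set V} {O T : Finset (Sym2 V)}
    (h : ∀ e ∈ T, ¬ tch e (cl O B)) {b : V} (hb : b ∈ B) : cl (O ∪ T) {b} = cl O {b} := by
  apply Set.Subset.antisymm
  · intro v hv
    rw [mem_cl_single] at hv ⊢
    unfold conn at hv
    induction hv with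
    | refl => exact conn_refl O b
    | @tail c d _ hcd ih =>
      rcases Finset.mem_union.1 hcd with h1 | h1
      · exact ih.trans (conn_of_mem h1)
      · exact absurd ⟨c, Sym2.mem_mk_left c d, ⟨b, hb, ih⟩⟩ (h _ h1)
  · exact cl_mono Finset.subset_union_left _

theorem leaf {w : Sym2 V → ℝ} {mac : Set V → Prop}
    (hmac : ∀ S T : Set V, S ⊆ T → mac S → mac T) {x y : V} {B : Set V}
    {E₀ E O : Finset (Sym2 V)}
    (h0 : ∀ e ∈ E₀, 0 < w e) (h1 : ∀ e ∈ E₀, w e < 1) (hE : E ⊆ E₀)
    (hO : ∀ f ∈ O, ∀ a ∈ f, a ∈ cl O B) (hn : ∀ e ∈ E, ¬ tch e (cl O B)) :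
    -(pf w E O (EvAQ mac x y B)) * Real.log (pf w E O (EvQ mac B))
      ≤ 2 * (Psi w mac x y B E₀ E O + Psi w mac y x B E₀ E O) := by
  have h0' : ∀ e ∈ E, 0 < w e := fun e he => h0 e (hE he)
  have h1' : ∀ e ∈ E, w e < 1 := fun e he => h1 e (hE he)
  have hR : 0 ≤ 2 * (Psi w mac x y B E₀ E O + Psi w mac y x B E₀ E O) := by
    have a1 : 0 ≤ Psi w mac x y B E₀ E O :=
      Finset.sum_nonneg (fun S _ => term_nonneg hmac hE h0 h1 hO)
    have a2 : 0 ≤ Psi w mac y x B E₀ E O :=
      Finset.sum_nonneg (fun S _ => term_nonneg hmac hE h0 h1 hO)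
    linarith
  refine le_trans (le_of_eq ?_) hR
  have hQ : ∀ T, T ⊆ E → (EvQ mac B (O ∪ T) ↔ EvQ mac B O) := by
    intro T hT
    unfold EvQ
    constructor
    · intro h b hb
      rw [← cl_union_of_not_tch (fun e he => hn e (hT he)) hb]
      exact h b hb
    · intro h b hb
      rw [cl_union_of_not_tch (fun e he => hn e (hT he)) hb]
      exact h b hb
  by_cases hq : EvQ mac B O
  · have : pf w E O (EvQ mac B) = 1 := by
      unfold pf
      rw [Ex_congr w (g := fun _ => 1) (fun T hT => ind_true ((hQ T hT).2 hq)), Ex_const]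
    rw [this, Real.log_one, mul_zero]
  · have hz : pf w E O (EvQ mac B) = 0 := by
      unfold pf
      rw [Ex_congr w (g := fun _ => 0) (fun T hT => ind_false (fun h => hq ((hQ T hT).1 h))), Ex_const]
    rw [hz, Real.log_zero, mul_zero]

/-- the real-variable inequality for the pair of macroscopic clusters -/
theorem pair_ineq {w : Sym2 V → ℝ} {mac : Set V → Prop}
    (hmac : ∀ S T : Set V, S ⊆ T → mac S → mac T) {x y : V} {B : Set V}
    {E O : Finset (Sym2 V)} {e : Sym2 V}
    (h0 : ∀ e ∈ E, 0 < w e) (h1 : ∀ e ∈ E, w e < 1) (he : tch e (cl O B)) :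
    pf w E O (EvAQ mac x y B) + pf w E (insert e O) (EvAQ mac x y B)
      ≤ pf w E O (fun ω => EvAQ mac x y B ω ∧ ¬ tch e (cl ω {x}))
        + pf w E O (fun ω => EvAQ mac x y B ω ∧ ¬ tch e (cl ω {y})) := by
  unfold pf
  rw [← Ex_add, ← Ex_add]
  apply Ex_mono (fun e he => (h0 e he).le) (fun e he => (h1 e he).le)
  intro T _
  have htch : tch e (cl (O ∪ T) B) := by
    obtain ⟨u, hu, hu'⟩ := he
    exact ⟨u, hu, cl_mono Finset.subset_union_left _ hu'⟩
  rw [Finset.insert_union]
  by_cases h : EvAQ mac x y B (insert e (O ∪ T))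
  · obtain ⟨ha, hx, hy⟩ := close hmac htch h
    rw [ind_true h, ind_true ha, ind_true ⟨ha, hx⟩, ind_true ⟨ha, hy⟩]
  · rw [ind_false h, add_zero]
    by_cases ha : EvAQ mac x y B (O ∪ T)
    · rw [ind_true ha]
      by_cases hx : tch e (cl (O ∪ T) {x})
      · by_cases hy : tch e (cl (O ∪ T) {y})
        · exact (not_both hmac htch ha hx hy).elim
        · have : ind (EvAQ mac x y B (O ∪ T) ∧ ¬ tch e (cl (O ∪ T) {y})) = 1 := ind_true ⟨ha, hy⟩
          rw [this]
          linarith [ind_nonneg (EvAQ mac x y B (O ∪ T) ∧ ¬ tch e (cl (O ∪ T) {x}))]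
      · have : ind (EvAQ mac x y B (O ∪ T) ∧ ¬ tch e (cl (O ∪ T) {x})) = 1 := ind_true ⟨ha, hx⟩
        rw [this]
        linarith [ind_nonneg (EvAQ mac x y B (O ∪ T) ∧ ¬ tch e (cl (O ∪ T) {y}))]
    · rw [ind_false ha]
      exact add_nonneg (ind_nonneg _) (ind_nonneg _)

theorem EvAQ_symm {mac : Set V → Prop} {x y : V} {B : Set V} {ω : Finset (Sym2 V)} :
    EvAQ mac x y B ω ↔ EvAQ mac y x B ω := by
  unfold EvAQ
  rw [EvA_symm]

theorem main_ind {w : Sym2 V → ℝ} {mac : Set V → Prop}
    (hmac : ∀ S T : Set V, S ⊆ T → mac S → mac T) {x y : V} {B : Set V} {E₀ : Finset (Sym2 V)}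
    (h0 : ∀ e ∈ E₀, 0 < w e) (h1 : ∀ e ∈ E₀, w e < 1) :
    ∀ (n : ℕ) (E O : Finset (Sym2 V)), E.card = n → E ⊆ E₀ → O ⊆ E₀ →
      (∀ f ∈ O, ∀ a ∈ f, a ∈ cl O B) →
      -(pf w E O (EvAQ mac x y B)) * Real.log (pf w E O (EvQ mac B))
        ≤ 2 * (Psi w mac x y B E₀ E O + Psi w mac y x B E₀ E O) := by
  intro n
  induction n with
  | zero =>
    intro E O hcard hE hOE hO
    apply leaf hmac h0 h1 hE hO
    intro e he
    rw [Finset.card_eq_zero.1 hcard] at he
    exact absurd he (Finset.notMem_empty e)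
  | succ n ih =>
    intro E O hcard hE hOE hO
    by_cases hex : ∃ e ∈ E, tch e (cl O B)
    · obtain ⟨e, heE, he⟩ := hex
      obtain ⟨E', hE', rfl⟩ : ∃ E', e ∉ E' ∧ insert e E' = E :=
        ⟨E.erase e, Finset.notMem_erase e E, Finset.insert_erase heE⟩
      have hcard' : E'.card = n := by
        rw [Finset.card_insert_of_notMem hE'] at hcard
        omega
      have hEE : E' ⊆ E₀ := (Finset.subset_insert e E').trans hE
      have h0' : ∀ e ∈ E', 0 < w e := fun e he => h0 e (hEE he)
      have h1' : ∀ e ∈ E', w e < 1 := fun e he => h1 e (hEE he)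
      have he0 : e ∈ E₀ := hE (Finset.mem_insert_self e E')
      have hwe0 : 0 < w e := h0 e he0
      have hwe : w e < 1 := h1 e he0
      have hOE' : insert e O ⊆ E₀ := Finset.insert_subset he0 hOE
      have hO' : ∀ f ∈ insert e O, ∀ a ∈ f, a ∈ cl (insert e O) B := by
        intro f hf a ha
        rcases Finset.mem_insert.1 hf with rfl | hf
        · obtain ⟨u, hue, hu⟩ := he
          have hu' : u ∈ cl (insert f O) B := cl_mono (Finset.subset_insert f O) _ hu
          by_cases hau : a = u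
          · rw [hau]; exact hu'
          · have : f = s(u, a) := (Sym2.mem_and_mem_iff (fun h => hau h.symm)).1 ⟨hue, ha⟩
            exact mem_cl_of_conn hu' (conn_of_mem (by rw [← this]; exact Finset.mem_insert_self _ _))
        · exact cl_mono (Finset.subset_insert e O) _ (hO f hf a ha)
      have ihc := ih E' O hcard' hEE hOE hO
      have iho := ih E' (insert e O) hcard' hEE hOE' hO'
      -- left side
      have hm : pf w (insert e E') O (EvAQ mac x y B)
          = w e * pf w E' (insert e O) (EvAQ mac x y B) + (1 - w e) * pf w E' O (EvAQ mac x y B) :=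
        pf_insert w hE' _
      have hq : pf w (insert e E') O (EvQ mac B)
          = w e * pf w E' (insert e O) (EvQ mac B) + (1 - w e) * pf w E' O (EvQ mac B) :=
        pf_insert w hE' _
      have hl := neg_log_step (p := w e) (a := pf w E' (insert e O) (EvAQ mac x y B))
        (b := pf w E' O (EvAQ mac x y B)) (q := pf w E' (insert e O) (EvQ mac B))
        (r := pf w E' O (EvQ mac B)) hwe0 hwe (pf_nonneg h0' h1' _) (pf_nonneg h0' h1' _)
        (pf_EvAQ_le h0' h1') (pf_EvAQ_le h0' h1')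
      rw [← hm, ← hq] at hl
      -- right side
      have sx := Psi_step (w := w) hmac (x := x) (y := y) hE hE' hO h0 h1 he hOE
      have sy := Psi_step (w := w) hmac (x := y) (y := x) hE hE' hO h0 h1 he hOE
      have ey1 : pf w E' (insert e O) (EvAQ mac y x B) = pf w E' (insert e O) (EvAQ mac x y B) :=
        pf_congr (fun T _ => EvAQ_symm)
      have ey2 : pf w E' O (fun ω => EvAQ mac y x B ω ∧ ¬ tch e (cl ω {y}))
          = pf w E' O (fun ω => EvAQ mac x y B ω ∧ ¬ tch e (cl ω {y})) :=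
        pf_congr (fun T _ => by rw [EvAQ_symm])
      rw [ey1, ey2] at sy
      have htch : ∀ T : Finset (Sym2 V), tch e (cl (O ∪ T) B) := by
        intro T
        obtain ⟨u, hu, hu'⟩ := he
        exact ⟨u, hu, cl_mono Finset.subset_union_left _ hu'⟩
      have hau : pf w E' (insert e O) (EvAQ mac x y B)
          ≤ pf w E' O (fun ω => EvAQ mac x y B ω ∧ ¬ tch e (cl ω {x})) := by
        apply Ex_mono (fun e he => (h0' e he).le) (fun e he => (h1' e he).le)
        intro T _
        apply ind_mono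
        intro h
        rw [Finset.insert_union] at h
        obtain ⟨ha, hx, hy⟩ := close hmac (htch T) h
        exact ⟨ha, hx⟩
      have hav : pf w E' (insert e O) (EvAQ mac x y B)
          ≤ pf w E' O (fun ω => EvAQ mac x y B ω ∧ ¬ tch e (cl ω {y})) := by
        apply Ex_mono (fun e he => (h0' e he).le) (fun e he => (h1' e he).le)
        intro T _
        apply ind_mono
        intro h
        rw [Finset.insert_union] at h
        obtain ⟨ha, hx, hy⟩ := close hmac (htch T) h
        exact ⟨ha, hy⟩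
      have had : pf w E' (insert e O) (EvAQ mac x y B) ≤ pf w E' O (EvAQ mac x y B) :=
        hau.trans (pf_mono h0' h1' (fun _ _ h => h.1))
      have hloc := J_local (p := w e) hwe0 hwe (pf_nonneg h0' h1' _) had hau hav
        (pair_ineq hmac h0' h1' he)
      have hwe' : 0 < 1 - w e := by linarith
      have iho' := mul_le_mul_of_nonneg_left iho hwe0.le
      have ihc' := mul_le_mul_of_nonneg_left ihc hwe'.le
      nlinarith [iho', ihc', hl, sx, sy, hloc]
    · push Not at hex
      exact leaf hmac h0 h1 hE hO hex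

/-! ### the root -/

theorem Psi_root {w : Sym2 V → ℝ} {mac : Set V → Prop}
    (hmac : ∀ S T : Set V, S ⊆ T → mac S → mac T) {x y : V} {B : Set V} {E₀ : Finset (Sym2 V)}
    (h0 : ∀ e ∈ E₀, 0 < w e) (h1 : ∀ e ∈ E₀, w e < 1)
    (hpos : 0 < pf w E₀ ∅ (EvAQ mac x y B)) :
    Psi w mac x y B E₀ E₀ ∅ ≤
      pf w E₀ ∅ (EvAQ mac x y B) * Real.log (pf w E₀ ∅ (EvA mac x y))
        - phi (pf w E₀ ∅ (EvAQ mac x y B)) := by
  have hO : ∀ f ∈ (∅ : Finset (Sym2 V)), ∀ a ∈ f, a ∈ cl (∅ : Finset (Sym2 V)) B := by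
    intro f hf; exact absurd hf (Finset.notMem_empty f)
  have h0n : ∀ e ∈ E₀, 0 ≤ w e := fun e he => (h0 e he).le
  have h1n : ∀ e ∈ E₀, w e ≤ 1 := fun e he => (h1 e he).le
  set D : Set V → Prop := fun S => 0 < mS w mac x y B S E₀ ∅ with hD
  have hmS0 : ∀ S, 0 ≤ mS w mac x y B S E₀ ∅ := fun S => pf_nonneg h0 h1 _
  -- restriction to the relevant values
  have hPsi : Psi w mac x y B E₀ E₀ ∅ = ∑ S ∈ (idx x E₀).filter D, term w mac x y B E₀ S E₀ ∅ := by
    unfold Psi
    rw [Finset.sum_filter]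
    apply Finset.sum_congr rfl
    intro S _
    by_cases h : D S
    · rw [if_pos h]
    · rw [if_neg h]
      have hz : mS w mac x y B S E₀ ∅ = 0 := le_antisymm (not_lt.1 h) (hmS0 S)
      unfold term
      rw [hz, phi_zero]; ring
  have hm : ∑ S ∈ (idx x E₀).filter D, mS w mac x y B S E₀ ∅ = pf w E₀ ∅ (EvAQ mac x y B) := by
    have h2 : ∑ S ∈ (idx x E₀).filter D, mS w mac x y B S E₀ ∅
        = ∑ S ∈ (idx x E₀).filter (fun _ => True), mS w mac x y B S E₀ ∅ := by
      rw [Finset.sum_filter, Finset.sum_filter]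
      apply Finset.sum_congr rfl
      intro S _
      rw [if_pos trivial]
      by_cases h : D S
      · rw [if_pos h]
      · rw [if_neg h]
        exact le_antisymm (hmS0 S) (not_lt.1 h)
    rw [h2, sum_mS (Finset.Subset.refl E₀) (Finset.empty_subset E₀)]
    apply pf_congr
    intro T _
    simp
  have hcb0 : ∀ S, 0 ≤ cS w x S E₀ ∅ * bS w mac y S E₀ := by
    intro S
    apply mul_nonneg (pf_nonneg h0 h1 _)
    exact Ex_nonneg (fun e he => h0n e (Finset.mem_of_mem_filter e he))
      (fun e he => h1n e (Finset.mem_of_mem_filter e he)) (fun _ _ => ind_nonneg _)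
  have hle : ∀ S, mS w mac x y B S E₀ ∅ ≤ cS w x S E₀ ∅ * bS w mac y S E₀ :=
    fun S => mS_le hmac (Finset.Subset.refl E₀) h0 h1 hO
  -- the sum of `cS * bS`
  have hsum : ∑ S ∈ (idx x E₀).filter D, cS w x S E₀ ∅ * bS w mac y S E₀
      ≤ pf w E₀ ∅ (EvA mac x y) := by
    have h3 : ∑ S ∈ (idx x E₀).filter D, pf w E₀ ∅ (fun ω => EvA mac x y ω ∧ cl ω {x} = S)
        ≤ pf w E₀ ∅ (EvA mac x y) := by
      rw [sum_pf (Finset.Subset.refl E₀) (Finset.empty_subset E₀)]
      exact pf_mono h0 h1 (fun _ _ h => h.1)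
    refine le_trans (Finset.sum_le_sum ?_) h3
    intro S hS
    rw [Finset.mem_filter] at hS
    obtain ⟨T₀, hT₀, hA₀, hS₀⟩ := exists_of_pf_pos hS.2
    set f : Finset (Sym2 V) → ℝ := fun T => ind (cl (∅ ∪ (T ∩ E₀)) {x} = S) with hf
    set g : Finset (Sym2 V) → ℝ := fun T => ind (mac (cl (T ∩ off E₀ S) {y})) with hg
    have hgdep : DependsOn (off E₀ S) g := by
      intro T T' h
      simp only [hg]
      rw [h]
    have e1 : Ex E₀ w f = cS w x S E₀ ∅ := by
      unfold cS pf
      apply Ex_congr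
      intro T hT
      simp only [hf]
      rw [Finset.inter_eq_left.2 hT]
    have e2 : Ex E₀ w g = bS w mac y S E₀ := by
      unfold bS
      rw [Ex_marginal (Finset.filter_subset _ _) w hgdep]
      apply Ex_congr
      intro T hT
      simp only [hg]
      rw [Finset.inter_eq_left.2 (show T ⊆ off E₀ S from hT)]
    have step2 : Ex E₀ w (fun T => f T * g T) = Ex E₀ w f * Ex E₀ w g :=
      Ex_mul_of_disjoint (D₁ := E₀.filter (fun e => tch e S)) (D₂ := off E₀ S)
        (Finset.filter_subset _ _) (Finset.filter_subset _ _)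
        (Finset.disjoint_filter_filter_not _ _ _) w dependsOn_cl hgdep
    rw [← e1, ← e2, ← step2]
    unfold pf
    apply Ex_mono h0n h1n
    intro T hT
    have hTE : T ∩ E₀ = T := Finset.inter_eq_left.2 hT
    simp only [hf, hg]
    rw [← ind_and]
    apply ind_mono
    rintro ⟨h1, h2⟩
    rw [hTE] at h1
    refine ⟨⟨?_, ?_, ?_⟩, h1⟩
    · rw [h1, ← hS₀]
      exact hA₀.1.1
    · apply hmac _ _ _ h2
      apply cl_mono
      exact Finset.inter_subset_left.trans Finset.subset_union_right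
    · intro hxy
      rw [← mem_cl_single, h1, ← hS₀, mem_cl_single] at hxy
      exact hA₀.1.2.2 hxy
  have hlog := log_sum ((idx x E₀).filter D) (fun S => mS w mac x y B S E₀ ∅)
    (fun S => cS w x S E₀ ∅ * bS w mac y S E₀) (fun S _ => hmS0 S) (fun S _ => hcb0 S)
    (fun S _ h => lt_of_lt_of_le h (hle S))
  rw [hm] at hlog
  have hneg : ∑ S ∈ (idx x E₀).filter D, (phi (mS w mac x y B S E₀ ∅)
      - mS w mac x y B S E₀ ∅ * Real.log (cS w x S E₀ ∅ * bS w mac y S E₀))
      = - Psi w mac x y B E₀ E₀ ∅ := by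
    rw [hPsi, ← Finset.sum_neg_distrib]
    apply Finset.sum_congr rfl
    intro S _
    unfold term
    ring
  rw [hneg] at hlog
  have hmle : pf w E₀ ∅ (EvAQ mac x y B) ≤ ∑ S ∈ (idx x E₀).filter D, cS w x S E₀ ∅ * bS w mac y S E₀ := by
    rw [← hm]
    exact Finset.sum_le_sum (fun S _ => hle S)
  have hll := Real.log_le_log (lt_of_lt_of_le hpos hmle) hsum
  have := mul_le_mul_of_nonneg_left hll hpos.le
  linarith

/-- **The dust theorem**: if `B` meets no macroscopic cluster, then two distinct macroscopic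
clusters at `x`, `y` are unlikely.  `P(A ∩ Q)^4 ≤ P(Q) P(A)^4`. -/
theorem dust (E : Finset (Sym2 V)) (w : Sym2 V → ℝ)
    (hw0 : ∀ e ∈ E, 0 < w e) (hw1 : ∀ e ∈ E, w e < 1) (mac : Set V → Prop)
    (hmac : ∀ S T : Set V, S ⊆ T → mac S → mac T) (x y : V) (B : Set V) :
    Pr E w (fun ω => (mac (cl ω {x}) ∧ mac (cl ω {y}) ∧ ¬ conn ω x y) ∧
        ∀ b ∈ B, ¬ mac (cl ω {b})) ^ 4
      ≤ Pr E w (fun ω => ∀ b ∈ B, ¬ mac (cl ω {b})) *
          Pr E w (fun ω => mac (cl ω {x}) ∧ mac (cl ω {y}) ∧ ¬ conn ω x y) ^ 4 := by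
  have em : Pr E w (fun ω => (mac (cl ω {x}) ∧ mac (cl ω {y}) ∧ ¬ conn ω x y) ∧
      ∀ b ∈ B, ¬ mac (cl ω {b})) = pf w E ∅ (EvAQ mac x y B) := by
    unfold Pr pf
    apply Ex_congr
    intro T _
    rw [Finset.empty_union]
    rfl
  have eq : Pr E w (fun ω => ∀ b ∈ B, ¬ mac (cl ω {b})) = pf w E ∅ (EvQ mac B) := by
    unfold Pr pf
    apply Ex_congr
    intro T _
    rw [Finset.empty_union]
    rfl
  have eA : Pr E w (fun ω => mac (cl ω {x}) ∧ mac (cl ω {y}) ∧ ¬ conn ω x y)
      = pf w E ∅ (EvA mac x y) := by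
    unfold Pr pf
    apply Ex_congr
    intro T _
    rw [Finset.empty_union]
    rfl
  rw [em, eq, eA]
  have hm0 : 0 ≤ pf w E ∅ (EvAQ mac x y B) := pf_nonneg hw0 hw1 _
  have hq0 : 0 ≤ pf w E ∅ (EvQ mac B) := pf_nonneg hw0 hw1 _
  have hA0 : 0 ≤ pf w E ∅ (EvA mac x y) := pf_nonneg hw0 hw1 _
  rcases hm0.eq_or_lt with hz | hpos
  · rw [← hz]
    have : (0 : ℝ) ^ 4 = 0 := by norm_num
    rw [this]
    positivity
  have hmq : pf w E ∅ (EvAQ mac x y B) ≤ pf w E ∅ (EvQ mac B) := pf_EvAQ_le hw0 hw1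
  have hmA : pf w E ∅ (EvAQ mac x y B) ≤ pf w E ∅ (EvA mac x y) :=
    pf_mono hw0 hw1 (fun _ _ h => h.1)
  have hq : 0 < pf w E ∅ (EvQ mac B) := lt_of_lt_of_le hpos hmq
  have hA : 0 < pf w E ∅ (EvA mac x y) := lt_of_lt_of_le hpos hmA
  have key := main_ind (w := w) hmac (x := x) (y := y) (B := B) hw0 hw1 E.card E ∅ rfl
    (Finset.Subset.refl E) (Finset.empty_subset E)
    (fun f hf => absurd hf (Finset.notMem_empty f))
  have r1 := Psi_root (w := w) hmac (x := x) (y := y) (B := B) hw0 hw1 hpos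
  have es : pf w E ∅ (EvAQ mac y x B) = pf w E ∅ (EvAQ mac x y B) :=
    pf_congr (fun T _ => EvAQ_symm)
  have eA' : pf w E ∅ (EvA mac y x) = pf w E ∅ (EvA mac x y) :=
    pf_congr (fun T _ => EvA_symm)
  have r2 := Psi_root (w := w) hmac (x := y) (y := x) (B := B) hw0 hw1 (by rw [es]; exact hpos)
  rw [es, eA'] at r2
  set m := pf w E ∅ (EvAQ mac x y B)
  set q := pf w E ∅ (EvQ mac B)
  set A := pf w E ∅ (EvA mac x y)
  have k1 : m * (4 * Real.log m) ≤ m * (Real.log q + 4 * Real.log A) := by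
    unfold phi at r1 r2
    nlinarith
  have k2 : 4 * Real.log m ≤ Real.log q + 4 * Real.log A := le_of_mul_le_mul_left k1 hpos
  have k3 : Real.log (m ^ 4) ≤ Real.log (q * A ^ 4) := by
    rw [Real.log_mul hq.ne' (by positivity), Real.log_pow, Real.log_pow]
    push_cast
    exact k2
  exact (Real.log_le_log_iff (by positivity) (by positivity)).1 k3

end Crest.Agent.R147.Dust
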