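import Mathlib

/-!
# Elementary entropy inequalities for the DUST theorem (helper326 #7042)
-/

set_option autoImplicit false

open Finset

namespace Crest.Agent.R147.Dust647

/-- `r log r ≥ (r² - 1)/2` for `0 ≤ r ≤ 1` -/
theorem mul_log_ge {r : ℝ} (h0 : 0 < r) (h1 : r ≤ 1) : (r ^ 2 - 1) / 2 ≤ r * Real.log r := by
  have hy : 0 ≤ - Real.log r := by
    have := Real.log_nonpos h0.le h1
    linarith
  have h := Real.self_le_sinh_iff.2 hy
  rw [Real.sinh_eq, neg_neg, Real.exp_neg, Real.exp_log h0] at h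
  have h2 : r * (- Real.log r) ≤ r * ((r⁻¹ - r) / 2) := mul_le_mul_of_nonneg_left h h0.le
  have h3 : r * ((r⁻¹ - r) / 2) = (1 - r ^ 2) / 2 := by
    field_simp
  rw [h3] at h2
  linarith

/-- `b log b - b log N ≥ b - N` for `b, N > 0` -/
theorem mul_log_sub_ge {b N : ℝ} (hb : 0 < b) (hN : 0 < N) :
    b - N ≤ b * Real.log b - b * Real.log N := by
  have h := Real.log_le_sub_one_of_pos (div_pos hN hb)
  rw [Real.log_div hN.ne' hb.ne'] at h
  have h2 := mul_le_mul_of_nonneg_left h hb.le
  have h3 : b * (N / b - 1) = N - b := by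
    field_simp
  rw [h3] at h2
  linarith

/-- `b log b - b log N ≤ b (b - N) / N` for `b ≥ 0, N > 0` -/
theorem mul_log_sub_le {b N : ℝ} (hb : 0 ≤ b) (hN : 0 < N) :
    b * Real.log b - b * Real.log N ≤ b * (b - N) / N := by
  rcases hb.eq_or_lt with rfl | hb
  · simp
  have h := Real.log_le_sub_one_of_pos (div_pos hb hN)
  rw [Real.log_div hb.ne' hN.ne'] at h
  have h2 := mul_le_mul_of_nonneg_left h hb.le
  have h3 : b * (b / N - 1) = b * (b - N) / N := by
    field_simp
  rw [h3] at h2
  linarith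

/-- entropy of a two point split -/
noncomputable def KK (p a b : ℝ) : ℝ :=
  p * (a * Real.log a) + (1 - p) * (b * Real.log b)
    - (p * a + (1 - p) * b) * Real.log (p * a + (1 - p) * b)

theorem KK_lower {p a b N : ℝ} (hp0 : 0 ≤ p) (hp1 : p < 1) (ha : 0 ≤ a) (hab : a ≤ b)
    (hN : N = p * a + (1 - p) * b) : p * (N - a) ^ 2 / (2 * N) ≤ KK p a b := by
  have hb : 0 ≤ b := ha.trans hab
  have hp1' : 0 < 1 - p := by linarith
  have hN0 : 0 ≤ N := by rw [hN]; positivity
  have haN : a ≤ N := by
    rw [hN]; nlinarith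
  have hNb : N ≤ b := by
    rw [hN]; nlinarith
  rcases hN0.eq_or_lt with hz | hNpos
  · have hb0 : b = 0 := by
      have h1 : (1 - p) * b ≤ 0 := by
        have : 0 ≤ p * a := by positivity
        linarith
      by_contra hne
      have : 0 < (1 - p) * b := mul_pos hp1' (lt_of_le_of_ne hb (Ne.symm hne))
      linarith
    have ha0 : a = 0 := le_antisymm (by rw [← hb0]; exact hab) ha
    unfold KK
    rw [← hz, ha0, hb0]
    simp
  have hbpos : 0 < b := lt_of_lt_of_le hNpos hNb
  have h1 : b - N ≤ b * Real.log b - b * Real.log N := mul_log_sub_ge hbpos hNpos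
  have h2 : (a - N) + (N - a) ^ 2 / (2 * N) ≤ a * Real.log a - a * Real.log N := by
    rcases ha.eq_or_lt with ha0 | hapos
    · rw [← ha0]
      simp
      have : N ^ 2 / (2 * N) = N / 2 := by
        field_simp
      rw [this]; linarith
    · have h3 := mul_log_ge (div_pos hapos hNpos) ((div_le_one hNpos).2 haN)
      rw [Real.log_div hapos.ne' hNpos.ne'] at h3
      have h4 := mul_le_mul_of_nonneg_left h3 hNpos.le
      have h5 : N * (a / N * (Real.log a - Real.log N)) = a * Real.log a - a * Real.log N := by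
        field_simp
      have h6 : N * (((a / N) ^ 2 - 1) / 2) = (a - N) + (N - a) ^ 2 / (2 * N) := by
        field_simp
        ring
      rw [h5, h6] at h4
      exact h4
  have h7 : KK p a b = p * (a * Real.log a - a * Real.log N)
      + (1 - p) * (b * Real.log b - b * Real.log N) := by
    unfold KK
    rw [← hN, hN]
    ring_nf
  rw [h7]
  have h8 := mul_le_mul_of_nonneg_left h2 hp0
  have h9 := mul_le_mul_of_nonneg_left h1 hp1'.le
  have h10 : p * (N - a) ^ 2 / (2 * N) = p * ((a - N) + (N - a) ^ 2 / (2 * N))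
      + (1 - p) * (b - N) := by
    have : p * (a - N) + (1 - p) * (b - N) = 0 := by rw [hN]; ring
    calc p * (N - a) ^ 2 / (2 * N) = p * ((N - a) ^ 2 / (2 * N)) := by ring
      _ = p * ((N - a) ^ 2 / (2 * N)) + (p * (a - N) + (1 - p) * (b - N)) := by
          rw [this, add_zero]
      _ = _ := by ring
  rw [h10]
  linarith

theorem KK_upper {p a b N : ℝ} (hp0 : 0 ≤ p) (hp1 : p < 1) (ha : 0 ≤ a) (hb : 0 ≤ b)
    (hN : N = p * a + (1 - p) * b) : KK p a b ≤ p * (N - a) ^ 2 / ((1 - p) * N) := by
  have hp1' : 0 < 1 - p := by linarith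
  have hN0 : 0 ≤ N := by rw [hN]; positivity
  rcases hN0.eq_or_lt with hz | hNpos
  · have hpa : p * a = 0 := by
      have h1 : 0 ≤ p * a := by positivity
      have h2 : 0 ≤ (1 - p) * b := by positivity
      linarith
    have hb0 : (1 - p) * b = 0 := by
      have h1 : 0 ≤ p * a := by positivity
      have h2 : 0 ≤ (1 - p) * b := by positivity
      linarith
    unfold KK
    rw [← mul_assoc, ← mul_assoc, hpa, hb0, ← hz]
    simp
  have h1 := mul_log_sub_le ha hNpos
  have h2 := mul_log_sub_le hb hNpos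
  have h7 : KK p a b = p * (a * Real.log a - a * Real.log N)
      + (1 - p) * (b * Real.log b - b * Real.log N) := by
    unfold KK
    rw [← hN, hN]
    ring_nf
  rw [h7]
  have h8 := mul_le_mul_of_nonneg_left h1 hp0
  have h9 := mul_le_mul_of_nonneg_left h2 hp1'.le
  have h10 : p * (a * (a - N) / N) + (1 - p) * (b * (b - N) / N)
      = p * (N - a) ^ 2 / ((1 - p) * N) := by
    have e1 : N - a = (1 - p) * (b - a) := by rw [hN]; ring
    rw [e1]
    have e2 : p * (a * (a - N)) + (1 - p) * (b * (b - N)) = p * (1 - p) * (b - a) ^ 2 := by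
      rw [hN]; ring
    have e3 : p * (a * (a - N) / N) + (1 - p) * (b * (b - N) / N)
        = (p * (a * (a - N)) + (1 - p) * (b * (b - N))) / N := by ring
    rw [e3, e2]
    field_simp
  linarith

/-- log-sum inequality -/
theorem log_sum {ι : Type*} (s : Finset ι) (a b : ι → ℝ) (ha : ∀ i ∈ s, 0 ≤ a i)
    (hb : ∀ i ∈ s, 0 ≤ b i) (hab : ∀ i ∈ s, a i ≠ 0 → b i ≠ 0) :
    ∑ i ∈ s, a i * (Real.log (b i) - Real.log (a i))
      ≤ (∑ i ∈ s, a i) * (Real.log (∑ i ∈ s, b i) - Real.log (∑ i ∈ s, a i)) := by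
  have hA0 : 0 ≤ ∑ i ∈ s, a i := Finset.sum_nonneg ha
  rcases hA0.eq_or_lt with hz | hApos
  · rw [← hz, zero_mul]
    have : ∀ i ∈ s, a i = 0 := (Finset.sum_eq_zero_iff_of_nonneg ha).1 hz.symm
    rw [Finset.sum_eq_zero]
    intro i hi
    rw [this i hi, zero_mul]
  have hBpos : 0 < ∑ i ∈ s, b i := by
    have hne : ∃ i ∈ s, a i ≠ 0 := by
      by_contra h
      push Not at h
      rw [Finset.sum_eq_zero h] at hApos
      exact lt_irrefl _ hApos
    obtain ⟨i, hi, hai⟩ := hne
    exact lt_of_lt_of_le (lt_of_le_of_ne (hb i hi) (Ne.symm (hab i hi hai)))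
      (Finset.single_le_sum hb hi)
  set A := ∑ i ∈ s, a i with hA
  set Bb := ∑ i ∈ s, b i with hBb
  have key : ∀ i ∈ s, a i * (Real.log (b i) - Real.log (a i))
      ≤ a i * (Real.log Bb - Real.log A) + (b i * (A / Bb) - a i) := by
    intro i hi
    rcases (ha i hi).eq_or_lt with h0 | hpos
    · rw [← h0]
      simp
      exact mul_nonneg (hb i hi) (div_nonneg hApos.le hBpos.le)
    · have hbpos : 0 < b i := lt_of_le_of_ne (hb i hi) (Ne.symm (hab i hi hpos.ne'))
      have hx : 0 < (b i * A) / (a i * Bb) := by positivity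
      have h := Real.log_le_sub_one_of_pos hx
      rw [Real.log_div (by positivity) (by positivity), Real.log_mul hbpos.ne' hApos.ne',
        Real.log_mul hpos.ne' hBpos.ne'] at h
      have h2 := mul_le_mul_of_nonneg_left h hpos.le
      have h3 : a i * (b i * A / (a i * Bb) - 1) = b i * (A / Bb) - a i := by
        field_simp
      rw [h3] at h2
      nlinarith
  refine (Finset.sum_le_sum key).trans ?_
  rw [Finset.sum_add_distrib, ← Finset.sum_mul, Finset.sum_sub_distrib, ← Finset.sum_mul, ← hA,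
    ← hBb]
  have : Bb * (A / Bb) - A = 0 := by
    field_simp
    ring
  rw [this, add_zero]

/-- Donsker–Varadhan for a two point split: `N log (1/ζ)` is at most the mean of its children
plus the entropy of the split. -/
theorem dv {p a b N za zb z : ℝ} (hp0 : 0 ≤ p) (hp1 : p < 1) (ha : 0 ≤ a) (hb : 0 ≤ b)
    (haz : a ≤ za) (hbz : b ≤ zb) (hN : N = p * a + (1 - p) * b)
    (hz : z = p * za + (1 - p) * zb) :
    N * (- Real.log z) ≤ p * (a * (- Real.log za)) + (1 - p) * (b * (- Real.log zb))
      + KK p a b := by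
  have hp1' : 0 < 1 - p := by linarith
  have hza : 0 ≤ za := ha.trans haz
  have hzb : 0 ≤ zb := hb.trans hbz
  have h := log_sum (Finset.univ : Finset (Fin 2)) ![p * a, (1 - p) * b] ![p * za, (1 - p) * zb]
    (by
      intro i _
      fin_cases i
      · simp; positivity
      · simp; positivity)
    (by
      intro i _
      fin_cases i
      · simp; positivity
      · simp; positivity)
    (by
      intro i _
      fin_cases i
      · simp only [Fin.zero_eta, Matrix.cons_val_zero, ne_eq, mul_eq_zero, not_or]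
        rintro ⟨h1, h2⟩
        exact ⟨h1, fun h3 => h2 (le_antisymm (by rw [← h3]; exact haz) ha)⟩
      · simp only [Fin.mk_one, Matrix.cons_val_one, Matrix.cons_val_fin_one, ne_eq, mul_eq_zero,
          not_or]
        rintro ⟨h1, h2⟩
        exact ⟨h1, fun h3 => h2 (le_antisymm (by rw [← h3]; exact hbz) hb)⟩)
  simp only [Fin.sum_univ_two, Matrix.cons_val_zero, Matrix.cons_val_one,
    Matrix.cons_val_fin_one] at h
  rw [← hN, ← hz] at h
  have e1 : p * a * (Real.log (p * za) - Real.log (p * a))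
      = p * (a * (Real.log za - Real.log a)) := by
    rcases hp0.eq_or_lt with h0 | hp
    · rw [← h0]; simp
    rcases ha.eq_or_lt with h0 | hapos
    · rw [← h0]; simp
    rw [Real.log_mul hp.ne' (lt_of_lt_of_le hapos haz).ne', Real.log_mul hp.ne' hapos.ne']
    ring
  have e2 : (1 - p) * b * (Real.log ((1 - p) * zb) - Real.log ((1 - p) * b))
      = (1 - p) * (b * (Real.log zb - Real.log b)) := by
    rcases hb.eq_or_lt with h0 | hbpos
    · rw [← h0]; simp
    rw [Real.log_mul hp1'.ne' (lt_of_lt_of_le hbpos hbz).ne', Real.log_mul hp1'.ne' hbpos.ne']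
    ring
  rw [e1, e2] at h
  unfold KK
  rw [← hN]
  nlinarith

end Crest.Agent.R147.Dust647
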