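import Crest.Agent.R147.KN.LemW
import Crest.Agent.R147.Dust647Log

/-!
# The DUST theorem for independent bond percolation (helper326 #7042, part (1))

`G : HG V E` with `(G.inc e).card ≤ 2` for `e ∈ Ω` (bonds), `p e ≤ pm < 1`.
`M` : an increasing family of vertex sets ("macroscopic").
`A S` : `x` and `y` lie in two different macroscopic clusters of the configuration `S`.
`Q` : decreasing event determined by the exploration of the cluster of `B`, and such that on
`A ∩ Q` neither `x` nor `y` belongs to the cluster of `B`.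
Then `P(A ∩ Q) ≤ P(Q) ^ ((1 - pm) / 8) * P(A)`.

Concrete instance `dust`: `Q = {no cluster meeting B is macroscopic}`.

The proof is an edge exploration of the cluster of `B`; all relative entropies are written with
finite sums.
-/

set_option autoImplicit false
set_option linter.unusedSectionVars false

open Finset

namespace Crest.Agent.R147.Dust647

open Crest.Agent.R147.KN

/-! ### indicators -/

open Classical in
/-- indicator of a proposition -/
noncomputable def ind (P : Prop) : ℝ := if P then 1 else 0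

theorem ind_true {P : Prop} (h : P) : ind P = 1 := by simp [ind, h]

theorem ind_false {P : Prop} (h : ¬ P) : ind P = 0 := by simp [ind, h]

theorem ind_nonneg (P : Prop) : 0 ≤ ind P := by
  by_cases h : P
  · rw [ind_true h]; exact zero_le_one
  · rw [ind_false h]

theorem ind_le_one (P : Prop) : ind P ≤ 1 := by
  by_cases h : P
  · rw [ind_true h]
  · rw [ind_false h]; exact zero_le_one

theorem ind_mono {P P' : Prop} (h : P → P') : ind P ≤ ind P' := by
  by_cases hP : P
  · rw [ind_true hP, ind_true (h hP)]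
  · rw [ind_false hP]; exact ind_nonneg _

theorem ind_congr {P P' : Prop} (h : P ↔ P') : ind P = ind P' :=
  le_antisymm (ind_mono h.1) (ind_mono h.2)

theorem ind_and (P P' : Prop) : ind (P ∧ P') = ind P * ind P' := by
  by_cases hP : P
  · by_cases hP' : P'
    · rw [ind_true hP, ind_true hP', ind_true ⟨hP, hP'⟩, one_mul]
    · rw [ind_false hP', mul_zero, ind_false (fun h => hP' h.2)]
  · rw [ind_false hP, zero_mul, ind_false (fun h => hP h.1)]

variable {V E : Type*} [DecidableEq V] [DecidableEq E] [Fintype V] (G : HG V E)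

theorem sum_ind_eq {W : Prop} (a : Finset V) (s : Finset (Finset V)) :
    ∑ T ∈ s, ind (W ∧ a = T) = ind (W ∧ a ∈ s) := by
  classical
  by_cases hW : W
  · by_cases ha : a ∈ s
    · rw [ind_true ⟨hW, ha⟩, Finset.sum_eq_single a]
      · rw [ind_true ⟨hW, rfl⟩]
      · intro T _ hT
        exact ind_false (fun h => hT h.2.symm)
      · intro h; exact absurd ha h
    · rw [ind_false (fun h => ha h.2), Finset.sum_eq_zero]
      intro T hT
      refine ind_false ?_
      rintro ⟨_, rfl⟩
      exact ha hT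
  · rw [ind_false (fun h => hW h.1), Finset.sum_eq_zero]
    intro T _
    exact ind_false (fun h => hW h.1)

/-! ### states of the exploration -/

/-- probability of `W` when the edges of `H` are open, those of `F` random, all others closed -/
noncomputable def pr (H F : Finset E) (W : Finset E → Prop) : ℝ :=
  G.ex F (fun ω => ind (W (H ∪ ω)))

theorem pr_nonneg (H F : Finset E) (W : Finset E → Prop) : 0 ≤ pr G H F W :=
  G.ex_nonneg fun _ _ => ind_nonneg _

theorem pr_le_one (H F : Finset E) (W : Finset E → Prop) : pr G H F W ≤ 1 :=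
  G.ex_le_of_le fun _ _ => ind_le_one _

theorem pr_mono {H F : Finset E} {W W' : Finset E → Prop}
    (h : ∀ ω, ω ⊆ F → W (H ∪ ω) → W' (H ∪ ω)) : pr G H F W ≤ pr G H F W' :=
  G.ex_mono fun ω hω => ind_mono (h ω hω)

theorem pr_congr {H F : Finset E} {W W' : Finset E → Prop}
    (h : ∀ ω, ω ⊆ F → (W (H ∪ ω) ↔ W' (H ∪ ω))) : pr G H F W = pr G H F W' :=
  G.ex_congr fun ω hω => ind_congr (h ω hω)

theorem pr_insert {H F : Finset E} {e : E} (he : e ∉ F) (W : Finset E → Prop) :
    pr G H (insert e F) W = G.p e * pr G (insert e H) F W + (1 - G.p e) * pr G H F W := by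
  unfold pr
  rw [G.ex_insert he, add_comm]
  congr 2
  refine G.ex_congr fun ω _ => ?_
  rw [Finset.insert_union, ← Finset.union_insert]

/-- the opening of an edge -/
theorem pr_step_le {H F : Finset E} {e : E} {W W' : Finset E → Prop}
    (h : ∀ ω, ω ⊆ F → W (insert e (H ∪ ω)) → W' (H ∪ ω)) :
    pr G (insert e H) F W ≤ pr G H F W' := by
  unfold pr
  refine G.ex_mono fun ω hω => ind_mono ?_
  rw [Finset.insert_union]
  exact h ω hω

theorem sum_pr (H F : Finset E) (W : Finset E → Prop) (f : Finset E → Finset V)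
    (s : Finset (Finset V)) :
    ∑ T ∈ s, pr G H F (fun S => W S ∧ f S = T) = pr G H F (fun S => W S ∧ f S ∈ s) := by
  unfold pr
  rw [← G.ex_sum]
  exact G.ex_congr fun ω _ => sum_ind_eq _ _

theorem sum_pr_univ (H F : Finset E) (W : Finset E → Prop) (f : Finset E → Finset V) :
    ∑ T : Finset V, pr G H F (fun S => W S ∧ f S = T) = pr G H F W := by
  rw [sum_pr]
  exact pr_congr G fun ω _ => ⟨fun h => h.1, fun h => ⟨h, Finset.mem_univ _⟩⟩

/-! ### cluster lemmas -/

theorem cl_insert_eq_iff {S : Finset E} {D T : Finset V} {e : E} (h : Disjoint (G.inc e) T) :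
    G.cl (insert e S) D = T ↔ G.cl S D = T := by
  have h2 : ({e} : Finset E) ⊆ G.off {e} T := by
    intro e' he'
    rw [Finset.mem_singleton] at he'
    rw [he', G.mem_off]
    exact ⟨Finset.mem_singleton_self e, h⟩
  have := G.cl_union_eq_iff (D := D) (S₁ := S) h2
  rwa [Finset.union_comm, ← Finset.insert_eq] at this

/-- if `H` consists of edges disjoint from `T`, then it does not matter for `cl = T` -/
theorem cl_union_left_eq_iff {H ω : Finset E} {D T : Finset V}
    (h : ∀ e ∈ H, Disjoint (G.inc e) T) : G.cl (H ∪ ω) D = T ↔ G.cl ω D = T := by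
  have h2 : H ⊆ G.off H T := by
    intro e he
    rw [G.mem_off]
    exact ⟨he, h e he⟩
  have := G.cl_union_eq_iff (D := D) (S₁ := ω) h2
  rwa [Finset.union_comm] at this

theorem disj_of_notMem {S : Finset E} {a : V} {B : Finset V} (h : a ∉ G.cl S B) :
    Disjoint (G.cl S {a}) (G.cl S B) :=
  G.disj_cl_of_sat (G.sat_cl S B) (by rwa [Finset.disjoint_singleton_left])

/-! ### one pole -/

/-- mass of `W` with `C(a) = T` -/
noncomputable def nX (W : Finset E → Prop) (a : V) (H F : Finset E) (T : Finset V) : ℝ :=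
  pr G H F (fun S => W S ∧ G.cl S {a} = T)

/-- probability that the cluster of `a` is `T` -/
noncomputable def cX (a : V) (F : Finset E) (T : Finset V) : ℝ :=
  G.ex F (fun ω => ind (G.cl ω {a} = T))

/-- one term of the relative entropy -/
noncomputable def tX (W : Finset E → Prop) (m : Finset V → ℝ) (a : V) (H F : Finset E)
    (T : Finset V) : ℝ :=
  nX G W a H F T * (Real.log (cX G a F T) + Real.log (m T) - Real.log (nX G W a H F T))

/-- the relative entropy -/
noncomputable def TX (W : Finset E → Prop) (m : Finset V → ℝ) (a : V) (H F : Finset E) : ℝ :=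
  ∑ T : Finset V, tX G W m a H F T

theorem nX_nonneg (W : Finset E → Prop) (a : V) (H F : Finset E) (T : Finset V) :
    0 ≤ nX G W a H F T := pr_nonneg _ _ _ _

theorem cX_nonneg (a : V) (F : Finset E) (T : Finset V) :
    0 ≤ cX G a F T := G.ex_nonneg fun _ _ => ind_nonneg _

/-- a state: the open explored edges lie in the cluster of `B` -/
def Inv (B : Finset V) (H : Finset E) : Prop := ∀ e ∈ H, G.inc e ⊆ G.cl H B

theorem inv_insert {B : Finset V} {H : Finset E} (h : Inv G B H) {e : E}
    (he : ¬ Disjoint (G.inc e) (G.cl H B)) : Inv G B (insert e H) := by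
  intro e' he'
  rcases Finset.mem_insert.1 he' with rfl | he'
  · rcases G.sat_cl (insert e' H) B e' (Finset.mem_insert_self _ _) with h1 | h1
    · exact h1
    · exact absurd (Finset.disjoint_of_subset_right
        (G.cl_mono (Finset.subset_insert _ _) (Finset.Subset.refl _)) h1) he
  · exact (h e' he').trans (G.cl_mono (Finset.subset_insert _ _) (Finset.Subset.refl _))

theorem nX_le_cX {W : Finset E → Prop} {a : V} {B : Finset V} {H : Finset E} (F : Finset E)
    (hH : Inv G B H) (hW : ∀ S, W S → a ∉ G.cl S B) (T : Finset V) :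
    nX G W a H F T ≤ cX G a F T := by
  unfold nX pr cX
  refine G.ex_mono fun ω _ => ind_mono ?_
  rintro ⟨h1, h2⟩
  have hd := disj_of_notMem G (hW _ h1)
  rw [h2] at hd
  refine (cl_union_left_eq_iff G ?_).1 h2
  intro e he
  refine (Finset.disjoint_of_subset_right ?_ hd).symm
  exact (hH e he).trans (G.cl_mono Finset.subset_union_left (Finset.Subset.refl _))

/-- `cX` does not see an edge disjoint from `T` -/
theorem cX_insert_disj {a : V} {F : Finset E} {T : Finset V} {e : E} (he : e ∉ F)
    (h : Disjoint (G.inc e) T) : cX G a (insert e F) T = cX G a F T := by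
  unfold cX
  rw [G.ex_insert he]
  have : G.ex F (fun ω => ind (G.cl (insert e ω) {a} = T)) = G.ex F (fun ω => ind (G.cl ω {a} = T)) :=
    G.ex_congr fun ω _ => ind_congr (cl_insert_eq_iff G h)
  rw [this]; ring

/-- an edge touching `T` but not inside must be closed -/
theorem cX_insert_touch {a : V} {F : Finset E} {T : Finset V} {e : E} (he : e ∉ F)
    (h : ¬ Disjoint (G.inc e) T) (h' : ¬ G.inc e ⊆ T) :
    cX G a (insert e F) T = (1 - G.p e) * cX G a F T := by
  unfold cX
  rw [G.ex_insert he]
  have : G.ex F (fun ω => ind (G.cl (insert e ω) {a} = T)) = G.ex F (fun _ => 0) := by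
    refine G.ex_congr fun ω _ => ind_false ?_
    rintro rfl
    rcases G.sat_cl (insert e ω) {a} e (Finset.mem_insert_self _ _) with h1 | h1
    · exact h' h1
    · exact h h1
  rw [this, G.ex_const]; ring

/-- the step of the exploration for one term -/
theorem tX_step {W : Finset E → Prop} {a : V} {B : Finset V} {H F : Finset E} {e : E}
    (m : Finset V → ℝ) (he : e ∉ F) (hH : Inv G B H) (heH : ¬ Disjoint (G.inc e) (G.cl H B))
    (hW : ∀ S, W S → a ∉ G.cl S B)
    (hWe : ∀ η, H ⊆ η → W (insert e η) → W η) (T : Finset V) :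
    G.p e * tX G W m a (insert e H) F T + (1 - G.p e) * tX G W m a H F T
      + G.p e * (if Disjoint (G.inc e) T then
          (nX G W a H (insert e F) T - nX G W a (insert e H) F T) ^ 2
            / (2 * nX G W a H (insert e F) T) else 0)
      ≤ tX G W m a H (insert e F) T := by
  have hp0 := G.p_nonneg e
  have hp1 := G.p_lt e
  have hp1' : 0 < 1 - G.p e := by linarith
  have hN := pr_insert G (H := H) he (fun S => W S ∧ G.cl S {a} = T)
  change nX G W a H (insert e F) T = G.p e * nX G W a (insert e H) F T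
    + (1 - G.p e) * nX G W a H F T at hN
  by_cases hd : Disjoint (G.inc e) T
  · rw [if_pos hd]
    have hle : nX G W a (insert e H) F T ≤ nX G W a H F T := by
      refine pr_step_le G ?_
      rintro ω _ ⟨h1, h2⟩
      exact ⟨hWe _ Finset.subset_union_left h1, (cl_insert_eq_iff G hd).1 h2⟩
    have hK := KK_lower hp0 hp1 (nX_nonneg G W a (insert e H) F T) hle hN
    have hc := cX_insert_disj G (a := a) he hd
    unfold tX
    rw [hc]
    unfold KK at hK
    rw [← hN] at hK
    set N := nX G W a H (insert e F) T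
    set Np := nX G W a (insert e H) F T
    set Nm := nX G W a H F T
    set L := Real.log (cX G a F T) + Real.log (m T)
    have h1 : N * (L - Real.log N) = (G.p e * Np + (1 - G.p e) * Nm) * L - N * Real.log N := by
      rw [← hN]; ring
    rw [h1]
    have h2 : G.p e * ((N - Np) ^ 2 / (2 * N)) = G.p e * (N - Np) ^ 2 / (2 * N) := by ring
    rw [h2]
    nlinarith
  · rw [if_neg hd, mul_zero, add_zero]
    -- no mass for `e` open
    have hmem : ∀ (η : Finset E), H ⊆ η → W η → G.cl η {a} = T → ¬ G.inc e ⊆ T := by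
      intro η hη h1 h2 h3
      obtain ⟨u, hu, huR⟩ := Finset.not_disjoint_iff.1 heH
      have hdd := disj_of_notMem G (hW _ h1)
      rw [h2] at hdd
      exact Finset.disjoint_left.1 hdd (h3 hu)
        (G.cl_mono hη (Finset.Subset.refl _) huR)
    have hNp : nX G W a (insert e H) F T = 0 := by
      unfold nX pr
      rw [← G.ex_const F 0]
      refine G.ex_congr fun ω _ => ind_false ?_
      rintro ⟨h1, h2⟩
      have hsub : H ⊆ insert e H ∪ ω :=
        (Finset.subset_insert _ _).trans Finset.subset_union_left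
      refine hmem _ hsub h1 h2 ?_
      rcases G.sat_cl (insert e H ∪ ω) {a} e
        (Finset.mem_union_left _ (Finset.mem_insert_self _ _)) with h3 | h3
      · rwa [h2] at h3
      · rw [h2] at h3; exact absurd h3 hd
    rw [hNp, mul_zero, zero_add] at hN
    by_cases hz : nX G W a H F T = 0
    · unfold tX
      rw [hN, hNp, hz]
      simp
    · have hzpos : 0 < nX G W a H F T := lt_of_le_of_ne (nX_nonneg _ _ _ _ _ _) (Ne.symm hz)
      have hni : ¬ G.inc e ⊆ T := by
        intro hi
        apply hz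
        unfold nX pr
        rw [← G.ex_const F 0]
        refine G.ex_congr fun ω _ => ind_false ?_
        rintro ⟨h1, h2⟩
        exact hmem _ Finset.subset_union_left h1 h2 hi
      have hc := cX_insert_touch G (a := a) he hd hni
      have hcpos : 0 < cX G a F T := lt_of_lt_of_le hzpos (nX_le_cX G F hH hW T)
      unfold tX
      rw [hc, hN, hNp, Real.log_mul hp1'.ne' hcpos.ne', Real.log_mul hp1'.ne' hzpos.ne']
      apply le_of_eq
      ring

theorem TX_step {W : Finset E → Prop} {a : V} {B : Finset V} {H F : Finset E} {e : E}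
    (m : Finset V → ℝ) (he : e ∉ F) (hH : Inv G B H) (heH : ¬ Disjoint (G.inc e) (G.cl H B))
    (hW : ∀ S, W S → a ∉ G.cl S B)
    (hWe : ∀ η, H ⊆ η → W (insert e η) → W η) :
    G.p e * TX G W m a (insert e H) F + (1 - G.p e) * TX G W m a H F
      + G.p e * (∑ T ∈ Finset.univ.filter (fun T => Disjoint (G.inc e) T),
          (nX G W a H (insert e F) T - nX G W a (insert e H) F T) ^ 2
            / (2 * nX G W a H (insert e F) T))
      ≤ TX G W m a H (insert e F) := by
  unfold TX
  rw [Finset.sum_filter, Finset.mul_sum, Finset.mul_sum, Finset.mul_sum, ← Finset.sum_add_distrib,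
    ← Finset.sum_add_distrib]
  exact Finset.sum_le_sum fun T _ => tX_step G m he hH heH hW hWe T

/-- Titu's lemma with possibly vanishing denominators -/
theorem titu {ι : Type*} (s : Finset ι) (d N : ι → ℝ) (hN : ∀ i ∈ s, 0 ≤ N i)
    (hd : ∀ i ∈ s, N i = 0 → d i = 0) :
    (∑ i ∈ s, d i) ^ 2 ≤ (∑ i ∈ s, N i) * (2 * ∑ i ∈ s, d i ^ 2 / (2 * N i)) := by
  have h := Finset.sum_sq_le_sum_mul_sum_of_sq_le_mul s (r := d) (f := N)
    (g := fun i => d i ^ 2 / N i) hN
    (fun i hi => div_nonneg (sq_nonneg _) (hN i hi))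
    (fun i hi => by
      refine le_of_eq ?_
      by_cases h0 : N i = 0
      · rw [hd i hi h0, h0]; simp
      · field_simp)
  have e1 : 2 * ∑ i ∈ s, d i ^ 2 / (2 * N i) = ∑ i ∈ s, d i ^ 2 / N i := by
    rw [Finset.mul_sum]
    refine Finset.sum_congr rfl fun i _ => ?_
    by_cases h0 : N i = 0
    · rw [h0]; simp
    · field_simp
  rw [e1]
  exact h

theorem final_arith {p pm N Np Rx Ry : ℝ} (hp0 : 0 ≤ p) (hp1 : p < 1) (hpm : p ≤ pm)
    (hpm1 : pm < 1) (hN0 : 0 ≤ N) (hsq : (N - Np) ^ 2 ≤ N * (4 * (Rx + Ry)))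
    (hRx : 0 ≤ Rx) (hRy : 0 ≤ Ry) :
    p * (N - Np) ^ 2 / ((1 - p) * N) ≤ 4 / (1 - pm) * (p * Rx + p * Ry) := by
  have hp1' : 0 < 1 - p := by linarith
  have hpm' : 0 < 1 - pm := by linarith
  rcases hN0.eq_or_lt with hz | hpos
  · rw [← hz, mul_zero, div_zero]
    positivity
  · rw [div_le_iff₀ (mul_pos hp1' hpos)]
    have h3 : p * (N - Np) ^ 2 ≤ p * (N * (4 * (Rx + Ry))) :=
      mul_le_mul_of_nonneg_left hsq hp0
    refine h3.trans ?_
    have h4 : 4 / (1 - pm) * (p * Rx + p * Ry) * ((1 - p) * N)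
        = p * (N * (4 * (Rx + Ry))) * ((1 - p) / (1 - pm)) := by
      field_simp
    rw [h4]
    have h5 : 1 ≤ (1 - p) / (1 - pm) := by
      rw [le_div_iff₀ hpm']; linarith
    have h6 : 0 ≤ p * (N * (4 * (Rx + Ry))) := by positivity
    exact le_mul_of_one_le_right h6 h5

set_option maxHeartbeats 1000000 in
/-- the local inequality -/
theorem local_ineq {W : Finset E → Prop} {x y : V} {B : Finset V} {H F : Finset E} {e : E}
    {pm : ℝ} (hpm : G.p e ≤ pm) (hpm1 : pm < 1)
    (he : e ∉ F) (heH : ¬ Disjoint (G.inc e) (G.cl H B))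
    (hcard : (G.inc e).card ≤ 2)
    (hWx : ∀ S, W S → x ∉ G.cl S B) (hWy : ∀ S, W S → y ∉ G.cl S B)
    (hWxy : ∀ S, W S → y ∉ G.cl S {x})
    (hWe : ∀ η, H ⊆ η → W (insert e η) → W η) :
    KK (G.p e) (pr G (insert e H) F W) (pr G H F W)
      ≤ 4 / (1 - pm) * (G.p e * (∑ T ∈ Finset.univ.filter (fun T => Disjoint (G.inc e) T),
          (nX G W x H (insert e F) T - nX G W x (insert e H) F T) ^ 2
            / (2 * nX G W x H (insert e F) T))
        + G.p e * (∑ T ∈ Finset.univ.filter (fun T => Disjoint (G.inc e) T),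
          (nX G W y H (insert e F) T - nX G W y (insert e H) F T) ^ 2
            / (2 * nX G W y H (insert e F) T))) := by
  classical
  have hp0 := G.p_nonneg e
  have hp1 := G.p_lt e
  have hp1' : 0 < 1 - G.p e := by linarith
  have hpm' : 0 < 1 - pm := by linarith
  set s : Finset (Finset V) := Finset.univ.filter (fun T => Disjoint (G.inc e) T) with hs
  have hN := pr_insert G (H := H) he W
  set N := pr G H (insert e F) W with hNdef
  set Np := pr G (insert e H) F W with hNp
  set Nm := pr G H F W with hNm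
  have hNp0 : 0 ≤ Np := pr_nonneg _ _ _ _
  have hNm0 : 0 ≤ Nm := pr_nonneg _ _ _ _
  have hN0 : 0 ≤ N := pr_nonneg _ _ _ _
  have hNpm : Np ≤ Nm :=
    pr_step_le G fun ω _ h1 => hWe _ Finset.subset_union_left h1
  -- sums over `s`
  set ax := ∑ T ∈ s, (nX G W x H (insert e F) T - nX G W x (insert e H) F T) with hax
  set ay := ∑ T ∈ s, (nX G W y H (insert e F) T - nX G W y (insert e H) F T) with hay
  set Rx := ∑ T ∈ s, (nX G W x H (insert e F) T - nX G W x (insert e H) F T) ^ 2
            / (2 * nX G W x H (insert e F) T) with hRx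
  set Ry := ∑ T ∈ s, (nX G W y H (insert e F) T - nX G W y (insert e H) F T) ^ 2
            / (2 * nX G W y H (insert e F) T) with hRy
  have titu_gen : ∀ a : V, (∀ S, W S → a ∉ G.cl S B) →
      (∑ T ∈ s, (nX G W a H (insert e F) T - nX G W a (insert e H) F T)) ^ 2
      ≤ N * (2 * ∑ T ∈ s, (nX G W a H (insert e F) T - nX G W a (insert e H) F T) ^ 2
            / (2 * nX G W a H (insert e F) T)) := by
    intro a hWa
    have h1 := titu s (fun T => nX G W a H (insert e F) T - nX G W a (insert e H) F T)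
      (fun T => nX G W a H (insert e F) T) (fun T _ => nX_nonneg _ _ _ _ _ _) (by
        intro T hT h0
        have hd : Disjoint (G.inc e) T := (Finset.mem_filter.1 hT).2
        have hN' := pr_insert G (H := H) he (fun S => W S ∧ G.cl S {a} = T)
        change nX G W a H (insert e F) T = G.p e * nX G W a (insert e H) F T
          + (1 - G.p e) * nX G W a H F T at hN'
        have hle : nX G W a (insert e H) F T ≤ nX G W a H F T := by
          refine pr_step_le G ?_
          rintro ω _ ⟨h1, h2⟩
          exact ⟨hWe _ Finset.subset_union_left h1, (cl_insert_eq_iff G hd).1 h2⟩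
        have h3 := nX_nonneg G W a (insert e H) F T
        have h4 := nX_nonneg G W a H F T
        have h5 : nX G W a H F T ≤ 0 := by
          have h6 : 0 ≤ G.p e * nX G W a (insert e H) F T := mul_nonneg hp0 h3
          have h7 : (1 - G.p e) * nX G W a H F T ≤ 0 := by linarith
          by_contra hne
          push Not at hne
          have := mul_pos hp1' hne
          linarith
        have h8 : nX G W a (insert e H) F T = 0 := le_antisymm (hle.trans h5) h3
        simp only [h0, h8, sub_zero])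
    refine h1.trans ?_
    refine mul_le_mul_of_nonneg_right ?_ ?_
    · have h2 : ∑ T ∈ s, nX G W a H (insert e F) T
          = pr G H (insert e F) (fun S => W S ∧ G.cl S {a} ∈ s) :=
        sum_pr G H (insert e F) W (fun S => G.cl S {a}) s
      rw [h2]
      exact pr_mono G fun ω _ h => h.1
    · refine mul_nonneg (by norm_num) (Finset.sum_nonneg fun T _ => ?_)
      exact div_nonneg (sq_nonneg _) (mul_nonneg (by norm_num) (nX_nonneg _ _ _ _ _ _))
  have hx2 : ax ^ 2 ≤ N * (2 * Rx) := titu_gen x hWx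
  have hy2 : ay ^ 2 ≤ N * (2 * Ry) := titu_gen y hWy
  -- membership in `s`
  have hmems : ∀ T : Finset V, T ∈ s ↔ Disjoint (G.inc e) T := by
    intro T; simp [hs]
  -- `ax`, `ay` as probabilities
  have sum_gen : ∀ a : V,
      ∑ T ∈ s, (nX G W a H (insert e F) T - nX G W a (insert e H) F T)
        = (1 - G.p e) * (pr G H F (fun S => W S ∧ G.cl S {a} ∈ s)
            - pr G (insert e H) F (fun S => W S ∧ G.cl S {a} ∈ s)) := by
    intro a
    rw [Finset.sum_sub_distrib]
    unfold nX
    rw [sum_pr G H (insert e F) W (fun S => G.cl S {a}) s,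
      sum_pr G (insert e H) F W (fun S => G.cl S {a}) s, pr_insert G he]
    ring
  -- mass with `e` touching `C(x)`
  have h_open_x : pr G (insert e H) F (fun S => W S ∧ G.cl S {x} ∈ s) = Np := by
    refine pr_congr G fun ω _ => ⟨fun h => h.1, fun h => ⟨h, ?_⟩⟩
    rw [hmems]
    by_contra hnd
    have hmem : e ∈ insert e H ∪ ω := Finset.mem_union_left _ (Finset.mem_insert_self _ _)
    rcases G.sat_cl (insert e H ∪ ω) {x} e hmem with h3 | h3
    · obtain ⟨u, hu, huR⟩ := Finset.not_disjoint_iff.1 heH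
      have hdd := disj_of_notMem G (hWx _ h)
      exact Finset.disjoint_left.1 hdd (h3 hu)
        (G.cl_mono ((Finset.subset_insert _ _).trans Finset.subset_union_left)
          (Finset.Subset.refl _) huR)
    · exact hnd h3
  have h_closed_x : Nm = pr G H F (fun S => W S ∧ G.cl S {x} ∈ s)
      + pr G H F (fun S => W S ∧ G.cl S {x} ∉ s) := by
    rw [hNm]
    unfold pr
    rw [← G.ex_add]
    refine G.ex_congr fun ω _ => ?_
    by_cases hW' : W (H ∪ ω)
    · by_cases hm : G.cl (H ∪ ω) {x} ∈ s
      · rw [ind_true hW', ind_true ⟨hW', hm⟩, ind_false (fun h => h.2 hm), add_zero]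
      · rw [ind_true hW', ind_false (fun h => hm h.2), ind_true ⟨hW', hm⟩, zero_add]
    · rw [ind_false hW', ind_false (fun h => hW' h.1), ind_false (fun h => hW' h.1), add_zero]
  -- the bond property
  have h_bond : pr G H F (fun S => W S ∧ G.cl S {x} ∉ s)
      + pr G (insert e H) F (fun S => W S ∧ G.cl S {y} ∈ s)
      ≤ pr G H F (fun S => W S ∧ G.cl S {y} ∈ s) := by
    unfold pr
    rw [← G.ex_add]
    refine G.ex_mono fun ω _ => ?_
    have hins : insert e H ∪ ω = insert e (H ∪ ω) := Finset.insert_union _ _ _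
    obtain ⟨u, hu, huR⟩ := Finset.not_disjoint_iff.1 heH
    by_cases h1 : W (H ∪ ω) ∧ G.cl (H ∪ ω) {x} ∉ s
    · -- `e` touches `C(x)`
      have hnd : ¬ Disjoint (G.inc e) (G.cl (H ∪ ω) {x}) := by
        rw [← hmems]; exact h1.2
      obtain ⟨v, hv, hvX⟩ := Finset.not_disjoint_iff.1 hnd
      have hZ : u ∈ G.cl (H ∪ ω) B :=
        G.cl_mono Finset.subset_union_left (Finset.Subset.refl _) huR
      have hux : u ∉ G.cl (H ∪ ω) {x} := fun h =>
        Finset.disjoint_left.1 (disj_of_notMem G (hWx _ h1.1)) h hZ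
      have huy : u ∉ G.cl (H ∪ ω) {y} := fun h =>
        Finset.disjoint_left.1 (disj_of_notMem G (hWy _ h1.1)) h hZ
      have huv : u ≠ v := fun h => hux (h ▸ hvX)
      have hinc : G.inc e = {u, v} := by
        refine (Finset.eq_of_subset_of_card_le ?_ ?_).symm
        · intro w hw
          rcases Finset.mem_insert.1 hw with rfl | hw
          · exact hu
          · rw [Finset.mem_singleton.1 hw]; exact hv
        · rw [Finset.card_pair huv]; exact hcard
      have hvy : v ∉ G.cl (H ∪ ω) {y} := by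
        have hdd := disj_of_notMem G (hWxy _ h1.1)
        exact fun h => Finset.disjoint_left.1 hdd h hvX
      have h2 : G.cl (H ∪ ω) {y} ∈ s := by
        rw [hmems, hinc, Finset.disjoint_left]
        intro w hw
        rcases Finset.mem_insert.1 hw with rfl | hw
        · exact huy
        · rw [Finset.mem_singleton.1 hw]; exact hvy
      have h3 : ¬ (W (insert e H ∪ ω) ∧ G.cl (insert e H ∪ ω) {y} ∈ s) := by
        rintro ⟨h4, _⟩
        -- `x` would be in the cluster of `B`
        have hmem : e ∈ insert e H ∪ ω := Finset.mem_union_left _ (Finset.mem_insert_self _ _)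
        have hsub : H ∪ ω ⊆ insert e H ∪ ω :=
          Finset.union_subset_union (Finset.subset_insert _ _) (Finset.Subset.refl _)
        have hvX' : v ∈ G.cl (insert e H ∪ ω) {x} := G.cl_mono hsub (Finset.Subset.refl _) hvX
        have huX' : u ∈ G.cl (insert e H ∪ ω) {x} := by
          rcases G.sat_cl (insert e H ∪ ω) {x} e hmem with h5 | h5
          · exact h5 hu
          · exact absurd hvX' (Finset.disjoint_left.1 h5 hv)
        exact Finset.disjoint_left.1 (disj_of_notMem G (hWx _ h4)) huX'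
          (G.cl_mono hsub (Finset.Subset.refl _) hZ)
      rw [ind_true h1, ind_false h3, ind_true ⟨h1.1, h2⟩, add_zero]
    · rw [ind_false h1, zero_add]
      refine ind_mono ?_
      rintro ⟨h4, h5⟩
      rw [hins] at h4 h5
      have h6 := hWe _ Finset.subset_union_left h4
      refine ⟨h6, ?_⟩
      have h7 : G.cl (H ∪ ω) {y} = G.cl (insert e (H ∪ ω)) {y} :=
        (cl_insert_eq_iff G ((hmems _).1 h5)).1 rfl
      rw [h7]; exact h5
  have hsum : N - Np ≤ ax + ay := by
    have e1 : ax = (1 - G.p e) * (pr G H F (fun S => W S ∧ G.cl S {x} ∈ s)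
            - pr G (insert e H) F (fun S => W S ∧ G.cl S {x} ∈ s)) := sum_gen x
    have e2 : ay = (1 - G.p e) * (pr G H F (fun S => W S ∧ G.cl S {y} ∈ s)
            - pr G (insert e H) F (fun S => W S ∧ G.cl S {y} ∈ s)) := sum_gen y
    rw [h_open_x] at e1
    have e3 : N - Np = (1 - G.p e) * (Nm - Np) := by rw [hN]; ring
    rw [e3, e1, e2, h_closed_x, ← mul_add]
    refine mul_le_mul_of_nonneg_left ?_ hp1'.le
    linarith
  have hNNp : 0 ≤ N - Np := by
    have e3 : N - Np = (1 - G.p e) * (Nm - Np) := by rw [hN]; ring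
    rw [e3]
    exact mul_nonneg hp1'.le (by linarith)
  have hsq : (N - Np) ^ 2 ≤ 2 * (ax ^ 2 + ay ^ 2) := by
    have h1 : (N - Np) ^ 2 ≤ (ax + ay) ^ 2 := by
      apply pow_le_pow_left₀ hNNp hsum
    nlinarith [sq_nonneg (ax - ay)]
  have hsq2 : (N - Np) ^ 2 ≤ N * (4 * (Rx + Ry)) := by nlinarith
  have hKK := KK_upper hp0 hp1 hNp0 hNm0 hN
  refine hKK.trans ?_
  have hRx0 : 0 ≤ Rx := by
    refine Finset.sum_nonneg fun T _ => ?_
    exact div_nonneg (sq_nonneg _) (mul_nonneg (by norm_num) (nX_nonneg _ _ _ _ _ _))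
  have hRy0 : 0 ≤ Ry := by
    refine Finset.sum_nonneg fun T _ => ?_
    exact div_nonneg (sq_nonneg _) (mul_nonneg (by norm_num) (nX_nonneg _ _ _ _ _ _))
  exact final_arith hp0 hp1 hpm hpm1 hN0 hsq2 hRx0 hRy0

/-! ### the theorem -/

section main

variable (M : Finset V → Prop) (x y : V) (B : Finset V) (Ω : Finset E) (Q : Finset E → Prop)

/-- `x` and `y` in two distinct macroscopic clusters -/
def AA (S : Finset E) : Prop := M (G.cl S {x}) ∧ M (G.cl S {y}) ∧ y ∉ G.cl S {x}

/-- `P(C(b) macroscopic off S)` -/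
noncomputable def mm (b : V) (S : Finset V) : ℝ :=
  G.ex (G.off Ω S) (fun ω => ind (M (G.cl ω {b})))

variable {G M x y B Ω Q}

theorem AA_symm {S : Finset E} (h : AA G M x y S) : AA G M y x S :=
  ⟨h.2.1, h.1, fun h' => h.2.2 (G.mem_cl_symm h')⟩

/-- factorisation: the mass of a term is at most `cX * mm` -/
theorem nX_le {W : Finset E → Prop} {a b : V} {H F : Finset E} (hF : F ⊆ Ω)
    (hM : ∀ T T' : Finset V, T ⊆ T' → M T → M T') (hH : Inv G B H)
    (hWa : ∀ S, W S → a ∉ G.cl S B) (hWb : ∀ S, W S → b ∉ G.cl S B)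
    (hWab : ∀ S, W S → b ∉ G.cl S {a}) (hWM : ∀ S, W S → M (G.cl S {b}))
    (T : Finset V) : nX G W a H F T ≤ cX G a F T * mm G M Ω b T := by
  classical
  have h1 : nX G W a H F T
      ≤ G.ex F (fun ω => if G.cl ω {a} = T then ind (M (G.cl (G.off ω T) {b})) else 0) := by
    unfold nX pr
    refine G.ex_mono fun ω _ => ?_
    by_cases h : W (H ∪ ω) ∧ G.cl (H ∪ ω) {a} = T
    · have hd := disj_of_notMem G (hWa _ h.1)
      rw [h.2] at hd
      have hT : G.cl ω {a} = T := by
        refine (cl_union_left_eq_iff G ?_).1 h.2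
        intro e he
        refine (Finset.disjoint_of_subset_right ?_ hd).symm
        exact (hH e he).trans (G.cl_mono Finset.subset_union_left (Finset.Subset.refl _))
      have hdb := disj_of_notMem G (hWb _ h.1)
      have hY : G.cl ω {b} = G.cl (H ∪ ω) {b} := by
        refine (cl_union_left_eq_iff G ?_).1 rfl
        intro e he
        refine (Finset.disjoint_of_subset_right ?_ hdb).symm
        exact (hH e he).trans (G.cl_mono Finset.subset_union_left (Finset.Subset.refl _))
      have hbT : b ∉ T := by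
        rw [← h.2]; exact hWab _ h.1
      have hoff : G.cl (G.off ω T) {b} = G.cl ω {b} := by
        refine G.cl_off ?_ (by rwa [Finset.disjoint_singleton_left])
        rw [← hT]; exact G.sat_cl ω {a}
      rw [ind_true h, if_pos hT, hoff, hY, ind_true (hWM _ h.1)]
    · rw [ind_false h]
      split_ifs
      · exact ind_nonneg _
      · exact le_refl _
  refine h1.trans ?_
  rw [G.ex_cl_eq F {a} T (fun ω => ind (M (G.cl ω {b})))]
  have h2 : cX G a F T = G.ex (G.tch F T) (fun S => if G.cl S {a} = T then 1 else 0) := by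
    have := G.ex_cl_eq F {a} T (fun _ => (1 : ℝ))
    rw [G.ex_const, mul_one] at this
    rw [← this]
    unfold cX
    refine G.ex_congr fun ω _ => ?_
    by_cases h : G.cl ω {a} = T
    · rw [ind_true h, if_pos h]
    · rw [ind_false h, if_neg h]
  rw [h2]
  refine mul_le_mul_of_nonneg_left ?_ ?_
  · refine G.ex_mono_set (G.off_mono hF T) ?_
    intro S S' hS
    exact ind_mono (hM _ _ (G.cl_mono hS (Finset.Subset.refl _)))
  · refine G.ex_nonneg fun S _ => ?_
    split_ifs
    · exact zero_le_one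
    · exact le_refl _

theorem TX_nonneg {W : Finset E → Prop} {a b : V} {H F : Finset E} (hF : F ⊆ Ω)
    (hM : ∀ T T' : Finset V, T ⊆ T' → M T → M T') (hH : Inv G B H)
    (hWa : ∀ S, W S → a ∉ G.cl S B) (hWb : ∀ S, W S → b ∉ G.cl S B)
    (hWab : ∀ S, W S → b ∉ G.cl S {a}) (hWM : ∀ S, W S → M (G.cl S {b})) :
    0 ≤ TX G W (mm G M Ω b) a H F := by
  refine Finset.sum_nonneg fun T _ => ?_
  unfold tX
  rcases (nX_nonneg G W a H F T).eq_or_lt with h0 | hpos
  · rw [← h0, zero_mul]
  · have hle := nX_le hF hM hH hWa hWb hWab hWM T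
    have hc : 0 < cX G a F T := lt_of_lt_of_le hpos (nX_le_cX G F hH hWa T)
    have hm : 0 < mm G M Ω b T := by
      by_contra hne
      push Not at hne
      have := mul_nonpos_of_nonneg_of_nonpos hc.le hne
      linarith
    rw [← Real.log_mul hc.ne' hm.ne']
    exact mul_nonneg hpos.le (by linarith [Real.log_le_log hpos hle])

/-- initial state -/
theorem TX_init {W : Finset E → Prop} {a b : V}
    (hM : ∀ T T' : Finset V, T ⊆ T' → M T → M T')
    (hWa : ∀ S, W S → a ∉ G.cl S B) (hWb : ∀ S, W S → b ∉ G.cl S B)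
    (hWA : ∀ S, W S → AA G M a b S) :
    TX G W (mm G M Ω b) a ∅ Ω
      ≤ pr G ∅ Ω W * (Real.log (pr G ∅ Ω (AA G M a b)) - Real.log (pr G ∅ Ω W)) := by
  classical
  have hH : Inv G B ∅ := fun e he => absurd he (Finset.notMem_empty e)
  set bb : Finset V → ℝ := fun T => pr G ∅ Ω (fun S => AA G M a b S ∧ G.cl S {a} = T) with hbb
  have hab : ∀ T, nX G W a ∅ Ω T ≤ bb T := fun T =>
    pr_mono G fun ω _ h => ⟨hWA _ h.1, h.2⟩
  have h1 := log_sum (Finset.univ : Finset (Finset V)) (fun T => nX G W a ∅ Ω T) bb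
    (fun T _ => nX_nonneg _ _ _ _ _ _) (fun T _ => pr_nonneg _ _ _ _) (by
      intro T _ h0 hb0
      apply h0
      exact le_antisymm (by rw [← hb0]; exact hab T) (nX_nonneg _ _ _ _ _ _))
  have h2 : ∑ T : Finset V, nX G W a ∅ Ω T = pr G ∅ Ω W :=
    sum_pr_univ G ∅ Ω W (fun S => G.cl S {a})
  have h3 : ∑ T : Finset V, bb T = pr G ∅ Ω (AA G M a b) :=
    sum_pr_univ G ∅ Ω (AA G M a b) (fun S => G.cl S {a})
  rw [h2, h3] at h1
  refine le_trans ?_ h1
  refine Finset.sum_le_sum fun T _ => ?_
  unfold tX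
  rcases (nX_nonneg G W a ∅ Ω T).eq_or_lt with h0 | hpos
  · rw [← h0, zero_mul, zero_mul]
  refine mul_le_mul_of_nonneg_left ?_ hpos.le
  have hc : 0 < cX G a Ω T := lt_of_lt_of_le hpos (nX_le_cX G Ω hH hWa T)
  -- there is a configuration with `C(a) = T`
  have hT : M T ∧ b ∉ T := by
    by_contra hne
    have : nX G W a ∅ Ω T = 0 := by
      unfold nX pr
      rw [← G.ex_const Ω 0]
      refine G.ex_congr fun ω _ => ind_false ?_
      rintro ⟨h4, h5⟩
      apply hne
      have h6 := hWA _ h4
      rw [← h5]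
      exact ⟨h6.1, h6.2.2⟩
    rw [this] at hpos
    exact lt_irrefl _ hpos
  have hcm : cX G a Ω T * mm G M Ω b T ≤ bb T := by
    have e1 : cX G a Ω T * mm G M Ω b T
        = G.ex Ω (fun ω => if G.cl ω {a} = T then ind (M (G.cl (G.off ω T) {b})) else 0) := by
      rw [G.ex_cl_eq Ω {a} T (fun ω => ind (M (G.cl ω {b})))]
      have h2 : cX G a Ω T = G.ex (G.tch Ω T) (fun S => if G.cl S {a} = T then 1 else 0) := by
        have := G.ex_cl_eq Ω {a} T (fun _ => (1 : ℝ))
        rw [G.ex_const, mul_one] at this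
        rw [← this]
        unfold cX
        refine G.ex_congr fun ω _ => ?_
        by_cases h : G.cl ω {a} = T
        · rw [ind_true h, if_pos h]
        · rw [ind_false h, if_neg h]
      rw [h2]
      rfl
    rw [e1]
    simp only [hbb]
    unfold pr
    refine G.ex_mono fun ω _ => ?_
    rw [Finset.empty_union]
    split_ifs with h
    · refine ind_mono ?_
      intro h4
      refine ⟨⟨?_, ?_, ?_⟩, h⟩
      · rw [h]; exact hT.1
      · exact hM _ _ (G.cl_mono (G.off_subset ω T) (Finset.Subset.refl _)) h4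
      · rw [h]; exact hT.2
    · exact ind_nonneg _
  have hle : nX G W a ∅ Ω T ≤ cX G a Ω T * mm G M Ω b T :=
    nX_le (Finset.Subset.refl Ω) hM hH hWa hWb (fun S h => (hWA S h).2.2)
      (fun S h => (hWA S h).2.1) T
  have hmpos' : 0 < mm G M Ω b T := by
    by_contra hne
    push Not at hne
    have := mul_nonpos_of_nonneg_of_nonpos hc.le hne
    linarith
  rw [← Real.log_mul hc.ne' hmpos'.ne']
  have := Real.log_le_log (mul_pos hc hmpos') hcm
  linarith

/-- `Q` is only needed through the edges touching the cluster of `B` -/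
def Loc (G : HG V E) (B : Finset V) (Q : Finset E → Prop) : Prop :=
  ∀ S S' : Finset E, S ⊆ S' → (∀ e ∈ S', e ∉ S → Disjoint (G.inc e) (G.cl S B)) → Q S → Q S'

/-- base case: nothing left to explore at the cluster of `B` -/
theorem zeta_base {H F : Finset E} (hQ1 : ∀ S S', S ⊆ S' → Q S' → Q S) (hQ3 : Loc G B Q)
    (hF : ∀ e ∈ F, Disjoint (G.inc e) (G.cl H B)) :
    Real.log (pr G H F Q) = 0 := by
  by_cases h : Q H
  · have : pr G H F Q = 1 := by
      unfold pr
      rw [← G.ex_const F 1]
      refine G.ex_congr fun ω hω => ind_true ?_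
      refine hQ3 H (H ∪ ω) Finset.subset_union_left ?_ h
      intro e he he'
      rcases Finset.mem_union.1 he with h1 | h1
      · exact absurd h1 he'
      · exact hF e (hω h1)
    rw [this, Real.log_one]
  · have : pr G H F Q = 0 := by
      unfold pr
      rw [← G.ex_const F 0]
      refine G.ex_congr fun ω _ => ind_false ?_
      intro h1
      exact h (hQ1 _ _ Finset.subset_union_left h1)
    rw [this, Real.log_zero]

/-- the induction over the exploration -/
theorem induct {pm : ℝ} (hpm1 : pm < 1) (hpm : ∀ e ∈ Ω, G.p e ≤ pm)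
    (hcard : ∀ e ∈ Ω, (G.inc e).card ≤ 2)
    (hM : ∀ T T' : Finset V, T ⊆ T' → M T → M T')
    (hQ1 : ∀ S S', S ⊆ S' → Q S' → Q S)
    (hQx : ∀ S, AA G M x y S → Q S → x ∉ G.cl S B)
    (hQy : ∀ S, AA G M x y S → Q S → y ∉ G.cl S B)
    (hQ3 : Loc G B Q) (n : ℕ) :
    ∀ H F : Finset E, F.card = n → F ⊆ Ω → Inv G B H →
      pr G H F (fun S => AA G M x y S ∧ Q S) * (- Real.log (pr G H F Q))
        ≤ 4 / (1 - pm) * (TX G (fun S => AA G M x y S ∧ Q S) (mm G M Ω y) x H F
          + TX G (fun S => AA G M x y S ∧ Q S) (mm G M Ω x) y H F) := by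
  have hWx : ∀ S, (AA G M x y S ∧ Q S) → x ∉ G.cl S B := fun S h => hQx S h.1 h.2
  have hWy : ∀ S, (AA G M x y S ∧ Q S) → y ∉ G.cl S B := fun S h => hQy S h.1 h.2
  have hpm' : 0 < 1 - pm := by linarith
  induction n with
  | zero =>
    intro H F hFc hF hH
    have hF0 : F = ∅ := Finset.card_eq_zero.1 hFc
    subst hF0
    rw [zeta_base hQ1 hQ3 (fun e he => absurd he (Finset.notMem_empty e)), neg_zero, mul_zero]
    refine mul_nonneg (by positivity) (add_nonneg ?_ ?_)
    · exact TX_nonneg hF hM hH hWx hWy (fun S h => h.1.2.2) (fun S h => h.1.2.1)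
    · exact TX_nonneg hF hM hH hWy hWx (fun S h => (AA_symm h.1).2.2) (fun S h => h.1.1)
  | succ n ih =>
    intro H F hFc hF hH
    by_cases hex : ∃ e ∈ F, ¬ Disjoint (G.inc e) (G.cl H B)
    · obtain ⟨e, heF, heH⟩ := hex
      set F' := F.erase e with hF'
      have heF' : e ∉ F' := Finset.notMem_erase e F
      have hFF : F = insert e F' := (Finset.insert_erase heF).symm
      have hF'c : F'.card = n := by
        rw [hF', Finset.card_erase_of_mem heF, hFc]; rfl
      have hF'Ω : F' ⊆ Ω := (Finset.erase_subset _ _).trans hF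
      have hH' : Inv G B (insert e H) := inv_insert G hH heH
      have ih1 := ih (insert e H) F' hF'c hF'Ω hH'
      have ih2 := ih H F' hF'c hF'Ω hH
      -- opening an edge: `W` is inherited by the configuration without `e`
      have hWe : ∀ η, H ⊆ η → (AA G M x y (insert e η) ∧ Q (insert e η)) →
          (AA G M x y η ∧ Q η) := by
        intro η hη h
        obtain ⟨u, hu, huR⟩ := Finset.not_disjoint_iff.1 heH
        have hsub : H ⊆ insert e η := hη.trans (Finset.subset_insert _ _)
        have hZ : u ∈ G.cl (insert e η) B := G.cl_mono hsub (Finset.Subset.refl _) huR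
        have hdis : ∀ a, a ∉ G.cl (insert e η) B → Disjoint (G.inc e) (G.cl (insert e η) {a}) := by
          intro a ha
          rcases G.sat_cl (insert e η) {a} e (Finset.mem_insert_self _ _) with h1 | h1
          · exact absurd (h1 hu) (fun h2 =>
              Finset.disjoint_left.1 (disj_of_notMem G ha) h2 hZ)
          · exact h1
        have ex : G.cl η {x} = G.cl (insert e η) {x} :=
          (cl_insert_eq_iff G (hdis x (hQx _ h.1 h.2))).1 rfl
        have ey : G.cl η {y} = G.cl (insert e η) {y} :=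
          (cl_insert_eq_iff G (hdis y (hQy _ h.1 h.2))).1 rfl
        refine ⟨⟨?_, ?_, ?_⟩, hQ1 _ _ (Finset.subset_insert _ _) h.2⟩
        · rw [ex]; exact h.1.1
        · rw [ey]; exact h.1.2.1
        · rw [ex]; exact h.1.2.2
      have hsx := TX_step G (mm G M Ω y) heF' hH heH hWx hWe
      have hsy := TX_step G (mm G M Ω x) heF' hH heH hWy hWe
      have hloc := local_ineq G (hpm e (hF heF)) hpm1 heF' heH (hcard e (hF heF)) hWx hWy
        (fun S h => h.1.2.2) hWe
      have hp0 := G.p_nonneg e
      have hp1 := G.p_lt e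
      have hdv := dv hp0 hp1
        (pr_nonneg G (insert e H) F' (fun S => AA G M x y S ∧ Q S))
        (pr_nonneg G H F' (fun S => AA G M x y S ∧ Q S))
        (pr_mono G (H := insert e H) (F := F') (W := fun S => AA G M x y S ∧ Q S) (W' := Q)
          fun _ _ h => h.2)
        (pr_mono G (H := H) (F := F') (W := fun S => AA G M x y S ∧ Q S) (W' := Q)
          fun _ _ h => h.2)
        (pr_insert G heF' (fun S => AA G M x y S ∧ Q S)) (pr_insert G heF' Q)
      rw [← hFF] at hdv hsx hsy hloc
      refine hdv.trans ?_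
      have hC : 0 ≤ 4 / (1 - pm) := by positivity
      set C := 4 / (1 - pm) with hCdef
      have k1 := mul_le_mul_of_nonneg_left ih1 hp0
      have k2 := mul_le_mul_of_nonneg_left ih2 (by linarith : (0:ℝ) ≤ 1 - G.p e)
      have k3 := mul_le_mul_of_nonneg_left hsx hC
      have k4 := mul_le_mul_of_nonneg_left hsy hC
      refine (add_le_add (add_le_add k1 k2) hloc).trans ?_
      refine le_trans (le_of_eq ?_) (le_trans (add_le_add k3 k4) (le_of_eq ?_))
      · ring
      · ring
    · push Not at hex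
      rw [zeta_base hQ1 hQ3 hex, neg_zero, mul_zero]
      refine mul_nonneg (by positivity) (add_nonneg ?_ ?_)
      · exact TX_nonneg hF hM hH hWx hWy (fun S h => h.1.2.2) (fun S h => h.1.2.1)
      · exact TX_nonneg hF hM hH hWy hWx (fun S h => (AA_symm h.1).2.2) (fun S h => h.1.1)

/-- **DUST theorem**, abstract form. -/
theorem dust_abs {pm : ℝ} (hpm1 : pm < 1) (hpm : ∀ e ∈ Ω, G.p e ≤ pm)
    (hcard : ∀ e ∈ Ω, (G.inc e).card ≤ 2)
    (hM : ∀ T T' : Finset V, T ⊆ T' → M T → M T')
    (hQ1 : ∀ S S', S ⊆ S' → Q S' → Q S)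
    (hQx : ∀ S, AA G M x y S → Q S → x ∉ G.cl S B)
    (hQy : ∀ S, AA G M x y S → Q S → y ∉ G.cl S B)
    (hQ3 : Loc G B Q) :
    pr G ∅ Ω (fun S => AA G M x y S ∧ Q S)
      ≤ (pr G ∅ Ω Q) ^ ((1 - pm) / 8) * pr G ∅ Ω (AA G M x y) := by
  set W : Finset E → Prop := fun S => AA G M x y S ∧ Q S with hW
  have hH : Inv G B (∅ : Finset E) := fun e he => absurd he (Finset.notMem_empty e)
  have hWx : ∀ S, W S → x ∉ G.cl S B := fun S h => hQx S h.1 h.2
  have hWy : ∀ S, W S → y ∉ G.cl S B := fun S h => hQy S h.1 h.2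
  have hpm' : 0 < 1 - pm := by linarith
  have h1 := induct hpm1 hpm hcard hM hQ1 hQx hQy hQ3 Ω.card ∅ Ω rfl (Finset.Subset.refl _) hH
  have h2 := TX_init (Ω := Ω) (M := M) (B := B) hM hWx hWy (fun S h => h.1)
  have h3 := TX_init (Ω := Ω) (M := M) (B := B) (W := W) (a := y) (b := x) hM hWy hWx
    (fun S h => AA_symm h.1)
  have h4 : pr G ∅ Ω (AA G M y x) = pr G ∅ Ω (AA G M x y) :=
    pr_congr G fun ω _ => ⟨AA_symm, AA_symm⟩
  rw [h4] at h3
  have hN0 := pr_nonneg G ∅ Ω W
  have hA0 := pr_nonneg G ∅ Ω (AA G M x y)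
  have hz0 := pr_nonneg G ∅ Ω Q
  rcases hN0.eq_or_lt with h0 | hNpos
  · rw [← h0]
    exact mul_nonneg (Real.rpow_nonneg hz0 _) hA0
  · have hNA : pr G ∅ Ω W ≤ pr G ∅ Ω (AA G M x y) := pr_mono G fun _ _ h => h.1
    have hNz : pr G ∅ Ω W ≤ pr G ∅ Ω Q := pr_mono G fun _ _ h => h.2
    have hApos : 0 < pr G ∅ Ω (AA G M x y) := lt_of_lt_of_le hNpos hNA
    have hzpos : 0 < pr G ∅ Ω Q := lt_of_lt_of_le hNpos hNz
    set N := pr G ∅ Ω W with hNdef
    set A := pr G ∅ Ω (AA G M x y) with hAdef
    set z := pr G ∅ Ω Q with hzdef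
    have h5 : N * (- Real.log z) ≤ 4 / (1 - pm) * (2 * (N * (Real.log A - Real.log N))) := by
      refine h1.trans ?_
      refine mul_le_mul_of_nonneg_left ?_ (by positivity)
      linarith
    have h6 : - Real.log z ≤ 8 / (1 - pm) * (Real.log A - Real.log N) := by
      have h7 : N * (- Real.log z) ≤ N * (8 / (1 - pm) * (Real.log A - Real.log N)) := by
        refine h5.trans (le_of_eq ?_)
        ring
      exact le_of_mul_le_mul_left h7 hNpos
    have h8 : (1 - pm) / 8 * (- Real.log z) ≤ Real.log A - Real.log N := by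
      have h9 := mul_le_mul_of_nonneg_left h6 (by positivity : (0:ℝ) ≤ (1 - pm) / 8)
      refine h9.trans (le_of_eq ?_)
      field_simp
    have h10 : Real.log N ≤ Real.log (z ^ ((1 - pm) / 8) * A) := by
      rw [Real.log_mul (Real.rpow_pos_of_pos hzpos _).ne' hApos.ne', Real.log_rpow hzpos]
      linarith
    exact (Real.log_le_log_iff hNpos (mul_pos (Real.rpow_pos_of_pos hzpos _) hApos)).1 h10

end main

/-- **DUST theorem** (helper326 #7042 (1)): `M` increasing family of vertex sets, `x, y` vertices,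
`B` a finite set.  `P(x, y in two distinct macroscopic clusters, no cluster meeting B is
macroscopic) ≤ P(no cluster meeting B is macroscopic)^s * P(x, y in two distinct macroscopic
clusters)`, `s = (1 - pm) / 8`. -/
theorem dust {Ω : Finset E} {M : Finset V → Prop} {x y : V} {B : Finset V} {pm : ℝ}
    (hpm1 : pm < 1) (hpm : ∀ e ∈ Ω, G.p e ≤ pm)
    (hcard : ∀ e ∈ Ω, (G.inc e).card ≤ 2)
    (hM : ∀ T T' : Finset V, T ⊆ T' → M T → M T') :
    pr G ∅ Ω (fun S => AA G M x y S ∧ ∀ b ∈ B, ¬ M (G.cl S {b}))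
      ≤ (pr G ∅ Ω (fun S => ∀ b ∈ B, ¬ M (G.cl S {b}))) ^ ((1 - pm) / 8)
        * pr G ∅ Ω (AA G M x y) := by
  refine dust_abs hpm1 hpm hcard hM ?_ ?_ ?_ ?_ (B := B)
  · intro S S' hS h b hb hMb
    exact h b hb (hM _ _ (G.cl_mono hS (Finset.Subset.refl _)) hMb)
  · intro S hA hQ hx
    obtain ⟨b, hb, hxb⟩ := (G.mem_cl_iff_exists).1 hx
    apply hQ b hb
    rw [← G.cl_singleton_eq hxb]
    exact hA.1
  · intro S hA hQ hy
    obtain ⟨b, hb, hyb⟩ := (G.mem_cl_iff_exists).1 hy
    apply hQ b hb
    rw [← G.cl_singleton_eq hyb]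
    exact hA.2.1
  · intro S S' hS hd h b hb
    have hsub : G.cl S {b} ⊆ G.cl S B :=
      G.cl_mono (Finset.Subset.refl _) (by rwa [Finset.singleton_subset_iff])
    have : G.cl S' {b} = G.cl S {b} := by
      apply Finset.Subset.antisymm
      · refine G.cl_subset (G.subset_cl S {b}) ?_
        intro e he
        by_cases heS : e ∈ S
        · exact G.sat_cl S {b} e heS
        · exact Or.inr (Finset.disjoint_of_subset_right hsub (hd e he heS))
      · exact G.cl_mono hS (Finset.Subset.refl _)
    rw [this]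
    exact h b hb

end Crest.Agent.R147.Dust647
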