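import Mathlib

/-!
Row 147 (helper326): analytic lemmas for the entropy proof of the dust inequality.

`phi t = t log t`, `J p a b = p φ(a) + (1-p) φ(b) - φ(p a + (1-p) b)` (Jensen gap of `φ`, i.e. the
local relative entropy).  `J` is homogeneous, nonnegative, subadditive and satisfies the
doubling bound `J p a (a + 2 t) ≤ 4 J p a (a + t)`.
-/

set_option autoImplicit false

namespace Crest.Agent.R147.Dust

open Finset

noncomputable def phi (t : ℝ) : ℝ := t * Real.log t

noncomputable def J (p a b : ℝ) : ℝ := p * phi a + (1 - p) * phi b - phi (p * a + (1 - p) * b)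

theorem phi_zero : phi 0 = 0 := by simp [phi]

/-- two-term log-sum inequality -/
theorem log_sum2 {a a' m m' : ℝ} (ha : 0 ≤ a) (ha' : 0 ≤ a') (hm : 0 ≤ m) (hm' : 0 ≤ m')
    (h : 0 < a → 0 < m) (h' : 0 < a' → 0 < m') :
    phi (a + a') - (a + a') * Real.log (m + m') ≤
      (phi a - a * Real.log m) + (phi a' - a' * Real.log m') := by
  unfold phi
  rcases ha.eq_or_lt with rfl | ha0
  · rcases ha'.eq_or_lt with rfl | ha0'
    · simp
    · have hm0' := h' ha0'
      have : Real.log m' ≤ Real.log (m + m') := Real.log_le_log hm0' (by linarith)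
      simp only [zero_add, zero_mul, sub_zero, sub_self]
      nlinarith
  · have hm0 := h ha0
    rcases ha'.eq_or_lt with rfl | ha0'
    · have : Real.log m ≤ Real.log (m + m') := Real.log_le_log hm0 (by linarith)
      simp only [add_zero, zero_mul, sub_zero]
      nlinarith
    · have hm0' := h' ha0'
      have hM : 0 < m + m' := by linarith
      have hA : 0 < a + a' := by linarith
      -- log t ≤ t - 1
      have k1 : Real.log ((m * (a + a')) / (a * (m + m'))) ≤ (m * (a + a')) / (a * (m + m')) - 1 :=
        Real.log_le_sub_one_of_pos (by positivity)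
      have k2 : Real.log ((m' * (a + a')) / (a' * (m + m'))) ≤
          (m' * (a + a')) / (a' * (m + m')) - 1 :=
        Real.log_le_sub_one_of_pos (by positivity)
      rw [Real.log_div (by positivity) (by positivity), Real.log_mul (by positivity) (by positivity),
        Real.log_mul (by positivity) (by positivity)] at k1
      rw [Real.log_div (by positivity) (by positivity), Real.log_mul (by positivity) (by positivity),
        Real.log_mul (by positivity) (by positivity)] at k2
      have k1' := mul_le_mul_of_nonneg_left k1 ha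
      have k2' := mul_le_mul_of_nonneg_left k2 ha'
      have e1 : a * ((m * (a + a')) / (a * (m + m')) - 1) + a' * ((m' * (a + a')) / (a' * (m + m')) - 1)
          = 0 := by
        field_simp
        ring
      nlinarith

/-- log-sum inequality over a finset -/
theorem log_sum {ι : Type*} (s : Finset ι) (a m : ι → ℝ) (ha : ∀ i ∈ s, 0 ≤ a i)
    (hm : ∀ i ∈ s, 0 ≤ m i) (h : ∀ i ∈ s, 0 < a i → 0 < m i) :
    phi (∑ i ∈ s, a i) - (∑ i ∈ s, a i) * Real.log (∑ i ∈ s, m i) ≤
      ∑ i ∈ s, (phi (a i) - a i * Real.log (m i)) := by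
  classical
  induction s using Finset.induction_on with
  | empty => simp [phi]
  | insert i s hi ih =>
    rw [Finset.sum_insert hi, Finset.sum_insert hi, Finset.sum_insert hi]
    have ih' := ih (fun j hj => ha j (Finset.mem_insert_of_mem hj))
      (fun j hj => hm j (Finset.mem_insert_of_mem hj)) (fun j hj => h j (Finset.mem_insert_of_mem hj))
    have key := log_sum2 (ha i (Finset.mem_insert_self i s))
      (Finset.sum_nonneg (fun j hj => ha j (Finset.mem_insert_of_mem hj)))
      (hm i (Finset.mem_insert_self i s))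
      (Finset.sum_nonneg (fun j hj => hm j (Finset.mem_insert_of_mem hj)))
      (h i (Finset.mem_insert_self i s))
      (by
        intro hpos
        obtain ⟨j, hj, hj0⟩ := Finset.exists_ne_zero_of_sum_ne_zero hpos.ne'
        have hjpos : 0 < a j := lt_of_le_of_ne (ha j (Finset.mem_insert_of_mem hj)) (Ne.symm hj0)
        exact Finset.sum_pos' (fun k hk => hm k (Finset.mem_insert_of_mem hk))
          ⟨j, hj, h j (Finset.mem_insert_of_mem hj) hjpos⟩)
    linarith

theorem phi_mul {c t : ℝ} (hc : 0 ≤ c) (ht : 0 ≤ t) : phi (c * t) = c * t * Real.log c + c * phi t := by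
  unfold phi
  rcases hc.eq_or_lt with rfl | hc
  · simp
  rcases ht.eq_or_lt with rfl | ht
  · simp
  rw [Real.log_mul hc.ne' ht.ne']; ring

theorem J_smul {p a b c : ℝ} (hp0 : 0 ≤ p) (hp1 : p ≤ 1) (hc : 0 ≤ c) (ha : 0 ≤ a) (hb : 0 ≤ b) :
    J p (c * a) (c * b) = c * J p a b := by
  unfold J
  have h1 : 0 ≤ 1 - p := by linarith
  have : p * (c * a) + (1 - p) * (c * b) = c * (p * a + (1 - p) * b) := by ring
  rw [this, phi_mul hc ha, phi_mul hc hb, phi_mul hc (by positivity)]
  ring

theorem J_self (p a : ℝ) : J p a a = 0 := by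
  unfold J
  have : p * a + (1 - p) * a = a := by ring
  rw [this]; ring

theorem J_nonneg {p a b : ℝ} (hp0 : 0 < p) (hp1 : p < 1) (ha : 0 ≤ a) (hb : 0 ≤ b) :
    0 ≤ J p a b := by
  have h1 : 0 < 1 - p := by linarith
  have key := log_sum2 (a := p * a) (a' := (1 - p) * b) (m := p) (m' := 1 - p)
    (by positivity) (by positivity) hp0.le h1.le (fun _ => hp0) (fun _ => h1)
  have e : p + (1 - p) = 1 := by ring
  rw [e, Real.log_one, mul_zero, sub_zero, phi_mul hp0.le ha, phi_mul h1.le hb] at key
  unfold J
  linarith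

theorem J_add {p a b a' b' : ℝ} (hp0 : 0 < p) (hp1 : p < 1) (ha : 0 ≤ a) (hb : 0 ≤ b)
    (ha' : 0 ≤ a') (hb' : 0 ≤ b') :
    J p (a + a') (b + b') ≤ J p a b + J p a' b' := by
  have h1 : 0 < 1 - p := by linarith
  set m := p * a + (1 - p) * b with hm
  set m' := p * a' + (1 - p) * b' with hm'
  have hm0 : 0 ≤ m := by positivity
  have hm0' : 0 ≤ m' := by positivity
  have k1 := log_sum2 (a := a) (a' := a') (m := m) (m' := m') ha ha' hm0 hm0'
    (fun h => by rw [hm]; positivity) (fun h => by rw [hm']; positivity)
  have k2 := log_sum2 (a := b) (a' := b') (m := m) (m' := m') hb hb' hm0 hm0'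
    (fun h => by rw [hm]; positivity) (fun h => by rw [hm']; positivity)
  have e : p * (a + a') + (1 - p) * (b + b') = m + m' := by rw [hm, hm']; ring
  unfold J
  rw [e, ← hm, ← hm']
  have k1' := mul_le_mul_of_nonneg_left k1 hp0.le
  have k2' := mul_le_mul_of_nonneg_left k2 h1.le
  have f1 : phi (m + m') = p * ((a + a') * Real.log (m + m')) + (1 - p) * ((b + b') * Real.log (m + m')) := by
    unfold phi
    have : m + m' = p * (a + a') + (1 - p) * (b + b') := e.symm
    calc (m + m') * Real.log (m + m') = (p * (a + a') + (1 - p) * (b + b')) * Real.log (m + m') := by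
          rw [← this]
      _ = _ := by ring
  have f2 : phi m = p * (a * Real.log m) + (1 - p) * (b * Real.log m) := by
    unfold phi
    calc m * Real.log m = (p * a + (1 - p) * b) * Real.log m := by rw [← hm]
      _ = _ := by ring
  have f3 : phi m' = p * (a' * Real.log m') + (1 - p) * (b' * Real.log m') := by
    unfold phi
    calc m' * Real.log m' = (p * a' + (1 - p) * b') * Real.log m' := by rw [← hm']
      _ = _ := by ring
  rw [f1, f2, f3]
  nlinarith [k1', k2']

theorem J_sum {ι : Type*} (s : Finset ι) {p : ℝ} (hp0 : 0 < p) (hp1 : p < 1) (a b : ι → ℝ)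
    (ha : ∀ i ∈ s, 0 ≤ a i) (hb : ∀ i ∈ s, 0 ≤ b i) :
    J p (∑ i ∈ s, a i) (∑ i ∈ s, b i) ≤ ∑ i ∈ s, J p (a i) (b i) := by
  classical
  induction s using Finset.induction_on with
  | empty => simp [J_self]
  | insert i s hi ih =>
    rw [Finset.sum_insert hi, Finset.sum_insert hi, Finset.sum_insert hi]
    have ih' := ih (fun j hj => ha j (Finset.mem_insert_of_mem hj))
      (fun j hj => hb j (Finset.mem_insert_of_mem hj))
    have := J_add (a := a i) (b := b i) (a' := ∑ j ∈ s, a j) (b' := ∑ j ∈ s, b j) hp0 hp1
      (ha i (Finset.mem_insert_self i s)) (hb i (Finset.mem_insert_self i s))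
      (Finset.sum_nonneg (fun j hj => ha j (Finset.mem_insert_of_mem hj)))
      (Finset.sum_nonneg (fun j hj => hb j (Finset.mem_insert_of_mem hj)))
    linarith

theorem J_mono {p a b b' : ℝ} (hp0 : 0 < p) (hp1 : p < 1) (ha : 0 ≤ a) (hab : a ≤ b)
    (hbb' : b ≤ b') : J p a b ≤ J p a b' := by
  rcases hab.eq_or_lt with rfl | hab
  · rw [J_self]; exact J_nonneg hp0 hp1 ha (by linarith)
  have hb' : a < b' := by linarith
  -- b = l a + (1-l) b'
  set l := (b' - b) / (b' - a) with hl
  have hd : 0 < b' - a := by linarith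
  have hl0 : 0 ≤ l := div_nonneg (by linarith) hd.le
  have hl1 : l ≤ 1 := by rw [hl, div_le_one hd]; linarith
  have hb : b = l * a + (1 - l) * b' := by
    rw [hl]; field_simp; ring
  have ha2 : a = l * a + (1 - l) * a := by ring
  have key := J_add (a := l * a) (b := l * a) (a' := (1 - l) * a) (b' := (1 - l) * b') hp0 hp1
    (by positivity) (by positivity) (mul_nonneg (by linarith) ha)
    (mul_nonneg (by linarith) (by linarith))
  rw [← ha2, ← hb, J_self, zero_add, J_smul hp0.le hp1.le (by linarith) ha (by linarith)] at key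
  have := J_nonneg (a := a) (b := b') hp0 hp1 ha (by linarith)
  nlinarith

theorem hasDerivAt_phi {t : ℝ} (ht : t ≠ 0) : HasDerivAt phi (Real.log t + 1) t := by
  have h := (hasDerivAt_id t).mul (Real.hasDerivAt_log ht)
  have e : (1 * Real.log t + id t * t⁻¹) = Real.log t + 1 := by
    simp only [id]
    rw [mul_inv_cancel₀ ht, one_mul]
  rw [e] at h
  exact h

theorem J_double {p a t : ℝ} (hp0 : 0 < p) (hp1 : p < 1) (ha : 0 ≤ a) (ht : 0 ≤ t) :
    J p a (a + 2 * t) ≤ 4 * J p a (a + t) := by
  have hq : 0 < 1 - p := by linarith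
  rcases ha.eq_or_lt with rfl | ha
  · have h1 : J p 0 (0 + 2 * t) = 2 * J p 0 (0 + t) := by
      have := J_smul (p := p) (a := 0) (b := t) (c := 2) hp0.le hp1.le (by norm_num) le_rfl ht
      rw [mul_zero] at this
      rw [zero_add, zero_add]; exact this
    rw [h1]
    have := J_nonneg (p := p) (a := 0) (b := 0 + t) hp0 hp1 le_rfl (by linarith)
    linarith
  -- calculus
  set q := 1 - p with hqdef
  let g : ℝ → ℝ := fun s => 4 * J p a (a + s) - J p a (a + 2 * s)
  have hder : ∀ s : ℝ, 0 ≤ s → HasDerivAt g
      (4 * (q * (Real.log (a + s) + 1) - (Real.log (p * a + q * (a + s)) + 1) * q)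
        - (q * ((Real.log (a + 2 * s) + 1) * 2) - (Real.log (p * a + q * (a + 2 * s)) + 1) * (q * 2))) s := by
    intro s hs
    have d1 : HasDerivAt (fun s : ℝ => a + s) 1 s := by
      simpa using (hasDerivAt_id s).const_add a
    have d2 : HasDerivAt (fun s : ℝ => a + 2 * s) 2 s := by
      simpa using ((hasDerivAt_id s).const_mul 2).const_add a
    have d3 : HasDerivAt (fun s : ℝ => p * a + q * (a + s)) q s := by
      simpa using (d1.const_mul q).const_add (p * a)
    have d4 : HasDerivAt (fun s : ℝ => p * a + q * (a + 2 * s)) (q * 2) s := by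
      simpa using (d2.const_mul q).const_add (p * a)
    have p1 : HasDerivAt (fun s : ℝ => phi (a + s)) ((Real.log (a + s) + 1) * 1) s :=
      (hasDerivAt_phi (by positivity)).comp s d1
    have p2 : HasDerivAt (fun s : ℝ => phi (a + 2 * s)) ((Real.log (a + 2 * s) + 1) * 2) s :=
      (hasDerivAt_phi (by positivity)).comp s d2
    have p3 : HasDerivAt (fun s : ℝ => phi (p * a + q * (a + s)))
        ((Real.log (p * a + q * (a + s)) + 1) * q) s :=
      (hasDerivAt_phi (by positivity)).comp s d3
    have p4 : HasDerivAt (fun s : ℝ => phi (p * a + q * (a + 2 * s)))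
        ((Real.log (p * a + q * (a + 2 * s)) + 1) * (q * 2)) s :=
      (hasDerivAt_phi (by positivity)).comp s d4
    have j1 : HasDerivAt (fun s : ℝ => J p a (a + s))
        (q * ((Real.log (a + s) + 1) * 1) - (Real.log (p * a + q * (a + s)) + 1) * q) s := by
      have := ((p1.const_mul q).const_add (p * phi a)).sub p3
      exact this
    have j2 : HasDerivAt (fun s : ℝ => J p a (a + 2 * s))
        (q * ((Real.log (a + 2 * s) + 1) * 2) - (Real.log (p * a + q * (a + 2 * s)) + 1) * (q * 2)) s := by
      have := ((p2.const_mul q).const_add (p * phi a)).sub p4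
      exact this
    have := (j1.const_mul 4).sub j2
    rw [mul_one] at this
    exact this
  have hmono : MonotoneOn g (Set.Ici 0) := by
    apply monotoneOn_of_deriv_nonneg (convex_Ici 0)
    · intro s hs
      exact (hder s hs).continuousAt.continuousWithinAt
    · intro s hs
      rw [interior_Ici] at hs
      exact (hder s (le_of_lt hs)).differentiableAt.differentiableWithinAt
    · intro s hs
      rw [interior_Ici] at hs
      have hs0 : 0 < s := hs
      rw [(hder s hs0.le).deriv]
      have e1 : p * a + q * (a + s) = a + q * s := by rw [hqdef]; ring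
      have e2 : p * a + q * (a + 2 * s) = a + q * (2 * s) := by rw [hqdef]; ring
      rw [e1, e2]
      have key : Real.log ((a + 2 * s) * (a + q * s) ^ 2) ≤ Real.log ((a + s) ^ 2 * (a + q * (2 * s))) := by
        apply Real.log_le_log (by positivity)
        have hq1 : q ≤ 1 := by rw [hqdef]; linarith
        have : 0 ≤ a * s ^ 2 * (1 - q ^ 2) + 2 * q * s ^ 3 * (1 - q) := by
          have h1 : 0 ≤ 1 - q := by linarith
          have h2 : 0 ≤ 1 - q ^ 2 := by nlinarith
          positivity
        nlinarith
      rw [Real.log_mul (by positivity) (by positivity), Real.log_mul (by positivity) (by positivity),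
        Real.log_pow, Real.log_pow] at key
      push_cast at key
      have := mul_le_mul_of_nonneg_left key (mul_pos two_pos hq).le
      nlinarith
  have h0 : g 0 = 0 := by
    simp only [g]
    rw [mul_zero, add_zero, J_self]; ring
  have := hmono (Set.mem_Ici.2 le_rfl) (Set.mem_Ici.2 ht) ht
  rw [h0] at this
  simp only [g] at this
  linarith

/-- the local inequality of the dust theorem -/
theorem J_local {p a d u v : ℝ} (hp0 : 0 < p) (hp1 : p < 1) (ha : 0 ≤ a) (hd : a ≤ d)
    (hu : a ≤ u) (hv : a ≤ v) (h : d + a ≤ u + v) :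
    J p a d ≤ 2 * (J p a u + J p a v) := by
  -- d = a + 2 t
  have k1 := J_double (p := p) (a := a) (t := (d - a) / 2) hp0 hp1 ha (by linarith)
  have e1 : a + 2 * ((d - a) / 2) = d := by ring
  rw [e1] at k1
  have k2 : J p a (a + (d - a) / 2) ≤ J p a ((u + v) / 2) :=
    J_mono hp0 hp1 ha (by linarith) (by linarith)
  have k3 := J_add (a := a) (b := u) (a' := a) (b' := v) hp0 hp1 ha (by linarith) ha (by linarith)
  have e2 : J p (a + a) (u + v) = 2 * J p a ((u + v) / 2) := by
    have := J_smul (p := p) (a := a) (b := (u + v) / 2) (c := 2) hp0.le hp1.le (by norm_num) ha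
      (by linarith)
    rw [← this]
    congr 1 <;> ring
  rw [e2] at k3
  linarith

end Crest.Agent.R147.Dust
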