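import Crest.Agent.R147.Sp58Big
import Crest.Agent.R147.Cl684Exp

/-!
Row 147, superpolynomial growth: TRIANGLE block (helper856).

`T1`: infinite-volume form of the finite DUST inequality.
`T2`: quasi-triangle inequality for the probability of two distinct macroscopic clusters.
`T3`: dyadic chain.
-/

set_option autoImplicit false

open Crest.ProbabilityR.Percolation MeasureTheory ProbabilityTheory unitInterval Filter
open Crest.Agent.R159 Crest.Agent.R159.Sharp
open scoped Topology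

namespace Crest.Agent.R147.Tri

open scoped Classical
open Crest.Agent.R147.Cl Crest.Agent.R147.Sp

universe u

/-- The finite-volume DUST theorem (helper326, #7042 (1) / #7229), as a proposition. -/
def DustFin (V : Type u) : Prop :=
  ∀ (E : Finset (Sym2 V)) (w : Sym2 V → ℝ), (∀ e ∈ E, 0 < w e) → (∀ e ∈ E, w e < 1) →
    ∀ (mac : Set V → Prop), (∀ S T : Set V, S ⊆ T → mac S → mac T) → ∀ (x y : V) (B : Set V),
    FV.Pr E w (fun ω => (mac (cl ω {x}) ∧ mac (cl ω {y}) ∧ ¬ conn ω x y) ∧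
        ∀ b ∈ B, ¬ mac (cl ω {b})) ^ 4 ≤
      FV.Pr E w (fun ω => ∀ b ∈ B, ¬ mac (cl ω {b})) *
        FV.Pr E w (fun ω => mac (cl ω {x}) ∧ mac (cl ω {y}) ∧ ¬ conn ω x y) ^ 4

variable {V : Type u} {G : SimpleGraph V}

/-- macroscopic sets -/
def mac (M : ℕ) (S : Set V) : Prop := ∃ F : Finset V, M ≤ F.card ∧ (↑F : Set V) ⊆ S

theorem mac_mono (M : ℕ) (S T : Set V) (h : S ⊆ T) (hS : mac M S) : mac M T := by
  obtain ⟨F, hF, hF'⟩ := hS
  exact ⟨F, hF, hF'.trans h⟩

theorem reachable_iff_conn {S : Finset (Sym2 V)} (hS : (↑S : Set (Sym2 V)) ⊆ G.edgeSet) (a b : V) :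
    (openSubgraph G (↑S : Set (Sym2 V))).Reachable a b ↔ conn S a b := by
  rw [SimpleGraph.reachable_iff_reflTransGen]
  unfold conn
  constructor
  · intro h
    induction h with
    | refl => exact Relation.ReflTransGen.refl
    | tail _ hbc ih =>
      rw [Inf.openSubgraph_adj] at hbc
      exact ih.tail (Finset.mem_coe.1 hbc.1)
  · intro h
    induction h with
    | refl => exact Relation.ReflTransGen.refl
    | tail _ hbc ih =>
      refine ih.tail ?_
      rw [Inf.openSubgraph_adj]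
      exact ⟨Finset.mem_coe.2 hbc, hS (Finset.mem_coe.2 hbc)⟩

theorem big_iff_mac {S : Finset (Sym2 V)} (hS : (↑S : Set (Sym2 V)) ⊆ G.edgeSet) (M : ℕ) (x : V) :
    Big G M x (↑S : Set (Sym2 V)) ↔ mac M (cl S {x}) := by
  unfold Big mac
  constructor
  · rintro ⟨F, hF, h⟩
    exact ⟨F, hF, fun y hy => (cl_singleton).2 ((reachable_iff_conn hS x y).1 (h y hy))⟩
  · rintro ⟨F, hF, h⟩
    exact ⟨F, hF, fun y hy => (reachable_iff_conn hS x y).2 ((cl_singleton).1 (h hy))⟩

/-- congruence for finite-volume probabilities, insensitive to the decidability instances -/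
theorem Pr_congr' {i1 i2 : DecidableEq (Sym2 V)} {E E' : Finset (Sym2 V)} (w : Sym2 V → ℝ)
    {A C : Finset (Sym2 V) → Prop} (hE : ∀ e, e ∈ E ↔ e ∈ E') (h : ∀ S, S ⊆ E → (A S ↔ C S)) :
    @FV.Pr (Sym2 V) i1 E w A = @FV.Pr (Sym2 V) i2 E' w C := by
  have hi : i1 = i2 := Subsingleton.elim _ _
  subst hi
  have hE' : E = E' := Finset.ext hE
  subst hE'
  exact FV.Pr_congr w h

/-- finite-volume difference of nested events -/
theorem Pr_diff (E : Finset (Sym2 V)) (w : Sym2 V → ℝ) (A C : Finset (Sym2 V) → Prop) :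
    FV.Pr E w (fun S => A S ∧ ¬ C S) = FV.Pr E w A - FV.Pr E w (fun S => A S ∧ C S) := by
  unfold FV.Pr
  rw [← FV.Ex_sub]
  apply FV.Ex_congr
  intro S _
  rw [FV.ind_and, FV.ind_and, FV.ind_not]
  ring

section meas
variable [Countable V]

/-- infinite-volume difference of nested finite-witness events is the limit of the finite-volume
ones -/
theorem tendsto_diff {A C : Set (Sym2 V) → Prop} (hA : Inf.FinWit A) (hC : Inf.FinWit C)
    (u : Set (Sym2 V)) (p : I) :
    Tendsto (fun E : Finset (Sym2 V) => FV.Pr (E.filter (· ∈ u)) (fun _ => (p : ℝ))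
      (fun S => A (↑S : Set (Sym2 V)) ∧ ¬ C (↑S : Set (Sym2 V)))) atTop
      (𝓝 ((setBernoulli u p).real {ω | A ω ∧ ¬ C ω})) := by
  have h1 := (hA.tendsto u p).sub ((hA.and hC).tendsto u p)
  have h2 : (setBernoulli u p).real {ω | A ω ∧ ¬ C ω} =
      (setBernoulli u p).real {ω | A ω} - (setBernoulli u p).real {ω | A ω ∧ C ω} := by
    have h3 : {ω : Set (Sym2 V) | A ω ∧ ¬ C ω} = {ω | A ω} \ {ω | A ω ∧ C ω} := by
      ext ω
      simp only [Set.mem_ofPred_eq, Set.mem_sdiff]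
      tauto
    have h4 := measureReal_sdiff (μ := setBernoulli u p) (s₁ := {ω : Set (Sym2 V) | A ω})
      (s₂ := {ω : Set (Sym2 V) | A ω ∧ C ω}) (fun ω h => h.1) (hA.and hC).measurableSet
      (measure_ne_top _ _)
    rw [h3, h4]
  rw [h2]
  refine h1.congr ?_
  intro E
  rw [Pr_diff]

theorem T1 (hD : DustFin V) (G : SimpleGraph V) (p : I) (hp0 : 0 < (p : ℝ)) (hp1 : (p : ℝ) < 1)
    (M : ℕ) (x y : V) (B : Finset V) :
    (setBernoulli G.edgeSet p).real {ω | TwoM G M x y ω ∧ ∀ w ∈ B, ¬ Big G M w ω} ^ 4 ≤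
      Dz G p M B * Q G p M x y ^ 4 := by
  have hBB : Inf.FinWit (fun ω => Big G M x ω ∧ Big G M y ω) :=
    (finWit_big G M x).and (finWit_big G M y)
  have hR := Inf.finWit_reachable G x y
  have hE : Inf.FinWit (fun ω => ∃ w : {w // w ∈ B}, Big G M w.1 ω) :=
    Inf.FinWit.exists (fun w => finWit_big G M w.1)
  have ht : Inf.FinWit (fun _ : Set (Sym2 V) => True) := Inf.FinWit.const True
  have l1 := tendsto_diff hBB (hR.or hE) G.edgeSet p
  have l2 := tendsto_diff ht hE G.edgeSet p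
  have l3 := tendsto_diff hBB hR G.edgeSet p
  have e1 : {ω : Set (Sym2 V) | TwoM G M x y ω ∧ ∀ w ∈ B, ¬ Big G M w ω} =
      {ω | (Big G M x ω ∧ Big G M y ω) ∧
        ¬ ((openSubgraph G ω).Reachable x y ∨ ∃ w : {w // w ∈ B}, Big G M w.1 ω)} := by
    ext ω
    simp only [Set.mem_ofPred_eq, TwoM, not_or, not_exists, Subtype.forall]
    tauto
  have e2 : {ω : Set (Sym2 V) | ∀ w ∈ B, ¬ Big G M w ω} =
      {ω | True ∧ ¬ (∃ w : {w // w ∈ B}, Big G M w.1 ω)} := by
    ext ω
    simp only [Set.mem_ofPred_eq, not_exists, Subtype.forall, true_and]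
  have e3 : {ω : Set (Sym2 V) | TwoM G M x y ω} =
      {ω | (Big G M x ω ∧ Big G M y ω) ∧ ¬ (openSubgraph G ω).Reachable x y} := by
    ext ω
    simp only [Set.mem_ofPred_eq, TwoM]
    tauto
  unfold Dz Q
  rw [e1, e2, e3]
  refine le_of_tendsto_of_tendsto' (l1.pow 4) (l2.mul (l3.pow 4)) ?_
  intro E
  have hEG : (↑(E.filter (· ∈ G.edgeSet)) : Set (Sym2 V)) ⊆ G.edgeSet := by
    intro e he
    exact (Finset.mem_filter.1 (Finset.mem_coe.1 he)).2
  have h := hD (E.filter (· ∈ G.edgeSet)) (fun _ => (p : ℝ)) (fun _ _ => hp0) (fun _ _ => hp1)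
    (mac M) (mac_mono M) x y (↑B : Set V)
  refine le_trans (le_of_eq ?_) (h.trans (le_of_eq ?_))
  · congr 1
    refine Pr_congr' _ (fun e => by simp only [Finset.mem_filter]) ?_
    intro S hS
    have hSG : (↑S : Set (Sym2 V)) ⊆ G.edgeSet :=
      fun e he => by
        have h' := hS (Finset.mem_coe.1 he)
        simp only [Finset.mem_filter] at h'
        exact h'.2
    rw [big_iff_mac hSG, big_iff_mac hSG, reachable_iff_conn hSG]
    simp only [not_or, not_exists, Subtype.forall, Finset.mem_coe]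
    constructor
    · rintro ⟨⟨h1, h2⟩, h3, h4⟩
      exact ⟨⟨h1, h2, h3⟩, fun b hb h5 => h4 b hb ((big_iff_mac hSG M b).2 h5)⟩
    · rintro ⟨⟨h1, h2, h3⟩, h4⟩
      exact ⟨⟨h1, h2⟩, h3, fun b hb h5 => h4 b hb ((big_iff_mac hSG M b).1 h5)⟩
  · congr 1
    · refine Pr_congr' _ (fun e => by simp only [Finset.mem_filter]) ?_
      intro S hS
      have hSG : (↑S : Set (Sym2 V)) ⊆ G.edgeSet :=
        fun e he => by
        have h' := hS (Finset.mem_coe.1 he)
        simp only [Finset.mem_filter] at h'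
        exact h'.2
      simp only [not_exists, Subtype.forall, Finset.mem_coe, true_and]
      constructor
      · intro h4 b hb h5
        exact h4 b hb ((big_iff_mac hSG M b).1 h5)
      · intro h4 b hb h5
        exact h4 b hb ((big_iff_mac hSG M b).2 h5)
    · congr 1
      refine Pr_congr' _ (fun e => by simp only [Finset.mem_filter]) ?_
      intro S hS
      have hSG : (↑S : Set (Sym2 V)) ⊆ G.edgeSet :=
        fun e he => by
        have h' := hS (Finset.mem_coe.1 he)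
        simp only [Finset.mem_filter] at h'
        exact h'.2
      rw [big_iff_mac hSG, big_iff_mac hSG, reachable_iff_conn hSG]
      tauto

end meas

theorem Q_nonneg (G : SimpleGraph V) (p : I) (M : ℕ) (x y : V) : 0 ≤ Q G p M x y :=
  measureReal_nonneg

theorem Dz_nonneg (G : SimpleGraph V) (p : I) (M : ℕ) (B : Finset V) : 0 ≤ Dz G p M B :=
  measureReal_nonneg

/-- half form of `T1` -/
theorem T1_half [Countable V] (hD : DustFin V) (G : SimpleGraph V) (p : I) (hp0 : 0 < (p : ℝ))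
    (hp1 : (p : ℝ) < 1) (M : ℕ) (x y : V) (B : Finset V) (hB : Dz G p M B ≤ 1 / 16) :
    (setBernoulli G.edgeSet p).real {ω | TwoM G M x y ω ∧ ∀ w ∈ B, ¬ Big G M w ω} ≤
      Q G p M x y / 2 := by
  have h := T1 hD G p hp0 hp1 M x y B
  have hq := Q_nonneg G p M x y
  have h1 : Dz G p M B * Q G p M x y ^ 4 ≤ (Q G p M x y / 2) ^ 4 := by
    have : (Q G p M x y / 2) ^ 4 = 1 / 16 * Q G p M x y ^ 4 := by ring
    rw [this]
    exact mul_le_mul_of_nonneg_right hB (pow_nonneg hq 4)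
  exact le_of_pow_le_pow_left₀ (by norm_num) (by positivity) (h.trans h1)

/-- **T2**: quasi-triangle inequality. -/
theorem T2 [Countable V] (hD : DustFin V) (G : SimpleGraph V) (p : I) (hp0 : 0 < (p : ℝ))
    (hp1 : (p : ℝ) < 1) (M : ℕ) (B : Finset V) (hB : Dz G p M B ≤ 1 / 16) (x y : V) :
    Q G p M x y ≤ 2 * ∑ w ∈ B, (Q G p M x w + Q G p M w y) := by
  have h1 := T1_half hD G p hp0 hp1 M x y B hB
  have h2 : {ω : Set (Sym2 V) | TwoM G M x y ω} ⊆
      {ω | TwoM G M x y ω ∧ ∀ w ∈ B, ¬ Big G M w ω} ∪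
        ⋃ w ∈ B, ({ω | TwoM G M x w ω} ∪ {ω | TwoM G M w y ω}) := by
    intro ω hω
    by_cases h : ∀ w ∈ B, ¬ Big G M w ω
    · exact Or.inl ⟨hω, h⟩
    · push Not at h
      obtain ⟨w, hw, hbw⟩ := h
      refine Or.inr ?_
      simp only [Set.mem_iUnion, Set.mem_union, Set.mem_ofPred_eq]
      refine ⟨w, hw, ?_⟩
      by_cases hxw : (openSubgraph G ω).Reachable x w
      · exact Or.inr ⟨hbw, hω.2.1, fun hwy => hω.2.2 (hxw.trans hwy)⟩
      · exact Or.inl ⟨hω.1, hbw, hxw⟩
  have h3 : Q G p M x y ≤ Q G p M x y / 2 + ∑ w ∈ B, (Q G p M x w + Q G p M w y) := by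
    calc Q G p M x y ≤ (setBernoulli G.edgeSet p).real
          ({ω | TwoM G M x y ω ∧ ∀ w ∈ B, ¬ Big G M w ω} ∪
            ⋃ w ∈ B, ({ω | TwoM G M x w ω} ∪ {ω | TwoM G M w y ω})) :=
          measureReal_mono h2 (measure_ne_top _ _)
      _ ≤ (setBernoulli G.edgeSet p).real {ω | TwoM G M x y ω ∧ ∀ w ∈ B, ¬ Big G M w ω} +
            (setBernoulli G.edgeSet p).real
              (⋃ w ∈ B, ({ω | TwoM G M x w ω} ∪ {ω | TwoM G M w y ω})) :=
          measureReal_union_le _ _
      _ ≤ Q G p M x y / 2 + ∑ w ∈ B, (Q G p M x w + Q G p M w y) := by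
          refine add_le_add h1 ?_
          refine (measureReal_biUnion_finset_le _ _).trans ?_
          exact Finset.sum_le_sum fun w _ => measureReal_union_le _ _
  linarith

/-- **T3**: dyadic chain. -/
theorem T3 [Countable V] (hD : DustFin V) (hloc : ∀ v : V, (G.neighborSet v).Finite)
    (p : I) (hp0 : 0 < (p : ℝ)) (hp1 : (p : ℝ) < 1) (M k Vk : ℕ)
    (hB : ∀ z, Dz G p M (th hloc k {z}) ≤ 1 / 16) (hV : ∀ v, (th hloc k {v}).card ≤ Vk) {b0 : ℝ}
    (h0 : ∀ x y, y ∈ th hloc (2 * k + 1) {x} → Q G p M x y ≤ b0) :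
    ∀ (i : ℕ) (x y : V), y ∈ th hloc (2 ^ i + 2 * k) {x} → Q G p M x y ≤ (4 * Vk) ^ i * b0 := by
  intro i
  induction i with
  | zero =>
    intro x y hy
    rw [pow_zero, Nat.add_comm] at hy
    rw [pow_zero, one_mul]
    exact h0 x y hy
  | succ i ih =>
    intro x y hy
    have e : 2 ^ (i + 1) + 2 * k = (2 ^ i + k) + (2 ^ i + k) := by ring
    rw [e, ← th_add, mem_th_iff_exists] at hy
    obtain ⟨z, hz, hyz⟩ := hy
    have hb0 : 0 ≤ (4 * (Vk : ℝ)) ^ i * b0 := by
      refine le_trans (Q_nonneg G p M x x) (ih x x ?_)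
      exact subset_th hloc _ _ (Finset.mem_singleton_self x)
    have h1 := T2 hD G p hp0 hp1 M (th hloc k {z}) (hB z) x y
    have h2 : ∀ w ∈ th hloc k {z}, Q G p M x w + Q G p M w y ≤
        2 * ((4 * (Vk : ℝ)) ^ i * b0) := by
      intro w hw
      have hxw : w ∈ th hloc (2 ^ i + 2 * k) {x} := by
        have : 2 ^ i + 2 * k = k + (2 ^ i + k) := by ring
        rw [this, ← th_add, mem_th_iff_exists]
        exact ⟨z, hz, hw⟩
      have hwy : y ∈ th hloc (2 ^ i + 2 * k) {w} := by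
        have : 2 ^ i + 2 * k = (2 ^ i + k) + k := by ring
        rw [this, ← th_add, mem_th_iff_exists]
        exact ⟨z, (mem_th_singleton_comm hloc).1 hw, hyz⟩
      have := ih x w hxw
      have := ih w y hwy
      linarith
    calc Q G p M x y ≤ 2 * ∑ w ∈ th hloc k {z}, (Q G p M x w + Q G p M w y) := h1
      _ ≤ 2 * ∑ _w ∈ th hloc k {z}, 2 * ((4 * (Vk : ℝ)) ^ i * b0) := by
          have := Finset.sum_le_sum h2
          linarith
      _ = 4 * ((th hloc k {z}).card : ℝ) * ((4 * (Vk : ℝ)) ^ i * b0) := by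
          rw [Finset.sum_const, nsmul_eq_mul]
          ring
      _ ≤ 4 * (Vk : ℝ) * ((4 * (Vk : ℝ)) ^ i * b0) := by
          refine mul_le_mul_of_nonneg_right ?_ hb0
          have : ((th hloc k {z}).card : ℝ) ≤ Vk := by exact_mod_cast hV z
          linarith
      _ = (4 * (Vk : ℝ)) ^ (i + 1) * b0 := by
          rw [pow_succ]
          ring

end Crest.Agent.R147.Tri
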