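import Crest.Agent.R147.Dust
import Crest.Agent.R147.Tri856

/-!
Row 147 (helper326): the finite-volume dust theorem in the form used by `Tri856`.
-/

set_option autoImplicit false

namespace Crest.Agent.R147.Dust

universe u

theorem dustFin (V : Type u) : Crest.Agent.R147.Tri.DustFin V :=
  fun E w h0 h1 mac hm x y B => dust E w h0 h1 mac hm x y B

end Crest.Agent.R147.Dust
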