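import Crest.Agent.R147.Sc113Two

/-!
# Screens: the data of the renormalisation (row 147, block B6)
-/

set_option autoImplicit false
set_option linter.unusedSectionVars false

open Finset

namespace Crest.Agent.R147.Sc

open Crest.Agent.R147.KN Crest.Agent.R147.KN.HG

/-- level of a site -/
def lev (v : ℕ × ℕ) : ℕ := v.1 + v.2

/-- the two children of a site -/
def ch (i : Bool) (v : ℕ × ℕ) : ℕ × ℕ := if i then (v.1, v.2 + 1) else (v.1 + 1, v.2)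

variable {V E B : Type*} [DecidableEq V] [DecidableEq E]

/-- the vertex set `C` touches at least `n` blocks of `T` -/
def Tgt (nb : B → Finset V) (T : Finset B) (n : ℕ) (C : Finset V) : Prop :=
  n ≤ (T.filter (fun b => ¬ Disjoint (nb b) C)).card

/-- The data of the renormalisation with fresh screens in a finite hypergraph. -/
structure Scr [Fintype V] [DecidableEq B] (G : HG V E) (A : Finset V) (blk : B → Finset E)
    (nb vtx : B → Finset V) (En : ℕ → Finset E) (Y : ℕ × ℕ → Finset B)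
    (Rg : ℕ × ℕ → Finset E) (q β : ℝ) (K M R N : ℕ) : Prop where
  En_mono : Monotone En
  Y_zero : Y (0, 0) = ∅
  blk_sub : ∀ v, lev v ≤ N → ∀ b ∈ Y v, blk b ⊆ En (lev v + 1)
  blk_disj : ∀ v, lev v ≤ N → ∀ b ∈ Y v, Disjoint (blk b) (En (lev v))
  blk_Rg : ∀ v, lev v ≤ N → ∀ b ∈ Y v, blk b ⊆ Rg v
  vtx_ne : ∀ v, lev v ≤ N → ∀ b ∈ Y v, (vtx b).Nonempty
  vtx_nb : ∀ v, lev v ≤ N → ∀ b ∈ Y v, vtx b ⊆ nb b
  vtx_cl : ∀ v, lev v ≤ N → ∀ b ∈ Y v, ∀ x ∈ nb b, vtx b ⊆ G.cl (blk b) {x}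
  q_le : ∀ v, lev v ≤ N → ∀ b ∈ Y v, q ≤ ∏ e ∈ blk b, G.p e
  overlap : ∀ v, lev v ≤ N → ∀ b ∈ Y v,
    ((Y v).filter (fun b' => b = b' ∨ ¬ Disjoint (blk b) (blk b'))).card ≤ K
  Rg_sub : ∀ v, lev v ≤ N → Rg v ⊆ En (lev v + 1)
  Rg_disj : ∀ v, lev v ≤ N → 1 ≤ lev v → Disjoint (Rg v) (En (lev v - 1))
  Rg_sep : ∀ v w, lev v ≤ N → lev w = lev v → v.1 + R ≤ w.1 → Disjoint (Rg v) (Rg w)
  ann : ∀ v, lev v ≤ N → v ≠ (0, 0) → ∀ b ∈ Y v, ∀ i,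
    G.ex (Rg v) (fun S => bad (Tgt nb (Y (ch i v)) (M * K)) (G.cl S (vtx b))) ≤ β
  ann_zero : ∀ i,
    G.ex (Rg (0, 0)) (fun S => bad (Tgt nb (Y (ch i (0, 0))) (M * K)) (G.cl S A)) ≤ β

end Crest.Agent.R147.Sc
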