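import Crest.Agent.R147.Sc113Main
import Crest.Agent.R147.KN.WinB6

/-!
# Link between the abstract renormalisation theorem and the infinite volume version
-/

set_option autoImplicit false

namespace Crest.Agent.R147.Win

open Crest.ProbabilityR.Percolation MeasureTheory ProbabilityTheory unitInterval
open Crest.Agent.R147.KN Crest.Agent.R147.Sc

universe u v

theorem scStmt : ScStmt.{u, v} := by
  intro W E B i1 i2 i3 i4 H A blk nb vtx En Y Rg q β K M R N h hq hβ hM hK hR hN s hs hnum Ω hΩ
  exact Sc.main h hq hβ hM hK hR hN hs hnum hΩ

end Crest.Agent.R147.Win
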