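import Crest.Agent.R147.Pg592B
import Crest.Agent.R147.Sc113Link

/-!
Row 147 (helper490), final assembly, part A: from the annealed statement for the tubes (`Ann`) to
the contradiction with `p = p_c`.
-/

set_option autoImplicit false
set_option linter.unusedSectionVars false

open Crest.ProbabilityR.Percolation MeasureTheory ProbabilityTheory unitInterval Filter
open Crest.Agent.R159 Crest.Agent.R159.Sharp Crest.Agent.R147.Cl

namespace Crest.Agent.R147.Fi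

open Crest.Agent.R147.Sc (lev ch)
open Crest.Agent.R147.Pg (X)

universe u
variable {V : Type u} {G : SimpleGraph V}

/-- relative position -/
def rp (Z : St.Z2Data G) (o x : V) : ℤ × ℤ := Z.Φ x - Z.Φ o

theorem rp_self (Z : St.Z2Data G) (o : V) : rp Z o o = 0 := sub_self _

theorem rp_eq (Z : St.Z2Data G) (o x y : V) : rp Z o y = (Z.Φ y - Z.Φ x) + rp Z o x := by
  unfold rp; abel

/-- the local data in helper592's form -/
theorem loc (hloc : ∀ v : V, (G.neighborSet v).Finite) (Z : St.Z2Data G) (o : V) (k : ℕ)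
    {Lb K : ℕ} (hLb : ∀ f, (Lo.blk hloc k f).card ≤ Lb)
    (hK : ∀ (f : V) (T : Finset V),
      (∀ f' ∈ T, f = f' ∨ ¬ Disjoint (Lo.blk hloc k f) (Lo.blk hloc k f')) → T.card ≤ K) :
    Pg.Loc G hloc (rp Z o) (Lo.Orb Z o) (fun f => th hloc k {f}) (fun f => th hloc (k + 1) {f})
      (Lo.blk hloc k) (k + 1) Lb K (Z.C * ((k + 1 : ℕ) : ℤ)) where
  self := fun f _ => Lo.th_self hloc k f
  nb_th := fun f _ => Finset.Subset.refl _
  mem_blk := by
    intro f _ e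
    rw [Lo.mem_blk]
    constructor
    · rintro ⟨h1, x, hx, hxe⟩; exact ⟨h1, x, hxe, hx⟩
    · rintro ⟨h1, x, hx, hxe⟩; exact ⟨h1, x, hxe, hx⟩
  blk_nb := fun f _ e he x hx => Lo.mem_nb_of_mem_blk hloc he hx
  conn := fun f _ x hx y hy => Lo.reach_blk hloc hx (th_mono_n hloc (Nat.le_succ k) _ hy)
    (Set.Subset.refl _)
  card_blk := fun f _ => hLb f
  overlap := fun f _ T hT => hK f T hT
  Bv_nb := fun f _ => th_mono_n hloc (Nat.le_succ k) _
  near := by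
    intro f _ x hx
    have h1 := Lo.Phi_th hloc Z hx
    have h2 : rp Z o x - rp Z o f = Z.Φ x - Z.Φ f := by unfold rp; abel
    rw [h2]
    exact h1

open Classical in
/-- **Input of the assembly**: for all orbit points `x`, all plans `c`, all relative heights
`0 ≤ r < w`, the cluster of the block of `x` inside the tube below the relative height `h - r`
touches at least `n` blocks at relative height at least `h - r`, except with probability `β`. -/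
structure Ann (hloc : ∀ v : V, (G.neighborSet v).Finite) (Z : St.Z2Data G) (o : V) (k : ℕ)
    (p : I) (L M : ℤ × ℤ → ℤ) (s b : ℝ) (h w : ℤ) (T : ℝ) (ρ n : ℕ) (β : ℝ)
    (tub : ℕ → V → ℤ → Finset (Sym2 V)) (Ysc : ℕ → V → ℤ → Finset V) : Prop where
  edge : ∀ c, 1 ≤ c → c ≤ 59 → ∀ x ∈ Lo.Orb Z o, ∀ r, 0 ≤ r → r < w →
    ∀ e ∈ tub c x r, e ∈ G.edgeSet
  ball : ∀ c, 1 ≤ c → c ≤ 59 → ∀ x ∈ Lo.Orb Z o, ∀ r, 0 ≤ r → r < w →
    ∀ e ∈ tub c x r, ∀ v ∈ e, v ∈ th hloc ρ {x}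
  below : ∀ c, 1 ≤ c → c ≤ 59 → ∀ x ∈ Lo.Orb Z o, ∀ r, 0 ≤ r → r < w →
    ∀ e ∈ tub c x r, ∀ v ∈ e, ∀ f ∈ Lo.Orb Z o, v ∈ th hloc k {f} →
      L (Z.Φ f - Z.Φ x) < h - r
  tub_X : ∀ c, 1 ≤ c → c ≤ 59 → ∀ x ∈ Lo.Orb Z o, ∀ r, 0 ≤ r → r < w →
    ∀ e ∈ tub c x r, ∀ v ∈ e, |X L M s b (Z.Φ v - Z.Φ x)| ≤ 80
  tub_L : ∀ c, 1 ≤ c → c ≤ 59 → ∀ x ∈ Lo.Orb Z o, ∀ r, 0 ≤ r → r < w →
    ∀ e ∈ tub c x r, ∀ v ∈ e, -(3 * T) ≤ (L (Z.Φ v - Z.Φ x) : ℝ)
  Y_orb : ∀ c, 1 ≤ c → c ≤ 59 → ∀ x ∈ Lo.Orb Z o, ∀ r, 0 ≤ r → r < w →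
    ∀ f ∈ Ysc c x r, f ∈ Lo.Orb Z o ∧ f ∈ th hloc ρ {x}
  Y_L : ∀ c, 1 ≤ c → c ≤ 59 → ∀ x ∈ Lo.Orb Z o, ∀ r, 0 ≤ r → r < w →
    ∀ f ∈ Ysc c x r, h - r ≤ L (Z.Φ f - Z.Φ x) ∧ L (Z.Φ f - Z.Φ x) < h - r + w
  Y_X : ∀ c, 1 ≤ c → c ≤ 59 → ∀ x ∈ Lo.Orb Z o, ∀ r, 0 ≤ r → r < w →
    ∀ f ∈ Ysc c x r, |X L M s b (Z.Φ f - Z.Φ x) - c| ≤ 6
  fail : ∀ c, 1 ≤ c → c ≤ 59 → ∀ x ∈ Lo.Orb Z o, ∀ r, 0 ≤ r → r < w →
    (setBernoulli G.edgeSet p).real {ω | ((Ysc c x r).filter (fun f =>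
      ∃ a ∈ th hloc k {x}, ∃ y ∈ th hloc (k + 1) {f},
        (openSubgraph G (ω ∩ (↑(tub c x r) : Set (Sym2 V)))).Reachable a y)).card < n} ≤ β

section final

variable {hloc : ∀ v : V, (G.neighborSet v).Finite} {Z : St.Z2Data G} {o : V} {k : ℕ}
  {p : I} {L M : ℤ × ℤ → ℤ} {s b : ℝ} {h w : ℤ} {T : ℝ} {ρ n : ℕ} {β : ℝ}
  {tub : ℕ → V → ℤ → Finset (Sym2 V)} {Ysc : ℕ → V → ℤ → Finset V}

/-- the parameter of the plan -/
theorem exists_cls {x : ℝ} (hx : |x| ≤ 8) (i : Bool) :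
    ∃ c : ℕ, 1 ≤ c ∧ c ≤ 59 ∧ |x + c - Pg.tgt i| ≤ 1 / 2 := by
  apply Pl.exists_param hx
  unfold Pg.tgt
  cases i
  · left; simp
  · right; simp

open Classical in
noncomputable def cls (x : ℝ) (i : Bool) : ℕ :=
  if hx : |x| ≤ 8 then (exists_cls hx i).choose else 1

theorem cls_spec {x : ℝ} (hx : |x| ≤ 8) (i : Bool) :
    1 ≤ cls x i ∧ cls x i ≤ 59 ∧ |x + (cls x i : ℕ) - Pg.tgt i| ≤ 1 / 2 := by
  classical
  unfold cls
  rw [dif_pos hx]
  exact (exists_cls hx i).choose_spec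

/-- bounded overlap (helper505) without decidability -/
theorem exists_overlap' (hloc : ∀ v : V, (G.neighborSet v).Finite) (Z : St.Z2Data G) (k : ℕ) :
    ∃ K : ℕ, 1 ≤ K ∧ ∀ (f : V) (T : Finset V),
      (∀ f' ∈ T, f = f' ∨ ¬ Disjoint (Lo.blk hloc k f) (Lo.blk hloc k f')) → T.card ≤ K := by
  classical
  obtain ⟨K, hK1, hK⟩ := Lo.exists_overlap hloc Z k
  refine ⟨K, hK1, fun f T hT => ?_⟩
  have h1 := hK T f
  refine le_trans (Finset.card_le_card ?_) h1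
  intro f' hf'
  simp only [Finset.mem_filter]
  exact ⟨hf', hT f' hf'⟩

/-- **the contradiction** -/
theorem false_of_ann [Countable V]
    {Lb K : ℕ} (hK1 : 1 ≤ K) (hLb : ∀ f, (Lo.blk hloc k f).card ≤ Lb)
    (hK : ∀ (f : V) (T : Finset V),
      (∀ f' ∈ T, f = f' ∨ ¬ Disjoint (Lo.blk hloc k f) (Lo.blk hloc k f')) → T.card ≤ K)
    (hcov : ∀ v, ∃ f ∈ Lo.Orb Z o, v ∈ th hloc k {f})
    (hcoord : Pg.Coord L M) (hb1 : 1 ≤ b) (hs : |s| ≤ 2) (hw : 0 < w)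
    (hb : 3 * ((Z.C * ((k + 1 : ℕ) : ℤ) : ℤ) : ℝ) ≤ b)
    (hh : w + 2 * (Z.C * ((k + 1 : ℕ) : ℤ)) < h)
    (hT : 3 * T + 2 * ((Z.C * ((k + 1 : ℕ) : ℤ) : ℤ) : ℝ) ≤ h)
    (hp0 : 0 < (p : ℝ)) (hpc : (p : ℝ) ≤ bondCriticalValue G)
    {M' : ℕ} (hM' : 1 ≤ M') (hβ : 0 ≤ β) {σ' : ℝ} (hσ' : 0 < σ')
    (hnum : σ' + (4 / ((p : ℝ) ^ Lb * M') + 4 * β / σ') < (1 / 2) ^ (102 * 6))
    (hA : Ann hloc Z o k p L M s b h w T ρ (M' * K) β tub Ysc) : False := by
  classical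
  set c : ℤ := Z.C * ((k + 1 : ℕ) : ℤ) with hc
  have hc0 : 0 ≤ c := by positivity
  obtain ⟨D, hD⟩ := Pg.exists_lat (s := s) hcoord hb1 h
  have hl := loc hloc Z o k hLb hK
  rw [← hc] at hl
  set r : ℕ → ℕ := fun j => j * (ρ + k + 1) with hr
  have hn : Pg.Num c w h b s (k + 1) r :=
    { c_nonneg := hc0
      w_pos := hw
      h_ge := hh
      b_ge := hb
      s_le := hs
      r_step := by intro j; simp only [hr]; nlinarith }
  have hh0 : 0 < h := by omega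
  have hLadd := hcoord.L_add
  have hXadd := hcoord.X_add (s := s) (b := b)
  -- relative height and horizontal position of a block
  set Yv := Pg.Y hloc (rp Z o) (Lo.Orb Z o) L M s b h D w o r with hYv
  set Rgv := Pg.Rg hloc (rp Z o) (Lo.Orb Z o) (fun f => th hloc k {f}) L M s b h D o r with hRgv
  set rel : ℕ × ℕ → V → ℤ := fun v f => L (rp Z o f) - lev v * h with hrel
  set xx : ℕ × ℕ → V → ℝ := fun v f => X L M s b (rp Z o f - Pg.zz D v) with hxx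
  set tb : ℕ × ℕ → V → Bool → Finset (Sym2 V) :=
    fun v f i => tub (cls (xx v f) i) f (rel v f) with htb
  -- general facts for a starting block near the site `v`
  have hstart : ∀ (v : ℕ × ℕ) (f : V), f ∈ Lo.Orb Z o → f ∈ th hloc (r (lev v)) {o} →
      lev v * h ≤ L (rp Z o f) → L (rp Z o f) < lev v * h + w → |xx v f| ≤ 8 → ∀ i,
      tb v f i ⊆ Rgv v ∧ (∀ g ∈ Ysc (cls (xx v f) i) f (rel v f), g ∈ Yv (ch i v)) := by
    intro v f hfO hfth hf1 hf2 hf3 i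
    obtain ⟨hc1, hc2, hc3⟩ := cls_spec hf3 i
    have hr0 : 0 ≤ rel v f := by simp only [hrel]; omega
    have hrw : rel v f < w := by simp only [hrel]; omega
    have hth : ∀ {j : ℕ} {x : V}, x ∈ th hloc j {f} → j ≤ ρ → x ∈ th hloc (r (lev v + 1)) {o} := by
      intro j x hx hj
      have h1 := Lo.th_trans hloc hfth hx
      refine th_mono_n hloc ?_ _ h1
      simp only [hr]
      nlinarith
    constructor
    · intro e he
      rw [hRgv, Pg.mem_Rg]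
      refine ⟨fun x hx => hth (hA.ball _ hc1 hc2 f hfO _ hr0 hrw e he x hx) le_rfl,
        hA.edge _ hc1 hc2 f hfO _ hr0 hrw e he, ?_, ?_⟩
      · intro x hx
        constructor
        · intro g hg hxg
          have h1 := hA.below _ hc1 hc2 f hfO _ hr0 hrw e he x hx g hg hxg
          rw [rp_eq Z o f g, hLadd]
          simp only [hrel] at h1
          push_cast
          linarith
        · have h1 := hA.tub_X _ hc1 hc2 f hfO _ hr0 hrw e he x hx
          have h2 : rp Z o x - Pg.zz D v = (Z.Φ x - Z.Φ f) + (rp Z o f - Pg.zz D v) := by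
            rw [rp_eq Z o f x]; abel
          rw [h2, hXadd]
          refine (abs_add_le _ _).trans ?_
          have h3 : |X L M s b (rp Z o f - Pg.zz D v)| ≤ 8 := hf3
          linarith
      · intro h2v
        obtain ⟨x, hx⟩ : ∃ x, x ∈ e := by
          induction e with
          | _ x y => exact ⟨x, Sym2.mem_mk_left x y⟩
        refine ⟨x, hx, fun hcon => ?_⟩
        obtain ⟨g, hg, hxg⟩ := hcov x
        have h1 := hcon g hg hxg
        have h2 := abs_le.1 (Pg.L_near hl hD hg (hl.Bv_nb g hg hxg))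
        have h3 := hA.tub_L _ hc1 hc2 f hfO _ hr0 hrw e he x hx
        have h4 : L (rp Z o x) = L (Z.Φ x - Z.Φ f) + L (rp Z o f) := by
          rw [rp_eq Z o f x, hLadd]
        have h5 : ((lev v - 1 : ℕ) : ℤ) = (lev v : ℤ) - 1 := by omega
        rw [h5] at h1
        have h6 : (L (Z.Φ x - Z.Φ f) : ℝ) < -(3 * T) := by
          have h7 : L (Z.Φ x - Z.Φ f) < -h + c := by
            have := h2.2
            nlinarith
          have h8 : (L (Z.Φ x - Z.Φ f) : ℝ) < -(h : ℝ) + c := by exact_mod_cast h7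
          have h9 : (0 : ℝ) ≤ c := by exact_mod_cast hc0
          linarith
        linarith
    · intro g hg
      obtain ⟨hgO, hgth⟩ := hA.Y_orb _ hc1 hc2 f hfO _ hr0 hrw g hg
      have hgL := hA.Y_L _ hc1 hc2 f hfO _ hr0 hrw g hg
      have hgX := hA.Y_X _ hc1 hc2 f hfO _ hr0 hrw g hg
      have hlev := Pg.lev_ch i v
      have hLg : L (rp Z o g) = L (Z.Φ g - Z.Φ f) + L (rp Z o f) := by
        rw [rp_eq Z o f g, hLadd]
      rw [hYv, Pg.mem_Y, hlev]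
      simp only [hrel] at hgL
      refine ⟨?_, hth hgth le_rfl, hgO, ?_, ?_, ?_⟩
      · intro h0
        rw [h0] at hlev
        simp only [lev] at hlev
        omega
      · push_cast; linarith [hgL.1]
      · push_cast; linarith [hgL.2]
      · rw [Pg.zz_ch]
        have h2 : rp Z o g - (Pg.zz D v + D i) =
            (Z.Φ g - Z.Φ f) + (rp Z o f - Pg.zz D v) - D i := by
          rw [rp_eq Z o f g]; abel
        rw [h2, hcoord.X_sub, hXadd]
        have h3 := abs_le.1 hgX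
        have h4 := abs_le.1 hc3
        have h5 := abs_le.1 (hD.X_D i)
        simp only [hxx] at h4
        rw [abs_le]
        constructor <;> linarith [h3.1, h3.2, h4.1, h4.2, h5.1, h5.2]
  -- facts about `Y`
  have hY : ∀ v, ∀ f ∈ Yv v, f ∈ Lo.Orb Z o ∧ f ∈ th hloc (r (lev v)) {o} ∧
      lev v * h ≤ L (rp Z o f) ∧ L (rp Z o f) < lev v * h + w ∧ |xx v f| ≤ 8 := by
    intro v f hf
    rw [hYv, Pg.mem_Y] at hf
    exact ⟨hf.2.2.1, hf.2.1, hf.2.2.2.1, hf.2.2.2.2.1, hf.2.2.2.2.2⟩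
  have hlev0 : lev (0, 0) = 0 := rfl
  have hoO : o ∈ Lo.Orb Z o := Lo.mem_Orb_self Z o
  have hoth : o ∈ th hloc (r (lev (0, 0))) {o} := Lo.th_self hloc _ _
  have ho1 : ((lev (0, 0) : ℕ) : ℤ) * h ≤ L (rp Z o o) := by
    rw [hlev0, rp_self, hcoord.L_zero]; simp
  have ho2 : L (rp Z o o) < ((lev (0, 0) : ℕ) : ℤ) * h + w := by
    rw [hlev0, rp_self, hcoord.L_zero]; simp [hw]
  have ho3 : |xx (0, 0) o| ≤ 8 := by
    simp only [hxx]
    rw [rp_self, Pg.zz_zero, sub_zero, hcoord.X_zero, abs_zero]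
    norm_num
  -- cardinality of the tubes
  obtain ⟨Dg, hDg⟩ := exists_degree_bound hloc (Lo.quasiTransitive Z)
  have hcard : ∀ c, 1 ≤ c → c ≤ 59 → ∀ x ∈ Lo.Orb Z o, ∀ r, 0 ≤ r → r < w →
      (tub c x r).card ≤ (Dg + 1) ^ ρ * Dg := by
    intro c hc1 hc2 x hx r hr0 hrw
    have h1 : tub c x r ⊆ Lo.tch hloc (th hloc ρ {x}) := by
      intro e he
      rw [Lo.mem_tch]
      refine ⟨hA.edge c hc1 hc2 x hx r hr0 hrw e he, ?_⟩
      obtain ⟨y, hy⟩ : ∃ y, y ∈ e := by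
        induction e with
        | _ x y => exact ⟨x, Sym2.mem_mk_left x y⟩
      exact ⟨y, hA.ball c hc1 hc2 x hx r hr0 hrw e he y hy, hy⟩
    refine (Finset.card_le_card h1).trans ((Lo.card_tch_le hloc hDg _).trans ?_)
    refine Nat.mul_le_mul_right _ ?_
    have := card_th_le hloc hDg ρ {x}
    rwa [Finset.card_singleton, mul_one] at this
  have hcard' : ∀ (v : ℕ × ℕ) (f : V), f ∈ Lo.Orb Z o →
      lev v * h ≤ L (rp Z o f) → L (rp Z o f) < lev v * h + w → |xx v f| ≤ 8 → ∀ i,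
      (tb v f i).card ≤ (Dg + 1) ^ ρ * Dg := by
    intro v f hfO hf1 hf2 hf3 i
    obtain ⟨hc1, hc2, _⟩ := cls_spec hf3 i
    exact hcard _ hc1 hc2 f hfO _ (by simp only [hrel]; omega) (by simp only [hrel]; omega)
  -- the layered data
  set Ly := Pg.mkLay hl hD hn hK1 (th hloc k {o}) tb (fun i => tb (0, 0) o i)
    ((Dg + 1) ^ ρ * Dg)
    (fun v f hf i => by
      obtain ⟨h1, h2, h3, h4, h5⟩ := hY v f hf
      exact hcard' v f h1 h3 h4 h5 i)
    (fun i => hcard' (0, 0) o hoO ho1 ho2 ho3 i)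
    (fun v f hf i => by
      obtain ⟨h1, h2, h3, h4, h5⟩ := hY v f hf
      exact (hstart v f h1 h2 h3 h4 h5 i).1)
    (fun i => (hstart (0, 0) o hoO hoth ho1 ho2 ho3 i).1) with hLy
  -- the annealed statement
  have hann : ∀ (v : ℕ × ℕ) (f : V), f ∈ Lo.Orb Z o → f ∈ th hloc (r (lev v)) {o} →
      lev v * h ≤ L (rp Z o f) → L (rp Z o f) < lev v * h + w → |xx v f| ≤ 8 → ∀ i,
      (setBernoulli G.edgeSet p).real {ω | Win.ntouch G (fun f => th hloc (k + 1) {f})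
        (Yv (ch i v)) (th hloc k {f}) (ω ∩ (↑(tb v f i) : Set (Sym2 V))) < M' * K} ≤ β := by
    intro v f hfO hfth hf1 hf2 hf3 i
    obtain ⟨hc1, hc2, hc3⟩ := cls_spec hf3 i
    have hr0 : 0 ≤ rel v f := by simp only [hrel]; omega
    have hrw : rel v f < w := by simp only [hrel]; omega
    refine le_trans (measureReal_mono ?_ (measure_ne_top _ _))
      (hA.fail _ hc1 hc2 f hfO _ hr0 hrw)
    intro ω hω
    rw [Set.mem_ofPred_eq] at hω ⊢
    refine lt_of_le_of_lt ?_ hω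
    unfold Win.ntouch
    refine Finset.card_le_card ?_
    intro g hg
    simp only [Finset.mem_filter] at hg ⊢
    exact ⟨(hstart v f hfO hfth hf1 hf2 hf3 i).2 g hg.1, hg.2⟩
  refine Win.false_of_le_critical Ly Win.scStmt p hp0 hpc M' hM' β hβ σ' hσ' hnum ?_ ?_
  · intro v hv f hf i
    obtain ⟨h1, h2, h3, h4, h5⟩ := hY v f hf
    exact hann v f h1 h2 h3 h4 h5 i
  · intro i
    exact hann (0, 0) o hoO hoth ho1 ho2 ho3 i

end final

end Crest.Agent.R147.Fi
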