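import Crest.Agent.R147.Cl684Exp

/-!
Row 147 (helper58): zero-one law for the existence of an infinite cluster, and its consequence:
if an infinite cluster exists with positive probability then large balls meet an infinite cluster
with probability close to one, uniformly over the centre (quasi-transitive graphs).

* `zero_one`: an event which is invariant under opening any single edge has probability 0 or 1.
* `hasInf_zero_one`.
* `exists_ball_meets_inf`.
-/

set_option autoImplicit false

open Crest.ProbabilityR.Percolation MeasureTheory ProbabilityTheory unitInterval Filter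
open Crest.Agent.R159 Crest.Agent.R159.Sharp Crest.Agent.R147.Cl
open scoped Topology ENNReal

namespace Crest.Agent.R147.Sp

universe u

section general
variable {ι : Type u}

/-- an event invariant under opening single coordinates is independent of increasing cylinders -/
theorem indep_upCyl [Countable ι] (u : Set ι) (p : I) {A : Set (Set ι)} (hA : MeasurableSet A)
    (hinv : ∀ e ∈ u, ∀ ω, insert e ω ∈ A ↔ ω ∈ A) (S : Finset ι) :
    (setBernoulli u p).real (A ∩ {ω | (↑S : Set ι) ⊆ ω}) =
      (setBernoulli u p).real A * (setBernoulli u p).real {ω | (↑S : Set ι) ⊆ ω} := by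
  classical
  induction S using Finset.induction_on with
  | empty => simp
  | insert e S he ih =>
    by_cases heu : e ∈ u
    · have key : ∀ B : Set (Set ι), MeasurableSet B → (∀ ω, insert e ω ∈ B ↔ ω ∈ B) →
          (setBernoulli u p).real (B ∩ {ω | (↑(insert e S) : Set ι) ⊆ ω}) =
            p * (setBernoulli u p).real (B ∩ {ω | (↑S : Set ι) ⊆ ω}) := by
        intro B hB hBinv
        rw [setBer_real_resample u p e heu
          (hB.inter (Inf.measurableSet_finset_subset (insert e S)))]
        have h1 : {ω : Set ι | insert e ω ∈ B ∩ {ω | (↑(insert e S) : Set ι) ⊆ ω}} =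
            B ∩ {ω | (↑S : Set ι) ⊆ ω} := by
          ext ω
          constructor
          · rintro ⟨h1, h2⟩
            refine ⟨(hBinv ω).1 h1, ?_⟩
            intro a ha
            have h3 : a ∈ insert e ω := h2 (by
              rw [Finset.mem_coe]; exact Finset.mem_insert_of_mem ha)
            rcases h3 with h3 | h3
            · exact absurd (h3 ▸ ha) he
            · exact h3
          · rintro ⟨h1, h2⟩
            refine ⟨(hBinv ω).2 h1, ?_⟩
            intro a ha
            rw [Finset.mem_coe, Finset.mem_insert] at ha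
            rcases ha with rfl | ha
            · exact Set.mem_insert _ _
            · exact Set.mem_insert_of_mem _ (h2 ha)
        have h2 : {ω : Set ι | ω \ {e} ∈ B ∩ {ω | (↑(insert e S) : Set ι) ⊆ ω}} = ∅ := by
          ext ω
          simp only [Set.mem_empty_iff_false, iff_false]
          rintro ⟨_, h2⟩
          exact (h2 (show e ∈ (↑(insert e S) : Set ι) by
            rw [Finset.mem_coe]; exact Finset.mem_insert_self e S)).2 rfl
        rw [h1, h2, measureReal_empty, mul_zero, add_zero]
      have h1 := key A hA (hinv e heu)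
      have h2 := key Set.univ MeasurableSet.univ (fun ω => by simp)
      rw [Set.univ_inter, Set.univ_inter] at h2
      rw [h1, h2, ih]
      ring
    · have h0 : (setBernoulli u p).real {ω | (↑(insert e S) : Set ι) ⊆ ω} = 0 := by
        rw [measureReal_eq_zero_iff (measure_ne_top _ _)]
        have h1 : ∀ᵐ ω ∂(setBernoulli u p), ω ⊆ u := setBernoulli_ae_subset
        rw [ae_iff] at h1
        refine measure_mono_null ?_ h1
        intro ω hω
        have hω' : (↑(insert e S) : Set ι) ⊆ ω := hω
        intro hsub
        exact heu (hsub (hω' (by rw [Finset.mem_coe]; exact Finset.mem_insert_self e S)))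
      have h1 : (setBernoulli u p).real (A ∩ {ω | (↑(insert e S) : Set ι) ⊆ ω}) = 0 := by
        apply le_antisymm _ measureReal_nonneg
        rw [← h0]
        exact measureReal_mono Set.inter_subset_right (measure_ne_top _ _)
      rw [h0, h1, mul_zero]

/-- **zero-one law** for events invariant under opening single coordinates -/
theorem zero_one [Countable ι] (u : Set ι) (p : I) {A : Set (Set ι)} (hA : MeasurableSet A)
    (hinv : ∀ e ∈ u, ∀ ω, insert e ω ∈ A ↔ ω ∈ A) :
    (setBernoulli u p).real A = 0 ∨ (setBernoulli u p).real A = 1 := by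
  set μ := setBernoulli u p with hμ
  have h : μ.restrict A = (μ A) • μ := by
    refine ext_of_generate_finite (upCyl ι) generateFrom_upCyl isPiSystem_upCyl ?_ ?_
    · rintro B ⟨S, rfl⟩
      have h1 := indep_upCyl u p hA hinv S
      rw [Measure.restrict_apply (Inf.measurableSet_finset_subset S), Measure.smul_apply,
        smul_eq_mul, Set.inter_comm]
      have h2 : (μ (A ∩ {ω | (↑S : Set ι) ⊆ ω})).toReal =
          (μ A * μ {ω | (↑S : Set ι) ⊆ ω}).toReal := by
        rw [ENNReal.toReal_mul]
        exact h1
      exact (ENNReal.toReal_eq_toReal_iff' (measure_ne_top _ _)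
        (ENNReal.mul_ne_top (measure_ne_top _ _) (measure_ne_top _ _))).1 h2
    · rw [Measure.restrict_apply MeasurableSet.univ, Measure.smul_apply, smul_eq_mul,
        Set.univ_inter, measure_univ, mul_one]
  have h1 : μ A = μ A * μ A := by
    have h2 := congrArg (fun ν : Measure (Set ι) => ν A) h
    simp only [Measure.restrict_apply hA, Set.inter_self, Measure.smul_apply, smul_eq_mul] at h2
    exact h2
  have h2 : μ.real A = μ.real A * μ.real A := by
    have := congrArg ENNReal.toReal h1
    rwa [ENNReal.toReal_mul] at this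
  have h3 : μ.real A * (μ.real A - 1) = 0 := by linarith
  rcases mul_eq_zero.1 h3 with h4 | h4
  · exact Or.inl h4
  · exact Or.inr (by linarith)

end general

variable {V : Type u} {G : SimpleGraph V}

theorem reachable_insert' {a b x y : V} {ω : Set (Sym2 V)}
    (h : (openSubgraph G (insert s(a, b) ω)).Reachable x y) :
    (openSubgraph G ω).Reachable x y ∨ (openSubgraph G ω).Reachable a y ∨
      (openSubgraph G ω).Reachable b y := by
  rw [SimpleGraph.reachable_iff_reflTransGen] at h
  induction h with
  | refl => exact Or.inl (SimpleGraph.Reachable.refl _)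
  | @tail c d _ hcd ih =>
    rw [Inf.openSubgraph_adj] at hcd
    obtain ⟨h1, h2⟩ := hcd
    rcases h1 with h1 | h1
    · rcases Sym2.eq_iff.1 h1 with ⟨_, rfl⟩ | ⟨_, rfl⟩
      · exact Or.inr (Or.inr (SimpleGraph.Reachable.refl _))
      · exact Or.inr (Or.inl (SimpleGraph.Reachable.refl _))
    · have h3 : (openSubgraph G ω).Reachable c d :=
        SimpleGraph.Adj.reachable ((Inf.openSubgraph_adj G ω c d).2 ⟨h1, h2⟩)
      rcases ih with ih | ih | ih
      · exact Or.inl (ih.trans h3)
      · exact Or.inr (Or.inl (ih.trans h3))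
      · exact Or.inr (Or.inr (ih.trans h3))

theorem hasInf_insert (e : Sym2 V) (ω : Set (Sym2 V)) :
    HasInfiniteCluster G (insert e ω) ↔ HasInfiniteCluster G ω := by
  rw [Inf.hasInfiniteCluster_iff, Inf.hasInfiniteCluster_iff]
  constructor
  · rintro ⟨x, hx⟩
    induction e using Sym2.ind with
    | _ a b =>
      by_contra hcon
      push Not at hcon
      have hfin : ∀ v, {y | (openSubgraph G ω).Reachable v y}.Finite := fun v =>
        Set.not_infinite.1 (hcon v)
      apply hx
      refine ((hfin x).union ((hfin a).union (hfin b))).subset ?_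
      intro y hy
      rcases reachable_insert' hy with h | h | h
      · exact Or.inl h
      · exact Or.inr (Or.inl h)
      · exact Or.inr (Or.inr h)
  · rintro ⟨x, hx⟩
    exact ⟨x, Inf.InfAt.mono G (Set.subset_insert _ _) hx⟩

theorem measurableSet_hasInf [Countable V] (G : SimpleGraph V) :
    MeasurableSet {ω : Set (Sym2 V) | HasInfiniteCluster G ω} := by
  have h1 : {ω : Set (Sym2 V) | HasInfiniteCluster G ω} = ⋃ x, {ω | Inf.InfAt G ω x} := by
    ext ω
    simp only [Set.mem_ofPred_eq, Set.mem_iUnion]
    exact Inf.hasInfiniteCluster_iff G ω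
  rw [h1]
  exact MeasurableSet.iUnion fun x => Inf.measurableSet_infAt G x

/-- zero-one law for the existence of an infinite cluster -/
theorem hasInf_zero_one [Countable V] (p : I) :
    (setBernoulli G.edgeSet p).real {ω | HasInfiniteCluster G ω} = 0 ∨
      (setBernoulli G.edgeSet p).real {ω | HasInfiniteCluster G ω} = 1 :=
  zero_one G.edgeSet p (measurableSet_hasInf G) (fun e _ ω => hasInf_insert e ω)

/-- probability that the ball of radius `k` about `z` meets an infinite cluster -/
noncomputable def ballInf (hloc : ∀ v : V, (G.neighborSet v).Finite) (p : I) (k : ℕ) (z : V) : ℝ :=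
  (setBernoulli G.edgeSet p).real {ω | ∃ w ∈ th hloc k {z}, Inf.InfAt G ω w}

theorem ballInf_mono (hloc : ∀ v : V, (G.neighborSet v).Finite) (p : I) {k l : ℕ} (h : k ≤ l)
    (z : V) : ballInf hloc p k z ≤ ballInf hloc p l z := by
  apply measureReal_mono _ (measure_ne_top _ _)
  rintro ω ⟨w, hw, hi⟩
  exact ⟨w, th_mono_n hloc h _ hw, hi⟩

theorem measurableSet_ballInf [Countable V] (G : SimpleGraph V) (B : Finset V) :
    MeasurableSet {ω : Set (Sym2 V) | ∃ w ∈ B, Inf.InfAt G ω w} := by
  have : {ω : Set (Sym2 V) | ∃ w ∈ B, Inf.InfAt G ω w} = ⋃ w ∈ B, {ω | Inf.InfAt G ω w} := by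
    ext ω
    simp only [Set.mem_ofPred_eq, Set.mem_iUnion, exists_prop]
  rw [this]
  exact Finset.measurableSet_biUnion B fun w _ => Inf.measurableSet_infAt G w

theorem ballInf_aut [Countable V] (hloc : ∀ v : V, (G.neighborSet v).Finite) (p : I)
    (φ : G ≃g G) (k : ℕ) (z : V) : ballInf hloc p k (φ z) = ballInf hloc p k z := by
  unfold ballInf
  rw [← Inf.setBernoulli_aut G φ p (measurableSet_ballInf G (th hloc k {z}))]
  congr 1
  ext ω
  simp only [Set.mem_ofPred_eq]
  constructor
  · rintro ⟨w, hw, hi⟩
    refine ⟨φ.symm w, ?_, ?_⟩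
    · rw [← th_aut hloc φ, φ.apply_symm_apply]
      exact hw
    · rw [infAt_openIso, φ.apply_symm_apply]
      exact hi
  · rintro ⟨w, hw, hi⟩
    refine ⟨φ w, (th_aut hloc φ k z w).2 hw, ?_⟩
    rw [← infAt_openIso]
    exact hi

/-- if there is an infinite cluster with positive probability, then large balls meet an infinite
cluster with probability close to one, uniformly over the centre. -/
theorem exists_ball_meets_inf [Countable V] (hconn : G.Connected)
    (hloc : ∀ v : V, (G.neighborSet v).Finite) (hqt : IsQuasiTransitive G) (p : I)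
    (hpos : setBernoulli G.edgeSet p {ω | HasInfiniteCluster G ω} ≠ 0) {η : ℝ} (hη : 0 < η) :
    ∃ k : ℕ, ∀ z, 1 - η < ballInf hloc p k z := by
  have h1 : (setBernoulli G.edgeSet p).real {ω | HasInfiniteCluster G ω} = 1 := by
    rcases hasInf_zero_one (G := G) p with h | h
    · rw [measureReal_eq_zero_iff (measure_ne_top _ _)] at h
      exact absurd h hpos
    · exact h
  have h2 : ∀ z, ∃ k : ℕ, 1 - η < ballInf hloc p k z := by
    intro z
    have hU : {ω : Set (Sym2 V) | HasInfiniteCluster G ω} =
        ⋃ k : ℕ, {ω | ∃ w ∈ th hloc k {z}, Inf.InfAt G ω w} := by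
      ext ω
      simp only [Set.mem_ofPred_eq, Set.mem_iUnion]
      rw [Inf.hasInfiniteCluster_iff]
      constructor
      · rintro ⟨x, hx⟩
        obtain ⟨w⟩ := hconn.preconnected z x
        exact ⟨w.length, x, (mem_th hloc).2 ⟨z, Finset.mem_singleton_self z, w, le_rfl⟩, hx⟩
      · rintro ⟨_, w, _, hw⟩
        exact ⟨w, hw⟩
    have hmono : Monotone (fun k : ℕ => {ω : Set (Sym2 V) | ∃ w ∈ th hloc k {z},
        Inf.InfAt G ω w}) := by
      intro k l hkl ω hω
      obtain ⟨w, hw, hi⟩ := hω
      exact ⟨w, th_mono_n hloc hkl _ hw, hi⟩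
    have hlim : Tendsto (fun k : ℕ => ballInf hloc p k z) atTop (𝓝 1) := by
      rw [← h1, hU]
      unfold ballInf Measure.real
      refine (ENNReal.tendsto_toReal (measure_ne_top _ _)).comp ?_
      exact tendsto_measure_iUnion_atTop hmono
    exact (hlim.eventually (lt_mem_nhds (by linarith))).exists
  choose k hk using h2
  obtain ⟨F, hF⟩ := hqt
  refine ⟨F.sup k, fun z => ?_⟩
  obtain ⟨φ, hφ⟩ := hF z
  rw [← ballInf_aut hloc p φ]
  exact lt_of_lt_of_le (hk (φ z)) (ballInf_mono hloc p (Finset.le_sup hφ) _)

end Crest.Agent.R147.Sp
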