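import Crest.Agent.R147.Cl684Uniq

/-!
Row 147, superpolynomial growth (helper58): common definitions.

`Big G M x ω`: the cluster of `x` has at least `M` vertices.
`TwoM G M x y ω`: `x`, `y` lie in two distinct clusters, both with at least `M` vertices.
`Q G p M x y`: its probability.  `Dz G p M B`: probability that no vertex of `B` is big.
-/

set_option autoImplicit false

open Crest.ProbabilityR.Percolation MeasureTheory ProbabilityTheory unitInterval Filter
open Crest.Agent.R159 Crest.Agent.R159.Sharp Crest.Agent.R147.Cl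
open scoped Topology

namespace Crest.Agent.R147.Sp

universe u
variable {V : Type u} {G : SimpleGraph V}

/-- the cluster of `x` has at least `M` vertices (it may be infinite) -/
def Big (G : SimpleGraph V) (M : ℕ) (x : V) (ω : Set (Sym2 V)) : Prop :=
  ∃ S : Finset V, M ≤ S.card ∧ ∀ y ∈ S, (openSubgraph G ω).Reachable x y

/-- `x` and `y` lie in two distinct clusters, both with at least `M` vertices -/
def TwoM (G : SimpleGraph V) (M : ℕ) (x y : V) (ω : Set (Sym2 V)) : Prop :=
  Big G M x ω ∧ Big G M y ω ∧ ¬ (openSubgraph G ω).Reachable x y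

/-- probability of `TwoM` -/
noncomputable def Q (G : SimpleGraph V) (p : I) (M : ℕ) (x y : V) : ℝ :=
  (setBernoulli G.edgeSet p).real {ω | TwoM G M x y ω}

/-- probability that no vertex of `B` is in a cluster with at least `M` vertices -/
noncomputable def Dz (G : SimpleGraph V) (p : I) (M : ℕ) (B : Finset V) : ℝ :=
  (setBernoulli G.edgeSet p).real {ω | ∀ w ∈ B, ¬ Big G M w ω}

/-! ### deterministic facts -/

theorem Big.of_reachable {M : ℕ} {x y : V} {ω : Set (Sym2 V)}
    (h : (openSubgraph G ω).Reachable x y) (hx : Big G M x ω) : Big G M y ω := by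
  obtain ⟨S, hS, hr⟩ := hx
  exact ⟨S, hS, fun z hz => h.symm.trans (hr z hz)⟩

theorem Big.mono {M : ℕ} {x : V} {ω ω' : Set (Sym2 V)} (h : ω ⊆ ω') (hx : Big G M x ω) :
    Big G M x ω' := by
  obtain ⟨S, hS, hr⟩ := hx
  exact ⟨S, hS, fun z hz => Inf.reachable_mono G h (hr z hz)⟩

theorem Big.le {M M' : ℕ} (hM : M ≤ M') {x : V} {ω : Set (Sym2 V)} (hx : Big G M' x ω) :
    Big G M x ω := by
  obtain ⟨S, hS, hr⟩ := hx
  exact ⟨S, hM.trans hS, hr⟩

theorem big_zero (x : V) (ω : Set (Sym2 V)) : Big G 0 x ω := ⟨∅, le_rfl, by simp⟩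

theorem big_one (x : V) (ω : Set (Sym2 V)) : Big G 1 x ω :=
  ⟨{x}, by simp, fun y hy => by
    rw [Finset.mem_singleton] at hy
    subst hy
    exact SimpleGraph.Reachable.refl _⟩

/-- an infinite cluster is big -/
theorem big_of_infAt {M : ℕ} {x : V} {ω : Set (Sym2 V)} (h : Inf.InfAt G ω x) :
    Big G M x ω := by
  obtain ⟨S, hS, hc⟩ := h.exists_subset_card_eq M
  exact ⟨S, hc.ge, fun y hy => hS hy⟩

/-- a cluster which is big for every `M` is infinite -/
theorem infAt_of_big {x : V} {ω : Set (Sym2 V)} (h : ∀ M, Big G M x ω) : Inf.InfAt G ω x := by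
  intro hfin
  obtain ⟨S, hS, hr⟩ := h (hfin.toFinset.card + 1)
  have h1 : S ⊆ hfin.toFinset := by
    intro y hy
    rw [Set.Finite.mem_toFinset]
    exact hr y hy
  have := Finset.card_le_card h1
  omega

/-- if the cluster of `x` is not big then it meets any finite set in less than `M` points -/
theorem card_lt_of_not_big {M : ℕ} {x : V} {ω : Set (Sym2 V)} (h : ¬ Big G M x ω)
    {S : Finset V} (hS : ∀ y ∈ S, (openSubgraph G ω).Reachable x y) : S.card < M := by
  by_contra hcon
  exact h ⟨S, not_lt.1 hcon, hS⟩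

theorem TwoM.symm {M : ℕ} {x y : V} {ω : Set (Sym2 V)} (h : TwoM G M x y ω) :
    TwoM G M y x ω := ⟨h.2.1, h.1, fun h' => h.2.2 h'.symm⟩

theorem TwoM.le {M M' : ℕ} (hM : M ≤ M') {x y : V} {ω : Set (Sym2 V)} (h : TwoM G M' x y ω) :
    TwoM G M x y ω := ⟨h.1.le hM, h.2.1.le hM, h.2.2⟩

theorem not_twoM_self {M : ℕ} {x : V} {ω : Set (Sym2 V)} : ¬ TwoM G M x x ω :=
  fun h => h.2.2 (SimpleGraph.Reachable.refl _)

/-! ### finitely witnessed events -/

theorem finWit_forall {ι : Type u} {κ : Type u} (s : Finset κ) {P : κ → Set ι → Prop}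
    (h : ∀ k ∈ s, Inf.FinWit (P k)) : Inf.FinWit (fun ω => ∀ k ∈ s, P k ω) := by
  classical
  induction s using Finset.induction_on with
  | empty =>
    have : (fun ω : Set ι => ∀ k ∈ (∅ : Finset κ), P k ω) = fun _ => True := by
      funext ω; simp
    rw [this]
    exact Inf.FinWit.const True
  | insert a s ha ih =>
    have : (fun ω : Set ι => ∀ k ∈ insert a s, P k ω) =
        fun ω => P a ω ∧ ∀ k ∈ s, P k ω := by
      funext ω
      apply propext
      constructor
      · intro hh
        exact ⟨hh a (Finset.mem_insert_self a s), fun k hk => hh k (Finset.mem_insert_of_mem hk)⟩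
      · rintro ⟨h1, h2⟩ k hk
        rcases Finset.mem_insert.1 hk with rfl | hk
        · exact h1
        · exact h2 k hk
    rw [this]
    exact (h a (Finset.mem_insert_self a s)).and
      (ih (fun k hk => h k (Finset.mem_insert_of_mem hk)))

theorem finWit_big (G : SimpleGraph V) (M : ℕ) (x : V) : Inf.FinWit (Big G M x) := by
  unfold Big
  apply Inf.FinWit.exists
  intro S
  exact (Inf.FinWit.const (M ≤ S.card)).and
    (finWit_forall S (fun y _ => Inf.finWit_reachable G x y))

/-- some vertex of `B` is big -/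
theorem finWit_exists_big (G : SimpleGraph V) (M : ℕ) (B : Finset V) :
    Inf.FinWit (fun ω => ∃ w ∈ B, Big G M w ω) := by
  have : (fun ω : Set (Sym2 V) => ∃ w ∈ B, Big G M w ω) =
      fun ω => ∃ w : V, w ∈ B ∧ Big G M w ω := rfl
  rw [this]
  apply Inf.FinWit.exists
  intro w
  exact (Inf.FinWit.const (w ∈ B)).and (finWit_big G M w)

theorem finWit_big2 (G : SimpleGraph V) (M : ℕ) (x y : V) :
    Inf.FinWit (fun ω => Big G M x ω ∧ Big G M y ω) :=
  (finWit_big G M x).and (finWit_big G M y)

/-! ### measurability -/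

variable [Countable V]

theorem measurableSet_big (G : SimpleGraph V) (M : ℕ) (x : V) :
    MeasurableSet {ω : Set (Sym2 V) | Big G M x ω} := (finWit_big G M x).measurableSet

theorem measurableSet_twoM (G : SimpleGraph V) (M : ℕ) (x y : V) :
    MeasurableSet {ω : Set (Sym2 V) | TwoM G M x y ω} :=
  (measurableSet_big G M x).inter ((measurableSet_big G M y).inter
    (Inf.measurableSet_reachable G x y).compl)

theorem measurableSet_noBig (G : SimpleGraph V) (M : ℕ) (B : Finset V) :
    MeasurableSet {ω : Set (Sym2 V) | ∀ w ∈ B, ¬ Big G M w ω} := by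
  have : {ω : Set (Sym2 V) | ∀ w ∈ B, ¬ Big G M w ω} =
      {ω | ∃ w ∈ B, Big G M w ω}ᶜ := by
    ext ω
    simp only [Set.mem_compl_iff, Set.mem_ofPred_eq]
    push Not
    exact Iff.rfl
  rw [this]
  exact (finWit_exists_big G M B).measurableSet.compl

/-! ### elementary facts on `Q` and `Dz` -/

omit [Countable V] in
theorem Q_nonneg (p : I) (M : ℕ) (x y : V) : 0 ≤ Q G p M x y := measureReal_nonneg

omit [Countable V] in
theorem Q_le_one (p : I) (M : ℕ) (x y : V) : Q G p M x y ≤ 1 := measureReal_le_one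

omit [Countable V] in
theorem Dz_nonneg (p : I) (M : ℕ) (B : Finset V) : 0 ≤ Dz G p M B := measureReal_nonneg

omit [Countable V] in
theorem Dz_le_one (p : I) (M : ℕ) (B : Finset V) : Dz G p M B ≤ 1 := measureReal_le_one

omit [Countable V] in
theorem Q_self (p : I) (M : ℕ) (x : V) : Q G p M x x = 0 := by
  unfold Q
  have : {ω : Set (Sym2 V) | TwoM G M x x ω} = ∅ := by
    ext ω
    simp only [Set.mem_ofPred_eq, Set.mem_empty_iff_false, iff_false]
    exact not_twoM_self
  rw [this]
  exact measureReal_empty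

omit [Countable V] in
theorem Q_comm (p : I) (M : ℕ) (x y : V) : Q G p M x y = Q G p M y x := by
  unfold Q
  congr 1
  ext ω
  exact ⟨TwoM.symm, TwoM.symm⟩

omit [Countable V] in
theorem Q_anti (p : I) {M M' : ℕ} (hM : M ≤ M') (x y : V) : Q G p M' x y ≤ Q G p M x y :=
  measureReal_mono (fun _ h => TwoM.le hM h) (measure_ne_top _ _)

/-! ### automorphisms -/

omit [Countable V] in
theorem big_openIso (φ : G ≃g G) (M : ℕ) (x : V) (ω : Set (Sym2 V)) :
    Big G M x (Sym2.map φ ⁻¹' ω) ↔ Big G M (φ x) ω := by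
  classical
  constructor
  · rintro ⟨S, hS, hr⟩
    refine ⟨S.image φ, ?_, ?_⟩
    · rw [Finset.card_image_of_injective _ φ.injective]; exact hS
    · intro y hy
      obtain ⟨z, hz, rfl⟩ := Finset.mem_image.1 hy
      rw [← Inf.reachable_openIso]
      exact hr z hz
  · rintro ⟨S, hS, hr⟩
    refine ⟨S.image φ.symm, ?_, ?_⟩
    · rw [Finset.card_image_of_injective _ φ.symm.injective]; exact hS
    · intro y hy
      obtain ⟨z, hz, rfl⟩ := Finset.mem_image.1 hy
      rw [Inf.reachable_openIso, φ.apply_symm_apply]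
      exact hr z hz

omit [Countable V] in
theorem twoM_openIso (φ : G ≃g G) (M : ℕ) (x y : V) (ω : Set (Sym2 V)) :
    TwoM G M x y (Sym2.map φ ⁻¹' ω) ↔ TwoM G M (φ x) (φ y) ω := by
  unfold TwoM
  rw [big_openIso, big_openIso, Inf.reachable_openIso]

theorem big_aut (p : I) (φ : G ≃g G) (M : ℕ) (x : V) :
    (setBernoulli G.edgeSet p).real {ω | Big G M (φ x) ω} =
      (setBernoulli G.edgeSet p).real {ω | Big G M x ω} := by
  rw [← Inf.setBernoulli_aut G φ p (measurableSet_big G M x)]
  congr 1
  ext ω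
  simp only [Set.mem_ofPred_eq]
  rw [big_openIso]

theorem Q_aut (p : I) (φ : G ≃g G) (M : ℕ) (x y : V) :
    Q G p M (φ x) (φ y) = Q G p M x y := by
  unfold Q
  rw [← Inf.setBernoulli_aut G φ p (measurableSet_twoM G M x y)]
  congr 1
  ext ω
  simp only [Set.mem_ofPred_eq]
  rw [twoM_openIso]

theorem Dz_aut [DecidableEq V] (p : I) (φ : G ≃g G) (M : ℕ) (B : Finset V) :
    Dz G p M (B.image φ) = Dz G p M B := by
  unfold Dz
  rw [← Inf.setBernoulli_aut G φ p (measurableSet_noBig G M B)]
  congr 1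
  ext ω
  simp only [Set.mem_ofPred_eq]
  constructor
  · intro h w hw
    rw [big_openIso]
    exact h _ (Finset.mem_image_of_mem φ hw)
  · intro h w hw
    obtain ⟨z, hz, rfl⟩ := Finset.mem_image.1 hw
    rw [← big_openIso]
    exact h z hz

end Crest.Agent.R147.Sp
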