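import Crest.Agent.R147.End490A
import Crest.Agent.R147.Nm53Mov
import Crest.Agent.R147.Sp58Boot

/-!
Row 147 (helper490), final assembly, part B: the constants and the theorem for `Z2Data`, from the
statement `E4c` (single moves ⇒ annealed tubes).
-/

set_option autoImplicit false

open Crest.ProbabilityR.Percolation MeasureTheory ProbabilityTheory unitInterval Filter
open Crest.Agent.R159 Crest.Agent.R159.Sharp Crest.Agent.R147.Cl

namespace Crest.Agent.R147.Fi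

universe u
variable {V : Type u} {G : SimpleGraph V}

/-- the statement of block E4c -/
def E4c (hloc : ∀ v : V, (G.neighborSet v).Finite) (Z : St.Z2Data G) (o : V) (p : I) : Prop :=
  ∀ β : ℝ, 0 < β → ∃ δ : ℝ, 0 < δ ∧ ∃ Kp : ℕ, 0 < Kp ∧ ∀ k : ℕ,
    (∀ v, ∃ f ∈ Lo.Orb Z o, v ∈ th hloc k {f}) → ∃ n : ℕ, ∀ N : ℕ, ∃ t T₀ : ℝ,
    ∀ (L M : ℤ × ℤ → ℤ) (T b s y : ℝ) (r : ℕ) (Ein : Bool → V → Finset (Sym2 V))
      (Tgt : Bool → V → Finset V), T₀ ≤ b →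
      Nm.MovOut hloc Z o k p Kp n δ t L M T b s y r Ein Tgt →
      ∃ (h w : ℤ) (ρ : ℕ) (tub : ℕ → V → ℤ → Finset (Sym2 V)) (Ysc : ℕ → V → ℤ → Finset V),
        0 < w ∧ w + 2 * (Z.C * ((k + 1 : ℕ) : ℤ)) < h ∧
        3 * T + 2 * ((Z.C * ((k + 1 : ℕ) : ℤ) : ℤ) : ℝ) ≤ h ∧
        Ann hloc Z o k p L M s b h w T ρ N β tub Ysc

theorem p_pos [Countable V] (p : I)
    (hpos : setBernoulli G.edgeSet p {ω | HasInfiniteCluster G ω} ≠ 0) : 0 < (p : ℝ) := by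
  rcases eq_or_lt_of_le p.2.1 with h | h
  · exfalso
    apply hpos
    have hq' : p = 0 := Subtype.ext h.symm
    rw [hq']
    exact Cl.measure_hasInf_eq_zero 0 (fun x => Cl.th0_zero x)
  · exact h

/-- **the case of `Z2Data`**, from E4c -/
theorem Z2_zero_of (hconn : G.Connected) (hloc : ∀ v : V, (G.neighborSet v).Finite)
    (hlt : bondCriticalValue G < 1) (p : I) (hp : (p : ℝ) = bondCriticalValue G)
    (hna : ¬ IsVertexNonamenable G) (Z : St.Z2Data G)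
    (hE : ∀ o : V, 0 < (p : ℝ) → (p : ℝ) < 1 → E4c hloc Z o p) :
    setBernoulli G.edgeSet p {ω | HasInfiniteCluster G ω} = 0 := by
  have : Countable V := Inf.countable_of_connected G hconn hloc
  have hqt : IsQuasiTransitive G := Lo.quasiTransitive Z
  by_contra hpos
  have hp0 : 0 < (p : ℝ) := p_pos p hpos
  have hp1 : (p : ℝ) < 1 := by rw [hp]; exact hlt
  obtain ⟨o⟩ := hconn.nonempty
  -- absolute constants
  obtain ⟨A, hA⟩ : ∃ A : ℝ, A = (1 / 2) ^ (102 * 6) := ⟨_, rfl⟩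
  have hA0 : 0 < A := by rw [hA]; exact pow_pos (by norm_num) _
  set σ' : ℝ := A / 4 with hσ'
  have hσ'0 : 0 < σ' := by positivity
  set β : ℝ := σ' * σ' / 4 with hβ
  have hβ0 : 0 < β := by positivity
  obtain ⟨δ, hδ, Kp, hKp, hE1⟩ := hE o hp0 hp1 β hβ0
  obtain ⟨k₀, hk₀⟩ := Nm.moves hconn hloc hqt hna Z o p hp0 hp1 hpos hδ hKp
  obtain ⟨k₁, hk₁⟩ := Lo.exists_cover hloc hconn Z o
  set k := max k₀ k₁ with hk
  have hcov : ∀ v, ∃ f ∈ Lo.Orb Z o, v ∈ th hloc k {f} := hk₁ k (le_max_right _ _)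
  obtain ⟨Lb, hLb⟩ := Lo.exists_card_blk hloc Z k
  obtain ⟨K, hK1, hK⟩ := exists_overlap' hloc Z k
  obtain ⟨n, hE2⟩ := hE1 k hcov
  -- the number of blocks
  have hq : 0 < (p : ℝ) ^ Lb := pow_pos hp0 Lb
  obtain ⟨M', hM'⟩ := exists_nat_gt (4 / ((p : ℝ) ^ Lb * σ'))
  have hM'0 : (0 : ℝ) < M' := lt_trans (by positivity) hM'
  have hM'1 : 1 ≤ M' := by
    have : (0 : ℝ) < M' := hM'0
    exact_mod_cast this
  have h4 : 4 / ((p : ℝ) ^ Lb * M') < σ' := by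
    rw [div_lt_iff₀ (by positivity)]
    rw [div_lt_iff₀ (by positivity)] at hM'
    linarith
  obtain ⟨t, T₀, hE3⟩ := hE2 (M' * K)
  set c : ℤ := Z.C * ((k + 1 : ℕ) : ℤ) with hc
  obtain ⟨L, M, T, b, s, y, r, Ein, Tgt, hT₀, hmov⟩ := hk₀ k (le_max_left _ _) n t
    (max T₀ (max 1 (3 * (c : ℝ))))
  obtain ⟨h, w, ρ, tub, Ysc, hw, hh, hT, hAnn⟩ := hE3 L M T b s y r Ein Tgt
    ((le_max_left _ _).trans hT₀) hmov
  refine false_of_ann hK1 hLb hK hcov hmov.coord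
    (((le_max_left _ _).trans (le_max_right _ _)).trans hT₀) hmov.s_le hw
    (((le_max_right _ _).trans (le_max_right _ _)).trans hT₀) hh hT hp0 hp.le hM'1 hβ0.le
    hσ'0 ?_ hAnn
  have h5 : 4 * β / σ' = σ' := by
    rw [hβ]
    field_simp
  rw [h5, ← hA]
  linarith

end Crest.Agent.R147.Fi
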