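import Crest.Agent.R147.Mv475Geo

/-!
# E4c of S0207: the annealed estimate at a common fixed screen
-/

set_option autoImplicit false
set_option linter.unusedSectionVars false

open Finset MeasureTheory ProbabilityTheory unitInterval
open Crest.ProbabilityR.Percolation Crest.Agent.R147.KN Crest.Agent.R159
open Crest.Agent.R147.Cl Crest.Agent.R147.St Crest.Agent.R147.Lo

namespace Crest.Agent.R147.Mv

universe u
variable {V : Type u} {G : SimpleGraph V} {hloc : ∀ v : V, (G.neighborSet v).Finite}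
  {Z : Z2Data G} {o : V} {k : ℕ} {p : I} {blk : V → Finset (Sym2 V)} {L M : ℤ × ℤ → ℤ}
  {T b s y κ : ℝ} {ρ : ℕ} {Ein : Bool → V → Finset (Sym2 V)} {Tgt : Bool → V → Finset V}
  {n : ℕ} {δ : ℝ}

section

variable (hM : Mov hloc Z o k p blk L M T b s y κ ρ Ein Tgt n δ)

include hM

/-- the starting ball is far below the screen -/
theorem Mov.ball_Dn {x : V} {θ : ℤ} (hθ : 199 * T ≤ θ) {v : V}
    (hv : v ∈ th hloc k {x}) : v ∈ Dn hloc Z o k L x θ := by
  intro f _ hvf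
  have h1 := Lo.th_trans hloc hv (Lo.th_symm hloc hvf)
  have h2 := (hM.thin (j := k + k) (by omega) h1).2
  have h3 := (abs_le.1 h2).2
  have hκ := hM.κ_le
  have hT := hM.T_pos
  unfold Yr at h3
  rw [div_le_iff₀ hT] at h3
  have h4 : (L (Z.Φ f - Z.Φ x) : ℝ) < θ := by nlinarith
  exact_mod_cast h4

/-- separation of the screens -/
theorem Mov.sep {x : V} (hx : x ∈ Orb Z o) {θ θ' : ℤ} (hθ : 199 * T ≤ θ)
    (hθθ : θ + Z.C * (2 * k + 1) ≤ θ') {m : ℕ} {e : Sym2 V} (he : e ∈ OmP blk Ein Tgt x m)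
    {v : V} (hv : v ∈ e)
    (h : v ∈ th hloc k {x} ∨ ∃ e' ∈ tub hloc Z o k L blk Ein Tgt x θ m, v ∈ e') :
    e ∈ tub hloc Z o k L blk Ein Tgt x θ' m := by
  have hvD : v ∈ Dn hloc Z o k L x θ := by
    rcases h with h | ⟨e', he', hve'⟩
    · exact hM.ball_Dn hθ h
    · exact tub_Dn he' hve'
  rw [mem_tub]
  refine ⟨he, fun w hw f hf hwf => ?_⟩
  have hvf : v ∈ th hloc (k + 1) {f} := by
    by_cases hvw : v = w
    · rw [hvw]; exact th_mono_n hloc (Nat.le_succ k) _ hwf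
    · exact Lo.th_adj hloc hwf (end_adj (hM.OmP_edge hx he) hv hw hvw).1.symm
  exact (hM.Dn_near hvD hvf).trans_le hθθ

open Classical in
/-- the annealed estimate at one screen, from the plan and the number of exit edges -/
theorem Mov.one_screen [Countable V] (hp0 : 0 < (p : ℝ)) (hp1 : (p : ℝ) < 1)
    {m₀ K Δ : ℕ} (hn : n = m₀ * K) (hK : 0 < K) (hm₀ : 0 < m₀)
    (hcard : ∀ x ∈ Orb Z o, (blk x).card ≤ Δ)
    (hover : ∀ x ∈ Orb Z o, ∀ F : Finset V, (∀ y ∈ F, y ∈ Orb Z o) →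
      (F.filter fun y => y = x ∨ ¬ Disjoint (blk x) (blk y)).card ≤ K)
    {β : ℝ} (hβ0 : 0 < β) (hβ1 : β ≤ 1) (hδ : δ ≤ Nm.del 382 β)
    (hq : 4 / ((p : ℝ) ^ Δ * m₀) ≤ Nm.del 382 β) (Mt : ℕ)
    {x : V} (hx : x ∈ Orb Z o) {m : ℕ} (hm : m ≤ 59) {θ : ℤ} (hθ : 199 * T ≤ θ)
    (hθ' : θ ≤ 201 * T) :
    (setBernoulli G.edgeSet p).real {ω | ((Ysc hloc Z o k L blk Ein Tgt x θ m).filter
        fun f => ∃ a ∈ th hloc k {x}, ∃ y ∈ th hloc (k + 1) {f},
        (openSubgraph G (ω ∩ (↑(tub hloc Z o k L blk Ein Tgt x θ m) : Set (Sym2 V)))).Reachable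
          a y).card < Mt} ≤ β + qs G p (OmP blk Ein Tgt x m)
            (tub hloc Z o k L blk Ein Tgt x θ m) (th hloc k {x}) (Mt * Δ) := by
  subst hn
  set Far : Set V := {v | ∃ f ∈ Orb Z o, v ∈ th hloc k {f} ∧ θ ≤ L (Z.Φ f - Z.Φ x)} with hFar
  obtain ⟨N, hN⟩ : ∃ N, N = Pl.len m := ⟨_, rfl⟩
  have hN382 : N ≤ 382 := hN.trans_le (len_le hm)
  have hΩ : OmP blk Ein Tgt x m = Om Ein Tgt blk (Pl.idx m) x N := by rw [hN]; rfl
  have hchain := chain G p hp0 hp1 (fun f => th hloc k {f}) (fun f => th hloc (k + 1) {f})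
    blk Ein Tgt (fun x e he => ((hM.mem_blk x e).1 he).1)
    (fun x y hy z hz => Lo.reach_blk hloc hy (th_mono_n hloc (Nat.le_succ k) _ hz) (by
      intro e he
      rw [Finset.mem_coe, hM.mem_blk]
      obtain ⟨h1, v, hv, hve⟩ := (Lo.mem_blk hloc).1 (Finset.mem_coe.1 he)
      exact ⟨h1, v, hve, hv⟩))
    hK hm₀ (Orb Z o) hcard hover hM.Ein_edge hM.Tgt_orb hM.disj
    (fun i x hx => by convert hM.fail i x hx)
    (Pl.idx m) N hβ0 (hδ.trans (Nm_del_anti hN382 hβ0 hβ1))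
    (hq.trans (Nm_del_anti hN382 hβ0 hβ1)) x hx Far (by
      intro c hc
      obtain ⟨h1, _, h3, _⟩ := hM.pos_geo hx m N c (by convert hc)
      refine ⟨c, Lo.th_self hloc _ _, c, h1, Lo.th_self hloc _ _, ?_⟩
      have h4 := Pl.pos_snd_len hM.y_le m
      rw [← hN] at h4
      have h5 : (N : ℝ) * κ ≤ 1 / 10 := by
        have h6 : (N : ℝ) ≤ 382 := by exact_mod_cast hN382
        have h7 := hM.κ_nonneg
        have h8 := hM.κ_le
        nlinarith
      have h9 := (abs_le.1 h3).1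
      have h10 : (0 : ℝ) ≤ m := by positivity
      have h11 : 201 ≤ Yr L T (Z.Φ c - Z.Φ x) := by linarith
      unfold Yr at h11
      rw [le_div_iff₀ hM.T_pos] at h11
      have h12 : (θ : ℝ) ≤ L (Z.Φ c - Z.Φ x) := hθ'.trans h11
      exact_mod_cast h12)
  have hfail := fail_inf G p (Ω := OmP blk Ein Tgt x m)
    (D := tub hloc Z o k L blk Ein Tgt x θ m) (th hloc k {x})
    (fun f => th hloc (k + 1) {f}) blk (Ysc hloc Z o k L blk Ein Tgt x θ m) (Δ := Δ) (M := Mt)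
    (fun f hf => hcard f (Ysc_orb hf)) Far
    (by
      rintro v hv ⟨f, hf, hvf, hle⟩
      exact absurd (hM.ball_Dn hθ hv f hf hvf) (not_lt.2 hle))
    (by
      rintro e he v hv ⟨f, hf, hvf, hle⟩
      exact absurd (tub_Dn he hv f hf hvf) (not_lt.2 hle))
    (by
      intro e he heD v hv hvA
      have hvD : v ∈ Dn hloc Z o k L x θ := by
        rcases hvA with h | ⟨e', he', hve'⟩
        · exact hM.ball_Dn hθ h
        · exact tub_Dn he' hve'
      have hw : ∃ w ∈ e, w ∉ Dn hloc Z o k L x θ := by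
        by_contra hcon
        push Not at hcon
        exact heD (mem_tub.2 ⟨he, hcon⟩)
      obtain ⟨w, hw, hwD⟩ := hw
      have hvw : v ≠ w := by
        rintro rfl; exact hwD hvD
      have hadj := end_adj (hM.OmP_edge hx he) hv hw hvw
      unfold Dn at hwD
      simp only [Set.mem_ofPred_eq, not_forall, not_lt] at hwD
      obtain ⟨f, hf, hwf, hle⟩ := hwD
      refine ⟨f, mem_Ysc.2 ⟨hf, hle, e, he, ⟨w, hw, hwf⟩, v, hv, hvD⟩,
        Lo.th_adj hloc hwf hadj.1.symm, ?_⟩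
      rw [hM.mem_blk]
      exact ⟨hM.OmP_edge hx he, w, hw, hwf⟩)
  rw [← hΩ] at hchain
  have hfin := hfail.trans (add_le_add hchain le_rfl)
  refine le_trans (le_of_eq ?_) hfin
  congr!

open Classical in
/-- **the annealed estimate (ANN)** at one common screen spacing -/
theorem ann [Countable V] (hp0 : 0 < (p : ℝ)) (hp1 : (p : ℝ) < 1)
    {m₀ K Δ : ℕ} (hn : n = m₀ * K) (hK : 0 < K) (hm₀ : 0 < m₀)
    (hcard : ∀ x ∈ Orb Z o, (blk x).card ≤ Δ)
    (hover : ∀ x ∈ Orb Z o, ∀ F : Finset V, (∀ y ∈ F, y ∈ Orb Z o) →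
      (F.filter fun y => y = x ∨ ¬ Disjoint (blk x) (blk y)).card ≤ K)
    {β : ℝ} (hβ0 : 0 < β) (hβ1 : β ≤ 1) (hδ : δ ≤ Nm.del 382 (β / 2))
    (hq : 4 / ((p : ℝ) ^ Δ * m₀) ≤ Nm.del 382 (β / 2))
    (Cr Mt Ns : ℕ) (h0 g : ℤ) (hg0 : 0 ≤ g) (hg : (Z.C : ℤ) * (2 * k + 1) ≤ g)
    (hNs : (((Cr : ℝ) + 1) * 60) * ((1 - (p : ℝ)) ^ (Mt * Δ))⁻¹ < β / 2 * Ns)
    (hlo : 199 * T + Cr ≤ h0) (hhi : (h0 : ℝ) + Ns * g ≤ 201 * T) :
    ∃ i < Ns, ∀ x ∈ Orb Z o, ∀ r ≤ Cr, ∀ m ≤ 59, ∀ θ : ℤ, θ = h0 + i * g - r →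
      (setBernoulli G.edgeSet p).real {ω | ((Ysc hloc Z o k L blk Ein Tgt x θ m).filter
        fun f => ∃ a ∈ th hloc k {x}, ∃ y ∈ th hloc (k + 1) {f},
        (openSubgraph G (ω ∩ (↑(tub hloc Z o k L blk Ein Tgt x θ m) : Set (Sym2 V)))).Reachable
          a y).card < Mt} ≤ β := by
  have hoO : o ∈ Orb Z o := mem_Orb_self Z o
  -- bounds for the heights
  have hθlo : ∀ i : ℕ, ∀ r ≤ Cr, 199 * T ≤ ((h0 + i * g - r : ℤ) : ℝ) := by
    intro i r hr
    push_cast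
    have h1 : (r : ℝ) ≤ Cr := by exact_mod_cast hr
    have h2 : (0 : ℝ) ≤ (i : ℝ) * g := by
      have : (0 : ℝ) ≤ g := by exact_mod_cast hg0
      positivity
    linarith
  have hθhi : ∀ i < Ns, ∀ r : ℕ, ((h0 + i * g - r : ℤ) : ℝ) ≤ 201 * T := by
    intro i hi r
    push_cast
    have h1 : (i : ℝ) ≤ Ns := by exact_mod_cast hi.le
    have h2 : (0 : ℝ) ≤ g := by exact_mod_cast hg0
    have h3 : (i : ℝ) * g ≤ Ns * g := mul_le_mul_of_nonneg_right h1 h2
    have h4 : (0 : ℝ) ≤ r := by positivity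
    linarith
  obtain ⟨i, hi, hgood⟩ := exists_good_index
    ((Finset.range (Cr + 1)) ×ˢ (Finset.range 60)) Ns
    (fun t i => qs G p (OmP blk Ein Tgt o t.2)
      (tub hloc Z o k L blk Ein Tgt o (h0 + i * g - t.1) t.2) (th hloc k {o}) (Mt * Δ))
    (fun t _ i _ => qs_nonneg _ _ _ _ _ _)
    (W := ((1 - (p : ℝ)) ^ (Mt * Δ))⁻¹) (β := β / 2)
    (by
      rintro ⟨r, m⟩ ht
      rw [Finset.mem_product, Finset.mem_range, Finset.mem_range] at ht
      simp only at ht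
      refine screens_inf G p hp1 (Ω := OmP blk Ein Tgt o m) (A := th hloc k {o})
        (fun e he => hM.OmP_edge hoO he) Ns
        (fun i => tub hloc Z o k L blk Ein Tgt o (h0 + i * g - r) m)
        (fun i _ => tub_subset o _ m) ?_ (Mt * Δ)
      intro i j hij hj e he v hv h
      refine hM.sep hoO (hθlo i r (by omega)) ?_ he hv h
      have h1 : (i : ℤ) + 1 ≤ j := by exact_mod_cast hij
      have h2 : ((i : ℤ) + 1) * g ≤ j * g := mul_le_mul_of_nonneg_right h1 hg0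
      linarith)
    (by
      rw [Finset.card_product, Finset.card_range, Finset.card_range]
      push_cast
      exact hNs)
  refine ⟨i, hi, fun x hx r hr m hm θ hθ => ?_⟩
  subst hθ
  have h1 := hM.one_screen hp0 hp1 hn hK hm₀ hcard hover (β := β / 2) (by linarith)
    (by linarith) hδ hq Mt hx hm (hθlo i r hr) (hθhi i hi r)
  have h2 := hgood (r, m) (by
    rw [Finset.mem_product, Finset.mem_range, Finset.mem_range]
    exact ⟨by show r < Cr + 1; omega, by show m < 60; omega⟩)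
  simp only at h2
  obtain ⟨h, rfl⟩ := hx
  rw [qs_aut G p (h : G ≃g G) (tub_subset o _ m) (fun e => hM.OmP_act h hoO m e)
    (fun e => hM.tub_act h hoO _ m e) (fun v => Lo.th_act hloc (h : G ≃g G)) (Mt * Δ)] at h1
  linarith

end

end Crest.Agent.R147.Mv
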