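import Crest.Agent.R147.End490M
import Crest.Agent.R147.Mv475Ann

/-!
Row 147 (helper490), final assembly, part C: helper475's `ann` gives the statement `E4c`.
-/

set_option autoImplicit false

open Crest.ProbabilityR.Percolation MeasureTheory ProbabilityTheory unitInterval Filter
open Crest.Agent.R159 Crest.Agent.R159.Sharp Crest.Agent.R147.Cl

namespace Crest.Agent.R147.Fi

universe u
variable {V : Type u} {G : SimpleGraph V}

/-- **E4c** -/
theorem e4c [Countable V] (hloc : ∀ v : V, (G.neighborSet v).Finite) (Z : St.Z2Data G) (o : V)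
    (p : I) (hp0 : 0 < (p : ℝ)) (hp1 : (p : ℝ) < 1) : E4c hloc Z o p := by
  classical
  intro β hβ
  set β' : ℝ := min β 1 with hβ'
  have hβ'0 : 0 < β' := lt_min hβ one_pos
  have hβ'1 : β' ≤ 1 := min_le_right _ _
  have hβ'β : β' ≤ β := min_le_left _ _
  have hdel : 0 < Nm.del 382 (β' / 2) := Nm.del_pos 382 (by linarith)
  refine ⟨Nm.del 382 (β' / 2), hdel, 8000, by norm_num, ?_⟩
  intro k hcov
  obtain ⟨Δ, hΔ⟩ := Lo.exists_card_blk hloc Z k
  obtain ⟨K, hK1, hK⟩ := exists_overlap' hloc Z k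
  have hq : 0 < (p : ℝ) ^ Δ := pow_pos hp0 Δ
  obtain ⟨m₀, hm₀⟩ := exists_nat_gt (4 / ((p : ℝ) ^ Δ * Nm.del 382 (β' / 2)))
  have hm₀0 : (0 : ℝ) < m₀ := lt_trans (by positivity) hm₀
  have hm₀1 : 0 < m₀ := by exact_mod_cast hm₀0
  have h4 : 4 / ((p : ℝ) ^ Δ * m₀) ≤ Nm.del 382 (β' / 2) := by
    rw [div_le_iff₀ (by positivity)]
    rw [div_lt_iff₀ (by positivity)] at hm₀
    linarith
  refine ⟨m₀ * K, ?_⟩
  intro N
  -- screens
  set w : ℤ := (Z.C : ℤ) * (2 * k + 1) + 1 with hw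
  have hC0 : (0 : ℤ) ≤ (Z.C : ℤ) * (2 * k + 1) := by positivity
  have hw0 : 0 < w := by omega
  set Cr : ℕ := w.toNat with hCr
  have hCrw : (Cr : ℤ) = w := Int.toNat_of_nonneg hw0.le
  obtain ⟨Ns, hNs⟩ := exists_nat_gt
    (((Cr + 1) * 60 : ℝ) * ((1 - (p : ℝ)) ^ (N * Δ))⁻¹ * (2 / β'))
  have hNs' : ((Cr + 1) * 60 : ℝ) * ((1 - (p : ℝ)) ^ (N * Δ))⁻¹ < β' / 2 * Ns := by
    have h5 : ((Cr + 1) * 60 : ℝ) * ((1 - (p : ℝ)) ^ (N * Δ))⁻¹ =
        ((Cr + 1) * 60 : ℝ) * ((1 - (p : ℝ)) ^ (N * Δ))⁻¹ * (2 / β') * (β' / 2) := by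
      field_simp
    rw [h5, mul_comm (β' / 2)]
    exact mul_lt_mul_of_pos_right hNs (by linarith)
  set g : ℤ := (Z.C : ℤ) * (2 * k + 1) with hg
  refine ⟨((Z.C * (3 * k + 3) : ℕ) : ℝ), (Cr : ℝ) + Ns * g + 1 + 3 * w + 3 * (Z.C * (k + 1)), ?_⟩
  intro L M T b s y r Ein Tgt hT₀ hmov
  have hMv := mov_of_movOut hmov le_rfl le_rfl hcov
  have hgR : (0 : ℝ) ≤ g := by exact_mod_cast hC0
  have hwR : (0 : ℝ) < w := by exact_mod_cast hw0
  have hCrR : (Cr : ℝ) = w := by exact_mod_cast hCrw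
  have hCk : (0 : ℝ) ≤ (Z.C : ℝ) * (k + 1) := by positivity
  have hNg : (0 : ℝ) ≤ (Ns : ℝ) * g := by positivity
  have hbT := hmov.b_le
  have hTbig : (Cr : ℝ) + Ns * g + 1 + 3 * w + 3 * (Z.C * (k + 1)) ≤ T := hT₀.trans hbT
  have hT0 : 0 < T := by linarith
  set h0 : ℤ := ⌈199 * T + Cr⌉ with hh0
  have hlo : 199 * T + Cr ≤ h0 := Int.le_ceil _
  have hup : (h0 : ℝ) < 199 * T + Cr + 1 := Int.ceil_lt_add_one _
  have hhi : (h0 : ℝ) + Ns * g ≤ 201 * T := by linarith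
  obtain ⟨i, hi, hfail⟩ := Mv.ann hMv hp0 hp1 (Δ := Δ) rfl hK1 hm₀1 (fun x _ => hΔ x)
    (fun x _ F _ => by
      refine hK x _ ?_
      intro f' hf'
      rw [Finset.mem_filter] at hf'
      rcases hf'.2 with h5 | h5
      · exact Or.inl h5.symm
      · exact Or.inr h5)
    hβ'0 hβ'1 le_rfl h4 Cr N Ns h0 g hC0 le_rfl hNs' hlo hhi
  set h : ℤ := h0 + i * g with hh
  have hiN : (i : ℝ) * g ≤ Ns * g := by
    apply mul_le_mul_of_nonneg_right _ hgR
    exact_mod_cast hi.le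
  have hi0 : (0 : ℝ) ≤ (i : ℝ) * g := by positivity
  have hhR : (h : ℝ) = h0 + i * g := by rw [hh]; push_cast; ring
  -- the range of the relative heights
  have hθ : ∀ r : ℤ, 0 ≤ r → r < w → 199 * T ≤ ((h - r : ℤ) : ℝ) ∧
      ((h - r : ℤ) : ℝ) ≤ 201 * T := by
    intro r hr0 hrw
    have hr0' : (0 : ℝ) ≤ r := by exact_mod_cast hr0
    have hrw' : (r : ℝ) < w := by exact_mod_cast hrw
    push_cast
    constructor <;> linarith
  have hh3 : (w : ℝ) + 2 * (Z.C * (k + 1)) < h := by linarith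
  refine ⟨h, w, 400 * ((r + 1 + k) + k + 1),
    fun c x r => Mv.tub hloc Z o k L (Lo.blk hloc k) Ein Tgt x (h - r) c,
    fun c x r => Mv.Ysc hloc Z o k L (Lo.blk hloc k) Ein Tgt x (h - r) c, hw0, ?_, ?_, ?_⟩
  · have : ((w + 2 * (Z.C * ((k + 1 : ℕ) : ℤ)) : ℤ) : ℝ) < (h : ℤ) := by
      push_cast
      exact hh3
    exact_mod_cast this
  · push_cast
    linarith
  · constructor
    · intro c hc1 hc2 x hx r hr0 hrw e he
      exact hMv.tub_edge hx he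
    · intro c hc1 hc2 x hx r hr0 hrw e he v hv
      exact hMv.tub_th hx hc2 he hv
    · intro c hc1 hc2 x hx r hr0 hrw e he v hv f hf hvf
      exact Mv.tub_Dn he hv f hf hvf
    · intro c hc1 hc2 x hx r hr0 hrw e he v hv
      have h1 := hMv.tub_X hx hc2 he hv
      have h2 : (c : ℝ) ≤ 59 := by exact_mod_cast hc2
      have h3 : Pg.X L M s b (Z.Φ v - Z.Φ x) = Mv.Xr L M b s (Z.Φ v - Z.Φ x) := rfl
      rw [h3, abs_le]
      constructor <;> linarith [h1.1, h1.2]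
    · intro c hc1 hc2 x hx r hr0 hrw e he v hv
      have h1 := hMv.tub_Y hx hc2 he hv
      unfold Mv.Yr at h1
      rw [le_div_iff₀ hT0] at h1
      linarith
    · intro c hc1 hc2 x hx r hr0 hrw f hf
      obtain ⟨h1, h2⟩ := hθ r hr0 hrw
      exact ⟨Mv.Ysc_orb hf, hMv.Ysc_th hx hc2 hf⟩
    · intro c hc1 hc2 x hx r hr0 hrw f hf
      obtain ⟨h1, h2⟩ := hθ r hr0 hrw
      have h3 := Mv.Ysc_lo hf
      have h4 := hMv.Ysc_hi hx hf
      refine ⟨h3, ?_⟩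
      omega
    · intro c hc1 hc2 x hx r hr0 hrw f hf
      obtain ⟨h1, h2⟩ := hθ r hr0 hrw
      exact (hMv.Ysc_X hx hc2 h1 hf).trans (by norm_num)
    · intro c hc1 hc2 x hx r hr0 hrw
      have hr' : ((r.toNat : ℕ) : ℤ) = r := Int.toNat_of_nonneg hr0
      refine le_trans (hfail x hx r.toNat (by omega) c hc2 (h - r) (by rw [hr', hh])) hβ'β

/-- **S0207 for graphs with `Z2Data`** -/
theorem Z2_zero (hconn : G.Connected) (hloc : ∀ v : V, (G.neighborSet v).Finite)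
    (hlt : bondCriticalValue G < 1) (p : I) (hp : (p : ℝ) = bondCriticalValue G)
    (hna : ¬ IsVertexNonamenable G) (Z : St.Z2Data G) :
    setBernoulli G.edgeSet p {ω | HasInfiniteCluster G ω} = 0 := by
  have : Countable V := Inf.countable_of_connected G hconn hloc
  exact Z2_zero_of hconn hloc hlt p hp hna Z (fun o hp0 hp1 => e4c hloc Z o p hp0 hp1)

end Crest.Agent.R147.Fi
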