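import Crest.Agent.R147.Sp58Big
import Crest.Agent.R147.Cl684Exp

/-!
Row 147, block B5 (helper247): exits of a cluster from a domain.

`ins G Λ`: the edges of `G` inside `Λ`.
`CIn G Λ A ω v`: `v` is joined to the finite set `A` by an open path inside `Λ`.
`Exit G Λ A ω e`: the oriented edge `e` leads from a vertex `e.1 ∈ Λ`, joined to `A` inside `Λ`, to a
vertex `e.2 ∉ Λ` (the edge `e` itself is not required to be open).
`Many G Λ A I m ω`: there are more than `m` exits in the class `I`.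
`fw G p Λ A I m`: probability that there are at most `m` exits in the class `I`.
-/

set_option autoImplicit false

open Crest.ProbabilityR.Percolation MeasureTheory ProbabilityTheory unitInterval Filter
open Crest.Agent.R159 Crest.Agent.R159.Sharp Crest.Agent.R147.Cl
open scoped Topology

namespace Crest.Agent.R147.Ex

universe u
variable {V : Type u} {G : SimpleGraph V}

/-- the graph of the edges of `G` inside `Λ` -/
def ins (G : SimpleGraph V) (Λ : Set V) : SimpleGraph V where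
  Adj x y := G.Adj x y ∧ x ∈ Λ ∧ y ∈ Λ
  symm := ⟨fun _ _ h => ⟨h.1.symm, h.2.2, h.2.1⟩⟩
  loopless := ⟨fun _ h => h.1.ne rfl⟩

theorem ins_adj {Λ : Set V} {x y : V} : (ins G Λ).Adj x y ↔ G.Adj x y ∧ x ∈ Λ ∧ y ∈ Λ := Iff.rfl

theorem ins_le (G : SimpleGraph V) (Λ : Set V) : ins G Λ ≤ G := fun _ _ h => h.1

theorem ins_mono (G : SimpleGraph V) {Λ Λ' : Set V} (h : Λ ⊆ Λ') : ins G Λ ≤ ins G Λ' :=
  fun _ _ h' => ⟨h'.1, h h'.2.1, h h'.2.2⟩

theorem openSubgraph_le_of_le {G G' : SimpleGraph V} (h : G ≤ G') (ω : Set (Sym2 V)) :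
    openSubgraph G ω ≤ openSubgraph G' ω := by
  intro x y hxy
  rw [Inf.openSubgraph_adj] at hxy ⊢
  exact ⟨hxy.1, h hxy.2⟩

/-- `v` is joined to `A` by an open path inside `Λ` -/
def CIn (G : SimpleGraph V) (Λ : Set V) (A : Finset V) (ω : Set (Sym2 V)) (v : V) : Prop :=
  ∃ a ∈ A, a ∈ Λ ∧ (openSubgraph (ins G Λ) ω).Reachable a v

/-- the oriented edge `e` is an exit of the cluster of `A` inside `Λ` -/
def Exit (G : SimpleGraph V) (Λ : Set V) (A : Finset V) (ω : Set (Sym2 V)) (e : V × V) : Prop :=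
  e.2 ∉ Λ ∧ G.Adj e.1 e.2 ∧ CIn G Λ A ω e.1

/-- there are more than `m` exits in the class `I` -/
def Many (G : SimpleGraph V) (Λ : Set V) (A : Finset V) (J : Set (V × V)) (m : ℕ)
    (ω : Set (Sym2 V)) : Prop :=
  ∃ T : Finset (V × V), m < T.card ∧ ∀ e ∈ T, e ∈ J ∧ Exit G Λ A ω e

/-- probability that there are at most `m` exits in the class `I` -/
noncomputable def fw (G : SimpleGraph V) (p : I) (Λ : Set V) (A : Finset V) (J : Set (V × V))
    (m : ℕ) : ℝ :=
  (setBernoulli G.edgeSet p).real {ω | ¬ Many G Λ A J m ω}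

/-! ### deterministic facts -/

theorem CIn.mem {Λ : Set V} {A : Finset V} {ω : Set (Sym2 V)} {v : V} (h : CIn G Λ A ω v) :
    v ∈ Λ := by
  obtain ⟨a, _, haΛ, hr⟩ := h
  rw [SimpleGraph.reachable_iff_reflTransGen] at hr
  induction hr with
  | refl => exact haΛ
  | @tail b c _ hbc _ =>
    rw [Inf.openSubgraph_adj] at hbc
    exact hbc.2.2.2

theorem CIn.mono {Λ Λ' : Set V} (hΛ : Λ ⊆ Λ') {A A' : Finset V} (hA : A ⊆ A')
    {ω ω' : Set (Sym2 V)} (hω : ω ⊆ ω') {v : V} (h : CIn G Λ A ω v) : CIn G Λ' A' ω' v := by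
  obtain ⟨a, ha, haΛ, hr⟩ := h
  exact ⟨a, hA ha, hΛ haΛ, (hr.mono (openSubgraph_le_of_le (ins_mono G hΛ) ω)).mono
    (Inf.openSubgraph_mono _ hω)⟩

theorem CIn.step {Λ : Set V} {A : Finset V} {ω : Set (Sym2 V)} {v w : V} (h : CIn G Λ A ω v)
    (hw : w ∈ Λ) (hadj : G.Adj v w) (ho : s(v, w) ∈ ω) : CIn G Λ A ω w := by
  have hv := h.mem
  obtain ⟨a, ha, haΛ, hr⟩ := h
  exact ⟨a, ha, haΛ, hr.trans (SimpleGraph.Adj.reachable
    ((Inf.openSubgraph_adj _ _ _ _).2 ⟨ho, hadj, hv, hw⟩))⟩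

theorem CIn.reachable {Λ : Set V} {A : Finset V} {ω : Set (Sym2 V)} {v : V}
    (h : CIn G Λ A ω v) : ∃ a ∈ A, (openSubgraph G ω).Reachable a v := by
  obtain ⟨a, ha, _, hr⟩ := h
  exact ⟨a, ha, hr.mono (openSubgraph_le_of_le (ins_le G Λ) ω)⟩

theorem CIn.of_mem {Λ : Set V} {A : Finset V} {ω : Set (Sym2 V)} {v : V} (h : v ∈ A)
    (hΛ : v ∈ Λ) : CIn G Λ A ω v := ⟨v, h, hΛ, SimpleGraph.Reachable.refl _⟩

/-- the cluster inside `Λ` only depends on the edges inside `Λ` -/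
theorem CIn.congr {Λ : Set V} {A : Finset V} {ω ω' : Set (Sym2 V)}
    (h : ∀ x y, x ∈ Λ → y ∈ Λ → (s(x, y) ∈ ω ↔ s(x, y) ∈ ω')) {v : V} :
    CIn G Λ A ω v ↔ CIn G Λ A ω' v := by
  have : openSubgraph (ins G Λ) ω = openSubgraph (ins G Λ) ω' := by
    ext x y
    rw [Inf.openSubgraph_adj, Inf.openSubgraph_adj]
    constructor
    · rintro ⟨h1, h2⟩
      exact ⟨(h x y h2.2.1 h2.2.2).1 h1, h2⟩
    · rintro ⟨h1, h2⟩
      exact ⟨(h x y h2.2.1 h2.2.2).2 h1, h2⟩
  unfold CIn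
  rw [this]

theorem Exit.mono {Λ Λ' : Set V} (hΛ : Λ ⊆ Λ') {A A' : Finset V} (hA : A ⊆ A')
    {ω ω' : Set (Sym2 V)} (hω : ω ⊆ ω') {e : V × V} (he : e.2 ∉ Λ') (h : Exit G Λ A ω e) :
    Exit G Λ' A' ω' e :=
  ⟨he, h.2.1, h.2.2.mono hΛ hA hω⟩

theorem Many.mono {Λ Λ' : Set V} (hΛ : Λ ⊆ Λ') {A A' : Finset V} (hA : A ⊆ A')
    {J J' : Set (V × V)} (hJ : J ⊆ J') {m m' : ℕ} (hm : m' ≤ m) {ω ω' : Set (Sym2 V)}
    (hω : ω ⊆ ω') (hout : ∀ e ∈ J, e.2 ∉ Λ → e.2 ∉ Λ') (h : Many G Λ A J m ω) :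
    Many G Λ' A' J' m' ω' := by
  obtain ⟨T, hT, h1⟩ := h
  exact ⟨T, lt_of_le_of_lt hm hT, fun e he => ⟨hJ (h1 e he).1,
    (h1 e he).2.mono hΛ hA hω (hout e (h1 e he).1 (h1 e he).2.1)⟩⟩

theorem Many.union {Λ : Set V} {A : Finset V} {J J' : Set (V × V)} {m m' : ℕ}
    {ω : Set (Sym2 V)} (h : Many G Λ A (J ∪ J') (m + m') ω) :
    Many G Λ A J m ω ∨ Many G Λ A J' m' ω := by
  classical
  obtain ⟨T, hT, h1⟩ := h
  have hsplit : T.card ≤ (T.filter (fun e => e ∈ J)).card +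
      (T.filter (fun e => e ∈ J')).card := by
    have : T ⊆ T.filter (fun e => e ∈ J) ∪ T.filter (fun e => e ∈ J') := by
      intro e he
      rw [Finset.mem_union, Finset.mem_filter, Finset.mem_filter]
      rcases (h1 e he).1 with h2 | h2
      · exact Or.inl ⟨he, h2⟩
      · exact Or.inr ⟨he, h2⟩
    exact (Finset.card_le_card this).trans (Finset.card_union_le _ _)
  by_cases h2 : m < (T.filter (fun e => e ∈ J)).card
  · left
    exact ⟨_, h2, fun e he => ⟨(Finset.mem_filter.1 he).2, (h1 e (Finset.mem_filter.1 he).1).2⟩⟩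
  · right
    refine ⟨T.filter (fun e => e ∈ J'), by omega, fun e he => ⟨(Finset.mem_filter.1 he).2,
      (h1 e (Finset.mem_filter.1 he).1).2⟩⟩

/-! ### finitely witnessed events -/

theorem finWit_cIn (G : SimpleGraph V) (Λ : Set V) (A : Finset V) (v : V) :
    Inf.FinWit (fun ω => CIn G Λ A ω v) := by
  unfold CIn
  apply Inf.FinWit.exists
  intro a
  exact (Inf.FinWit.const _).and ((Inf.FinWit.const _).and
    (Inf.finWit_reachable (ins G Λ) a v))

theorem finWit_exit (G : SimpleGraph V) (Λ : Set V) (A : Finset V) (e : V × V) :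
    Inf.FinWit (fun ω => Exit G Λ A ω e) := by
  unfold Exit
  exact (Inf.FinWit.const _).and ((Inf.FinWit.const _).and (finWit_cIn G Λ A e.1))

theorem finWit_many (G : SimpleGraph V) (Λ : Set V) (A : Finset V) (J : Set (V × V)) (m : ℕ) :
    Inf.FinWit (Many G Λ A J m) := by
  unfold Many
  apply Inf.FinWit.exists
  intro T
  refine (Inf.FinWit.const _).and (FinWit_ball T)
where
  FinWit_ball (T : Finset (V × V)) :
      Inf.FinWit (fun ω : Set (Sym2 V) => ∀ e ∈ T, e ∈ J ∧ Exit G Λ A ω e) := by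
    classical
    induction T using Finset.induction_on with
    | empty =>
      have : (fun ω : Set (Sym2 V) => ∀ e ∈ (∅ : Finset (V × V)), e ∈ J ∧ Exit G Λ A ω e)
          = fun _ => True := by
        funext ω; simp
      rw [this]
      exact Inf.FinWit.const True
    | insert a s ha ih =>
      have : (fun ω : Set (Sym2 V) => ∀ e ∈ insert a s, e ∈ J ∧ Exit G Λ A ω e) =
          fun ω => (a ∈ J ∧ Exit G Λ A ω a) ∧ ∀ e ∈ s, e ∈ J ∧ Exit G Λ A ω e := by
        funext ω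
        apply propext
        constructor
        · intro hh
          exact ⟨hh a (Finset.mem_insert_self a s),
            fun k hk => hh k (Finset.mem_insert_of_mem hk)⟩
        · rintro ⟨h1, h2⟩ k hk
          rcases Finset.mem_insert.1 hk with rfl | hk
          · exact h1
          · exact h2 k hk
      rw [this]
      exact ((Inf.FinWit.const _).and (finWit_exit G Λ A a)).and ih

theorem measurableSet_many [Countable V] (G : SimpleGraph V) (Λ : Set V) (A : Finset V)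
    (J : Set (V × V)) (m : ℕ) : MeasurableSet {ω : Set (Sym2 V) | Many G Λ A J m ω} :=
  (finWit_many G Λ A J m).measurableSet

theorem measurableSet_exit [Countable V] (G : SimpleGraph V) (Λ : Set V) (A : Finset V)
    (e : V × V) : MeasurableSet {ω : Set (Sym2 V) | Exit G Λ A ω e} :=
  (finWit_exit G Λ A e).measurableSet

/-! ### probabilities -/

theorem fw_nonneg (G : SimpleGraph V) (p : I) (Λ : Set V) (A : Finset V) (J : Set (V × V))
    (m : ℕ) : 0 ≤ fw G p Λ A J m := measureReal_nonneg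

theorem fw_le_one (G : SimpleGraph V) (p : I) (Λ : Set V) (A : Finset V) (J : Set (V × V))
    (m : ℕ) : fw G p Λ A J m ≤ 1 := measureReal_le_one

/-- `fw` decreases when the domain, the source and the class increase and `m` decreases -/
theorem fw_anti (p : I) {Λ Λ' : Set V} (hΛ : Λ ⊆ Λ') {A A' : Finset V} (hA : A ⊆ A')
    {J J' : Set (V × V)} (hJ : J ⊆ J') {m m' : ℕ} (hm : m' ≤ m)
    (hout : ∀ e ∈ J, e.2 ∉ Λ → e.2 ∉ Λ') :
    fw G p Λ' A' J' m' ≤ fw G p Λ A J m :=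
  measureReal_mono (fun _ h h' => h (h'.mono hΛ hA hJ hm Set.Subset.rfl hout))
    (measure_ne_top _ _)

/-- exits in a larger class, same domain -/
theorem fw_anti_class (p : I) (Λ : Set V) (A : Finset V) {J J' : Set (V × V)} (hJ : J ⊆ J')
    (m : ℕ) : fw G p Λ A J' m ≤ fw G p Λ A J m :=
  fw_anti p Set.Subset.rfl (Finset.Subset.refl _) hJ le_rfl (fun _ _ h => h)

theorem fw_mono_m (p : I) (Λ : Set V) (A : Finset V) (J : Set (V × V)) {m m' : ℕ} (hm : m ≤ m') :
    fw G p Λ A J m ≤ fw G p Λ A J m' :=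
  fw_anti p Set.Subset.rfl (Finset.Subset.refl _) Set.Subset.rfl hm (fun _ _ h => h)

/-- only the exits `e` with `e.1 ∈ Λ`, `e.2 ∉ Λ`, `G.Adj e.1 e.2` matter -/
theorem fw_congr_class (p : I) (Λ : Set V) (A : Finset V) {J J' : Set (V × V)}
    (h : ∀ e : V × V, e.1 ∈ Λ → e.2 ∉ Λ → G.Adj e.1 e.2 → (e ∈ J ↔ e ∈ J')) (m : ℕ) :
    fw G p Λ A J m = fw G p Λ A J' m := by
  unfold fw
  congr 1
  ext ω
  have key : ∀ J J' : Set (V × V),
      (∀ e : V × V, e.1 ∈ Λ → e.2 ∉ Λ → G.Adj e.1 e.2 → (e ∈ J → e ∈ J')) →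
      Many G Λ A J m ω → Many G Λ A J' m ω := by
    rintro J J' hJ ⟨T, hT, h1⟩
    exact ⟨T, hT, fun e he => ⟨hJ e (h1 e he).2.2.2.mem (h1 e he).2.1 (h1 e he).2.2.1 (h1 e he).1,
      (h1 e he).2⟩⟩
  simp only [Set.mem_ofPred_eq]
  exact not_congr ⟨key J J' (fun e h1 h2 h3 => (h e h1 h2 h3).1),
    key J' J (fun e h1 h2 h3 => (h e h1 h2 h3).2)⟩

/-- Harris for two decreasing events -/
theorem harris_compl [Countable V] (p : I) {Q R : Set (Sym2 V) → Prop} (hQ : Inf.FinWit Q)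
    (hR : Inf.FinWit R) :
    (setBernoulli G.edgeSet p).real {ω | ¬ Q ω} * (setBernoulli G.edgeSet p).real {ω | ¬ R ω} ≤
      (setBernoulli G.edgeSet p).real {ω | ¬ Q ω ∧ ¬ R ω} := by
  classical
  set μ := setBernoulli G.edgeSet p with hμ
  have h1 := hQ.harris hR G.edgeSet p
  have mQ : MeasurableSet {ω : Set (Sym2 V) | Q ω} := hQ.measurableSet
  have mR : MeasurableSet {ω : Set (Sym2 V) | R ω} := hR.measurableSet
  have e1 : μ.real {ω | ¬ Q ω} = 1 - μ.real {ω | Q ω} := by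
    have := probReal_compl_eq_one_sub (μ := μ) mQ
    exact this
  have e2 : μ.real {ω | ¬ R ω} = 1 - μ.real {ω | R ω} := by
    have := probReal_compl_eq_one_sub (μ := μ) mR
    exact this
  have e3 : μ.real {ω | ¬ Q ω ∧ ¬ R ω} = 1 - μ.real ({ω | Q ω} ∪ {ω | R ω}) := by
    have := probReal_compl_eq_one_sub (μ := μ) (mQ.union mR)
    rw [← this]
    congr 1
    ext ω
    simp only [Set.mem_ofPred_eq, Set.mem_compl_iff, Set.mem_union, not_or]
  have e4 : μ.real ({ω | Q ω} ∪ {ω | R ω}) + μ.real {ω | Q ω ∧ R ω}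
      = μ.real {ω | Q ω} + μ.real {ω | R ω} := measureReal_union_add_inter mR
  rw [← hμ] at h1
  rw [e1, e2, e3]
  nlinarith

/-- **(FKG)** -/
theorem fw_mul_le [Countable V] (p : I) (Λ : Set V) (A : Finset V) (J J' : Set (V × V))
    (m m' : ℕ) : fw G p Λ A J m * fw G p Λ A J' m' ≤ fw G p Λ A (J ∪ J') (m + m') := by
  refine (harris_compl p (finWit_many G Λ A J m) (finWit_many G Λ A J' m')).trans ?_
  refine measureReal_mono ?_ (measure_ne_top _ _)
  rintro ω ⟨h1, h2⟩ h3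
  rcases h3.union with h | h
  · exact h1 h
  · exact h2 h

/-- square-root trick: if the union class has few exits with probability `≤ δ²`, one of the
classes has few exits with probability `≤ δ` -/
theorem fw_sqrt [Countable V] (p : I) (Λ : Set V) (A : Finset V) (J J' : Set (V × V))
    (m m' : ℕ) {δ : ℝ} (h : fw G p Λ A (J ∪ J') (m + m') ≤ δ ^ 2) (hδ : 0 ≤ δ) :
    fw G p Λ A J m ≤ δ ∨ fw G p Λ A J' m' ≤ δ := by
  by_contra hcon
  push Not at hcon
  have h1 := fw_mul_le (G := G) p Λ A J J' m m'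
  have h2 : δ * δ < fw G p Λ A J m * fw G p Λ A J' m' :=
    mul_lt_mul'' hcon.1 hcon.2 hδ hδ
  nlinarith

/-! ### automorphisms -/

theorem reachable_ins_openIso (φ : G ≃g G) (Λ : Set V) (ω : Set (Sym2 V)) (x y : V) :
    (openSubgraph (ins G Λ) (Sym2.map φ ⁻¹' ω)).Reachable x y ↔
      (openSubgraph (ins G (φ '' Λ)) ω).Reachable (φ x) (φ y) := by
  have hmem : ∀ z, φ z ∈ φ '' Λ ↔ z ∈ Λ := fun z => φ.injective.mem_set_image
  let ψ : openSubgraph (ins G Λ) (Sym2.map φ ⁻¹' ω) ≃g openSubgraph (ins G (φ '' Λ)) ω :=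
    { toEquiv := φ.toEquiv
      map_rel_iff' := by
        intro a b
        show (openSubgraph (ins G (φ '' Λ)) ω).Adj (φ a) (φ b) ↔ _
        rw [Inf.openSubgraph_adj, Inf.openSubgraph_adj, ins_adj, ins_adj, hmem, hmem]
        simp only [Set.mem_preimage, Sym2.map_mk]
        rw [φ.map_adj_iff] }
  exact ψ.reachable_iff.symm

theorem cIn_openIso [DecidableEq V] (φ : G ≃g G) (Λ : Set V) (A : Finset V) (ω : Set (Sym2 V))
    (v : V) : CIn G Λ A (Sym2.map φ ⁻¹' ω) v ↔ CIn G (φ '' Λ) (A.image φ) ω (φ v) := by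
  unfold CIn
  constructor
  · rintro ⟨a, ha, haΛ, h⟩
    exact ⟨φ a, Finset.mem_image_of_mem _ ha, ⟨a, haΛ, rfl⟩, (reachable_ins_openIso φ Λ ω a v).1 h⟩
  · rintro ⟨b, hb, hbΛ, h⟩
    obtain ⟨a, ha, rfl⟩ := Finset.mem_image.1 hb
    exact ⟨a, ha, (φ.injective.mem_set_image).1 hbΛ, (reachable_ins_openIso φ Λ ω a v).2 h⟩

theorem exit_openIso [DecidableEq V] (φ : G ≃g G) (Λ : Set V) (A : Finset V)
    (ω : Set (Sym2 V)) (e : V × V) :
    Exit G Λ A (Sym2.map φ ⁻¹' ω) e ↔ Exit G (φ '' Λ) (A.image φ) ω (φ e.1, φ e.2) := by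
  unfold Exit
  rw [cIn_openIso]
  simp only
  rw [φ.injective.mem_set_image, φ.map_adj_iff]

theorem many_openIso [DecidableEq V] (φ : G ≃g G) (Λ : Set V) (A : Finset V) (J : Set (V × V))
    (m : ℕ) (ω : Set (Sym2 V)) :
    Many G Λ A J m (Sym2.map φ ⁻¹' ω) ↔
      Many G (φ '' Λ) (A.image φ) {e | (φ.symm e.1, φ.symm e.2) ∈ J} m ω := by
  have hinj : Function.Injective (fun e : V × V => (φ e.1, φ e.2)) := by
    rintro ⟨a, b⟩ ⟨c, d⟩ h
    simp only [Prod.mk.injEq] at h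
    rw [φ.injective h.1, φ.injective h.2]
  constructor
  · rintro ⟨T, hT, h1⟩
    refine ⟨T.image (fun e => (φ e.1, φ e.2)), ?_, ?_⟩
    · rw [Finset.card_image_of_injective _ hinj]; exact hT
    · intro e he
      obtain ⟨e', he', rfl⟩ := Finset.mem_image.1 he
      refine ⟨?_, (exit_openIso φ Λ A ω e').1 (h1 e' he').2⟩
      simpa using (h1 e' he').1
  · rintro ⟨T, hT, h1⟩
    refine ⟨T.image (fun e => (φ.symm e.1, φ.symm e.2)), ?_, ?_⟩
    · rw [Finset.card_image_of_injective]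
      · exact hT
      · rintro ⟨a, b⟩ ⟨c, d⟩ h
        simp only [Prod.mk.injEq] at h
        rw [φ.symm.injective h.1, φ.symm.injective h.2]
    · intro e he
      obtain ⟨e', he', rfl⟩ := Finset.mem_image.1 he
      refine ⟨(h1 e' he').1, ?_⟩
      rw [exit_openIso]
      have h2 := (h1 e' he').2
      simpa using h2

/-- **equivariance** -/
theorem fw_aut [Countable V] [DecidableEq V] (p : I) (φ : G ≃g G) (Λ : Set V) (A : Finset V)
    (J : Set (V × V)) (m : ℕ) :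
    fw G p (φ '' Λ) (A.image φ) {e | (φ.symm e.1, φ.symm e.2) ∈ J} m = fw G p Λ A J m := by
  unfold fw
  have hm : MeasurableSet {ω : Set (Sym2 V) | ¬ Many G Λ A J m ω} :=
    (measurableSet_many G Λ A J m).compl
  rw [← Inf.setBernoulli_aut G φ p hm]
  congr 1
  ext ω
  simp only [Set.mem_ofPred_eq]
  rw [many_openIso]

end Crest.Agent.R147.Ex
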