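import Crest.Agent.R147.StGraph
import Crest.Agent.R147.Exit247A
import Crest.Agent.R147.Cl684Geo

/-!
Row 147, block E4b (helper505): local facts about the blocks `B(f) = th hloc k {f}`, `f` in the
orbit of `o` under the group of `Z : Z2Data G`, and about the block-removed domains.
-/

set_option autoImplicit false

open Crest.ProbabilityR.Percolation
open Crest.Agent.R159 Crest.Agent.R159.Sharp Crest.Agent.R147.Cl Crest.Agent.R147.St

namespace Crest.Agent.R147.Lo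

open scoped Classical

universe u
variable {V : Type u} {G : SimpleGraph V}

/-! ### the orbit -/

/-- the orbit of `o` -/
def Orb (Z : Z2Data G) (o : V) : Set V := {f | ∃ h : Z.H, (h : G ≃g G) o = f}

theorem mem_Orb_self (Z : Z2Data G) (o : V) : o ∈ Orb Z o := ⟨1, rfl⟩

theorem Orb_act (Z : Z2Data G) (o : V) (h : Z.H) {f : V} (hf : f ∈ Orb Z o) :
    (h : G ≃g G) f ∈ Orb Z o := by
  obtain ⟨g, rfl⟩ := hf
  exact ⟨h * g, rfl⟩

theorem Orb_act_iff (Z : Z2Data G) (o : V) (h : Z.H) {f : V} :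
    (h : G ≃g G) f ∈ Orb Z o ↔ f ∈ Orb Z o := by
  constructor
  · intro hf
    have := Orb_act Z o h⁻¹ hf
    have h2 : ((h⁻¹ : Z.H) : G ≃g G) ((h : G ≃g G) f) = f := by
      show ((h⁻¹ * h : Z.H) : G ≃g G) f = f
      rw [inv_mul_cancel]
      rfl
    rwa [h2] at this
  · exact Orb_act Z o h

/-- translations: `Φ (h v) = Φ v + (Φ f - Φ o)` whenever `h o = f` -/
theorem Phi_act (Z : Z2Data G) {o f : V} {h : Z.H} (hf : (h : G ≃g G) o = f) (v : V) :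
    Z.Φ ((h : G ≃g G) v) = Z.Φ v + (Z.Φ f - Z.Φ o) := by
  have h1 := Z.equi h o
  have h2 := Z.equi h v
  rw [hf] at h1
  rw [h2, h1]
  abel

theorem act_inv_act (Z : Z2Data G) (h : Z.H) (v : V) :
    ((h⁻¹ : Z.H) : G ≃g G) ((h : G ≃g G) v) = v := by
  show ((h⁻¹ * h : Z.H) : G ≃g G) v = v
  rw [inv_mul_cancel]
  rfl

theorem act_act_inv (Z : Z2Data G) (h : Z.H) (v : V) :
    (h : G ≃g G) (((h⁻¹ : Z.H) : G ≃g G) v) = v := by
  show ((h * h⁻¹ : Z.H) : G ≃g G) v = v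
  rw [mul_inv_cancel]
  rfl

/-- all values of `Φ` on the orbit: `Φ (Orb) = Φ o + ℤ²` -/
theorem exists_Orb_Phi (Z : Z2Data G) (o : V) (a : ℤ × ℤ) : ∃ f ∈ Orb Z o, Z.Φ f - Z.Φ o = a := by
  obtain ⟨h, hh⟩ := Z.surj (Multiplicative.ofAdd a)
  refine ⟨(h : G ≃g G) o, ⟨h, rfl⟩, ?_⟩
  rw [Z.equi h o, hh]
  show a + Z.Φ o - Z.Φ o = a
  abel

theorem quasiTransitive (Z : Z2Data G) : IsQuasiTransitive G :=
  ⟨Z.F, fun v => by
    obtain ⟨h, hh⟩ := Z.cov v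
    exact ⟨h, hh⟩⟩

/-! ### balls -/

variable (hloc : ∀ v : V, (G.neighborSet v).Finite)

/-- `Φ` is Lipschitz -/
theorem jump_walk (Z : Z2Data G) {x y : V} (w : G.Walk x y) :
    |(Z.Φ x).1 - (Z.Φ y).1| ≤ Z.C * w.length ∧ |(Z.Φ x).2 - (Z.Φ y).2| ≤ Z.C * w.length := by
  induction w with
  | nil => simp
  | @cons a b c hab w ih =>
    have h1 := Z.jump a b hab
    rw [SimpleGraph.Walk.length_cons]
    push_cast
    have e1 : (Z.Φ a).1 - (Z.Φ c).1 = ((Z.Φ a).1 - (Z.Φ b).1) + ((Z.Φ b).1 - (Z.Φ c).1) := by ring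
    have e2 : (Z.Φ a).2 - (Z.Φ c).2 = ((Z.Φ a).2 - (Z.Φ b).2) + ((Z.Φ b).2 - (Z.Φ c).2) := by ring
    have a1 := abs_add_le ((Z.Φ a).1 - (Z.Φ b).1) ((Z.Φ b).1 - (Z.Φ c).1)
    have a2 := abs_add_le ((Z.Φ a).2 - (Z.Φ b).2) ((Z.Φ b).2 - (Z.Φ c).2)
    rw [e1, e2]
    constructor <;> nlinarith [h1.1, h1.2, ih.1, ih.2]

/-- the box of radius `r` -/
def bx (r : ℤ) : Set (ℤ × ℤ) := {v | |v.1| ≤ r ∧ |v.2| ≤ r}

theorem mem_bx {r : ℤ} {v : ℤ × ℤ} : v ∈ bx r ↔ |v.1| ≤ r ∧ |v.2| ≤ r := Iff.rfl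

theorem bx_mono {r s : ℤ} (h : r ≤ s) : bx r ⊆ bx s := fun _ hv => ⟨hv.1.trans h, hv.2.trans h⟩

theorem bx_add {r s : ℤ} {v w : ℤ × ℤ} (hv : v ∈ bx r) (hw : w ∈ bx s) : v + w ∈ bx (r + s) :=
  ⟨(abs_add_le _ _).trans (add_le_add hv.1 hw.1), (abs_add_le _ _).trans (add_le_add hv.2 hw.2)⟩

theorem bx_neg {r : ℤ} {v : ℤ × ℤ} (hv : v ∈ bx r) : -v ∈ bx r := by
  refine ⟨?_, ?_⟩
  · show |(-v).1| ≤ r
    rw [Prod.fst_neg, abs_neg]; exact hv.1
  · show |(-v).2| ≤ r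
    rw [Prod.snd_neg, abs_neg]; exact hv.2

theorem bx_sub {r s : ℤ} {v w : ℤ × ℤ} (hv : v ∈ bx r) (hw : w ∈ bx s) : v - w ∈ bx (r + s) := by
  rw [sub_eq_add_neg]
  exact bx_add hv (bx_neg hw)

/-- jump bound: a point of the ball of radius `n` around `x` -/
theorem Phi_th (Z : Z2Data G) {n : ℕ} {x y : V} (h : y ∈ th hloc n {x}) :
    Z.Φ y - Z.Φ x ∈ bx (Z.C * n) := by
  obtain ⟨a, ha, w, hw⟩ := (mem_th hloc).1 h
  rw [Finset.mem_singleton] at ha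
  subst ha
  have h1 := jump_walk Z w
  have h2 : (Z.C : ℤ) * w.length ≤ Z.C * n := by
    have : (w.length : ℤ) ≤ n := by exact_mod_cast hw
    exact mul_le_mul_of_nonneg_left this (by positivity)
  refine ⟨?_, ?_⟩
  · show |(Z.Φ y).1 - (Z.Φ a).1| ≤ _
    rw [abs_sub_comm]; exact h1.1.trans h2
  · show |(Z.Φ y).2 - (Z.Φ a).2| ≤ _
    rw [abs_sub_comm]; exact h1.2.trans h2

theorem th_self (n : ℕ) (x : V) : x ∈ th hloc n {x} := subset_th hloc n _ (Finset.mem_singleton_self x)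

theorem th_symm {n : ℕ} {x y : V} (h : y ∈ th hloc n {x}) : x ∈ th hloc n {y} :=
  (mem_th_singleton_comm hloc).1 h

theorem th_trans {n m : ℕ} {x y z : V} (h : y ∈ th hloc n {x}) (h' : z ∈ th hloc m {y}) :
    z ∈ th hloc (n + m) {x} := by
  obtain ⟨a, ha, w, hw⟩ := (mem_th hloc).1 h
  obtain ⟨b, hb, w', hw'⟩ := (mem_th hloc).1 h'
  rw [Finset.mem_singleton] at ha hb
  subst ha hb
  exact (mem_th hloc).2 ⟨a, Finset.mem_singleton_self _, w.append w', by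
    rw [SimpleGraph.Walk.length_append]; omega⟩

theorem th_adj {n : ℕ} {x y z : V} (h : y ∈ th hloc n {x}) (h' : G.Adj y z) :
    z ∈ th hloc (n + 1) {x} := by
  obtain ⟨a, ha, w, hw⟩ := (mem_th hloc).1 h
  rw [Finset.mem_singleton] at ha
  subst ha
  exact (mem_th hloc).2 ⟨a, Finset.mem_singleton_self _, w.concat h', by
    rw [SimpleGraph.Walk.length_concat]; omega⟩

theorem th_act (φ : G ≃g G) {n : ℕ} {x y : V} : φ y ∈ th hloc n {φ x} ↔ y ∈ th hloc n {x} :=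
  th_aut hloc φ n x y

/-- the covering radius -/
theorem exists_cover (hconn : G.Connected) (Z : Z2Data G) (o : V) :
    ∃ k0 : ℕ, ∀ k, k0 ≤ k → ∀ v, ∃ f ∈ Orb Z o, v ∈ th hloc k {f} := by
  have hw : ∀ f : V, ∃ w : G.Walk o f, True := fun f => ⟨(hconn.preconnected o f).some, trivial⟩
  choose w _ using hw
  refine ⟨Z.F.sup (fun f => (w f).length), fun k hk v => ?_⟩
  obtain ⟨h, hh⟩ := Z.cov v
  refine ⟨((h⁻¹ : Z.H) : G ≃g G) o, ⟨h⁻¹, rfl⟩, ?_⟩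
  have h1 : (h : G ≃g G) v ∈ th hloc k {o} :=
    (mem_th hloc).2 ⟨o, Finset.mem_singleton_self o, w _,
      (Finset.le_sup (f := fun f => (w f).length) hh).trans hk⟩
  have h2 := (th_act hloc ((h⁻¹ : Z.H) : G ≃g G)).2 h1
  rwa [act_inv_act] at h2

theorem exists_card_th (Z : Z2Data G) : ∃ D : ℕ, ∀ (n : ℕ) (x : V),
    (th hloc n {x}).card ≤ (D + 1) ^ n := by
  obtain ⟨D, hD⟩ := exists_degree_bound hloc (quasiTransitive Z)
  refine ⟨D, fun n x => ?_⟩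
  have := card_th_le hloc hD n {x}
  rwa [Finset.card_singleton, mul_one] at this

/-! ### edges touching a finite set -/

/-- edges of `G` touching `A` -/
noncomputable def tch (A : Finset V) : Finset (Sym2 V) :=
  A.biUnion (fun x => (nb hloc x).image (fun y => s(x, y)))

theorem mem_tch {A : Finset V} {e : Sym2 V} :
    e ∈ tch hloc A ↔ e ∈ G.edgeSet ∧ ∃ x ∈ A, x ∈ e := by
  unfold tch
  rw [Finset.mem_biUnion]
  constructor
  · rintro ⟨x, hx, hy⟩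
    obtain ⟨z, hz, rfl⟩ := Finset.mem_image.1 hy
    rw [Sharp.mem_nb] at hz
    exact ⟨hz, x, hx, Sym2.mem_mk_left x z⟩
  · rintro ⟨he, x, hx, hxe⟩
    obtain ⟨y, rfl⟩ := Sym2.mem_iff_exists.1 hxe
    refine ⟨x, hx, Finset.mem_image.2 ⟨y, ?_, rfl⟩⟩
    rw [Sharp.mem_nb]
    exact he

theorem mem_tch_mk {A : Finset V} {x y : V} :
    s(x, y) ∈ tch hloc A ↔ G.Adj x y ∧ (x ∈ A ∨ y ∈ A) := by
  rw [mem_tch, SimpleGraph.mem_edgeSet]
  constructor
  · rintro ⟨h, z, hz, hz'⟩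
    rcases Sym2.mem_iff.1 hz' with rfl | rfl
    · exact ⟨h, Or.inl hz⟩
    · exact ⟨h, Or.inr hz⟩
  · rintro ⟨h, hx | hy⟩
    · exact ⟨h, x, hx, Sym2.mem_mk_left x y⟩
    · exact ⟨h, y, hy, Sym2.mem_mk_right x y⟩

theorem tch_mono {A B : Finset V} (h : A ⊆ B) : tch hloc A ⊆ tch hloc B := by
  intro e he
  rw [mem_tch] at he ⊢
  obtain ⟨h1, x, hx, hxe⟩ := he
  exact ⟨h1, x, h hx, hxe⟩

theorem coe_tch_subset (A : Finset V) : (↑(tch hloc A) : Set (Sym2 V)) ⊆ G.edgeSet :=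
  fun _ he => ((mem_tch hloc).1 (Finset.mem_coe.1 he)).1

theorem card_tch_le {D : ℕ} (hD : ∀ v, (nb hloc v).card ≤ D) (A : Finset V) :
    (tch hloc A).card ≤ A.card * D := by
  unfold tch
  exact Finset.card_biUnion_le_card_mul A _ D
    (fun v _ => (Finset.card_image_le).trans (hD v))

/-- the edges of the block `B(f)` -/
noncomputable def blk (k : ℕ) (f : V) : Finset (Sym2 V) := tch hloc (th hloc k {f})

theorem mem_blk_mk {k : ℕ} {f x y : V} :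
    s(x, y) ∈ blk hloc k f ↔ G.Adj x y ∧ (x ∈ th hloc k {f} ∨ y ∈ th hloc k {f}) :=
  mem_tch_mk hloc

theorem mem_blk {k : ℕ} {f : V} {e : Sym2 V} :
    e ∈ blk hloc k f ↔ e ∈ G.edgeSet ∧ ∃ x ∈ th hloc k {f}, x ∈ e := mem_tch hloc

/-- every endpoint of an edge of the block `f` is in `B_{k+1}(f)` -/
theorem mem_nb_of_mem_blk {k : ℕ} {f : V} {e : Sym2 V} (he : e ∈ blk hloc k f) {x : V}
    (hx : x ∈ e) : x ∈ th hloc (k + 1) {f} := by
  obtain ⟨h1, y, hy, hye⟩ := (mem_blk hloc).1 he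
  by_cases hxy : x = y
  · rw [hxy]; exact th_mono_n hloc (Nat.le_succ k) _ hy
  · have : e = s(x, y) := ((Sym2.mem_and_mem_iff hxy).1 ⟨hx, hye⟩)
    rw [this, SimpleGraph.mem_edgeSet] at h1
    exact th_adj hloc hy h1.symm

theorem exists_card_blk (Z : Z2Data G) (k : ℕ) : ∃ L : ℕ, ∀ f, (blk hloc k f).card ≤ L := by
  obtain ⟨D, hD⟩ := exists_degree_bound hloc (quasiTransitive Z)
  obtain ⟨D', hD'⟩ := exists_card_th hloc Z
  refine ⟨(D' + 1) ^ k * D, fun f => ?_⟩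
  exact (card_tch_le hloc hD _).trans (Nat.mul_le_mul_right _ (hD' k f))

/-- if two blocks share an edge then the centres are close -/
theorem near_of_not_disjoint {k : ℕ} {f f' : V} (h : ¬ Disjoint (blk hloc k f) (blk hloc k f')) :
    f' ∈ th hloc (2 * k + 1) {f} := by
  rw [Finset.not_disjoint_iff] at h
  obtain ⟨e, he, he'⟩ := h
  obtain ⟨_, x, hx, hxe⟩ := (mem_blk hloc).1 he
  have h2 := mem_nb_of_mem_blk hloc he' hxe
  have h3 := th_trans hloc hx (th_symm hloc h2)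
  have h4 : k + (k + 1) = 2 * k + 1 := by ring
  rwa [h4] at h3

/-- bounded overlap of the blocks -/
theorem exists_overlap (Z : Z2Data G) (k : ℕ) : ∃ K : ℕ, 1 ≤ K ∧ ∀ (Y : Finset V) (f : V),
    (Y.filter (fun f' => f = f' ∨ ¬ Disjoint (blk hloc k f) (blk hloc k f'))).card ≤ K := by
  obtain ⟨D, hD⟩ := exists_card_th hloc Z
  refine ⟨(D + 1) ^ (2 * k + 1), Nat.one_le_pow _ _ (Nat.succ_pos D), fun Y f => ?_⟩
  refine le_trans (Finset.card_le_card ?_) (hD (2 * k + 1) f)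
  intro f' hf'
  rw [Finset.mem_filter] at hf'
  rcases hf'.2 with h | h
  · rw [← h]; exact th_self hloc _ _
  · exact near_of_not_disjoint hloc h

/-- the ball is connected by the edges touching it -/
theorem reach_center {k : ℕ} {f y : V} (hy : y ∈ th hloc (k + 1) {f}) {S : Set (Sym2 V)}
    (hS : (↑(blk hloc k f) : Set (Sym2 V)) ⊆ S) : (openSubgraph G S).Reachable f y := by
  have key : ∀ n, n ≤ k + 1 → ∀ y, y ∈ th hloc n {f} → (openSubgraph G S).Reachable f y := by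
    intro n
    induction n with
    | zero =>
      intro _ y hy
      rw [th_zero, Finset.mem_singleton] at hy
      rw [hy]
    | succ n ih =>
      intro hn y hy
      rw [th_succ, mem_nbh] at hy
      rcases hy with hy | ⟨z, hz, hzy⟩
      · exact ih (by omega) y hy
      · refine (ih (by omega) z hz).trans (SimpleGraph.Adj.reachable ?_)
        rw [Inf.openSubgraph_adj]
        refine ⟨hS (Finset.mem_coe.2 ((mem_blk_mk hloc).2 ⟨hzy, Or.inl ?_⟩)), hzy⟩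
        exact th_mono_n hloc (by omega) _ hz
  exact key (k + 1) le_rfl y hy

/-- (h1): `nb b` is joined to `vtx b` by the edges of `blk b` -/
theorem reach_blk {k : ℕ} {f x y : V} (hx : x ∈ th hloc (k + 1) {f}) (hy : y ∈ th hloc (k + 1) {f})
    {S : Set (Sym2 V)} (hS : (↑(blk hloc k f) : Set (Sym2 V)) ⊆ S) :
    (openSubgraph G S).Reachable x y :=
  (reach_center hloc hx hS).symm.trans (reach_center hloc hy hS)

/-! ### domains -/

/-- the block-removed domain: all vertices which are only in blocks `B(f)` with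
`Φ f - Φ o ∈ S` -/
def Dom (Z : Z2Data G) (o : V) (k : ℕ) (S : Set (ℤ × ℤ)) : Set V :=
  {v | ∀ f ∈ Orb Z o, v ∈ th hloc k {f} → Z.Φ f - Z.Φ o ∈ S}

/-- edges with both endpoints in `D` -/
def ein (G : SimpleGraph V) (D : Set V) : Set (Sym2 V) := {e | e ∈ G.edgeSet ∧ ∀ x ∈ e, x ∈ D}

theorem mem_ein_mk {D : Set V} {x y : V} : s(x, y) ∈ ein G D ↔ G.Adj x y ∧ x ∈ D ∧ y ∈ D := by
  unfold ein
  show s(x, y) ∈ G.edgeSet ∧ (∀ z ∈ s(x, y), z ∈ D) ↔ _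
  rw [SimpleGraph.mem_edgeSet]
  constructor
  · rintro ⟨h1, h2⟩
    exact ⟨h1, h2 x (Sym2.mem_mk_left x y), h2 y (Sym2.mem_mk_right x y)⟩
  · rintro ⟨h1, h2, h3⟩
    refine ⟨h1, fun z hz => ?_⟩
    rcases Sym2.mem_iff.1 hz with rfl | rfl
    · exact h2
    · exact h3

theorem ein_subset (D : Set V) : ein G D ⊆ G.edgeSet := fun _ h => h.1

theorem ein_mono {D D' : Set V} (h : D ⊆ D') : ein G D ⊆ ein G D' :=
  fun _ he => ⟨he.1, fun x hx => h (he.2 x hx)⟩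

theorem Dom_mono (Z : Z2Data G) (o : V) (k : ℕ) {S S' : Set (ℤ × ℤ)} (h : S ⊆ S') :
    Dom hloc Z o k S ⊆ Dom hloc Z o k S' := fun _ hv f hf hvf => h (hv f hf hvf)

theorem Dom_congr (Z : Z2Data G) (o : V) (k : ℕ) {S S' : Set (ℤ × ℤ)} (h : S = S') :
    Dom hloc Z o k S = Dom hloc Z o k S' := by rw [h]

/-- a vertex all of whose neighbouring values of `Φ` are good lies in the domain -/
theorem mem_Dom (Z : Z2Data G) (o : V) (k : ℕ) {S : Set (ℤ × ℤ)} {v : V}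
    (h : ∀ a, a ∈ bx (Z.C * k) → Z.Φ v - Z.Φ o + a ∈ S) : v ∈ Dom hloc Z o k S := by
  intro f _ hvf
  have h1 := Phi_th hloc Z (th_symm hloc hvf)
  have h2 := h _ h1
  have : Z.Φ v - Z.Φ o + (Z.Φ f - Z.Φ v) = Z.Φ f - Z.Φ o := by abel
  rwa [this] at h2

/-- outside the domain: in a removed block -/
theorem not_mem_Dom {Z : Z2Data G} {o : V} {k : ℕ} {S : Set (ℤ × ℤ)} {v : V} :
    v ∉ Dom hloc Z o k S ↔ ∃ f ∈ Orb Z o, v ∈ th hloc k {f} ∧ Z.Φ f - Z.Φ o ∉ S := by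
  unfold Dom
  simp only [Set.mem_ofPred_eq, not_forall, exists_prop]

/-- a block vertex of a removed block is outside the domain -/
theorem not_mem_Dom_of_block {Z : Z2Data G} {o : V} {k : ℕ} {S : Set (ℤ × ℤ)} {f v : V}
    (hf : f ∈ Orb Z o) (hS : Z.Φ f - Z.Φ o ∉ S) (hv : v ∈ th hloc k {f}) :
    v ∉ Dom hloc Z o k S := (not_mem_Dom hloc).2 ⟨f, hf, hv, hS⟩

/-- a vertex of the domain has values of `Φ` close to `S` -/
theorem exists_of_mem_Dom (Z : Z2Data G) {o : V} {k : ℕ} (hk : ∀ v, ∃ f ∈ Orb Z o, v ∈ th hloc k {f})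
    {S : Set (ℤ × ℤ)} {v : V} (h : v ∈ Dom hloc Z o k S) :
    ∃ f ∈ Orb Z o, v ∈ th hloc k {f} ∧ Z.Φ f - Z.Φ o ∈ S ∧ Z.Φ v - Z.Φ f ∈ bx (Z.C * k) := by
  obtain ⟨f, hf, hvf⟩ := hk v
  exact ⟨f, hf, hvf, h f hf hvf, Phi_th hloc Z hvf⟩

/-- (h1): the edges of a removed block are not inside the domain -/
theorem blk_disjoint_ein {Z : Z2Data G} {o : V} {k : ℕ} {S : Set (ℤ × ℤ)} {f : V}
    (hf : f ∈ Orb Z o) (hS : Z.Φ f - Z.Φ o ∉ S) :
    Disjoint (↑(blk hloc k f) : Set (Sym2 V)) (ein G (Dom hloc Z o k S)) := by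
  rw [Set.disjoint_left]
  intro e he he'
  obtain ⟨_, x, hx, hxe⟩ := (mem_blk hloc).1 (Finset.mem_coe.1 he)
  exact not_mem_Dom_of_block hloc hf hS hx (he'.2 x hxe)

/-- (h1): the edges of a block are inside every domain which contains the neighbouring values -/
theorem blk_subset_ein {Z : Z2Data G} {o : V} {k : ℕ} {S : Set (ℤ × ℤ)} {f : V}
    (hS : ∀ a, a ∈ bx (Z.C * (2 * k + 1)) → Z.Φ f - Z.Φ o + a ∈ S) :
    (↑(blk hloc k f) : Set (Sym2 V)) ⊆ ein G (Dom hloc Z o k S) := by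
  intro e he
  refine ⟨((mem_blk hloc).1 (Finset.mem_coe.1 he)).1, fun x hx f' _ hxf' => ?_⟩
  have h1 := mem_nb_of_mem_blk hloc (Finset.mem_coe.1 he) hx
  have h2 := th_trans hloc h1 (th_symm hloc hxf')
  have h3 := Phi_th hloc Z h2
  have h4 : ((k + 1 + k : ℕ) : ℤ) = 2 * k + 1 := by push_cast; ring
  rw [h4] at h3
  have h5 := hS _ h3
  have : Z.Φ f - Z.Φ o + (Z.Φ f' - Z.Φ f) = Z.Φ f' - Z.Φ o := by abel
  rwa [this] at h5

/-- an exit edge of the domain is an edge of a removed block, whose neighbourhood contains the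
inner endpoint; the block is close -/
theorem exit_block {Z : Z2Data G} {o : V} {k : ℕ} {S : Set (ℤ × ℤ)} {x y : V} (hxy : G.Adj x y)
    (hy : y ∉ Dom hloc Z o k S) : ∃ f ∈ Orb Z o, Z.Φ f - Z.Φ o ∉ S ∧ y ∈ th hloc k {f} ∧
      s(x, y) ∈ blk hloc k f ∧ x ∈ th hloc (k + 1) {f} ∧ Z.Φ f - Z.Φ x ∈ bx (Z.C * (k + 1)) := by
  obtain ⟨f, hf, hyf, hS⟩ := (not_mem_Dom hloc).1 hy
  have h1 := th_adj hloc hyf hxy.symm
  refine ⟨f, hf, hS, hyf, (mem_blk_mk hloc).2 ⟨hxy, Or.inr hyf⟩, h1, ?_⟩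
  have := Phi_th hloc Z (th_symm hloc h1)
  push_cast at this
  exact this

/-- the removed block at an exit is within `C (2k+1)` of an allowed value -/
theorem exit_block_near {Z : Z2Data G} {o : V} {k : ℕ}
    (hk : ∀ v, ∃ f ∈ Orb Z o, v ∈ th hloc k {f}) {S : Set (ℤ × ℤ)} {x f : V}
    (hx : x ∈ Dom hloc Z o k S) (hxf : x ∈ th hloc (k + 1) {f}) :
    ∃ f1 ∈ Orb Z o, x ∈ th hloc k {f1} ∧ Z.Φ f1 - Z.Φ o ∈ S ∧
      Z.Φ f - Z.Φ f1 ∈ bx (Z.C * (2 * k + 1)) := by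
  obtain ⟨f1, hf1, hxf1, hS, _⟩ := exists_of_mem_Dom hloc Z hk hx
  refine ⟨f1, hf1, hxf1, hS, ?_⟩
  have h2 := Phi_th hloc Z (th_trans hloc hxf1 (th_symm hloc hxf))
  have h4 : ((k + (k + 1) : ℕ) : ℤ) = 2 * k + 1 := by push_cast; ring
  rwa [h4] at h2

/-- the domain and the group -/
theorem Dom_act (Z : Z2Data G) (o : V) (k : ℕ) (S : Set (ℤ × ℤ)) (h : Z.H) {v : V} :
    (h : G ≃g G) v ∈ Dom hloc Z o k {a | a - (Z.Φ ((h : G ≃g G) o) - Z.Φ o) ∈ S} ↔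
      v ∈ Dom hloc Z o k S := by
  have hP : ∀ w, Z.Φ ((h : G ≃g G) w) = Z.Φ w + (Z.Φ ((h : G ≃g G) o) - Z.Φ o) :=
    Phi_act Z rfl
  constructor
  · intro hv f hf hvf
    have h1 := hv _ (Orb_act Z o h hf) ((th_act hloc (h : G ≃g G)).2 hvf)
    have h2 : Z.Φ ((h : G ≃g G) f) - Z.Φ o - (Z.Φ ((h : G ≃g G) o) - Z.Φ o) = Z.Φ f - Z.Φ o := by
      rw [hP f]; abel
    rw [Set.mem_ofPred_eq, h2] at h1
    exact h1
  · intro hv f hf hvf
    have hf' := Orb_act Z o h⁻¹ hf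
    have h3 : v ∈ th hloc k {((h⁻¹ : Z.H) : G ≃g G) f} := by
      rw [← th_act hloc (h : G ≃g G), act_act_inv]
      exact hvf
    have h1 := hv _ hf' h3
    have h2 := hP (((h⁻¹ : Z.H) : G ≃g G) f)
    rw [act_act_inv] at h2
    rw [Set.mem_ofPred_eq, h2]
    have h4 : Z.Φ (((h⁻¹ : Z.H) : G ≃g G) f) + (Z.Φ ((h : G ≃g G) o) - Z.Φ o) - Z.Φ o -
        (Z.Φ ((h : G ≃g G) o) - Z.Φ o) = Z.Φ (((h⁻¹ : Z.H) : G ≃g G) f) - Z.Φ o := by abel
    rw [h4]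
    exact h1

/-- the ball of radius `n` around `o` is in the domain of a set containing a big box -/
theorem th_subset_Dom (Z : Z2Data G) (o : V) (k n : ℕ) {S : Set (ℤ × ℤ)}
    (hS : bx (Z.C * (n + k)) ⊆ S) : ∀ v ∈ th hloc n {o}, v ∈ Dom hloc Z o k S := by
  intro v hv f _ hvf
  have h1 := Phi_th hloc Z (th_trans hloc hv (th_symm hloc hvf))
  push_cast at h1
  exact hS h1

/-- a domain of a set `S` is at graph distance `> r` from points far from `S` -/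
theorem disjoint_th_Dom {Z : Z2Data G} {o : V} {k : ℕ}
    (hk : ∀ v, ∃ f ∈ Orb Z o, v ∈ th hloc k {f}) {S : Set (ℤ × ℤ)} {z : V} {r : ℕ}
    (h : ∀ a, a ∈ bx (Z.C * (r + k)) → Z.Φ z - Z.Φ o + a ∉ S) :
    ∀ v ∈ th hloc r {z}, v ∉ Dom hloc Z o k S := by
  intro v hv hv'
  obtain ⟨f, hf, hvf, hS, _⟩ := exists_of_mem_Dom hloc Z hk hv'
  have h1 := Phi_th hloc Z (th_trans hloc hv (th_symm hloc hvf))
  push_cast at h1
  have h2 := h _ h1
  have : Z.Φ z - Z.Φ o + (Z.Φ f - Z.Φ z) = Z.Φ f - Z.Φ o := by abel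
  rw [this] at h2
  exact h2 hS

/-! ### finiteness -/

/-- the orbit points with `Φ f - Φ o ∈ S` at graph distance at most `r` -/
noncomputable def pts (Z : Z2Data G) (o : V) (r : ℕ) (S : Set (ℤ × ℤ)) : Finset V :=
  (th hloc r {o}).filter (fun f => f ∈ Orb Z o ∧ Z.Φ f - Z.Φ o ∈ S)

theorem mem_pts {Z : Z2Data G} {o : V} {r : ℕ} {S : Set (ℤ × ℤ)} {f : V} :
    f ∈ pts hloc Z o r S ↔ f ∈ th hloc r {o} ∧ f ∈ Orb Z o ∧ Z.Φ f - Z.Φ o ∈ S := by
  unfold pts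
  rw [Finset.mem_filter]

/-- (h3): a vertex lies in finitely many blocks -/
theorem finite_blocks (k : ℕ) (v : V) : {f | v ∈ th hloc k {f}}.Finite := by
  refine (th hloc k {v}).finite_toSet.subset fun f hf => ?_
  exact Finset.mem_coe.2 (th_symm hloc hf)

/-- (h3) in the form used for layers: if the height of the blocks of level `n` is at least `n`,
then a vertex lies in finitely many levels -/
theorem finite_levels (Z : Z2Data G) (k : ℕ) (v : V) (Y : ℕ → Set V) (L : ℤ × ℤ → ℤ)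
    (hY : ∀ n, ∀ f ∈ Y n, (n : ℤ) ≤ L (Z.Φ f)) : {n | ∃ f ∈ Y n, v ∈ th hloc k {f}}.Finite := by
  have hfin := finite_blocks hloc k v
  obtain ⟨b, hb⟩ := (hfin.image (fun f => L (Z.Φ f))).bddAbove
  refine (Set.finite_le_nat b.toNat).subset ?_
  rintro n ⟨f, hf, hvf⟩
  have h1 := hY n f hf
  have h2 : L (Z.Φ f) ≤ b := hb ⟨f, hvf, rfl⟩
  show n ≤ b.toNat
  omega

end Crest.Agent.R147.Lo
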