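import Mathlib

/-!
# R147, block B5d: the plan of moves

Normalised coordinates `(x, y)`; move `false` is `u₁ = (0, 1)`, move `true` is `u₂ = (1, s)` with
`|s| ≤ 1`.  The plan with parameter `m` is `(u₁ u₁ u₂)^m u₁ u₁ u₁ …`.
-/

namespace Crest.Agent.R147.Pl

/-- The displacement of a move. -/
noncomputable def mv (s : ℝ) (i : Bool) : ℝ × ℝ := if i then (1, s) else (0, 1)

/-- The type of the `t`-th move of the plan with parameter `m`. -/
def idx (m t : ℕ) : Bool := decide (t < 3 * m ∧ t % 3 = 2)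

/-- The number of `u₂` moves among the first `t` ones. -/
def cnt (m t : ℕ) : ℕ := min (t / 3) m

/-- The position after `t` moves. -/
noncomputable def pos (s : ℝ) (m t : ℕ) : ℝ × ℝ :=
  ((cnt m t : ℝ), (t : ℝ) - (cnt m t : ℝ) + s * (cnt m t : ℝ))

theorem cnt_succ (m t : ℕ) : cnt m (t + 1) = cnt m t + if idx m t then 1 else 0 := by
  unfold cnt idx
  by_cases h : t < 3 * m ∧ t % 3 = 2
  · rw [if_pos (by simpa using h)]
    rcases h with ⟨h1, h2⟩
    omega
  · rw [if_neg (by simpa using h)]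
    omega

@[simp] theorem pos_zero (s : ℝ) (m : ℕ) : pos s m 0 = (0, 0) := by
  simp [pos, cnt]

theorem pos_succ (s : ℝ) (m t : ℕ) : pos s m (t + 1) = pos s m t + mv s (idx m t) := by
  unfold pos mv
  rw [cnt_succ]
  cases idx m t
  · simp only [Bool.false_eq_true, if_false, add_zero, Prod.mk_add_mk]
    push_cast
    ext <;> ring_nf
  · simp only [if_true, Prod.mk_add_mk]
    push_cast
    ext <;> ring_nf

/-- Length of the plan. -/
def len (m : ℕ) : ℕ := 3 * m + 205

theorem cnt_le (m t : ℕ) : cnt m t ≤ m := min_le_right _ _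

theorem cnt_le_div (m t : ℕ) : (cnt m t : ℝ) ≤ (t : ℝ) / 3 := by
  have h : 3 * cnt m t ≤ t := by unfold cnt; omega
  have h' : (3 : ℝ) * cnt m t ≤ t := by exact_mod_cast h
  linarith

theorem cnt_of_le {m t : ℕ} (h : 3 * m ≤ t) : cnt m t = m := by unfold cnt; omega

theorem pos_fst (s : ℝ) (m t : ℕ) : (pos s m t).1 = cnt m t := rfl

theorem pos_fst_nonneg (s : ℝ) (m t : ℕ) : 0 ≤ (pos s m t).1 := by
  rw [pos_fst]; positivity

theorem pos_fst_le (s : ℝ) (m t : ℕ) : (pos s m t).1 ≤ m := by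
  rw [pos_fst]; exact_mod_cast cnt_le m t

theorem pos_fst_le_div (s : ℝ) (m t : ℕ) : (pos s m t).1 ≤ (t : ℝ) / 3 := cnt_le_div m t

/-- Phase 2 is vertical. -/
theorem pos_fst_of_le (s : ℝ) {m t : ℕ} (h : 3 * m ≤ t) : (pos s m t).1 = m := by
  rw [pos_fst, cnt_of_le h]

/-- The height grows at least with speed `1 / 3`. -/
theorem div_le_pos_snd {s : ℝ} (hs : |s| ≤ 1) (m t : ℕ) : (t : ℝ) / 3 ≤ (pos s m t).2 := by
  have h1 := cnt_le_div m t
  have h2 : (0 : ℝ) ≤ cnt m t := by positivity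
  have h3 := (abs_le.1 hs).1
  unfold pos
  nlinarith

theorem pos_snd_nonneg {s : ℝ} (hs : |s| ≤ 1) (m t : ℕ) : 0 ≤ (pos s m t).2 :=
  le_trans (by positivity) (div_le_pos_snd hs m t)

/-- The height grows at most with speed `1`. -/
theorem pos_snd_le {s : ℝ} (hs : |s| ≤ 1) (m t : ℕ) : (pos s m t).2 ≤ t := by
  have h2 : (0 : ℝ) ≤ cnt m t := by positivity
  have h3 := (abs_le.1 hs).2
  unfold pos
  nlinarith

/-- The final height. -/
theorem pos_snd_len {s : ℝ} (hs : |s| ≤ 1) (m : ℕ) : 205 + (m : ℝ) ≤ (pos s m (len m)).2 := by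
  have h3 := (abs_le.1 hs).1
  have h4 : cnt m (len m) = m := cnt_of_le (by unfold len; omega)
  have h5 : (0 : ℝ) ≤ m := by positivity
  unfold pos
  rw [h4]
  unfold len
  push_cast
  nlinarith

theorem pos_snd_len_le {s : ℝ} (hs : |s| ≤ 1) (m : ℕ) : (pos s m (len m)).2 ≤ 3 * m + 205 := by
  have := pos_snd_le hs m (len m)
  unfold len at this ⊢
  push_cast at this
  exact this

/-- The choice of the parameter. -/
theorem exists_param {x d : ℝ} (hx : |x| ≤ 8) (hd : d = 50 ∨ d = 10) :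
    ∃ m : ℕ, 1 ≤ m ∧ m ≤ 59 ∧ |x + m - d| ≤ 1 / 2 := by
  obtain ⟨h1, h2⟩ := abs_le.1 hx
  have hr := abs_sub_round (d - x)
  have hlo : (3 / 2 : ℝ) ≤ round (d - x) := by
    have := (abs_le.1 hr).2
    rcases hd with rfl | rfl <;> linarith
  have hhi : (round (d - x) : ℝ) ≤ 117 / 2 := by
    have := (abs_le.1 hr).1
    rcases hd with rfl | rfl <;> linarith
  have hlo' : (1 : ℤ) < round (d - x) := by
    have : (1 : ℝ) < round (d - x) := by linarith
    exact_mod_cast this
  have hhi' : round (d - x) < (59 : ℤ) := by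
    have : (round (d - x) : ℝ) < 59 := by linarith
    exact_mod_cast this
  refine ⟨(round (d - x)).toNat, by omega, by omega, ?_⟩
  have hcast : (((round (d - x)).toNat : ℕ) : ℝ) = (round (d - x) : ℝ) := by
    have : (((round (d - x)).toNat : ℕ) : ℤ) = round (d - x) := Int.toNat_of_nonneg (by omega)
    exact_mod_cast this
  rw [hcast, abs_sub_comm]
  have : d - (x + (round (d - x) : ℝ)) = (d - x) - round (d - x) := by ring
  rw [this]
  exact hr

/-- **Summary.**  The plan from a start `(x, y)` of the window towards the window at horizontal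
distance `d`, with a trajectory `v` which follows the moves up to an error `κ` per move. -/
theorem plan {s : ℝ} (hs : |s| ≤ 1) {x d : ℝ} (hx : |x| ≤ 8) (hd : d = 50 ∨ d = 10) :
    ∃ m : ℕ, 1 ≤ m ∧ m ≤ 59 ∧
      (∀ t, -8 ≤ x + (pos s m t).1 ∧ x + (pos s m t).1 ≤ d + 1 / 2) ∧
      (∀ t, 0 ≤ (pos s m t).2) ∧
      (∀ t, t ≤ 3 * m → (pos s m t).2 ≤ 177) ∧
      (∀ t, 3 * m ≤ t → |x + (pos s m t).1 - d| ≤ 1 / 2) ∧
      (∀ t, x + (pos s m t).1 ≤ x + (pos s m t).2) ∧
      205 ≤ (pos s m (len m)).2 ∧ (pos s m (len m)).2 ≤ 400 := by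
  obtain ⟨m, h1, h2, h3⟩ := exists_param hx hd
  obtain ⟨h4, h5⟩ := abs_le.1 hx
  obtain ⟨h6, h7⟩ := abs_le.1 h3
  have h2' : (m : ℝ) ≤ 59 := by exact_mod_cast h2
  have h0' : (0 : ℝ) ≤ m := by positivity
  refine ⟨m, h1, h2, ?_, ?_, ?_, ?_, ?_, ?_, ?_⟩
  · intro t
    have := pos_fst_nonneg s m t
    have := pos_fst_le s m t
    constructor <;> linarith
  · intro t; exact pos_snd_nonneg hs m t
  · intro t ht
    have h8 := pos_snd_le hs m t
    have h9 : (t : ℝ) ≤ 3 * m := by exact_mod_cast ht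
    linarith
  · intro t ht
    rw [pos_fst_of_le s ht]
    exact h3
  · intro t
    have h8 := pos_fst_le_div s m t
    have h9 := div_le_pos_snd hs m t
    linarith
  · have := pos_snd_len hs m
    linarith
  · have := pos_snd_len_le hs m
    linarith

/-- A trajectory following the moves of the plan up to `κ` per move stays within `t κ` of the
partial sums. -/
theorem traj_close {s κ : ℝ} {m : ℕ} {v : ℕ → ℝ × ℝ} {n : ℕ}
    (hv : ∀ t < n, |(v (t + 1)).1 - (v t).1 - (mv s (idx m t)).1| ≤ κ ∧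
      |(v (t + 1)).2 - (v t).2 - (mv s (idx m t)).2| ≤ κ) :
    ∀ t ≤ n, |(v t).1 - (v 0).1 - (pos s m t).1| ≤ t * κ ∧
      |(v t).2 - (v 0).2 - (pos s m t).2| ≤ t * κ := by
  intro t
  induction t with
  | zero => intro _; simp
  | succ t ih =>
    intro ht
    obtain ⟨h1, h2⟩ := ih (by omega)
    obtain ⟨h3, h4⟩ := hv t (by omega)
    rw [pos_succ]
    rw [Prod.fst_add, Prod.snd_add]
    push_cast
    rw [abs_le] at *
    rw [abs_le] at *
    constructor <;> constructor <;> linarith [h1.1, h1.2, h2.1, h2.2, h3.1, h3.2, h4.1, h4.2]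

end Crest.Agent.R147.Pl
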