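import Crest.Agent.R147.Mv475Inf
import Crest.Agent.R147.Lo505
import Crest.Agent.R147.Pl592

/-!
# E4c of S0207: definitions

`Mov` : the data of the two single moves (`false` = `u₁ = (0,1)`, `true` = `u₂ = (1,y)` in the
normalised coordinates `(Xr, Yr)`), everything equivariant under `Z.H`.
`Om x m` : all edges used by the plan with parameter `m` started at `x`;
`Dn x θ` : vertices below height `θ` (relative to `x`);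
`tub x θ m` : edges of `Om x m` inside `Dn x θ`;
`Ysc x θ m` : the blocks at the screen of height `θ` which can be touched.
-/

set_option autoImplicit false
set_option linter.unusedSectionVars false

open Finset MeasureTheory ProbabilityTheory unitInterval
open Crest.ProbabilityR.Percolation Crest.Agent.R147.KN Crest.Agent.R159
open Crest.Agent.R147.Cl Crest.Agent.R147.St Crest.Agent.R147.Lo

namespace Crest.Agent.R147.Mv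

universe u
variable {V : Type u} {G : SimpleGraph V}

/-- normalised height -/
noncomputable def Yr (L : ℤ × ℤ → ℤ) (T : ℝ) (a : ℤ × ℤ) : ℝ := (L a : ℝ) / T

/-- normalised transversal coordinate -/
noncomputable def Xr (L M : ℤ × ℤ → ℤ) (b s : ℝ) (a : ℤ × ℤ) : ℝ := ((M a : ℝ) - s * L a) / b

open Classical in
/-- the data of the two single moves -/
structure Mov (hloc : ∀ v : V, (G.neighborSet v).Finite) (Z : Z2Data G) (o : V) (k : ℕ) (p : I)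
    (blk : V → Finset (Sym2 V)) (L M : ℤ × ℤ → ℤ) (T b s y κ : ℝ) (ρ : ℕ)
    (Ein : Bool → V → Finset (Sym2 V)) (Tgt : Bool → V → Finset V) (n : ℕ) (δ : ℝ) :
    Prop where
  Ladd : ∀ a a', L (a + a') = L a + L a'
  Madd : ∀ a a', M (a + a') = M a + M a'
  Lbx : ∀ (r : ℤ) a, a ∈ bx r → |L a| ≤ r
  T_pos : 0 < T
  b_pos : 0 < b
  y_le : |y| ≤ 1
  κ_nonneg : 0 ≤ κ
  κ_le : κ ≤ 1 / 4000
  thickY : ∀ a ∈ bx (Z.C * (3 * k + 3)), |Yr L T a| ≤ κ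
  thickX : ∀ a ∈ bx (Z.C * (3 * k + 3)), |Xr L M b s a| ≤ κ
  cover : ∀ v, ∃ f ∈ Orb Z o, v ∈ th hloc k {f}
  mem_blk : ∀ x e, e ∈ blk x ↔ e ∈ G.edgeSet ∧ ∃ v ∈ e, v ∈ th hloc k {x}
  Ein_act : ∀ (i : Bool) (h : Z.H), ∀ x ∈ Orb Z o, ∀ e,
    Sym2.map (h : G ≃g G) e ∈ Ein i ((h : G ≃g G) x) ↔ e ∈ Ein i x
  Tgt_act : ∀ (i : Bool) (h : Z.H), ∀ x ∈ Orb Z o, ∀ f,
    (h : G ≃g G) f ∈ Tgt i ((h : G ≃g G) x) ↔ f ∈ Tgt i x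
  Ein_edge : ∀ (i : Bool), ∀ x ∈ Orb Z o, ∀ e ∈ Ein i x, e ∈ G.edgeSet
  Ein_X : ∀ (i : Bool), ∀ x ∈ Orb Z o, ∀ e ∈ Ein i x, ∀ v ∈ e,
    |Xr L M b s (Z.Φ v - Z.Φ x)| ≤ 9 / 2
  Ein_Y : ∀ (i : Bool), ∀ x ∈ Orb Z o, ∀ e ∈ Ein i x, ∀ v ∈ e,
    |Yr L T (Z.Φ v - Z.Φ x)| ≤ 3 / 2
  Ein_th : ∀ (i : Bool), ∀ x ∈ Orb Z o, ∀ e ∈ Ein i x, ∀ v ∈ e, v ∈ th hloc ρ {x}
  Tgt_orb : ∀ (i : Bool), ∀ x ∈ Orb Z o, ∀ f ∈ Tgt i x, f ∈ Orb Z o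
  Tgt_X : ∀ (i : Bool), ∀ x ∈ Orb Z o, ∀ f ∈ Tgt i x,
    |Xr L M b s (Z.Φ f - Z.Φ x) - (Pl.mv y i).1| ≤ κ
  Tgt_Y : ∀ (i : Bool), ∀ x ∈ Orb Z o, ∀ f ∈ Tgt i x,
    |Yr L T (Z.Φ f - Z.Φ x) - (Pl.mv y i).2| ≤ κ
  Tgt_th : ∀ (i : Bool), ∀ x ∈ Orb Z o, ∀ f ∈ Tgt i x, f ∈ th hloc ρ {x}
  disj : ∀ (i : Bool), ∀ x ∈ Orb Z o, ∀ f ∈ Tgt i x, Disjoint (blk f) (Ein i x)
  fail : ∀ (i : Bool), ∀ x ∈ Orb Z o, (setBernoulli G.edgeSet p).real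
    {ω | ((Tgt i x).filter fun f => ∃ a ∈ th hloc k {x}, ∃ y ∈ th hloc (k + 1) {f},
      (openSubgraph G (ω ∩ (↑(Ein i x) : Set (Sym2 V)))).Reachable a y).card < n} ≤ δ

/-- vertices strictly below the relative height `θ` -/
def Dn (hloc : ∀ v : V, (G.neighborSet v).Finite) (Z : Z2Data G) (o : V) (k : ℕ)
    (L : ℤ × ℤ → ℤ) (x : V) (θ : ℤ) : Set V :=
  {v | ∀ f ∈ Orb Z o, v ∈ th hloc k {f} → L (Z.Φ f - Z.Φ x) < θ}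

open Classical in
/-- all edges used by the plan with parameter `m` started at `x` -/
noncomputable def OmP (blk : V → Finset (Sym2 V)) (Ein : Bool → V → Finset (Sym2 V))
    (Tgt : Bool → V → Finset V) (x : V) (m : ℕ) : Finset (Sym2 V) :=
  Om Ein Tgt blk (Pl.idx m) x (Pl.len m)

open Classical in
/-- edges of the plan below the screen of relative height `θ` -/
noncomputable def tub (hloc : ∀ v : V, (G.neighborSet v).Finite) (Z : Z2Data G) (o : V)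
    (k : ℕ) (L : ℤ × ℤ → ℤ) (blk : V → Finset (Sym2 V)) (Ein : Bool → V → Finset (Sym2 V))
    (Tgt : Bool → V → Finset V) (x : V) (θ : ℤ) (m : ℕ) : Finset (Sym2 V) :=
  (OmP blk Ein Tgt x m).filter (fun e => ∀ v ∈ e, v ∈ Dn hloc Z o k L x θ)

open Classical in
/-- blocks at the screen of relative height `θ` reachable by the plan -/
noncomputable def Ysc (hloc : ∀ v : V, (G.neighborSet v).Finite) (Z : Z2Data G) (o : V)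
    (k : ℕ) (L : ℤ × ℤ → ℤ) (blk : V → Finset (Sym2 V)) (Ein : Bool → V → Finset (Sym2 V))
    (Tgt : Bool → V → Finset V) (x : V) (θ : ℤ) (m : ℕ) : Finset V :=
  ((ends (OmP blk Ein Tgt x m)).biUnion (fun w => th hloc k {w})).filter
    (fun f => f ∈ Orb Z o ∧ θ ≤ L (Z.Φ f - Z.Φ x) ∧ ∃ e ∈ OmP blk Ein Tgt x m,
      (∃ w ∈ e, w ∈ th hloc k {f}) ∧ ∃ v ∈ e, v ∈ Dn hloc Z o k L x θ)

/-!
Main theorem (in `Mv475Ann.lean`), STATEMENT: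

theorem ann [Countable V] (hp0 : 0 < (p : ℝ)) (hp1 : (p : ℝ) < 1)
    (hM : Mov hloc Z o k p blk L M T b s y κ ρ Ein Tgt (m₀ * K) δ)
    (hK : 0 < K) (hm₀ : 0 < m₀)
    (hcard : ∀ x ∈ Orb Z o, (blk x).card ≤ Δ)
    (hover : ∀ x ∈ Orb Z o, ∀ F : Finset V, (∀ y ∈ F, y ∈ Orb Z o) →
      (F.filter fun y => y = x ∨ ¬ Disjoint (blk x) (blk y)).card ≤ K)
    (hβ0 : 0 < β) (hβ1 : β ≤ 1) (hδ : δ ≤ Nm.del 382 (β / 2))
    (hq : 4 / ((p : ℝ) ^ Δ * m₀) ≤ Nm.del 382 (β / 2))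
    (Cr Mt Ns : ℕ) (h0 g : ℤ) (hg : (Z.C : ℤ) * (2 * k + 1) ≤ g) (hg0 : 0 ≤ g)
    (hNs : ((Cr + 1) * 60 : ℝ) * ((1 - (p : ℝ)) ^ (Mt * Δ))⁻¹ < β / 2 * Ns)
    (hlo : 199 * T + Cr ≤ h0) (hhi : (h0 : ℝ) + Ns * g ≤ 201 * T) :
    ∃ i < Ns, ∀ x ∈ Orb Z o, ∀ r ≤ Cr, ∀ m ≤ 59, ∀ θ : ℤ, θ = h0 + i * g - r →
      (setBernoulli G.edgeSet p).real {ω | ((Ysc hloc Z o k L blk Ein Tgt x θ m).filter
        fun f => ∃ a ∈ th hloc k {x}, ∃ y ∈ th hloc (k + 1) {f},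
        (openSubgraph G (ω ∩ (↑(tub hloc Z o k L blk Ein Tgt x θ m) : Set (Sym2 V)))).Reachable
          a y).card < Mt} ≤ β

Geometry (θ with 199 T ≤ θ ≤ 201 T, m ≤ 59, x ∈ Orb Z o):
tub_edge, tub_Dn, tub_X : v ∈ e ∈ tub → -5 ≤ Xr (Φ v - Φ x) ≤ m + 5, tub_Y : -2 ≤ Yr (Φ v - Φ x),
tub_th : v ∈ th hloc (400 * (ρ + k + 1)) {x}; tub_card (uniform in x, r, m);
Ysc_orb, Ysc_lo : θ ≤ L (Φ f - Φ x), Ysc_hi : L (Φ f - Φ x) < θ + Z.C * (2k+1),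
Ysc_X : |Xr (Φ f - Φ x) - m| ≤ 5, Ysc_th : f ∈ th hloc (400 * (ρ + k + 1)) {x},
Ysc_nb : ∃ v ∈ th hloc (k+1) {f}, v ∈ Dn x θ.
-/

end Crest.Agent.R147.Mv
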