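import Crest.Agent.R147.End490B
import Crest.Agent.R147.Mv475Def

/-!
Row 147 (helper490): helper53's `Nm.MovOut` is helper475's `Mv.Mov`.
-/

set_option autoImplicit false

open Crest.ProbabilityR.Percolation MeasureTheory ProbabilityTheory unitInterval Filter
open Crest.Agent.R159 Crest.Agent.R159.Sharp Crest.Agent.R147.Cl

namespace Crest.Agent.R147.Fi

universe u
variable {V : Type u} {G : SimpleGraph V}

theorem mov_of_movOut {hloc : ∀ v : V, (G.neighborSet v).Finite} {Z : St.Z2Data G} {o : V}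
    {k : ℕ} {p : I} {K n : ℕ} {δ t : ℝ} {L M : ℤ × ℤ → ℤ} {T b s y : ℝ} {r : ℕ}
    {Ein : Bool → V → Finset (Sym2 V)} {Tgt : Bool → V → Finset V}
    (h : Nm.MovOut hloc Z o k p K n δ t L M T b s y r Ein Tgt) (hK : 8000 ≤ K)
    (ht : ((Z.C * (3 * k + 3) : ℕ) : ℝ) ≤ t)
    (hcov : ∀ v, ∃ f ∈ Lo.Orb Z o, v ∈ th hloc k {f}) :
    Mv.Mov hloc Z o k p (Lo.blk hloc k) L M T b s y (2 / K) (r + 1 + k) Ein Tgt n δ := by
  have hK0 : (0 : ℝ) < K := by
    have : (0 : ℕ) < K := by omega
    exact_mod_cast this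
  have hK1 : (8000 : ℝ) ≤ K := by exact_mod_cast hK
  have h1K : (1 : ℝ) / K ≤ 2 / K := div_le_div_of_nonneg_right (by norm_num) hK0.le
  have h1K' : (1 : ℝ) / K ≤ 1 / 2 := by
    apply one_div_le_one_div_of_le (by norm_num)
    linarith
  have hbx : ∀ a ∈ Lo.bx (Z.C * (3 * k + 3)), |(a.1 : ℝ)| ≤ t ∧ |(a.2 : ℝ)| ≤ t := by
    rintro a ⟨h1, h2⟩
    constructor
    · refine le_trans ?_ ht
      have : ((|a.1| : ℤ) : ℝ) ≤ ((Z.C * (3 * k + 3) : ℤ) : ℝ) := by exact_mod_cast h1
      push_cast at this ⊢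
      exact this
    · refine le_trans ?_ ht
      have : ((|a.2| : ℤ) : ℝ) ≤ ((Z.C * (3 * k + 3) : ℤ) : ℝ) := by exact_mod_cast h2
      push_cast at this ⊢
      exact this
  constructor
  · exact fun a a' => (Nm.coord_add h.coord a a').1
  · exact fun a a' => (Nm.coord_add h.coord a a').2
  · intro r a ha
    exact Pg.Coord.abs_L_le h.coord ha.1 ha.2
  · exact h.b_pos.trans_le h.b_le
  · exact h.b_pos
  · exact h.y_le
  · positivity
  · rw [div_le_div_iff₀ hK0 (by norm_num)]
    linarith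
  · intro a ha
    exact (h.thickL a (hbx a ha).1 (hbx a ha).2).trans h1K
  · intro a ha
    exact (h.thickM a (hbx a ha).1 (hbx a ha).2).trans h1K
  · exact hcov
  · intro x e
    rw [Lo.mem_blk]
    constructor
    · rintro ⟨h1, v, hv, hve⟩; exact ⟨h1, v, hve, hv⟩
    · rintro ⟨h1, v, hve, hv⟩; exact ⟨h1, v, hv, hve⟩
  · exact fun i g x _ e => h.ein_act i g x e
  · exact fun i g x _ f => h.tgt_act i g x f
  · exact fun i x _ e he => h.ein_edge i x e he
  · intro i x _ e he v hv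
    exact (h.ein_X i x e he v hv).trans (by linarith)
  · intro i x _ e he v hv
    exact (h.ein_Y i x e he v hv).trans (by linarith)
  · intro i x _ e he v hv
    exact th_mono_n hloc (by omega) _ (h.ein_ball i x e he v hv)
  · exact fun i x _ f hf => h.tgt_orb i x f hf
  · intro i x _ f hf
    have h1 := h.tgt_X i x f hf
    unfold Mv.Xr Pl.mv
    cases i <;> simpa using h1
  · intro i x _ f hf
    have h1 := (h.tgt_Y i x f hf).trans h1K
    unfold Mv.Yr Pl.mv
    cases i <;> simpa using h1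
  · exact fun i x _ f hf => h.tgt_ball i x f hf
  · intro i x _ f hf
    rw [Finset.disjoint_left]
    intro e he he'
    obtain ⟨_, v, hv, hve⟩ := (Lo.mem_blk hloc).1 he
    exact h.disj i x f hf e he' v hve hv
  · exact h.fail

end Crest.Agent.R147.Fi
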