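import Crest.Agent.R147.Exit247A
import Crest.Agent.R147.Sp58Zero

/-!
Row 147, block B5a (helper247): the uniform exit lemma.
-/

set_option autoImplicit false

open Crest.ProbabilityR.Percolation MeasureTheory ProbabilityTheory unitInterval Filter
open Crest.Agent.R159 Crest.Agent.R159.Sharp Crest.Agent.R147.Cl
open scoped Topology

namespace Crest.Agent.R147.Ex

open scoped Classical

universe u
variable {V : Type u} {G : SimpleGraph V}

/-- probability that `A` meets no infinite cluster -/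
noncomputable def eta (G : SimpleGraph V) (p : I) (A : Finset V) : ℝ :=
  (setBernoulli G.edgeSet p).real {ω | ¬ ∃ a ∈ A, Inf.InfAt G ω a}

theorem eta_nonneg (G : SimpleGraph V) (p : I) (A : Finset V) : 0 ≤ eta G p A := measureReal_nonneg

theorem eta_eq [Countable V] (hloc : ∀ v : V, (G.neighborSet v).Finite) (p : I) (k : ℕ) (z : V) :
    eta G p (th hloc k {z}) = 1 - Sp.ballInf hloc p k z := by
  unfold eta Sp.ballInf
  exact probReal_compl_eq_one_sub (Sp.measurableSet_ballInf G (th hloc k {z}))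

/-! ### closing edges -/

section tol
variable {ι : Type u}

theorem measurable_sdiff_finset (T : Finset ι) : Measurable (fun ω : Set ι => ω \ (↑T : Set ι)) := by
  rw [measurable_set_iff]
  intro a
  by_cases ha : a ∈ T
  · simp [ha]
  · simpa [ha] using measurable_set_mem a

/-- deletion tolerance for finitely many edges -/
theorem sdiff_finset_le (u : Set ι) (p : I) (T : Finset ι) (hT : (↑T : Set ι) ⊆ u)
    {A : Set (Set ι)} (hA : MeasurableSet A) :
    (1 - (p : ℝ)) ^ T.card * (setBernoulli u p).real {ω | ω \ (↑T : Set ι) ∈ A} ≤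
      (setBernoulli u p).real A := by
  have hp : 0 ≤ 1 - (p : ℝ) := by linarith [p.2.2]
  induction T using Finset.induction_on generalizing A with
  | empty => simp
  | insert e T he ih =>
    have h1 : MeasurableSet {ω : Set ι | ω \ {e} ∈ A} := measurable_sdiff_set e hA
    have h2 := ih (fun x hx => hT (Finset.mem_insert_of_mem hx)) h1
    have h3 := setBer_sdiff_le u p e (hT (Finset.mem_insert_self e T)) hA
    have h4 : {ω : Set ι | ω \ (↑(insert e T) : Set ι) ∈ A} =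
        {ω : Set ι | ω \ (↑T : Set ι) ∈ {ω : Set ι | ω \ {e} ∈ A}} := by
      ext ω
      simp only [Set.mem_ofPred_eq]
      have : ω \ (↑(insert e T) : Set ι) = (ω \ (↑T : Set ι)) \ {e} := by
        ext x
        simp only [Finset.coe_insert, Set.mem_sdiff, Set.mem_insert_iff, Finset.mem_coe,
          Set.mem_singleton_iff]
        tauto
      rw [this]
    rw [h4, Finset.card_insert_of_notMem he, pow_succ]
    calc (1 - (p : ℝ)) ^ T.card * (1 - p) *
          (setBernoulli u p).real {ω : Set ι | ω \ (↑T : Set ι) ∈ {ω : Set ι | ω \ {e} ∈ A}}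
        = (1 - p) * ((1 - (p : ℝ)) ^ T.card *
          (setBernoulli u p).real {ω : Set ι | ω \ (↑T : Set ι) ∈ {ω : Set ι | ω \ {e} ∈ A}}) := by
          ring
      _ ≤ (1 - p) * (setBernoulli u p).real {ω : Set ι | ω \ {e} ∈ A} :=
          mul_le_mul_of_nonneg_left h2 hp
      _ ≤ _ := h3

end tol

/-- closing the exits: an event `F` which does not depend on the edges leaving `Λ` and few exits in
a finite class `N`: all of them are closed with probability at least `(1-p)^m`. -/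
theorem close_exits [Countable V] (p : I) (Λ : Set V) (A : Finset V) (N : Finset (V × V))
    (hN : ∀ e ∈ N, G.Adj e.1 e.2 ∧ e.2 ∉ Λ) (m : ℕ) {F : Set (Set (Sym2 V))}
    (hF : MeasurableSet F)
    (hFi : ∀ ω ω' : Set (Sym2 V), (∀ x y, x ∈ Λ → y ∈ Λ → (s(x, y) ∈ ω ↔ s(x, y) ∈ ω')) →
      ω ∈ F → ω' ∈ F) :
    (1 - (p : ℝ)) ^ m * (setBernoulli G.edgeSet p).real
        (F ∩ {ω | ¬ Many G Λ A (↑N : Set (V × V)) m ω}) ≤
      (setBernoulli G.edgeSet p).real
        (F ∩ {ω | ∀ e ∈ N, Exit G Λ A ω e → s(e.1, e.2) ∉ ω}) := by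
  set μ := setBernoulli G.edgeSet p with hμ
  have hp0 : 0 ≤ 1 - (p : ℝ) := by linarith [p.2.2]
  have hp1 : 1 - (p : ℝ) ≤ 1 := by linarith [p.2.1]
  set ET : Finset (V × V) → Set (Set (Sym2 V)) :=
    fun T => {ω | ∀ e ∈ N, (Exit G Λ A ω e ↔ e ∈ T)} with hET
  have hETm : ∀ T, MeasurableSet (ET T) := by
    intro T
    have : ET T = ⋂ e ∈ N, {ω | Exit G Λ A ω e ↔ e ∈ T} := by
      ext ω; simp [hET]
    rw [this]
    refine N.measurableSet_biInter fun e _ => ?_
    by_cases h : e ∈ T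
    · have h1 : {ω : Set (Sym2 V) | Exit G Λ A ω e ↔ e ∈ T} = {ω | Exit G Λ A ω e} := by
        ext ω; simp [h]
      rw [h1]
      exact measurableSet_exit G Λ A e
    · have h1 : {ω : Set (Sym2 V) | Exit G Λ A ω e ↔ e ∈ T} = {ω | Exit G Λ A ω e}ᶜ := by
        ext ω; simp [h]
      rw [h1]
      exact (measurableSet_exit G Λ A e).compl
  set CT : Finset (V × V) → Set (Set (Sym2 V)) :=
    fun T => F ∩ (ET T ∩ {ω | ∀ e ∈ T, s(e.1, e.2) ∉ ω}) with hCT
  have hclm : ∀ T : Finset (V × V), MeasurableSet {ω : Set (Sym2 V) | ∀ e ∈ T, s(e.1, e.2) ∉ ω} := by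
    intro T
    have : {ω : Set (Sym2 V) | ∀ e ∈ T, s(e.1, e.2) ∉ ω} = ⋂ e ∈ T, {ω | s(e.1, e.2) ∈ ω}ᶜ := by
      ext ω; simp
    rw [this]
    refine T.measurableSet_biInter fun e _ => ?_
    exact ((Inf.FinWit.mem (s(e.1, e.2))).measurableSet).compl
  have hCTm : ∀ T, MeasurableSet (CT T) := fun T => hF.inter ((hETm T).inter (hclm T))
  set 𝒯 := N.powerset.filter (fun T => T.card ≤ m) with h𝒯
  -- key estimate
  have hkey : ∀ T ∈ 𝒯, (1 - (p : ℝ)) ^ m * μ.real (F ∩ ET T) ≤ μ.real (CT T) := by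
    intro T hT
    obtain ⟨hTN, hTm⟩ := Finset.mem_filter.1 hT
    have hTN' := Finset.mem_powerset.1 hTN
    set Te : Finset (Sym2 V) := T.image (fun e => s(e.1, e.2)) with hTe
    have hTe1 : (↑Te : Set (Sym2 V)) ⊆ G.edgeSet := by
      intro e he
      obtain ⟨e', he', rfl⟩ := Finset.mem_image.1 (Finset.mem_coe.1 he)
      exact (hN e' (hTN' he')).1
    have hTec : Te.card ≤ m := Finset.card_image_le.trans hTm
    have hagree : ∀ ω : Set (Sym2 V), ∀ x y, x ∈ Λ → y ∈ Λ →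
        (s(x, y) ∈ ω ↔ s(x, y) ∈ ω \ (↑Te : Set (Sym2 V))) := by
      intro ω x y hx hy
      constructor
      · intro h
        refine ⟨h, fun h' => ?_⟩
        obtain ⟨e', he', h1⟩ := Finset.mem_image.1 (Finset.mem_coe.1 h')
        have h2 := (hN e' (hTN' he')).2
        rcases Sym2.eq_iff.1 h1 with ⟨_, h3⟩ | ⟨_, h3⟩
        · exact h2 (h3 ▸ hy)
        · exact h2 (h3 ▸ hx)
      · exact fun h => h.1
    have h1 : μ.real (F ∩ ET T) ≤ μ.real {ω | ω \ (↑Te : Set (Sym2 V)) ∈ CT T} := by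
      refine measureReal_mono ?_ (measure_ne_top _ _)
      rintro ω ⟨hωF, hωE⟩
      refine ⟨hFi ω _ (hagree ω) hωF, ?_, ?_⟩
      · intro e he
        rw [← hωE e he]
        unfold Exit
        rw [← CIn.congr (hagree ω)]
      · intro e he h
        exact h.2 (Finset.mem_coe.2 (Finset.mem_image_of_mem (fun e : V × V => s(e.1, e.2)) he))
    calc (1 - (p : ℝ)) ^ m * μ.real (F ∩ ET T)
        ≤ (1 - (p : ℝ)) ^ Te.card * μ.real {ω | ω \ (↑Te : Set (Sym2 V)) ∈ CT T} := by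
          apply mul_le_mul (pow_le_pow_of_le_one hp0 hp1 hTec) h1 measureReal_nonneg
            (pow_nonneg hp0 _)
      _ ≤ μ.real (CT T) := sdiff_finset_le G.edgeSet p Te hTe1 (hCTm T)
  -- cover
  have hcover : F ∩ {ω | ¬ Many G Λ A (↑N : Set (V × V)) m ω} ⊆ ⋃ T ∈ 𝒯, F ∩ ET T := by
    rintro ω ⟨hωF, hωM⟩
    simp only [Set.mem_iUnion]
    set T := N.filter (fun e => Exit G Λ A ω e) with hT
    refine ⟨T, ?_, hωF, ?_⟩
    · rw [h𝒯, Finset.mem_filter, Finset.mem_powerset]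
      refine ⟨Finset.filter_subset _ _, ?_⟩
      by_contra hcon
      push Not at hcon
      exact hωM ⟨T, hcon, fun e he => ⟨Finset.mem_coe.2 (Finset.mem_filter.1 he).1,
        (Finset.mem_filter.1 he).2⟩⟩
    · intro e he
      rw [hT, Finset.mem_filter]
      exact ⟨fun h => ⟨he, h⟩, fun h => h.2⟩
  have hdisj : Set.PairwiseDisjoint (↑𝒯 : Set (Finset (V × V))) CT := by
    intro T hT T' hT' hne
    rw [Function.onFun, Set.disjoint_left]
    rintro ω hω hω'
    apply hne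
    have h1 := Finset.mem_powerset.1 (Finset.mem_filter.1 (Finset.mem_coe.1 hT)).1
    have h2 := Finset.mem_powerset.1 (Finset.mem_filter.1 (Finset.mem_coe.1 hT')).1
    ext e
    constructor
    · intro he
      exact (hω'.2.1 e (h1 he)).1 ((hω.2.1 e (h1 he)).2 he)
    · intro he
      exact (hω.2.1 e (h2 he)).1 ((hω'.2.1 e (h2 he)).2 he)
  have hsub : (⋃ T ∈ 𝒯, CT T) ⊆ F ∩ {ω | ∀ e ∈ N, Exit G Λ A ω e → s(e.1, e.2) ∉ ω} := by
    intro ω hω
    simp only [Set.mem_iUnion] at hω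
    obtain ⟨T, _, h1, h2, h3⟩ := hω
    exact ⟨h1, fun e he h => h3 e ((h2 e he).1 h)⟩
  calc (1 - (p : ℝ)) ^ m * μ.real (F ∩ {ω | ¬ Many G Λ A (↑N : Set (V × V)) m ω})
      ≤ (1 - (p : ℝ)) ^ m * ∑ T ∈ 𝒯, μ.real (F ∩ ET T) := by
        refine mul_le_mul_of_nonneg_left ?_ (pow_nonneg hp0 _)
        exact (measureReal_mono hcover (measure_ne_top _ _)).trans
          (measureReal_biUnion_finset_le _ _)
    _ = ∑ T ∈ 𝒯, (1 - (p : ℝ)) ^ m * μ.real (F ∩ ET T) := by rw [Finset.mul_sum]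
    _ ≤ ∑ T ∈ 𝒯, μ.real (CT T) := Finset.sum_le_sum hkey
    _ = μ.real (⋃ T ∈ 𝒯, CT T) := by
        rw [measureReal_biUnion_finset hdisj (fun T _ => hCTm T)]
    _ ≤ _ := measureReal_mono hsub (measure_ne_top _ _)

/-! ### deterministic facts about paths -/

/-- a long path from `A` produces a long path inside `Λ` -/
theorem exists_cIn_far (hloc : ∀ v : V, (G.neighborSet v).Finite) {n : ℕ} {A : Finset V}
    {Λ : Set V} (hΛ : (↑(th hloc (n + 1) A) : Set V) ⊆ Λ) {ω : Set (Sym2 V)} {a y : V}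
    (ha : a ∈ A) (h : (openSubgraph G ω).Reachable a y) (hy : y ∉ th hloc n A) :
    ∃ y', y' ∉ th hloc n A ∧ CIn G Λ A ω y' := by
  rw [SimpleGraph.reachable_iff_reflTransGen] at h
  have key : ∀ z, Relation.ReflTransGen (openSubgraph G ω).Adj a z →
      (z ∈ th hloc n A ∧ CIn G Λ A ω z) ∨ ∃ y', y' ∉ th hloc n A ∧ CIn G Λ A ω y' := by
    intro z hz
    induction hz with
    | refl =>
      left
      exact ⟨subset_th hloc n A ha, CIn.of_mem ha (hΛ (subset_th hloc (n + 1) A ha))⟩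
    | @tail b c _ hbc ih =>
      rcases ih with ⟨hb1, hb2⟩ | h1
      · rw [Inf.openSubgraph_adj] at hbc
        have hc : c ∈ th hloc (n + 1) A := by
          rw [th_succ, mem_nbh]
          exact Or.inr ⟨b, hb1, hbc.2⟩
        have hcI : CIn G Λ A ω c := hb2.step (hΛ hc) hbc.2 hbc.1
        by_cases hc' : c ∈ th hloc n A
        · exact Or.inl ⟨hc', hcI⟩
        · exact Or.inr ⟨c, hc', hcI⟩
      · exact Or.inr h1
  rcases key y h with h1 | h1
  · exact absurd h1.1 hy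
  · exact h1

/-- a path from `A` to a vertex outside `Λ`, inside `D`: there is an open exit edge inside `D` -/
theorem exists_open_exit {Λ D : Set V} {A : Finset V} (hA : (↑A : Set V) ⊆ Λ)
    {ω : Set (Sym2 V)} {b : V} (hb : b ∉ Λ) (h : CIn G D A ω b) :
    ∃ e : V × V, e.1 ∈ D ∧ e.2 ∈ D ∧ Exit G Λ A ω e ∧ s(e.1, e.2) ∈ ω := by
  obtain ⟨a, ha, _, hr⟩ := h
  rw [SimpleGraph.reachable_iff_reflTransGen] at hr
  have key : ∀ z, Relation.ReflTransGen (openSubgraph (ins G D) ω).Adj a z → (CIn G Λ A ω z ∨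
      ∃ e : V × V, e.1 ∈ D ∧ e.2 ∈ D ∧ Exit G Λ A ω e ∧ s(e.1, e.2) ∈ ω) := by
    intro z hz
    induction hz with
    | refl => exact Or.inl (CIn.of_mem ha (hA ha))
    | @tail x y _ hxy ih =>
      rcases ih with h1 | h1
      · rw [Inf.openSubgraph_adj] at hxy
        obtain ⟨ho, hadj, hx, hy⟩ := hxy
        by_cases hyΛ : y ∈ Λ
        · exact Or.inl (h1.step hyΛ hadj ho)
        · exact Or.inr ⟨(x, y), hx, hy, ⟨hyΛ, hadj, h1⟩, ho⟩
      · exact Or.inr h1
  rcases key b hr with h1 | h1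
  · exact absurd h1.mem hb
  · exact h1

/-- a connection takes place in a finite neighbourhood -/
theorem cIn_th_of_reachable (hloc : ∀ v : V, (G.neighborSet v).Finite) {A : Finset V}
    {ω : Set (Sym2 V)} {a b : V} (ha : a ∈ A) (h : (openSubgraph G ω).Reachable a b) :
    ∃ l, CIn G (↑(th hloc l A) : Set V) A ω b := by
  rw [SimpleGraph.reachable_iff_reflTransGen] at h
  induction h with
  | refl => exact ⟨0, CIn.of_mem ha (Finset.mem_coe.2 (subset_th hloc 0 A ha))⟩
  | @tail x y _ hxy ih =>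
    obtain ⟨l, hl⟩ := ih
    rw [Inf.openSubgraph_adj] at hxy
    refine ⟨l + 1, ?_⟩
    have hx : x ∈ th hloc l A := Finset.mem_coe.1 hl.mem
    have hy : y ∈ th hloc (l + 1) A := by
      rw [th_succ, mem_nbh]
      exact Or.inr ⟨x, hx, hxy.2⟩
    exact (hl.mono (Finset.coe_subset.2 (th_le_succ hloc l A)) (Finset.Subset.refl _)
      Set.Subset.rfl).step (Finset.mem_coe.2 hy) hxy.2 hxy.1

/-! ### limits -/

theorem measurableSet_inf (G : SimpleGraph V) [Countable V] (A : Finset V) :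
    MeasurableSet {ω : Set (Sym2 V) | ∃ a ∈ A, Inf.InfAt G ω a} := Sp.measurableSet_ballInf G A

theorem finWit_far (hloc : ∀ v : V, (G.neighborSet v).Finite) (A : Finset V) (n : ℕ) :
    Inf.FinWit (fun ω : Set (Sym2 V) => ∃ a, a ∈ A ∧ ∃ y, y ∉ th hloc n A ∧
      (openSubgraph G ω).Reachable a y) := by
  apply Inf.FinWit.exists
  intro a
  refine (Inf.FinWit.const _).and ?_
  apply Inf.FinWit.exists
  intro y
  exact (Inf.FinWit.const _).and (Inf.finWit_reachable G a y)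

/-- `A` reaches far but not infinity: small probability -/
theorem exists_far [Countable V] (hloc : ∀ v : V, (G.neighborSet v).Finite) (p : I)
    (A : Finset V) {δ : ℝ} (hδ : 0 < δ) :
    ∃ n : ℕ, (setBernoulli G.edgeSet p).real
      ({ω : Set (Sym2 V) | ∃ a, a ∈ A ∧ ∃ y, y ∉ th hloc n A ∧
        (openSubgraph G ω).Reachable a y} \ {ω | ∃ a ∈ A, Inf.InfAt G ω a}) ≤ δ := by
  set μ := setBernoulli G.edgeSet p with hμ
  set Fn : ℕ → Set (Set (Sym2 V)) := fun n => {ω : Set (Sym2 V) | ∃ a, a ∈ A ∧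
    ∃ y, y ∉ th hloc n A ∧ (openSubgraph G ω).Reachable a y} with hFn
  set E1 : Set (Set (Sym2 V)) := {ω | ∃ a ∈ A, Inf.InfAt G ω a} with hE1
  have hanti : Antitone (fun n => Fn n \ E1) := by
    intro n m hnm ω hω
    obtain ⟨⟨a, ha, y, hy, hr⟩, h2⟩ := hω
    exact ⟨⟨a, ha, y, fun h => hy (th_mono_n hloc hnm A h), hr⟩, h2⟩
  have hempty : ⋂ n, (Fn n \ E1) = ∅ := by
    ext ω
    simp only [Set.mem_iInter, Set.mem_empty_iff_false, iff_false]
    intro h
    have hE : ω ∉ E1 := (h 0).2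
    have hfin : ∀ a ∈ A, {y | (openSubgraph G ω).Reachable a y}.Finite := by
      intro a ha
      by_contra hcon
      exact hE ⟨a, ha, hcon⟩
    have hfin' : (⋃ a ∈ A, {y | (openSubgraph G ω).Reachable a y}).Finite :=
      A.finite_toSet.biUnion hfin
    have hlen : ∀ y ∈ (⋃ a ∈ A, {y | (openSubgraph G ω).Reachable a y}),
        ∃ l, y ∈ th hloc l A := by
      intro y hy
      simp only [Set.mem_iUnion] at hy
      obtain ⟨a, ha, hr⟩ := hy
      obtain ⟨l, hl⟩ := cIn_th_of_reachable hloc ha hr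
      exact ⟨l, Finset.mem_coe.1 hl.mem⟩
    choose! L hL using hlen
    obtain ⟨a, ha, y, hy, hr⟩ := (h (hfin'.toFinset.sup L)).1
    apply hy
    have hy' : y ∈ (⋃ a ∈ A, {y | (openSubgraph G ω).Reachable a y}) := by
      simp only [Set.mem_iUnion]
      exact ⟨a, ha, hr⟩
    exact th_mono_n hloc (Finset.le_sup (f := L) (hfin'.mem_toFinset.2 hy')) A (hL y hy')
  have hm : ∀ n, MeasurableSet (Fn n \ E1) := fun n =>
    (finWit_far hloc A n).measurableSet.diff (measurableSet_inf G A)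
  have hlim : Tendsto (fun n => μ.real (Fn n \ E1)) atTop (𝓝 0) := by
    have h1 : Tendsto (fun n => μ (Fn n \ E1)) atTop (𝓝 (μ (⋂ n, (Fn n \ E1)))) :=
      tendsto_measure_iInter_atTop (fun n => (hm n).nullMeasurableSet) hanti
        ⟨0, measure_ne_top _ _⟩
    rw [hempty, measure_empty] at h1
    have h2 := (ENNReal.tendsto_toReal ENNReal.zero_ne_top).comp h1
    rw [ENNReal.toReal_zero] at h2
    exact h2
  exact ((hlim.eventually (gt_mem_nhds hδ)).exists).imp fun n hn => hn.le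

theorem finWit_link (hloc : ∀ v : V, (G.neighborSet v).Finite) (A B : Finset V) (l : ℕ) :
    Inf.FinWit (fun ω : Set (Sym2 V) => ∃ b, b ∈ B ∧ CIn G (↑(th hloc l A) : Set V) A ω b) := by
  apply Inf.FinWit.exists
  intro b
  exact (Inf.FinWit.const _).and (finWit_cIn G _ A b)

/-- `A` is joined to `B` but not inside a large ball: small probability -/
theorem exists_link [Countable V] (hloc : ∀ v : V, (G.neighborSet v).Finite) (p : I)
    (A B : Finset V) {δ : ℝ} (hδ : 0 < δ) :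
    ∃ l : ℕ, (setBernoulli G.edgeSet p).real
      ({ω : Set (Sym2 V) | ∃ a ∈ A, ∃ b ∈ B, (openSubgraph G ω).Reachable a b} \
        {ω | ∃ b, b ∈ B ∧ CIn G (↑(th hloc l A) : Set V) A ω b}) ≤ δ := by
  set μ := setBernoulli G.edgeSet p with hμ
  set El : ℕ → Set (Set (Sym2 V)) := fun l => {ω | ∃ b, b ∈ B ∧
    CIn G (↑(th hloc l A) : Set V) A ω b} with hEl
  set AB : Set (Set (Sym2 V)) := {ω : Set (Sym2 V) | ∃ a ∈ A, ∃ b ∈ B,
    (openSubgraph G ω).Reachable a b} with hAB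
  have hABm : MeasurableSet AB := by
    have : Inf.FinWit (fun ω : Set (Sym2 V) => ∃ a, a ∈ A ∧ ∃ b, b ∈ B ∧
        (openSubgraph G ω).Reachable a b) := by
      apply Inf.FinWit.exists
      intro a
      refine (Inf.FinWit.const _).and ?_
      apply Inf.FinWit.exists
      intro b
      exact (Inf.FinWit.const _).and (Inf.finWit_reachable G a b)
    exact this.measurableSet
  have hElm : ∀ l, MeasurableSet (El l) := fun l => (finWit_link hloc A B l).measurableSet
  have hanti : Antitone (fun l => AB \ El l) := by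
    intro n m hnm ω hω
    refine ⟨hω.1, ?_⟩
    rintro ⟨b, hb, h⟩
    exact hω.2 ⟨b, hb, h.mono (Finset.coe_subset.2 (th_mono_n hloc hnm A))
      (Finset.Subset.refl _) Set.Subset.rfl⟩
  have hempty : ⋂ l, (AB \ El l) = ∅ := by
    ext ω
    simp only [Set.mem_iInter, Set.mem_empty_iff_false, iff_false]
    intro h
    obtain ⟨a, ha, b, hb, hr⟩ := (h 0).1
    obtain ⟨l, hl⟩ := cIn_th_of_reachable hloc ha hr
    exact (h l).2 ⟨b, hb, hl⟩
  have hlim : Tendsto (fun l => μ.real (AB \ El l)) atTop (𝓝 0) := by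
    have h1 : Tendsto (fun l => μ (AB \ El l)) atTop (𝓝 (μ (⋂ l, (AB \ El l)))) :=
      tendsto_measure_iInter_atTop (fun l => (hABm.diff (hElm l)).nullMeasurableSet) hanti
        ⟨0, measure_ne_top _ _⟩
    rw [hempty, measure_empty] at h1
    have h2 := (ENNReal.tendsto_toReal ENNReal.zero_ne_top).comp h1
    rw [ENNReal.toReal_zero] at h2
    exact h2
  exact ((hlim.eventually (gt_mem_nhds hδ)).exists).imp fun n hn => hn.le

/-! ### the exit lemma -/

/-- **uniform exit lemma**: `A` finite, `m`, `δ` given. There are `n` and `β > 0` such that for every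
finite `B` which meets an infinite cluster with probability `≥ 1 - β` there is `l` such that every
`Λ` which contains the `n`-neighbourhood of `A` and is disjoint from `B` has: the cluster of `A`
inside `Λ` has more than `m` exits within distance `l`, with probability `≥ 1 - η(A) - δ`. -/
theorem exit_lemma [Countable V] (hloc : ∀ v : V, (G.neighborSet v).Finite) (p : I)
    (hp1 : (p : ℝ) < 1)
    (hnull : ∀ x y, (setBernoulli G.edgeSet p).real {ω | Two G x y ω} = 0)
    (A : Finset V) (m : ℕ) {δ : ℝ} (hδ : 0 < δ) :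
    ∃ n : ℕ, ∃ β : ℝ, 0 < β ∧ ∀ B : Finset V, eta G p B ≤ β → ∃ l : ℕ, ∀ Λ : Set V,
      (↑(th hloc n A) : Set V) ⊆ Λ → (∀ b ∈ B, b ∉ Λ) →
      fw G p Λ A {e | e.1 ∈ th hloc l A ∧ e.2 ∈ th hloc l A} m ≤ eta G p A + δ := by
  set μ := setBernoulli G.edgeSet p with hμ
  have hq : 0 < 1 - (p : ℝ) := by linarith
  have hqm : 0 < (1 - (p : ℝ)) ^ m := pow_pos hq m
  set δ' : ℝ := (1 - (p : ℝ)) ^ m * δ / 3 with hδ'
  have hδ'0 : 0 < δ' := by positivity
  obtain ⟨n, hn⟩ := exists_far (G := G) hloc p A hδ'0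
  refine ⟨n + 1, δ', hδ'0, ?_⟩
  intro B hB
  obtain ⟨l, hl⟩ := exists_link (G := G) hloc p A B hδ'0
  refine ⟨l, ?_⟩
  intro Λ hΛ hBΛ
  set E1 : Set (Set (Sym2 V)) := {ω | ∃ a ∈ A, Inf.InfAt G ω a} with hE1
  set E2 : Set (Set (Sym2 V)) := {ω | ∃ b ∈ B, Inf.InfAt G ω b} with hE2
  set Fn : Set (Set (Sym2 V)) := {ω : Set (Sym2 V) | ∃ a, a ∈ A ∧
    ∃ y, y ∉ th hloc n A ∧ (openSubgraph G ω).Reachable a y} with hFn
  set AB : Set (Set (Sym2 V)) := {ω : Set (Sym2 V) | ∃ a ∈ A, ∃ b ∈ B,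
    (openSubgraph G ω).Reachable a b} with hAB
  set El : Set (Set (Sym2 V)) := {ω | ∃ b, b ∈ B ∧ CIn G (↑(th hloc l A) : Set V) A ω b} with hEl
  set F : Set (Set (Sym2 V)) := {ω | ∃ y, y ∉ th hloc n A ∧ CIn G Λ A ω y} with hF
  have hFm : MeasurableSet F := by
    have : Inf.FinWit (fun ω : Set (Sym2 V) => ∃ y, y ∉ th hloc n A ∧ CIn G Λ A ω y) := by
      apply Inf.FinWit.exists
      intro y
      exact (Inf.FinWit.const _).and (finWit_cIn G Λ A y)
    exact this.measurableSet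
  set N : Finset (V × V) := ((th hloc l A) ×ˢ (th hloc l A)).filter
    (fun e => G.Adj e.1 e.2 ∧ e.2 ∉ Λ) with hN
  have hAΛ : (↑A : Set V) ⊆ Λ := fun a ha => hΛ (subset_th hloc (n + 1) A ha)
  -- the class
  have hcls : fw G p Λ A {e | e.1 ∈ th hloc l A ∧ e.2 ∈ th hloc l A} m =
      fw G p Λ A (↑N : Set (V × V)) m := by
    apply fw_congr_class
    intro e _ h2 h3
    rw [hN, Finset.mem_coe, Finset.mem_filter, Finset.mem_product]
    exact ⟨fun h => ⟨h, h3, h2⟩, fun h => h.1⟩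
  rw [hcls]
  -- closing
  have hclose := close_exits (G := G) p Λ A N
    (fun e he => (Finset.mem_filter.1 he).2) m hFm (by
      intro ω ω' h hω
      obtain ⟨y, hy, hc⟩ := hω
      exact ⟨y, hy, (CIn.congr h).1 hc⟩)
  -- the remaining event
  have hrem : F ∩ {ω | ∀ e ∈ N, Exit G Λ A ω e → s(e.1, e.2) ∉ ω} ⊆
      (Fn \ E1) ∪ ((E2ᶜ) ∪ ((⋃ a ∈ A, ⋃ b ∈ B, {ω | Two G a b ω}) ∪ (AB \ El))) := by
    rintro ω ⟨⟨y, hy, hc⟩, hω⟩
    by_cases h1 : ω ∈ E1
    · right
      by_cases h2 : ω ∈ E2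
      · right
        by_cases h3 : ω ∈ AB
        · right
          refine ⟨h3, ?_⟩
          rintro ⟨b, hb, hcb⟩
          obtain ⟨e, he1, he2, he3, he4⟩ := exists_open_exit hAΛ (hBΛ b hb) hcb
          refine hω e ?_ he3 he4
          rw [hN, Finset.mem_filter, Finset.mem_product]
          exact ⟨⟨Finset.mem_coe.1 he1, Finset.mem_coe.1 he2⟩, he3.2.1, he3.1⟩
        · left
          obtain ⟨a, ha, hia⟩ := h1
          obtain ⟨b, hb, hib⟩ := h2
          simp only [Set.mem_iUnion]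
          exact ⟨a, ha, b, hb, hia, hib, fun h => h3 ⟨a, ha, b, hb, h⟩⟩
      · left
        exact h2
    · left
      obtain ⟨a, ha, hr⟩ := hc.reachable
      exact ⟨⟨a, ha, y, hy, hr⟩, h1⟩
  have htwo : μ.real (⋃ a ∈ A, ⋃ b ∈ B, {ω | Two G a b ω}) = 0 := by
    apply le_antisymm _ measureReal_nonneg
    refine (measureReal_biUnion_finset_le _ _).trans ?_
    apply Finset.sum_nonpos
    intro a _
    refine (measureReal_biUnion_finset_le _ _).trans ?_
    apply Finset.sum_nonpos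
    intro b _
    exact (hnull a b).le
  have hE2c : μ.real (E2ᶜ) ≤ δ' := hB
  have hsum : μ.real (F ∩ {ω | ∀ e ∈ N, Exit G Λ A ω e → s(e.1, e.2) ∉ ω}) ≤
      (1 - (p : ℝ)) ^ m * δ := by
    calc _ ≤ μ.real ((Fn \ E1) ∪ ((E2ᶜ) ∪ ((⋃ a ∈ A, ⋃ b ∈ B, {ω | Two G a b ω}) ∪
            (AB \ El)))) := measureReal_mono hrem (measure_ne_top _ _)
      _ ≤ μ.real (Fn \ E1) + (μ.real (E2ᶜ) + (μ.real (⋃ a ∈ A, ⋃ b ∈ B, {ω | Two G a b ω}) +
            μ.real (AB \ El))) := by
          refine (measureReal_union_le _ _).trans ?_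
          gcongr
          refine (measureReal_union_le _ _).trans ?_
          gcongr
          exact measureReal_union_le _ _
      _ ≤ δ' + (δ' + (0 + δ')) := by
          rw [htwo]
          gcongr
      _ = (1 - (p : ℝ)) ^ m * δ := by rw [hδ']; ring
  have h5 : μ.real (F ∩ {ω | ¬ Many G Λ A (↑N : Set (V × V)) m ω}) ≤ δ :=
    le_of_mul_le_mul_left (hclose.trans hsum) hqm
  have h6 : μ.real (Fᶜ) ≤ eta G p A := by
    refine measureReal_mono ?_ (measure_ne_top _ _)
    intro ω hω h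
    obtain ⟨a, ha, hinf⟩ := h
    rw [Inf.infAt_iff_finset] at hinf
    obtain ⟨y, hy, hr⟩ := hinf (th hloc n A)
    obtain ⟨y', hy', hc⟩ := exists_cIn_far hloc hΛ ha hr hy
    exact hω ⟨y', hy', hc⟩
  calc fw G p Λ A (↑N : Set (V × V)) m
      ≤ μ.real (Fᶜ ∪ (F ∩ {ω | ¬ Many G Λ A (↑N : Set (V × V)) m ω})) := by
        refine measureReal_mono ?_ (measure_ne_top _ _)
        intro ω hω
        by_cases h : ω ∈ F
        · exact Or.inr ⟨h, hω⟩
        · exact Or.inl h
    _ ≤ μ.real (Fᶜ) + μ.real (F ∩ {ω | ¬ Many G Λ A (↑N : Set (V × V)) m ω}) :=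
        measureReal_union_le _ _
    _ ≤ eta G p A + δ := add_le_add h6 h5

end Crest.Agent.R147.Ex
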