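import Crest.Agent.R147.KN.Basic

/-!
# The fixed screen lemma

A family of screens `i ∈ I`; `T i S` is the (finite) set of blocks of screen `i` touched by the
cluster explored inside the domain below screen `i`.  Closing the touched blocks traps the cluster,
these events are disjoint for different screens, and closing fewer than `M` blocks costs at most
`(1 - pm)^(L M)`.  Hence `∑ i ∈ I, P (1 ≤ #T i < M) ≤ (1 - pm)^(-L M)`.
-/

set_option autoImplicit false
set_option linter.unusedSectionVars false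

open Finset

namespace Crest.Agent.R147.Fs

open Crest.Agent.R147.KN Crest.Agent.R147.KN.HG

variable {V E B ι : Type*} [DecidableEq V] [DecidableEq E]

open Classical in
/-- Probability that all edges of `U` are closed. -/
theorem pow_le_ex_closed (G : HG V E) (A U : Finset E) {c : ℝ} (hc0 : 0 ≤ c) (hc1 : c ≤ 1)
    (hc : ∀ e ∈ U, c ≤ 1 - G.p e) {n : ℕ} (hn : U.card ≤ n) :
    c ^ n ≤ G.ex A (fun S => if Disjoint U S then 1 else 0) := by
  have h1 : G.ex A (fun S => if Disjoint U S then 1 else 0) =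
      G.ex (A ∩ U) (fun S' : Finset E => if S' = ∅ then (1 : ℝ) else 0) := by
    rw [← G.ex_sub_config (A := A) (B := A ∩ U) Finset.inter_subset_left]
    refine G.ex_congr fun S hS => ?_
    have : Disjoint U S ↔ S ∩ (A ∩ U) = ∅ := by
      rw [Finset.disjoint_left, Finset.eq_empty_iff_forall_notMem]
      constructor
      · intro h x hx
        simp only [Finset.mem_inter] at hx
        exact h hx.2.2 hx.1
      · intro h x hxU hxS
        exact h x (by simp only [Finset.mem_inter]; exact ⟨hxS, hS hxS, hxU⟩)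
    simp only [this]
  rw [h1]
  have h2 : G.ex (A ∩ U) (fun S' : Finset E => if S' = ∅ then (1 : ℝ) else 0) =
      ∏ e ∈ A ∩ U, (1 - G.p e) := by
    unfold HG.ex
    rw [Finset.sum_eq_single ∅]
    · simp [HG.wt]
    · intro S _ hS
      simp [hS]
    · intro h
      exact absurd (Finset.empty_mem_powerset _) h
  rw [h2]
  calc c ^ n ≤ c ^ (A ∩ U).card :=
        pow_le_pow_of_le_one hc0 hc1 ((Finset.card_le_card Finset.inter_subset_right).trans hn)
    _ = ∏ _e ∈ A ∩ U, c := by rw [Finset.prod_const]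
    _ ≤ ∏ e ∈ A ∩ U, (1 - G.p e) :=
        Finset.prod_le_prod (fun _ _ => hc0) fun e he => hc e (Finset.mem_inter.mp he).2

open Classical in
/-- Cost of closing the touched blocks. -/
theorem close_cost (G : HG V E) {Om Ein : Finset E} (hEin : Ein ⊆ Om) (T : Finset E → Finset B)
    (blk : B → Finset E) {L M : ℕ} {c : ℝ} (hc0 : 0 ≤ c) (hc1 : c ≤ 1)
    (hT : ∀ S, S ⊆ Om → T S = T (S ∩ Ein))
    (hblk : ∀ S, S ⊆ Om → ∀ b ∈ T S, (blk b).card ≤ L ∧ Disjoint (blk b) Ein ∧
      ∀ e ∈ blk b, c ≤ 1 - G.p e) :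
    c ^ (L * M) * G.ex Om (fun S => if 1 ≤ (T S).card ∧ (T S).card < M then 1 else 0) ≤
      G.ex Om (fun S => if (T S).Nonempty ∧ ∀ b ∈ T S, Disjoint (blk b) S then 1 else 0) := by
  have hOm : Om = Ein ∪ (Om \ Ein) := by rw [Finset.union_sdiff_of_subset hEin]
  have hd : Disjoint Ein (Om \ Ein) := Finset.disjoint_sdiff
  have hTu : ∀ S1, S1 ⊆ Ein → ∀ S2, S2 ⊆ Om \ Ein → T (S1 ∪ S2) = T S1 := by
    intro S1 h1 S2 h2
    rw [hT (S1 ∪ S2), hT S1 (h1.trans hEin)]
    · congr 1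
      ext x
      simp only [Finset.mem_inter, Finset.mem_union]
      constructor
      · rintro ⟨h3 | h3, h4⟩
        · exact ⟨h3, h4⟩
        · exact absurd h4 (Finset.mem_sdiff.1 (h2 h3)).2
      · rintro ⟨h3, h4⟩
        exact ⟨Or.inl h3, h4⟩
    · exact Finset.union_subset (h1.trans hEin) (h2.trans Finset.sdiff_subset)
  have e1 : G.ex Om (fun S => if 1 ≤ (T S).card ∧ (T S).card < M then (1 : ℝ) else 0) =
      G.ex Ein (fun S1 => if 1 ≤ (T S1).card ∧ (T S1).card < M then 1 else 0) := by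
    conv_lhs => rw [hOm]
    rw [G.ex_union hd]
    refine G.ex_congr fun S1 h1 => ?_
    rw [← G.ex_const (Om \ Ein) (if 1 ≤ (T S1).card ∧ (T S1).card < M then (1 : ℝ) else 0)]
    refine G.ex_congr fun S2 h2 => ?_
    rw [hTu S1 h1 S2 h2]
  have e2 : G.ex Om (fun S => if (T S).Nonempty ∧ ∀ b ∈ T S, Disjoint (blk b) S then (1 : ℝ)
      else 0) = G.ex Ein (fun S1 => G.ex (Om \ Ein) (fun S2 =>
        if (T S1).Nonempty ∧ ∀ b ∈ T S1, Disjoint (blk b) S2 then 1 else 0)) := by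
    conv_lhs => rw [hOm]
    rw [G.ex_union hd]
    refine G.ex_congr fun S1 h1 => G.ex_congr fun S2 h2 => ?_
    rw [hTu S1 h1 S2 h2]
    have : (∀ b ∈ T S1, Disjoint (blk b) (S1 ∪ S2)) ↔ ∀ b ∈ T S1, Disjoint (blk b) S2 := by
      constructor
      · intro h b hb
        exact Finset.disjoint_of_subset_right Finset.subset_union_right (h b hb)
      · intro h b hb
        rw [Finset.disjoint_union_right]
        exact ⟨Finset.disjoint_of_subset_right h1 (hblk S1 (h1.trans hEin) b hb).2.1, h b hb⟩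
    simp only [this]
  rw [e1, e2, ← G.ex_mul_left]
  refine G.ex_mono fun S1 h1 => ?_
  by_cases hS : 1 ≤ (T S1).card ∧ (T S1).card < M
  · rw [if_pos hS, mul_one]
    set U : Finset E := (T S1).biUnion blk with hU
    have hUcard : U.card ≤ L * M := by
      calc U.card ≤ ∑ b ∈ T S1, (blk b).card := Finset.card_biUnion_le
        _ ≤ ∑ _b ∈ T S1, L := Finset.sum_le_sum fun b hb => (hblk S1 (h1.trans hEin) b hb).1
        _ = (T S1).card * L := by rw [Finset.sum_const, smul_eq_mul]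
        _ ≤ M * L := Nat.mul_le_mul_right _ hS.2.le
        _ = L * M := Nat.mul_comm _ _
    have hUc : ∀ e ∈ U, c ≤ 1 - G.p e := by
      intro e he
      obtain ⟨b, hb, heb⟩ := Finset.mem_biUnion.mp he
      exact (hblk S1 (h1.trans hEin) b hb).2.2 e heb
    refine (pow_le_ex_closed G (Om \ Ein) U hc0 hc1 hUc hUcard).trans (G.ex_mono fun S2 h2 => ?_)
    by_cases h3 : Disjoint U S2
    · rw [if_pos h3, if_pos]
      refine ⟨Finset.card_pos.mp hS.1, fun b hb => ?_⟩
      exact Finset.disjoint_of_subset_left (Finset.subset_biUnion_of_mem blk hb) h3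
    · rw [if_neg h3]
      split_ifs <;> norm_num
  · rw [if_neg hS, mul_zero]
    refine G.ex_nonneg fun S2 _ => ?_
    split_ifs <;> norm_num

open Classical in
/-- **Fixed screen lemma**, abstract form. -/
theorem screens_sum (G : HG V E) {Om : Finset E} (I : Finset ι) (Ein : ι → Finset E)
    (hEin : ∀ i ∈ I, Ein i ⊆ Om) (T : ι → Finset E → Finset B)
    (blk : B → Finset E) {L M : ℕ} {c : ℝ} (hc0 : 0 < c) (hc1 : c ≤ 1)
    (hT : ∀ i ∈ I, ∀ S, S ⊆ Om → T i S = T i (S ∩ Ein i))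
    (hblk : ∀ i ∈ I, ∀ S, S ⊆ Om → ∀ b ∈ T i S, (blk b).card ≤ L ∧ Disjoint (blk b) (Ein i) ∧
      ∀ e ∈ blk b, c ≤ 1 - G.p e)
    (hdis : ∀ i ∈ I, ∀ j ∈ I, ∀ S, S ⊆ Om →
      ((T i S).Nonempty ∧ ∀ b ∈ T i S, Disjoint (blk b) S) →
      ((T j S).Nonempty ∧ ∀ b ∈ T j S, Disjoint (blk b) S) → i = j) :
    ∑ i ∈ I, G.ex Om (fun S => if 1 ≤ (T i S).card ∧ (T i S).card < M then 1 else 0) ≤
      (c ^ (L * M))⁻¹ := by
  have hcp : 0 < c ^ (L * M) := by positivity
  have h1 : c ^ (L * M) * ∑ i ∈ I, G.ex Om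
      (fun S => if 1 ≤ (T i S).card ∧ (T i S).card < M then 1 else 0) ≤ 1 := by
    rw [Finset.mul_sum]
    refine (Finset.sum_le_sum fun i hi => close_cost G (hEin i hi) (T i) blk hc0.le hc1 (hT i hi)
      (hblk i hi)).trans ?_
    rw [← G.ex_sum]
    refine G.ex_le_of_le fun S hS => ?_
    by_cases h : ∃ i ∈ I, (T i S).Nonempty ∧ ∀ b ∈ T i S, Disjoint (blk b) S
    · obtain ⟨i, hi, h2⟩ := h
      rw [Finset.sum_eq_single i]
      · rw [if_pos h2]
      · intro j hj hji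
        rw [if_neg]
        exact fun h3 => hji (hdis j hj i hi S hS h3 h2)
      · exact fun h3 => absurd hi h3
    · push Not at h
      rw [Finset.sum_eq_zero]
      · norm_num
      · intro i hi
        rw [if_neg]
        rintro ⟨h2, h3⟩
        obtain ⟨b, hb, h4⟩ := h i hi h2
        exact h4 (h3 b hb)
  rw [← one_div, le_div_iff₀ hcp, mul_comm]
  exact h1

/-- **Fixed screen lemma**, choice of a good screen for finitely many families. -/
theorem exists_screen {ι κ : Type*} (Rs : Finset κ) (I : Finset ι)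
    (hI : I.Nonempty) (f : κ → ι → ℝ) {C : ℝ}
    (hf0 : ∀ r ∈ Rs, ∀ i ∈ I, 0 ≤ f r i) (hf : ∀ r ∈ Rs, ∑ i ∈ I, f r i ≤ C) :
    ∃ i ∈ I, ∀ r ∈ Rs, f r i ≤ Rs.card * C / I.card := by
  have hIc : (0 : ℝ) < I.card := by exact_mod_cast Finset.card_pos.mpr hI
  have h1 : ∑ i ∈ I, ∑ r ∈ Rs, f r i ≤ ∑ _i ∈ I, (Rs.card * C / I.card : ℝ) := by
    rw [Finset.sum_comm]
    refine (Finset.sum_le_sum hf).trans ?_
    rw [Finset.sum_const, Finset.sum_const, nsmul_eq_mul, nsmul_eq_mul]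
    field_simp
    exact le_rfl
  obtain ⟨i, hi, h2⟩ := Finset.exists_le_of_sum_le hI h1
  refine ⟨i, hi, fun r hr => le_trans ?_ h2⟩
  exact Finset.single_le_sum (f := fun r => f r i) (fun r hr => hf0 r hr i hi) hr

open Classical in
/-- The blocks of screen `i` touched by the cluster of `A` inside the domain below screen `i`. -/
noncomputable def tou [Fintype V] (G : HG V E) (A : Finset V) (Ein : Finset E) (Y : Finset B)
    (nb : B → Finset V) (S : Finset E) : Finset B :=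
  Y.filter fun b => ¬ Disjoint (nb b) (G.cl (S ∩ Ein) A)

open Classical in
/-- **Fixed screen lemma**, geometric form.  `Ein i`: edges inside the domain `Dv i` (below screen
`i`), `Y i`: the blocks of screen `i`, `blk b`: the edges of the block `b`, `nb b`: the set of
vertices from which the block is touched. -/
theorem screens_geo [Fintype V] (G : HG V E) {Om : Finset E} (A : Finset V) (I : Finset ℕ)
    (Ein : ℕ → Finset E) (Dv : ℕ → Set V) (Y : ℕ → Finset B) (blk : B → Finset E)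
    (nb : B → Finset V) {L M : ℕ} {c : ℝ} (hc0 : 0 < c) (hc1 : c ≤ 1)
    (hEin : ∀ i ∈ I, Ein i ⊆ Om)
    (hA : ∀ i ∈ I, ∀ x ∈ A, x ∈ Dv i) (hD : ∀ i ∈ I, ∀ e ∈ Ein i, ∀ x ∈ G.inc e, x ∈ Dv i)
    (hexit : ∀ i ∈ I, ∀ e ∈ Om, e ∉ Ein i → ∀ x ∈ G.inc e, x ∈ Dv i →
      ∃ b ∈ Y i, x ∈ nb b ∧ e ∈ blk b)
    (hfar : ∀ i ∈ I, ∀ j ∈ I, i < j → ∀ b ∈ Y j, ∀ x ∈ nb b, x ∉ Dv i)
    (hblk : ∀ i ∈ I, ∀ b ∈ Y i, (blk b).card ≤ L ∧ Disjoint (blk b) (Ein i) ∧
      ∀ e ∈ blk b, c ≤ 1 - G.p e) :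
    ∑ i ∈ I, G.ex Om (fun S => if 1 ≤ (tou G A (Ein i) (Y i) nb S).card ∧
      (tou G A (Ein i) (Y i) nb S).card < M then 1 else 0) ≤ (c ^ (L * M))⁻¹ := by
  have hin : ∀ i ∈ I, ∀ S : Finset E, ∀ x ∈ G.cl (S ∩ Ein i) A, x ∈ Dv i := by
    intro i hi S x hx
    have h1 := (G.mem_cl).1 hx (Finset.univ.filter fun x => x ∈ Dv i)
      (fun y hy => Finset.mem_filter.mpr ⟨Finset.mem_univ _, hA i hi y hy⟩)
      (fun e he => Or.inl fun y hy => Finset.mem_filter.mpr ⟨Finset.mem_univ _,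
        hD i hi e (Finset.mem_inter.mp he).2 y hy⟩)
    exact (Finset.mem_filter.mp h1).2
  -- closing the touched blocks traps the cluster
  have htrap : ∀ i ∈ I, ∀ S, S ⊆ Om → (∀ b ∈ tou G A (Ein i) (Y i) nb S, Disjoint (blk b) S) →
      G.cl S A ⊆ G.cl (S ∩ Ein i) A := by
    intro i hi S hS hcl
    refine G.cl_subset (G.subset_cl _ A) fun e he => ?_
    by_cases heE : e ∈ Ein i
    · exact G.sat_cl (S ∩ Ein i) A e (Finset.mem_inter.mpr ⟨he, heE⟩)
    · right
      rw [Finset.disjoint_left]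
      intro x hx hxc
      obtain ⟨b, hb, hxb, heb⟩ := hexit i hi e (hS he) heE x hx (hin i hi S x hxc)
      have h1 : b ∈ tou G A (Ein i) (Y i) nb S :=
        Finset.mem_filter.mpr ⟨hb, Finset.not_disjoint_iff.mpr ⟨x, hxb, hxc⟩⟩
      exact (Finset.disjoint_left.mp (hcl b h1) heb) he
  -- so the events are disjoint
  have hlt : ∀ i ∈ I, ∀ j ∈ I, i < j → ∀ S, S ⊆ Om →
      (∀ b ∈ tou G A (Ein i) (Y i) nb S, Disjoint (blk b) S) →
      ¬ (tou G A (Ein j) (Y j) nb S).Nonempty := by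
    rintro i hi j hj hij S hS hcl ⟨b, hb⟩
    obtain ⟨hbY, hb2⟩ := Finset.mem_filter.mp hb
    obtain ⟨x, hxb, hxc⟩ := Finset.not_disjoint_iff.mp hb2
    have h1 : x ∈ G.cl S A :=
      G.cl_mono Finset.inter_subset_left (Finset.Subset.refl _) hxc
    exact hfar i hi j hj hij b hbY x hxb (hin i hi S x (htrap i hi S hS hcl h1))
  refine screens_sum G I Ein hEin (fun i => tou G A (Ein i) (Y i) nb) blk hc0 hc1 ?_ ?_ ?_
  · intro i hi S hS
    have : S ∩ Ein i ∩ Ein i = S ∩ Ein i := by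
      rw [Finset.inter_assoc, Finset.inter_self]
    simp only [tou, this]
  · intro i hi S hS b hb
    exact hblk i hi b (Finset.mem_filter.mp hb).1
  · intro i hi j hj S hS h1 h2
    rcases lt_trichotomy i j with h | h | h
    · exact absurd h2.1 (hlt i hi j hj h S hS h1.2)
    · exact h
    · exact absurd h1.1 (hlt j hj i hi h S hS h2.2)

end Crest.Agent.R147.Fs
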