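import Crest.Agent.R147.Mv475Def

/-!
# E4c of S0207: geometry and equivariance of the plan
-/

set_option autoImplicit false
set_option linter.unusedSectionVars false

open Finset MeasureTheory ProbabilityTheory unitInterval
open Crest.ProbabilityR.Percolation Crest.Agent.R147.KN Crest.Agent.R159
open Crest.Agent.R147.Cl Crest.Agent.R147.St Crest.Agent.R147.Lo

namespace Crest.Agent.R147.Mv

universe u
variable {V : Type u} {G : SimpleGraph V} {hloc : ∀ v : V, (G.neighborSet v).Finite}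
  {Z : Z2Data G} {o : V} {k : ℕ} {p : I} {blk : V → Finset (Sym2 V)} {L M : ℤ × ℤ → ℤ}
  {T b s y κ : ℝ} {ρ : ℕ} {Ein : Bool → V → Finset (Sym2 V)} {Tgt : Bool → V → Finset V}
  {n : ℕ} {δ : ℝ}

theorem len_le {m : ℕ} (hm : m ≤ 59) : Pl.len m ≤ 382 := by unfold Pl.len; omega

theorem mv_fst_le (y : ℝ) (i : Bool) : |(Pl.mv y i).1| ≤ 1 := by
  unfold Pl.mv; cases i <;> simp

theorem mv_snd_le {y : ℝ} (hy : |y| ≤ 1) (i : Bool) : |(Pl.mv y i).2| ≤ 1 := by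
  unfold Pl.mv; cases i
  · simp
  · simpa using hy

section

variable (hM : Mov hloc Z o k p blk L M T b s y κ ρ Ein Tgt n δ)

include hM

theorem Mov.Yadd (a a' : ℤ × ℤ) : Yr L T (a + a') = Yr L T a + Yr L T a' := by
  unfold Yr; rw [hM.Ladd]; push_cast; ring

theorem Mov.Xadd (a a' : ℤ × ℤ) : Xr L M b s (a + a') = Xr L M b s a + Xr L M b s a' := by
  unfold Xr; rw [hM.Ladd, hM.Madd]; push_cast; ring

theorem Mov.L_zero : L 0 = 0 := by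
  have := hM.Ladd 0 0
  rw [add_zero] at this
  linarith

theorem Mov.M_zero : M 0 = 0 := by
  have := hM.Madd 0 0
  rw [add_zero] at this
  linarith

theorem Mov.Y_zero : Yr L T 0 = 0 := by unfold Yr; rw [hM.L_zero]; simp

theorem Mov.X_zero : Xr L M b s 0 = 0 := by unfold Xr; rw [hM.L_zero, hM.M_zero]; simp

theorem Mov.Y_split (u v w : V) : Yr L T (Z.Φ u - Z.Φ w)
    = Yr L T (Z.Φ u - Z.Φ v) + Yr L T (Z.Φ v - Z.Φ w) := by
  rw [← hM.Yadd, sub_add_sub_cancel]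

theorem Mov.X_split (u v w : V) : Xr L M b s (Z.Φ u - Z.Φ w)
    = Xr L M b s (Z.Φ u - Z.Φ v) + Xr L M b s (Z.Φ v - Z.Φ w) := by
  rw [← hM.Xadd, sub_add_sub_cancel]

theorem Mov.L_split (u v w : V) : L (Z.Φ u - Z.Φ w)
    = L (Z.Φ u - Z.Φ v) + L (Z.Φ v - Z.Φ w) := by
  rw [← hM.Ladd, sub_add_sub_cancel]

/-- differences over graph distance at most `3k+3` are negligible -/
theorem Mov.thin {j : ℕ} (hj : j ≤ 3 * k + 3) {u v : V} (h : u ∈ th hloc j {v}) :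
    |Xr L M b s (Z.Φ u - Z.Φ v)| ≤ κ ∧ |Yr L T (Z.Φ u - Z.Φ v)| ≤ κ := by
  have h1 := Phi_th hloc Z h
  have h2 : Z.Φ u - Z.Φ v ∈ bx (Z.C * (3 * k + 3)) := by
    refine bx_mono ?_ h1
    have : (j : ℤ) ≤ 3 * k + 3 := by exact_mod_cast hj
    exact mul_le_mul_of_nonneg_left this (by positivity)
  exact ⟨hM.thickX _ h2, hM.thickY _ h2⟩

/-- positions of the plan -/
theorem Mov.pos_geo {x : V} (hx : x ∈ Orb Z o) (m : ℕ) : ∀ j c,
    c ∈ (by classical exact Pos Tgt (Pl.idx m) x j : Finset V) → c ∈ Orb Z o ∧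
    |Xr L M b s (Z.Φ c - Z.Φ x) - (Pl.pos y m j).1| ≤ j * κ ∧
    |Yr L T (Z.Φ c - Z.Φ x) - (Pl.pos y m j).2| ≤ j * κ ∧ c ∈ th hloc (j * ρ) {x} := by
  classical
  intro j
  induction j with
  | zero =>
    intro c hc
    have hc' : c = x := by
      have : c ∈ ({x} : Finset V) := by simpa [Pos] using hc
      exact Finset.mem_singleton.1 this
    subst hc'
    refine ⟨hx, ?_, ?_, ?_⟩
    · rw [sub_self, hM.X_zero, Pl.pos_zero]; simp
    · rw [sub_self, hM.Y_zero, Pl.pos_zero]; simp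
    · exact Lo.th_self hloc _ _
  | succ j ih =>
    intro c hc
    have hc' : ∃ c' ∈ (Pos Tgt (Pl.idx m) x j : Finset V), c ∈ Tgt (Pl.idx m j) c' := by
      simpa [Pos] using hc
    obtain ⟨c', hc', hcT⟩ := hc'
    obtain ⟨h1, h2, h3, h4⟩ := ih c' (by convert hc')
    have hX := hM.Tgt_X (Pl.idx m j) c' h1 c hcT
    have hY := hM.Tgt_Y (Pl.idx m j) c' h1 c hcT
    have hth := hM.Tgt_th (Pl.idx m j) c' h1 c hcT
    refine ⟨hM.Tgt_orb _ c' h1 c hcT, ?_, ?_, ?_⟩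
    · rw [hM.X_split c c' x, Pl.pos_succ, Prod.fst_add]
      push_cast
      rw [abs_le] at *
      constructor <;> linarith [hX.1, hX.2, h2.1, h2.2]
    · rw [hM.Y_split c c' x, Pl.pos_succ, Prod.snd_add]
      push_cast
      rw [abs_le] at *
      constructor <;> linarith [hY.1, hY.2, h3.1, h3.2]
    · have := Lo.th_trans hloc h4 hth
      rwa [← Nat.succ_mul] at this

omit hM in
theorem mem_OmP {x : V} {m : ℕ} {e : Sym2 V} : e ∈ OmP blk Ein Tgt x m ↔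
    ∃ j < Pl.len m, ∃ c ∈ (by classical exact Pos Tgt (Pl.idx m) x j : Finset V),
      e ∈ Ein (Pl.idx m j) c ∨ ∃ f ∈ Tgt (Pl.idx m j) c, e ∈ blk f := by
  classical
  unfold OmP Om
  rw [Finset.mem_biUnion]
  constructor
  · rintro ⟨j, hj, he⟩
    rw [Finset.mem_biUnion] at he
    obtain ⟨c, hc, he⟩ := he
    refine ⟨j, Finset.mem_range.1 hj, c, by convert hc, ?_⟩
    rcases Finset.mem_union.1 he with he | he
    · exact Or.inl he
    · exact Or.inr (Finset.mem_biUnion.1 he)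
  · rintro ⟨j, hj, c, hc, he⟩
    refine ⟨j, Finset.mem_range.2 hj, ?_⟩
    rw [Finset.mem_biUnion]
    refine ⟨c, by convert hc, ?_⟩
    rcases he with he | he
    · exact Finset.mem_union_left _ he
    · exact Finset.mem_union_right _ (Finset.mem_biUnion.2 he)

theorem Mov.OmP_edge {x : V} (hx : x ∈ Orb Z o) {m : ℕ} {e : Sym2 V}
    (he : e ∈ OmP blk Ein Tgt x m) : e ∈ G.edgeSet := by
  obtain ⟨j, _, c, hc, he⟩ := mem_OmP.1 he
  have hcO := (hM.pos_geo hx m j c hc).1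
  rcases he with he | ⟨f, _, he⟩
  · exact hM.Ein_edge _ c hcO e he
  · exact ((hM.mem_blk f e).1 he).1

omit hM in
/-- end points of an edge touching a ball -/
theorem end_th (hmb : ∀ x e, e ∈ blk x ↔ e ∈ G.edgeSet ∧ ∃ v ∈ e, v ∈ th hloc k {x})
    {f v : V} {e : Sym2 V} (he : e ∈ blk f) (hv : v ∈ e) : v ∈ th hloc (k + 1) {f} := by
  obtain ⟨h1, w, hw, hwf⟩ := (hmb f e).1 he
  by_cases hvw : v = w
  · rw [hvw]; exact th_mono_n hloc (Nat.le_succ k) _ hwf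
  · have : e = s(v, w) := ((Sym2.mem_and_mem_iff hvw).1 ⟨hv, hw⟩)
    rw [this, SimpleGraph.mem_edgeSet] at h1
    exact Lo.th_adj hloc hwf h1.symm

omit hM in
theorem end_adj {v w : V} {e : Sym2 V} (he : e ∈ G.edgeSet) (hv : v ∈ e) (hw : w ∈ e)
    (hvw : v ≠ w) : G.Adj v w ∧ e = s(v, w) := by
  have : e = s(v, w) := ((Sym2.mem_and_mem_iff hvw).1 ⟨hv, hw⟩)
  rw [this, SimpleGraph.mem_edgeSet] at he
  exact ⟨he, this⟩

/-- geometry of the edges of the plan -/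
theorem Mov.om_geo {x : V} (hx : x ∈ Orb Z o) {m : ℕ} (hm : m ≤ 59) {e : Sym2 V}
    (he : e ∈ OmP blk Ein Tgt x m) {v : V} (hv : v ∈ e) : ∃ j < Pl.len m,
    |Xr L M b s (Z.Φ v - Z.Φ x) - (Pl.pos y m j).1| ≤ 9 / 2 + 1 / 10 ∧
    |Yr L T (Z.Φ v - Z.Φ x) - (Pl.pos y m j).2| ≤ 3 / 2 + 1 / 10 ∧
    v ∈ th hloc (j * ρ + (ρ + (k + 1))) {x} := by
  obtain ⟨j, hj, c, hc, he⟩ := mem_OmP.1 he
  obtain ⟨h1, h2, h3, h4⟩ := hM.pos_geo hx m j c hc
  have hjκ : (j : ℝ) * κ ≤ 1 / 10 := by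
    have h5 : j ≤ 382 := hj.le.trans (len_le hm)
    have h6 : (j : ℝ) ≤ 382 := by exact_mod_cast h5
    have h7 := hM.κ_nonneg
    have h8 := hM.κ_le
    nlinarith
  have key : |Xr L M b s (Z.Φ v - Z.Φ c)| ≤ 9 / 2 ∧ |Yr L T (Z.Φ v - Z.Φ c)| ≤ 3 / 2 ∧
      v ∈ th hloc (ρ + (k + 1)) {c} := by
    rcases he with he | ⟨f, hf, he⟩
    · exact ⟨hM.Ein_X _ c h1 e he v hv, hM.Ein_Y _ c h1 e he v hv,
        th_mono_n hloc (by omega) _ (hM.Ein_th _ c h1 e he v hv)⟩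
    · have h5 := end_th hM.mem_blk he hv
      obtain ⟨h6, h7⟩ := hM.thin (by omega) h5
      have h8 := hM.Tgt_X _ c h1 f hf
      have h9 := hM.Tgt_Y _ c h1 f hf
      have h10 := mv_fst_le y (Pl.idx m j)
      have h11 := mv_snd_le hM.y_le (Pl.idx m j)
      have h12 := hM.κ_le
      refine ⟨?_, ?_, Lo.th_trans hloc (hM.Tgt_th _ c h1 f hf) h5⟩
      · rw [hM.X_split v f c]
        rw [abs_le] at *
        constructor <;> linarith [h6.1, h6.2, h8.1, h8.2, h10.1, h10.2]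
      · rw [hM.Y_split v f c]
        rw [abs_le] at *
        constructor <;> linarith [h7.1, h7.2, h9.1, h9.2, h11.1, h11.2]
  obtain ⟨k1, k2, k3⟩ := key
  refine ⟨j, hj, ?_, ?_, Lo.th_trans hloc h4 k3⟩
  · rw [hM.X_split v c x]
    rw [abs_le] at *
    constructor <;> linarith [k1.1, k1.2, h2.1, h2.2]
  · rw [hM.Y_split v c x]
    rw [abs_le] at *
    constructor <;> linarith [k2.1, k2.2, h3.1, h3.2]

theorem Mov.om_th {x : V} (hx : x ∈ Orb Z o) {m : ℕ} (hm : m ≤ 59) {e : Sym2 V}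
    (he : e ∈ OmP blk Ein Tgt x m) {v : V} (hv : v ∈ e) :
    v ∈ th hloc (390 * (ρ + k + 1)) {x} := by
  obtain ⟨j, hj, _, _, h⟩ := hM.om_geo hx hm he hv
  have h1 := len_le hm
  refine th_mono_n hloc ?_ _ h
  have : j * ρ ≤ 382 * ρ := Nat.mul_le_mul_right _ (by omega)
  omega

omit hM in
theorem mem_tub {x : V} {θ : ℤ} {m : ℕ} {e : Sym2 V} :
    e ∈ tub hloc Z o k L blk Ein Tgt x θ m ↔
      e ∈ OmP blk Ein Tgt x m ∧ ∀ v ∈ e, v ∈ Dn hloc Z o k L x θ := by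
  classical
  unfold tub
  rw [Finset.mem_filter]

omit hM in
theorem tub_subset (x : V) (θ : ℤ) (m : ℕ) :
    tub hloc Z o k L blk Ein Tgt x θ m ⊆ OmP blk Ein Tgt x m := fun _ he => (mem_tub.1 he).1

theorem Mov.tub_edge {x : V} (hx : x ∈ Orb Z o) {θ : ℤ} {m : ℕ} {e : Sym2 V}
    (he : e ∈ tub hloc Z o k L blk Ein Tgt x θ m) : e ∈ G.edgeSet :=
  hM.OmP_edge hx (tub_subset x θ m he)

omit hM in
theorem tub_Dn {x : V} {θ : ℤ} {m : ℕ} {e : Sym2 V}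
    (he : e ∈ tub hloc Z o k L blk Ein Tgt x θ m) {v : V} (hv : v ∈ e) :
    v ∈ Dn hloc Z o k L x θ := (mem_tub.1 he).2 v hv

theorem Mov.tub_X {x : V} (hx : x ∈ Orb Z o) {θ : ℤ} {m : ℕ} (hm : m ≤ 59) {e : Sym2 V}
    (he : e ∈ tub hloc Z o k L blk Ein Tgt x θ m) {v : V} (hv : v ∈ e) :
    -5 ≤ Xr L M b s (Z.Φ v - Z.Φ x) ∧ Xr L M b s (Z.Φ v - Z.Φ x) ≤ m + 5 := by
  obtain ⟨j, hj, h1, _, _⟩ := hM.om_geo hx hm (tub_subset x θ m he) hv
  have h2 := Pl.pos_fst_nonneg y m j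
  have h3 := Pl.pos_fst_le y m j
  rw [abs_le] at h1
  constructor <;> linarith [h1.1, h1.2]

theorem Mov.tub_Y {x : V} (hx : x ∈ Orb Z o) {θ : ℤ} {m : ℕ} (hm : m ≤ 59) {e : Sym2 V}
    (he : e ∈ tub hloc Z o k L blk Ein Tgt x θ m) {v : V} (hv : v ∈ e) :
    -2 ≤ Yr L T (Z.Φ v - Z.Φ x) := by
  obtain ⟨j, hj, _, h1, _⟩ := hM.om_geo hx hm (tub_subset x θ m he) hv
  have h2 := Pl.pos_snd_nonneg hM.y_le m j
  rw [abs_le] at h1
  linarith [h1.1]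

theorem Mov.tub_th {x : V} (hx : x ∈ Orb Z o) {θ : ℤ} {m : ℕ} (hm : m ≤ 59) {e : Sym2 V}
    (he : e ∈ tub hloc Z o k L blk Ein Tgt x θ m) {v : V} (hv : v ∈ e) :
    v ∈ th hloc (400 * (ρ + k + 1)) {x} :=
  th_mono_n hloc (by omega) _ (hM.om_th hx hm (tub_subset x θ m he) hv)

omit hM in
theorem mem_Ysc {x : V} {θ : ℤ} {m : ℕ} {f : V} :
    f ∈ Ysc hloc Z o k L blk Ein Tgt x θ m ↔ f ∈ Orb Z o ∧ θ ≤ L (Z.Φ f - Z.Φ x) ∧
      ∃ e ∈ OmP blk Ein Tgt x m, (∃ w ∈ e, w ∈ th hloc k {f}) ∧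
        ∃ v ∈ e, v ∈ Dn hloc Z o k L x θ := by
  classical
  unfold Ysc
  rw [Finset.mem_filter]
  constructor
  · exact fun h => h.2
  · intro h
    refine ⟨?_, h⟩
    obtain ⟨_, _, e, he, ⟨w, hw, hwf⟩, _⟩ := h
    rw [Finset.mem_biUnion]
    exact ⟨w, mem_ends.2 ⟨e, he, hw⟩, Lo.th_symm hloc hwf⟩

omit hM in
theorem Ysc_orb {x : V} {θ : ℤ} {m : ℕ} {f : V}
    (hf : f ∈ Ysc hloc Z o k L blk Ein Tgt x θ m) : f ∈ Orb Z o := (mem_Ysc.1 hf).1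

omit hM in
theorem Ysc_lo {x : V} {θ : ℤ} {m : ℕ} {f : V}
    (hf : f ∈ Ysc hloc Z o k L blk Ein Tgt x θ m) : θ ≤ L (Z.Φ f - Z.Φ x) := (mem_Ysc.1 hf).2.1

/-- going out of `Dn` by one edge -/
theorem Mov.Dn_near {x : V} {θ : ℤ} {v f : V} (hv : v ∈ Dn hloc Z o k L x θ)
    (hvf : v ∈ th hloc (k + 1) {f}) : L (Z.Φ f - Z.Φ x) < θ + Z.C * (2 * k + 1) := by
  obtain ⟨f1, hf1, hvf1⟩ := hM.cover v
  have h1 := hv f1 hf1 hvf1
  have h2 := Phi_th hloc Z (Lo.th_trans hloc hvf1 (Lo.th_symm hloc hvf))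
  have h3 : ((k + (k + 1) : ℕ) : ℤ) = 2 * k + 1 := by push_cast; ring
  rw [h3] at h2
  have h4 := hM.Lbx _ _ h2
  rw [hM.L_split f f1 x]
  have := (abs_le.1 h4).2
  linarith

theorem Mov.Ysc_nb {x : V} (hx : x ∈ Orb Z o) {θ : ℤ} {m : ℕ} {f : V}
    (hf : f ∈ Ysc hloc Z o k L blk Ein Tgt x θ m) :
    ∃ v ∈ th hloc (k + 1) {f}, v ∈ Dn hloc Z o k L x θ := by
  obtain ⟨_, _, e, he, ⟨w, hw, hwf⟩, v, hv, hvD⟩ := mem_Ysc.1 hf
  refine ⟨v, ?_, hvD⟩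
  by_cases hvw : v = w
  · rw [hvw]; exact th_mono_n hloc (Nat.le_succ k) _ hwf
  · exact Lo.th_adj hloc hwf (end_adj (hM.OmP_edge hx he) hv hw hvw).1.symm

theorem Mov.Ysc_hi {x : V} (hx : x ∈ Orb Z o) {θ : ℤ} {m : ℕ} {f : V}
    (hf : f ∈ Ysc hloc Z o k L blk Ein Tgt x θ m) :
    L (Z.Φ f - Z.Φ x) < θ + Z.C * (2 * k + 1) := by
  obtain ⟨v, hv, hvD⟩ := hM.Ysc_nb hx hf
  exact hM.Dn_near hvD hv

theorem Mov.Ysc_X {x : V} (hx : x ∈ Orb Z o) {θ : ℤ} {m : ℕ} (hm : m ≤ 59) {f : V}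
    (hθ : 199 * T ≤ θ) (hf : f ∈ Ysc hloc Z o k L blk Ein Tgt x θ m) :
    |Xr L M b s (Z.Φ f - Z.Φ x) - m| ≤ 5 := by
  obtain ⟨_, hlo, e, he, ⟨w, hw, hwf⟩, _⟩ := mem_Ysc.1 hf
  obtain ⟨j, hj, h1, h2, _⟩ := hM.om_geo hx hm he hw
  obtain ⟨h3, h4⟩ := hM.thin (by omega) (Lo.th_symm hloc hwf)
  have hκ := hM.κ_le
  have h5 : 199 ≤ Yr L T (Z.Φ f - Z.Φ x) := by
    unfold Yr
    rw [le_div_iff₀ hM.T_pos]
    have : (θ : ℝ) ≤ (L (Z.Φ f - Z.Φ x) : ℝ) := by exact_mod_cast hlo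
    linarith
  rw [hM.Y_split f w x] at h5
  have h6 : (177 : ℝ) < (Pl.pos y m j).2 := by
    have := (abs_le.1 h2).2
    have := (abs_le.1 h4).2
    linarith
  have h7 : 3 * m ≤ j := by
    by_contra hcon
    push Not at hcon
    have h8 := Pl.pos_snd_le hM.y_le m j
    have h9 : (j : ℝ) ≤ 177 := by
      have : j ≤ 177 := by omega
      exact_mod_cast this
    linarith
  rw [Pl.pos_fst_of_le y h7] at h1
  rw [hM.X_split f w x]
  rw [abs_le] at *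
  constructor <;> linarith [h1.1, h1.2, h3.1, h3.2]

theorem Mov.Ysc_th {x : V} (hx : x ∈ Orb Z o) {θ : ℤ} {m : ℕ} (hm : m ≤ 59) {f : V}
    (hf : f ∈ Ysc hloc Z o k L blk Ein Tgt x θ m) :
    f ∈ th hloc (400 * (ρ + k + 1)) {x} := by
  obtain ⟨_, _, e, he, ⟨w, hw, hwf⟩, _⟩ := mem_Ysc.1 hf
  have h1 := hM.om_th hx hm he hw
  exact th_mono_n hloc (by omega) _ (Lo.th_trans hloc h1 (Lo.th_symm hloc hwf))

/-! ### equivariance -/

theorem Mov.Pos_act (h : Z.H) {x : V} (hx : x ∈ Orb Z o) (m : ℕ) : ∀ j c,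
    (h : G ≃g G) c ∈ (by classical exact Pos Tgt (Pl.idx m) ((h : G ≃g G) x) j : Finset V) ↔
      c ∈ (by classical exact Pos Tgt (Pl.idx m) x j : Finset V) := by
  classical
  intro j
  induction j with
  | zero =>
    intro c
    simp only [Pos, Finset.mem_singleton]
    exact (h : G ≃g G).injective.eq_iff
  | succ j ih =>
    intro c
    simp only [Pos, Finset.mem_biUnion]
    constructor
    · rintro ⟨c', hc', hc⟩
      obtain ⟨c0, rfl⟩ := (h : G ≃g G).surjective c'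
      have h1 := (ih c0).1 hc'
      have h2 := (hM.pos_geo hx m j c0 h1).1
      exact ⟨c0, h1, (hM.Tgt_act _ h c0 h2 c).1 hc⟩
    · rintro ⟨c0, hc0, hc⟩
      have h2 := (hM.pos_geo hx m j c0 hc0).1
      exact ⟨(h : G ≃g G) c0, (ih c0).2 hc0, (hM.Tgt_act _ h c0 h2 c).2 hc⟩

omit hM in
theorem blk_act (hmb : ∀ x e, e ∈ blk x ↔ e ∈ G.edgeSet ∧ ∃ v ∈ e, v ∈ th hloc k {x})
    (φ : G ≃g G) (f : V) (e : Sym2 V) : Sym2.map φ e ∈ blk (φ f) ↔ e ∈ blk f := by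
  rw [hmb, hmb]
  have h1 : Sym2.map φ e ∈ G.edgeSet ↔ e ∈ G.edgeSet := by
    induction e using Sym2.ind with
    | _ a c => rw [Sym2.map_mk, SimpleGraph.mem_edgeSet, SimpleGraph.mem_edgeSet, φ.map_adj_iff]
  rw [h1]
  refine and_congr_right fun _ => ?_
  constructor
  · rintro ⟨v, hv, hv'⟩
    obtain ⟨u, hu, rfl⟩ := Sym2.mem_map.1 hv
    exact ⟨u, hu, (Lo.th_act hloc φ).1 hv'⟩
  · rintro ⟨v, hv, hv'⟩
    exact ⟨φ v, Sym2.mem_map.2 ⟨v, hv, rfl⟩, (Lo.th_act hloc φ).2 hv'⟩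

theorem Mov.OmP_act (h : Z.H) {x : V} (hx : x ∈ Orb Z o) (m : ℕ) (e : Sym2 V) :
    Sym2.map (h : G ≃g G) e ∈ OmP blk Ein Tgt ((h : G ≃g G) x) m ↔
      e ∈ OmP blk Ein Tgt x m := by
  rw [mem_OmP, mem_OmP]
  refine exists_congr fun j => and_congr_right fun _ => ?_
  constructor
  · rintro ⟨c', hc', he⟩
    obtain ⟨c0, rfl⟩ := (h : G ≃g G).surjective c'
    have h1 := (hM.Pos_act h hx m j c0).1 hc'
    have h2 := (hM.pos_geo hx m j c0 h1).1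
    refine ⟨c0, h1, ?_⟩
    rcases he with he | ⟨f', hf', he⟩
    · exact Or.inl ((hM.Ein_act _ h c0 h2 e).1 he)
    · obtain ⟨f, rfl⟩ := (h : G ≃g G).surjective f'
      exact Or.inr ⟨f, (hM.Tgt_act _ h c0 h2 f).1 hf', (blk_act hM.mem_blk _ f e).1 he⟩
  · rintro ⟨c0, hc0, he⟩
    have h2 := (hM.pos_geo hx m j c0 hc0).1
    refine ⟨(h : G ≃g G) c0, (hM.Pos_act h hx m j c0).2 hc0, ?_⟩
    rcases he with he | ⟨f, hf, he⟩
    · exact Or.inl ((hM.Ein_act _ h c0 h2 e).2 he)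
    · exact Or.inr ⟨(h : G ≃g G) f, (hM.Tgt_act _ h c0 h2 f).2 hf,
        (blk_act hM.mem_blk _ f e).2 he⟩

omit hM in
theorem Phi_diff (h : Z.H) (u v : V) :
    Z.Φ ((h : G ≃g G) u) - Z.Φ ((h : G ≃g G) v) = Z.Φ u - Z.Φ v := by
  rw [Z.equi h u, Z.equi h v]; abel

omit hM in
theorem Dn_act (h : Z.H) (x : V) (θ : ℤ) (v : V) :
    (h : G ≃g G) v ∈ Dn hloc Z o k L ((h : G ≃g G) x) θ ↔ v ∈ Dn hloc Z o k L x θ := by
  unfold Dn
  simp only [Set.mem_ofPred_eq]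
  constructor
  · intro H f hf hvf
    have := H ((h : G ≃g G) f) (Orb_act Z o h hf) ((Lo.th_act hloc _).2 hvf)
    rwa [Phi_diff] at this
  · intro H f' hf' hvf'
    obtain ⟨f, rfl⟩ := (h : G ≃g G).surjective f'
    rw [Phi_diff]
    exact H f ((Orb_act_iff Z o h).1 hf') ((Lo.th_act hloc _).1 hvf')

theorem Mov.tub_act (h : Z.H) {x : V} (hx : x ∈ Orb Z o) (θ : ℤ) (m : ℕ) (e : Sym2 V) :
    Sym2.map (h : G ≃g G) e ∈ tub hloc Z o k L blk Ein Tgt ((h : G ≃g G) x) θ m ↔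
      e ∈ tub hloc Z o k L blk Ein Tgt x θ m := by
  rw [mem_tub, mem_tub, hM.OmP_act h hx m e]
  refine and_congr_right fun _ => ?_
  constructor
  · intro H v hv
    exact (Dn_act h x θ v).1 (H _ (Sym2.mem_map.2 ⟨v, hv, rfl⟩))
  · intro H v hv
    obtain ⟨u, hu, rfl⟩ := Sym2.mem_map.1 hv
    exact (Dn_act h x θ u).2 (H u hu)

/-- uniform bound for the number of edges of a tube -/
theorem Mov.tub_card : ∃ N : ℕ, ∀ x ∈ Orb Z o, ∀ (θ : ℤ) (m : ℕ), m ≤ 59 →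
    (tub hloc Z o k L blk Ein Tgt x θ m).card ≤ N := by
  classical
  refine ⟨(Finset.range 60).sup (fun m => (OmP blk Ein Tgt o m).card), ?_⟩
  intro x hx θ m hm
  obtain ⟨h, rfl⟩ := hx
  refine (Finset.card_le_card (tub_subset _ θ m)).trans ?_
  have h1 : (OmP blk Ein Tgt ((h : G ≃g G) o) m).card ≤ (OmP blk Ein Tgt o m).card := by
    have hsub : OmP blk Ein Tgt ((h : G ≃g G) o) m ⊆
        (OmP blk Ein Tgt o m).image (Sym2.map (h : G ≃g G)) := by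
      intro e he
      have hs : ∃ e', Sym2.map (h : G ≃g G) e' = e := by
        refine ⟨Sym2.map (h : G ≃g G).symm e, ?_⟩
        rw [Sym2.map_map]
        have : ((h : G ≃g G) ∘ (h : G ≃g G).symm : V → V) = id := by
          funext x; simp
        rw [this, Sym2.map_id]
        rfl
      obtain ⟨e', rfl⟩ := hs
      exact Finset.mem_image_of_mem _ ((hM.OmP_act h (mem_Orb_self Z o) m e').1 he)
    exact (Finset.card_le_card hsub).trans Finset.card_image_le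
  refine h1.trans ?_
  exact Finset.le_sup (f := fun m => (OmP blk Ein Tgt o m).card)
    (Finset.mem_range.2 (by omega))

end

end Crest.Agent.R147.Mv
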