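import Crest.Agent.R147.Mv475Win

/-!
# E4c of S0207, part 2: screens in infinite volume form, equivariance
-/

set_option autoImplicit false
set_option linter.unusedSectionVars false

open Finset MeasureTheory ProbabilityTheory unitInterval
open Crest.ProbabilityR.Percolation Crest.Agent.R147.KN Crest.Agent.R159

namespace Crest.Agent.R147.Mv

universe u
variable {V : Type u}

/-- an event depending on finitely many edges is measurable -/
theorem measurableSet_local (E : Finset (Sym2 V)) (Q : Set (Sym2 V) → Prop) :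
    MeasurableSet {ω : Set (Sym2 V) | Q (ω ∩ (↑E : Set (Sym2 V)))} := by
  classical
  have h : {ω : Set (Sym2 V) | Q (ω ∩ (↑E : Set (Sym2 V)))}
      = ⋃ S ∈ E.powerset.filter (fun S : Finset (Sym2 V) => Q (↑S : Set (Sym2 V))),
        ⋂ e ∈ E, {ω : Set (Sym2 V) | e ∈ ω ↔ e ∈ S} := by
    ext ω
    simp only [Set.mem_ofPred_eq, Set.mem_iUnion, Set.mem_iInter, Finset.mem_filter,
      Finset.mem_powerset, exists_prop]
    constructor
    · intro hQ
      refine ⟨E.filter (fun e => e ∈ ω), ⟨Finset.filter_subset _ _, ?_⟩, ?_⟩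
      · have : (↑(E.filter (fun e => e ∈ ω)) : Set (Sym2 V)) = ω ∩ ↑E := by
          ext e
          simp only [Finset.coe_filter, Set.mem_ofPred_eq, Set.mem_inter_iff, Finset.mem_coe]
          tauto
        rw [this]; exact hQ
      · intro e he
        simp only [Finset.mem_filter]
        tauto
    · rintro ⟨S, ⟨hS, hQ⟩, h⟩
      have : ω ∩ ↑E = (↑S : Set (Sym2 V)) := by
        ext e
        simp only [Set.mem_inter_iff, Finset.mem_coe]
        constructor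
        · rintro ⟨h1, h2⟩; exact (h e h2).1 h1
        · intro h1; exact ⟨(h e (hS h1)).2 h1, hS h1⟩
      rw [this]; exact hQ
  rw [h]
  refine Finset.measurableSet_biUnion _ fun S _ => ?_
  refine Finset.measurableSet_biInter _ fun e _ => ?_
  by_cases he : e ∈ S
  · have : {ω : Set (Sym2 V) | e ∈ ω ↔ e ∈ S} = {ω | e ∈ ω} := by
      ext ω; simp only [Set.mem_ofPred_eq, he, iff_true]
    rw [this]
    exact measurable_set_mem e (measurableSet_singleton True) |> fun h => by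
      simpa [Set.preimage] using h
  · have : {ω : Set (Sym2 V) | e ∈ ω ↔ e ∈ S} = {ω | e ∈ ω}ᶜ := by
      ext ω; simp only [Set.mem_ofPred_eq, he, iff_false, Set.mem_compl_iff]
    rw [this]
    refine MeasurableSet.compl ?_
    exact measurable_set_mem e (measurableSet_singleton True) |> fun h => by
      simpa [Set.preimage] using h

open Classical in
/-- exit edges: edges of `Ω \ D` touched by the cluster of `A` in `ω ∩ D` -/
noncomputable def xE (G : SimpleGraph V) (Ω D : Finset (Sym2 V)) (A : Finset V)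
    (ω : Set (Sym2 V)) : Finset (Sym2 V) :=
  (Ω \ D).filter (fun e => ∃ v ∈ e, ∃ a ∈ A,
    (openSubgraph G (ω ∩ (↑D : Set (Sym2 V)))).Reachable a v)

/-- probability of few but some exit edges -/
noncomputable def qs (G : SimpleGraph V) (p : I) (Ω D : Finset (Sym2 V)) (A : Finset V)
    (n : ℕ) : ℝ :=
  (setBernoulli G.edgeSet p).real
    {ω | 1 ≤ (xE G Ω D A ω).card ∧ (xE G Ω D A ω).card ≤ n}

theorem xE_local (G : SimpleGraph V) {Ω D : Finset (Sym2 V)} (hD : D ⊆ Ω) (A : Finset V)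
    (ω : Set (Sym2 V)) : xE G Ω D A (ω ∩ (↑Ω : Set (Sym2 V))) = xE G Ω D A ω := by
  unfold xE
  have : ω ∩ (↑Ω : Set (Sym2 V)) ∩ ↑D = ω ∩ ↑D := by
    rw [Set.inter_assoc]
    congr 1
    exact Set.inter_eq_right.2 (Finset.coe_subset.2 hD)
  rw [this]

theorem qs_nonneg (G : SimpleGraph V) (p : I) (Ω D : Finset (Sym2 V)) (A : Finset V) (n : ℕ) :
    0 ≤ qs G p Ω D A n := measureReal_nonneg

section hg

variable [Countable V]

open Classical in
theorem exitE_eq (G : SimpleGraph V) {Λ : Finset V} {p : ℝ} {h0 : 0 ≤ p} {h1 : p < 1}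
    {Ω D : Finset (Sym2 V)} {A : Finset V} (hA : A ⊆ Λ) (hΩE : ∀ e ∈ Ω, e ∈ G.edgeSet)
    (hΛ : ∀ e ∈ Ω, ∀ v ∈ e, v ∈ Λ) {S : Finset (Sym2 V)} (hS : S ⊆ Ω) :
    exitE (Win.hg Λ p h0 h1) Ω D (Win.res Λ A) S = xE G Ω D A (↑S : Set (Sym2 V)) := by
  ext e
  rw [mem_exitE, xE, Finset.mem_filter, Finset.mem_sdiff]
  refine and_congr_right fun he => ?_
  have hS1 : ∀ e ∈ S ∩ D, e ∈ G.edgeSet := fun e he =>
    hΩE e (hS (Finset.mem_inter.1 he).1)
  have hS2 : ∀ e ∈ S ∩ D, ∀ v ∈ e, v ∈ Λ := fun e he =>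
    hΛ e (hS (Finset.mem_inter.1 he).1)
  have hc : ((↑(S ∩ D) : Set (Sym2 V))) = ↑S ∩ ↑D := Finset.coe_inter _ _
  rw [Finset.not_disjoint_iff]
  constructor
  · rintro ⟨v, hv, hv'⟩
    rw [Win.mem_inc] at hv
    rw [Win.mem_cl_iff hS1 hS2] at hv'
    obtain ⟨a, ha, hr⟩ := hv'
    rw [hc] at hr
    exact ⟨v.1, hv, a.1, Win.mem_res.1 ha, hr⟩
  · rintro ⟨v, hv, a, ha, hr⟩
    refine ⟨⟨v, hΛ e he.1 v hv⟩, Win.mem_inc.2 hv, ?_⟩
    rw [Win.mem_cl_iff hS1 hS2, hc]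
    exact ⟨⟨a, hA ha⟩, Win.mem_res.2 ha, hr⟩

open Classical in
theorem qs_eq_ex (G : SimpleGraph V) (p : I) (hp1 : (p : ℝ) < 1) {Λ : Finset V}
    {Ω D : Finset (Sym2 V)} {A : Finset V} (hD : D ⊆ Ω) (hA : A ⊆ Λ)
    (hΩE : ∀ e ∈ Ω, e ∈ G.edgeSet) (hΛ : ∀ e ∈ Ω, ∀ v ∈ e, v ∈ Λ) (n : ℕ) :
    qs G p Ω D A n = (Win.hg Λ (p : ℝ) p.2.1 hp1).ex Ω (fun S =>
      if 1 ≤ (exitE (Win.hg Λ (p : ℝ) p.2.1 hp1) Ω D (Win.res Λ A) S).card ∧
        (exitE (Win.hg Λ (p : ℝ) p.2.1 hp1) Ω D (Win.res Λ A) S).card ≤ n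
      then (1 : ℝ) else 0) := by
  have h1 : {ω : Set (Sym2 V) | 1 ≤ (xE G Ω D A ω).card ∧ (xE G Ω D A ω).card ≤ n}
      = {ω | (fun ω => 1 ≤ (xE G Ω D A ω).card ∧ (xE G Ω D A ω).card ≤ n)
          (ω ∩ (↑Ω : Set (Sym2 V)))} := by
    ext ω
    simp only [Set.mem_ofPred_eq, xE_local G hD]
  unfold qs
  rw [h1, Win.real_eq_ex (Win.hg Λ (p : ℝ) p.2.1 hp1) G.edgeSet p (fun e => Win.hg_p e) Ω
    (fun e he => hΩE e he) (fun ω => 1 ≤ (xE G Ω D A ω).card ∧ (xE G Ω D A ω).card ≤ n)]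
  refine HG.ex_congr _ fun S hS => ?_
  rw [exitE_eq G hA hΩE hΛ hS]
  split_ifs <;> rfl

/-- **fixed screen count**, infinite volume form -/
theorem screens_inf (G : SimpleGraph V) (p : I) (hp1 : (p : ℝ) < 1)
    {Ω : Finset (Sym2 V)} {A : Finset V} (hΩE : ∀ e ∈ Ω, e ∈ G.edgeSet) (N : ℕ)
    (D : ℕ → Finset (Sym2 V)) (hD : ∀ i < N, D i ⊆ Ω)
    (hsep : ∀ i j, i < j → j < N → ∀ e ∈ Ω, ∀ v ∈ e, (v ∈ A ∨ ∃ e' ∈ D i, v ∈ e') → e ∈ D j)
    (n : ℕ) :
    ∑ i ∈ Finset.range N, qs G p Ω (D i) A n ≤ ((1 - (p : ℝ)) ^ n)⁻¹ := by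
  classical
  set Λ : Finset V := ends Ω ∪ A with hΛdef
  have hA : A ⊆ Λ := Finset.subset_union_right
  have hΛ : ∀ e ∈ Ω, ∀ v ∈ e, v ∈ Λ := fun e he v hv =>
    Finset.mem_union_left _ (mem_ends.2 ⟨e, he, hv⟩)
  set H := Win.hg Λ (p : ℝ) p.2.1 hp1 with hH
  rw [Finset.sum_congr rfl (fun i hi => qs_eq_ex G p hp1 (hD i (Finset.mem_range.1 hi)) hA hΩE
    hΛ n)]
  have h := screen_count H (Ω := Ω) (A := Win.res Λ A) N D hD ?_ (c := 1 - (p : ℝ))
    (by linarith) (by linarith [p.2.1]) (fun e _ => by rw [hH, Win.hg_p]) n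
  · refine le_trans (le_of_eq ?_) h
    refine Finset.sum_congr rfl fun i _ => ?_
    refine HG.ex_congr _ fun S _ => ?_
    split_ifs <;> rfl
  · intro i j hij hj e he hd
    rw [Finset.not_disjoint_iff] at hd
    obtain ⟨v, hv, hv'⟩ := hd
    rw [hH, Win.mem_inc] at hv
    refine hsep i j hij hj e he v.1 hv ?_
    rcases Finset.mem_union.1 hv' with h | h
    · exact Or.inl (Win.mem_res.1 h)
    · obtain ⟨e', he', hve'⟩ := Finset.mem_biUnion.1 h
      rw [hH, Win.mem_inc] at hve'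
      exact Or.inr ⟨e', he', hve'⟩

open Classical in
/-- the annealed failure at one screen, infinite volume form -/
theorem fail_inf (G : SimpleGraph V) (p : I) {Ω D : Finset (Sym2 V)}
    (A : Finset V) (nb : V → Finset V) (blk : V → Finset (Sym2 V)) (Y : Finset V) {Δ M : ℕ}
    (hΔ : ∀ f ∈ Y, (blk f).card ≤ Δ) (Far : Set V) (hFA : ∀ v ∈ A, v ∉ Far)
    (hFD : ∀ e ∈ D, ∀ v ∈ e, v ∉ Far)
    (hcov : ∀ e ∈ Ω, e ∉ D → ∀ v ∈ e, (v ∈ A ∨ ∃ e' ∈ D, v ∈ e') →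
      ∃ f ∈ Y, v ∈ nb f ∧ e ∈ blk f) :
    (setBernoulli G.edgeSet p).real {ω | (Y.filter fun f => ∃ a ∈ A, ∃ y ∈ nb f,
        (openSubgraph G (ω ∩ (↑D : Set (Sym2 V)))).Reachable a y).card < M}
      ≤ (setBernoulli G.edgeSet p).real {ω | ¬ ∃ a ∈ A, ∃ v ∈ Far,
          (openSubgraph G (ω ∩ (↑Ω : Set (Sym2 V)))).Reachable a v}
        + qs G p Ω D A (M * Δ) := by
  unfold qs
  refine le_trans (measureReal_mono ?_) (measureReal_union_le _ _)
  intro ω hω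
  rw [Set.mem_ofPred_eq] at hω
  -- vertices of the inner cluster
  have hin : ∀ a ∈ A, ∀ v, (openSubgraph G (ω ∩ (↑D : Set (Sym2 V)))).Reachable a v →
      v ∈ A ∨ ∃ e' ∈ D, v ∈ e' := by
    intro a ha v hr
    obtain ⟨w⟩ := hr
    have : ∀ (a v : V), (openSubgraph G (ω ∩ (↑D : Set (Sym2 V)))).Walk a v →
        (a ∈ A ∨ ∃ e' ∈ D, a ∈ e') → (v ∈ A ∨ ∃ e' ∈ D, v ∈ e') := by
      intro a v w
      induction w with
      | nil => exact id
      | @cons a b c hab w ih =>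
        intro _
        refine ih (Or.inr ?_)
        rw [Inf.openSubgraph_adj] at hab
        exact ⟨s(a, b), Finset.mem_coe.1 hab.1.2, Sym2.mem_mk_right a b⟩
    exact this a v w (Or.inl ha)
  by_cases h0 : (xE G Ω D A ω).card = 0
  · left
    rw [Set.mem_ofPred_eq]
    rintro ⟨a, ha, v, hv, ⟨w⟩⟩
    rw [Finset.card_eq_zero] at h0
    have key : ∀ (b v : V), (openSubgraph G (ω ∩ (↑Ω : Set (Sym2 V)))).Walk b v →
        (openSubgraph G (ω ∩ (↑D : Set (Sym2 V)))).Reachable a b →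
        (openSubgraph G (ω ∩ (↑D : Set (Sym2 V)))).Reachable a v := by
      intro b v w
      induction w with
      | nil => exact id
      | @cons b c d hbc w ih =>
        intro hr
        refine ih ?_
        rw [Inf.openSubgraph_adj] at hbc
        obtain ⟨⟨hω1, hΩ1⟩, hadj⟩ := hbc
        rw [Finset.mem_coe] at hΩ1
        by_cases heD : s(b, c) ∈ D
        · refine hr.trans (SimpleGraph.Adj.reachable ?_)
          rw [Inf.openSubgraph_adj]
          exact ⟨⟨hω1, Finset.mem_coe.2 heD⟩, hadj⟩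
        · exfalso
          have : s(b, c) ∈ xE G Ω D A ω := by
            rw [xE, Finset.mem_filter, Finset.mem_sdiff]
            exact ⟨⟨hΩ1, heD⟩, b, Sym2.mem_mk_left b c, a, ha, hr⟩
          rw [h0] at this
          simp at this
    have hr := key a v w (SimpleGraph.Reachable.refl _)
    rcases hin a ha v hr with h | ⟨e', he', hve'⟩
    · exact hFA v h hv
    · exact hFD e' he' v hve' hv
  · right
    rw [Set.mem_ofPred_eq]
    refine ⟨by omega, ?_⟩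
    have h1 : xE G Ω D A ω ⊆ (Y.filter fun f => ∃ a ∈ A, ∃ y ∈ nb f,
        (openSubgraph G (ω ∩ (↑D : Set (Sym2 V)))).Reachable a y).biUnion blk := by
      intro e he
      rw [xE, Finset.mem_filter, Finset.mem_sdiff] at he
      obtain ⟨⟨heΩ, heD⟩, v, hv, a, ha, hr⟩ := he
      obtain ⟨f, hf, hvf, hef⟩ := hcov e heΩ heD v hv (hin a ha v hr)
      rw [Finset.mem_biUnion]
      exact ⟨f, Finset.mem_filter.2 ⟨hf, a, ha, v, hvf, hr⟩, hef⟩
    refine (Finset.card_le_card h1).trans ?_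
    refine (Finset.card_biUnion_le_card_mul _ _ Δ fun f hf =>
      hΔ f (Finset.mem_filter.1 hf).1).trans ?_
    exact Nat.mul_le_mul_right _ hω.le

end hg

section aut

open Classical in
theorem xE_aut (G : SimpleGraph V) (φ : G ≃g G) {Ω D Ω' D' : Finset (Sym2 V)}
    {A A' : Finset V} (hΩ : ∀ e, Sym2.map φ e ∈ Ω' ↔ e ∈ Ω)
    (hD : ∀ e, Sym2.map φ e ∈ D' ↔ e ∈ D) (hA : ∀ v, φ v ∈ A' ↔ v ∈ A)
    (ω : Set (Sym2 V)) :
    xE G Ω' D' A' ω = (xE G Ω D A (Sym2.map φ ⁻¹' ω)).image (Sym2.map φ) := by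
  have hsurj : ∀ e : Sym2 V, ∃ e', Sym2.map φ e' = e := by
    intro e
    refine ⟨Sym2.map φ.symm e, ?_⟩
    rw [Sym2.map_map]
    have : (φ ∘ φ.symm : V → V) = id := by
      funext x; simp
    rw [this, Sym2.map_id]
    rfl
  have hre : ∀ a v, (openSubgraph G (Sym2.map φ ⁻¹' ω ∩ (↑D : Set (Sym2 V)))).Reachable a v ↔
      (openSubgraph G (ω ∩ (↑D' : Set (Sym2 V)))).Reachable (φ a) (φ v) := by
    intro a v
    rw [← Inf.reachable_openIso]
    have : Sym2.map φ ⁻¹' (ω ∩ (↑D' : Set (Sym2 V)))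
        = Sym2.map φ ⁻¹' ω ∩ (↑D : Set (Sym2 V)) := by
      ext e
      simp only [Set.mem_preimage, Set.mem_inter_iff, Finset.mem_coe, hD]
    rw [this]
  ext e
  obtain ⟨e', rfl⟩ := hsurj e
  rw [xE, Finset.mem_filter, Finset.mem_sdiff, Finset.mem_image]
  constructor
  · rintro ⟨⟨h1, h2⟩, v, hv, a, ha, hr⟩
    refine ⟨e', ?_, rfl⟩
    rw [xE, Finset.mem_filter, Finset.mem_sdiff]
    rw [Sym2.mem_map] at hv
    obtain ⟨v', hv', rfl⟩ := hv
    obtain ⟨a', rfl⟩ := φ.surjective a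
    refine ⟨⟨(hΩ e').1 h1, fun h => h2 ((hD e').2 h)⟩, v', hv', a', (hA a').1 ha, ?_⟩
    exact (hre a' v').2 hr
  · rintro ⟨e'', he'', heq⟩
    have hinj := Inf.sym2_map_injective φ.injective heq
    subst hinj
    rw [xE, Finset.mem_filter, Finset.mem_sdiff] at he''
    obtain ⟨⟨h1, h2⟩, v, hv, a, ha, hr⟩ := he''
    refine ⟨⟨(hΩ _).2 h1, fun h => h2 ((hD _).1 h)⟩, φ v, Sym2.mem_map.2 ⟨v, hv, rfl⟩,
      φ a, (hA a).2 ha, (hre a v).1 hr⟩

/-- invariance of `qs` -/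
theorem qs_aut (G : SimpleGraph V) (p : I) (φ : G ≃g G) {Ω D Ω' D' : Finset (Sym2 V)}
    {A A' : Finset V} (hDΩ : D ⊆ Ω) (hΩ : ∀ e, Sym2.map φ e ∈ Ω' ↔ e ∈ Ω)
    (hD : ∀ e, Sym2.map φ e ∈ D' ↔ e ∈ D) (hA : ∀ v, φ v ∈ A' ↔ v ∈ A) (n : ℕ) :
    qs G p Ω' D' A' n = qs G p Ω D A n := by
  classical
  have hm : MeasurableSet {ω : Set (Sym2 V) | 1 ≤ (xE G Ω D A ω).card ∧
      (xE G Ω D A ω).card ≤ n} := by
    have h1 : {ω : Set (Sym2 V) | 1 ≤ (xE G Ω D A ω).card ∧ (xE G Ω D A ω).card ≤ n}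
      = {ω | (fun ω => 1 ≤ (xE G Ω D A ω).card ∧ (xE G Ω D A ω).card ≤ n)
          (ω ∩ (↑Ω : Set (Sym2 V)))} := by
      ext ω
      simp only [Set.mem_ofPred_eq, xE_local G hDΩ]
    rw [h1]
    exact measurableSet_local Ω (fun ω => 1 ≤ (xE G Ω D A ω).card ∧ (xE G Ω D A ω).card ≤ n)
  unfold qs
  rw [← Inf.setBernoulli_aut G φ p hm]
  congr 1
  ext ω
  simp only [Set.mem_ofPred_eq]
  rw [xE_aut G φ hΩ hD hA ω, Finset.card_image_of_injective _ (Inf.sym2_map_injective φ.injective)]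

end aut

end Crest.Agent.R147.Mv
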