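import Crest.Agent.R147.KN.Basic

/-!
# Fixed screen count (B5e of S0207)

For an increasing sequence of domains `D 0 ⊆ D 1 ⊆ …` (everything below parallel screens), the
events "the cluster of `A` in `D i` has at least one but few exit edges and they are all closed"
are disjoint, hence `∑ i, P(1 ≤ #exits_i ≤ L) ≤ c^{-L}`.
-/

set_option autoImplicit false
set_option linter.unusedSectionVars false

open Finset Crest.Agent.R147.KN

namespace Crest.Agent.R147.Mv

variable {V E : Type*} [DecidableEq V] [DecidableEq E] [Fintype V] (G : HG V E)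

/-- exit edges: edges of `Ω \ D` touching the cluster of `A` inside `D` -/
noncomputable def exitE (Ω D : Finset E) (A : Finset V) (S : Finset E) : Finset E :=
  G.tch (Ω \ D) (G.cl (S ∩ D) A)

theorem mem_exitE {Ω D : Finset E} {A : Finset V} {S : Finset E} {e : E} :
    e ∈ exitE G Ω D A S ↔ (e ∈ Ω ∧ e ∉ D) ∧ ¬ Disjoint (G.inc e) (G.cl (S ∩ D) A) := by
  unfold exitE
  rw [HG.mem_tch, Finset.mem_sdiff]

/-- a cluster only uses vertices of `A` and vertices of edges of the configuration -/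
theorem cl_subset_touch (S : Finset E) (A : Finset V) :
    G.cl S A ⊆ A ∪ S.biUnion G.inc := by
  refine G.cl_subset Finset.subset_union_left ?_
  intro e he
  left
  intro x hx
  exact Finset.mem_union_right _ (Finset.mem_biUnion.2 ⟨e, he, hx⟩)

/-- probability that all edges of `X` are closed -/
theorem ex_closed (A X : Finset E) (hX : X ⊆ A) :
    G.ex A (fun S => if Disjoint S X then (1 : ℝ) else 0) = ∏ e ∈ X, (1 - G.p e) := by
  have h1 : G.ex A (fun S => if Disjoint S X then (1 : ℝ) else 0)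
      = G.ex A (fun S => (fun T => if T = ∅ then (1 : ℝ) else 0) (S ∩ X)) := by
    refine G.ex_congr fun S _ => ?_
    simp only [Finset.disjoint_iff_inter_eq_empty]
  rw [h1, G.ex_sub_config hX (fun T => if T = ∅ then (1 : ℝ) else 0)]
  clear h1 hX
  induction X using Finset.induction_on with
  | empty => simp
  | insert e X he ih =>
    rw [G.ex_insert he, Finset.prod_insert he, ih]
    have : G.ex X (fun S => if insert e S = (∅ : Finset E) then (1 : ℝ) else 0) = 0 := by
      rw [G.ex_congr (g := fun _ => 0) (fun S _ => if_neg (Finset.insert_ne_empty e S)),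
        G.ex_const]
    rw [this]
    ring

theorem ex_closed_ge {A X : Finset E} (hX : X ⊆ A) {c : ℝ} (hc0 : 0 ≤ c) (hc1 : c ≤ 1)
    (hc : ∀ e ∈ A, c ≤ 1 - G.p e) {L : ℕ} (hL : X.card ≤ L) :
    c ^ L ≤ G.ex A (fun S => if Disjoint S X then (1 : ℝ) else 0) := by
  rw [ex_closed G A X hX]
  calc c ^ L ≤ c ^ X.card := pow_le_pow_of_le_one hc0 hc1 hL
    _ = ∏ _e ∈ X, c := by rw [Finset.prod_const]
    _ ≤ ∏ e ∈ X, (1 - G.p e) := Finset.prod_le_prod (fun _ _ => hc0) (fun e he => hc e (hX he))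

/-- closing the (few) exit edges costs at most `c ^ L` -/
theorem cost_close {Ω D : Finset E} (hD : D ⊆ Ω) (A : Finset V) {c : ℝ} (hc0 : 0 ≤ c)
    (hc1 : c ≤ 1) (hc : ∀ e ∈ Ω, c ≤ 1 - G.p e) (L : ℕ) :
    c ^ L * G.ex Ω (fun S => if 1 ≤ (exitE G Ω D A S).card ∧ (exitE G Ω D A S).card ≤ L
        then (1 : ℝ) else 0)
      ≤ G.ex Ω (fun S => if 1 ≤ (exitE G Ω D A S).card ∧ Disjoint S (exitE G Ω D A S)
        then (1 : ℝ) else 0) := by
  have hΩ : Ω = D ∪ (Ω \ D) := by rw [Finset.union_sdiff_of_subset hD]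
  have hd : Disjoint D (Ω \ D) := Finset.disjoint_sdiff
  have hkey : ∀ S₁, S₁ ⊆ D → ∀ S₂, S₂ ⊆ Ω \ D →
      exitE G Ω D A (S₁ ∪ S₂) = exitE G Ω D A S₁ := by
    intro S₁ h1 S₂ h2
    unfold exitE
    have : (S₁ ∪ S₂) ∩ D = S₁ ∩ D := by
      ext e
      simp only [Finset.mem_inter, Finset.mem_union]
      constructor
      · rintro ⟨h | h, h'⟩
        · exact ⟨h, h'⟩
        · exact absurd h' (Finset.mem_sdiff.1 (h2 h)).2
      · rintro ⟨h, h'⟩
        exact ⟨Or.inl h, h'⟩
    rw [this]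
  have hex : ∀ f : Finset E → ℝ, G.ex Ω f
      = G.ex D (fun S₁ => G.ex (Ω \ D) (fun S₂ => f (S₁ ∪ S₂))) := by
    intro f
    conv_lhs => rw [hΩ]
    rw [G.ex_union hd]
  rw [hex, hex, ← G.ex_mul_left]
  refine G.ex_mono fun S₁ h1 => ?_
  set X := exitE G Ω D A S₁ with hX
  have hXsub : X ⊆ Ω \ D := by
    rw [hX]; unfold exitE; exact G.tch_subset _ _
  have e1 : G.ex (Ω \ D) (fun S₂ => if 1 ≤ (exitE G Ω D A (S₁ ∪ S₂)).card ∧
      (exitE G Ω D A (S₁ ∪ S₂)).card ≤ L then (1 : ℝ) else 0)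
      = if 1 ≤ X.card ∧ X.card ≤ L then (1 : ℝ) else 0 := by
    rw [G.ex_congr (g := fun _ => if 1 ≤ X.card ∧ X.card ≤ L then (1 : ℝ) else 0)
      (fun S₂ h2 => by rw [hkey S₁ h1 S₂ h2]), G.ex_const]
  have e2 : G.ex (Ω \ D) (fun S₂ => if 1 ≤ (exitE G Ω D A (S₁ ∪ S₂)).card ∧
      Disjoint (S₁ ∪ S₂) (exitE G Ω D A (S₁ ∪ S₂)) then (1 : ℝ) else 0)
      = G.ex (Ω \ D) (fun S₂ => if 1 ≤ X.card ∧ Disjoint S₂ X then (1 : ℝ) else 0) := by
    refine G.ex_congr fun S₂ h2 => ?_
    rw [hkey S₁ h1 S₂ h2, ← hX]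
    have hdS : Disjoint S₁ X :=
      Finset.disjoint_of_subset_left h1 (Finset.disjoint_of_subset_right hXsub hd)
    have : Disjoint (S₁ ∪ S₂) X ↔ Disjoint S₂ X := by
      rw [Finset.disjoint_union_left]
      exact ⟨fun h => h.2, fun h => ⟨hdS, h⟩⟩
    simp only [this]
  rw [e1, e2]
  by_cases h : 1 ≤ X.card ∧ X.card ≤ L
  · rw [if_pos h, mul_one]
    simp only [h.1, true_and]
    exact ex_closed_ge G hXsub hc0 hc1 (fun e he => hc e (Finset.sdiff_subset he)) h.2
  · rw [if_neg h, mul_zero]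
    exact G.ex_nonneg fun S _ => by split_ifs <;> norm_num

/-- separation: any edge of `Ω` touching `A` or an edge of `D` is in `D'` -/
def Sep (Ω D D' : Finset E) (A : Finset V) : Prop :=
  ∀ e ∈ Ω, ¬ Disjoint (G.inc e) (A ∪ D.biUnion G.inc) → e ∈ D'

theorem exit_empty_of_closed {Ω D D' : Finset E} {A : Finset V}
    (hsep : Sep G Ω D D' A) {S : Finset E} (hS : S ⊆ Ω)
    (hcl : Disjoint S (exitE G Ω D A S)) : exitE G Ω D' A S = ∅ := by
  have hC : G.cl (S ∩ D') A ⊆ G.cl (S ∩ D) A := by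
    refine G.cl_subset (G.subset_cl _ _) ?_
    intro e he
    rw [Finset.mem_inter] at he
    by_cases heD : e ∈ D
    · exact G.sat_cl (S ∩ D) A e (Finset.mem_inter.2 ⟨he.1, heD⟩)
    · right
      by_contra hd
      have : e ∈ exitE G Ω D A S := (mem_exitE G).2 ⟨⟨hS he.1, heD⟩, hd⟩
      exact Finset.disjoint_left.1 hcl he.1 this
  rw [Finset.eq_empty_iff_forall_notMem]
  intro e he
  rw [mem_exitE] at he
  refine he.1.2 (hsep e he.1.1 fun hd => he.2 ?_)
  refine Finset.disjoint_of_subset_right (hC.trans ?_) hd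
  refine (cl_subset_touch G _ _).trans ?_
  refine Finset.union_subset_union (Finset.Subset.refl _) ?_
  exact Finset.biUnion_subset_biUnion_of_subset_left _ Finset.inter_subset_right

/-- **fixed screen count**: `∑ i, P(1 ≤ #exits_i ≤ L) ≤ c^{-L}` -/
theorem screen_count {Ω : Finset E} {A : Finset V} (N : ℕ) (D : ℕ → Finset E)
    (hD : ∀ i < N, D i ⊆ Ω)
    (hsep : ∀ i j, i < j → j < N → Sep G Ω (D i) (D j) A)
    {c : ℝ} (hc0 : 0 < c) (hc1 : c ≤ 1) (hc : ∀ e ∈ Ω, c ≤ 1 - G.p e) (L : ℕ) :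
    ∑ i ∈ Finset.range N, G.ex Ω (fun S => if 1 ≤ (exitE G Ω (D i) A S).card ∧
        (exitE G Ω (D i) A S).card ≤ L then (1 : ℝ) else 0) ≤ (c ^ L)⁻¹ := by
  have h1 : ∀ i ∈ Finset.range N, G.ex Ω (fun S => if 1 ≤ (exitE G Ω (D i) A S).card ∧
        (exitE G Ω (D i) A S).card ≤ L then (1 : ℝ) else 0)
      ≤ (c ^ L)⁻¹ * G.ex Ω (fun S => if 1 ≤ (exitE G Ω (D i) A S).card ∧
        Disjoint S (exitE G Ω (D i) A S) then (1 : ℝ) else 0) := by
    intro i hi
    have := cost_close G (hD i (Finset.mem_range.1 hi)) A hc0.le hc1 hc L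
    rw [inv_mul_eq_div, le_div_iff₀ (pow_pos hc0 L), mul_comm]
    exact this
  refine (Finset.sum_le_sum h1).trans ?_
  rw [← Finset.mul_sum, ← G.ex_sum]
  have h2 : G.ex Ω (fun S => ∑ i ∈ Finset.range N, if 1 ≤ (exitE G Ω (D i) A S).card ∧
        Disjoint S (exitE G Ω (D i) A S) then (1 : ℝ) else 0) ≤ 1 := by
    refine G.ex_le_of_le fun S hS => ?_
    rw [Finset.sum_ite, Finset.sum_const_zero, add_zero, Finset.sum_const, nsmul_eq_mul, mul_one]
    have : (Finset.filter (fun i => 1 ≤ (exitE G Ω (D i) A S).card ∧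
        Disjoint S (exitE G Ω (D i) A S)) (Finset.range N)).card ≤ 1 := by
      rw [Finset.card_le_one]
      intro i hi j hj
      rw [Finset.mem_filter, Finset.mem_range] at hi hj
      by_contra hij
      have haux : ∀ a b, a < b → b < N → Disjoint S (exitE G Ω (D a) A S) →
          1 ≤ (exitE G Ω (D b) A S).card → False := by
        intro a b hab hb hcl hne
        have := exit_empty_of_closed G (hsep a b hab hb) hS hcl
        rw [this] at hne
        simp at hne
      rcases lt_or_gt_of_ne hij with h | h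
      · exact haux i j h hj.1 hi.2.2 hj.2.1
      · exact haux j i h hi.1 hj.2.2 hi.2.1
    exact_mod_cast this
  calc (c ^ L)⁻¹ * _ ≤ (c ^ L)⁻¹ * 1 :=
        mul_le_mul_of_nonneg_left h2 (inv_nonneg.2 (pow_nonneg hc0.le L))
    _ = (c ^ L)⁻¹ := mul_one _

/-- if there is no exit edge, the whole cluster stays in `D` -/
theorem cl_eq_of_exit_empty {Ω D : Finset E} {A : Finset V} {S : Finset E} (hS : S ⊆ Ω)
    (h : exitE G Ω D A S = ∅) : G.cl S A = G.cl (S ∩ D) A := by
  apply Finset.Subset.antisymm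
  · refine G.cl_subset (G.subset_cl _ _) ?_
    intro e he
    by_cases heD : e ∈ D
    · exact G.sat_cl (S ∩ D) A e (Finset.mem_inter.2 ⟨he, heD⟩)
    · right
      by_contra hd
      have : e ∈ exitE G Ω D A S := (mem_exitE G).2 ⟨⟨hS he, heD⟩, hd⟩
      rw [h] at this
      simp at this
  · exact G.cl_mono Finset.inter_subset_left (Finset.Subset.refl _)

section blocks

variable {B : Type*} [DecidableEq B]

/-- number of blocks of `Y` touched by the cluster of `A` -/
noncomputable def touched (nb : B → Finset V) (Y : Finset B) (C : Finset V) : Finset B :=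
  Y.filter (fun b => ¬ Disjoint (nb b) C)

theorem mem_touched {nb : B → Finset V} {Y : Finset B} {C : Finset V} {b : B} :
    b ∈ touched nb Y C ↔ b ∈ Y ∧ ¬ Disjoint (nb b) C := by simp [touched]

theorem touched_mono (nb : B → Finset V) {Y Y' : Finset B} (hY : Y ⊆ Y') {C C' : Finset V}
    (hC : C ⊆ C') : touched nb Y C ⊆ touched nb Y' C' := by
  intro b hb
  rw [mem_touched] at hb ⊢
  exact ⟨hY hb.1, fun h => hb.2 (Finset.disjoint_of_subset_right hC h)⟩

/-- if every exit edge is in a touched block, few touched blocks means few exit edges -/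
theorem exit_card_le {Ω D : Finset E} {A : Finset V} {S : Finset E} {nb : B → Finset V}
    {blk : B → Finset E} {Y : Finset B} {Δ : ℕ} (hΔ : ∀ b ∈ Y, (blk b).card ≤ Δ)
    (hcov : ∀ e ∈ exitE G Ω D A S, ∃ b ∈ touched nb Y (G.cl (S ∩ D) A), e ∈ blk b) :
    (exitE G Ω D A S).card ≤ (touched nb Y (G.cl (S ∩ D) A)).card * Δ := by
  have h1 : exitE G Ω D A S ⊆ (touched nb Y (G.cl (S ∩ D) A)).biUnion blk := by
    intro e he
    obtain ⟨b, hb, heb⟩ := hcov e he
    exact Finset.mem_biUnion.2 ⟨b, hb, heb⟩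
  refine (Finset.card_le_card h1).trans (Finset.card_biUnion_le_card_mul _ _ _ ?_)
  intro b hb
  exact hΔ b ((mem_touched).1 hb).1

/-- the annealed failure at one screen -/
theorem fail_le {Ω D : Finset E} (A : Finset V) {nb : B → Finset V}
    {blk : B → Finset E} {Y : Finset B} {Δ M : ℕ} (hΔ : ∀ b ∈ Y, (blk b).card ≤ Δ)
    (Far : Finset V) (hFar : Disjoint Far (A ∪ D.biUnion G.inc))
    (hcov : ∀ S ⊆ Ω, ∀ e ∈ exitE G Ω D A S, ∃ b ∈ touched nb Y (G.cl (S ∩ D) A), e ∈ blk b) :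
    G.ex Ω (fun S => if (touched nb Y (G.cl (S ∩ D) A)).card < M then (1 : ℝ) else 0)
      ≤ G.ex Ω (fun S => if Disjoint Far (G.cl S A) then (1 : ℝ) else 0)
        + G.ex Ω (fun S => if 1 ≤ (exitE G Ω D A S).card ∧
          (exitE G Ω D A S).card ≤ M * Δ then (1 : ℝ) else 0) := by
  rw [← G.ex_add]
  refine G.ex_mono fun S hS => ?_
  by_cases h : (touched nb Y (G.cl (S ∩ D) A)).card < M
  · rw [if_pos h]
    by_cases h0 : exitE G Ω D A S = ∅
    · have h1 : G.cl S A = G.cl (S ∩ D) A := cl_eq_of_exit_empty G hS h0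
      have h2 : Disjoint Far (G.cl S A) := by
        rw [h1]
        refine Finset.disjoint_of_subset_right (cl_subset_touch G _ _) ?_
        refine Finset.disjoint_of_subset_right ?_ hFar
        refine Finset.union_subset_union (Finset.Subset.refl _) ?_
        exact Finset.biUnion_subset_biUnion_of_subset_left _ Finset.inter_subset_right
      rw [if_pos h2]
      have : (0 : ℝ) ≤ (if 1 ≤ (exitE G Ω D A S).card ∧
          (exitE G Ω D A S).card ≤ M * Δ then (1 : ℝ) else 0) := by split_ifs <;> norm_num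
      linarith
    · have h1 : 1 ≤ (exitE G Ω D A S).card :=
        Finset.card_pos.2 (Finset.nonempty_iff_ne_empty.2 h0)
      have h2 : (exitE G Ω D A S).card ≤ M * Δ :=
        (exit_card_le G hΔ (hcov S hS)).trans (Nat.mul_le_mul_right _ h.le)
      rw [if_pos (⟨h1, h2⟩ : 1 ≤ (exitE G Ω D A S).card ∧
          (exitE G Ω D A S).card ≤ M * Δ)]
      have : (0 : ℝ) ≤ (if Disjoint Far (G.cl S A) then (1 : ℝ) else 0) := by
        split_ifs <;> norm_num
      linarith
  · rw [if_neg h]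
    exact add_nonneg (by split_ifs <;> norm_num) (by split_ifs <;> norm_num)

end blocks

/-- pigeonhole: finitely many types, each with small total mass: one index good for all -/
theorem exists_good_index {ι : Type*} (T : Finset ι) (N : ℕ) (f : ι → ℕ → ℝ)
    (hf : ∀ t ∈ T, ∀ i < N, 0 ≤ f t i) {W β : ℝ}
    (hsum : ∀ t ∈ T, ∑ i ∈ Finset.range N, f t i ≤ W) (hN : (T.card : ℝ) * W < β * N) :
    ∃ i < N, ∀ t ∈ T, f t i ≤ β := by
  by_contra hcon
  push Not at hcon
  have h1 : ∀ i ∈ Finset.range N, β ≤ ∑ t ∈ T, f t i := by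
    intro i hi
    rw [Finset.mem_range] at hi
    obtain ⟨t, ht, hlt⟩ := hcon i hi
    exact hlt.le.trans (Finset.single_le_sum (f := fun t => f t i)
      (fun t ht => hf t ht i hi) ht)
  have h2 : (N : ℝ) * β ≤ ∑ i ∈ Finset.range N, ∑ t ∈ T, f t i := by
    have := Finset.sum_le_sum h1
    rw [Finset.sum_const, Finset.card_range, nsmul_eq_mul] at this
    exact this
  rw [Finset.sum_comm] at h2
  have h3 : ∑ t ∈ T, ∑ i ∈ Finset.range N, f t i ≤ (T.card : ℝ) * W := by
    have := Finset.sum_le_sum hsum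
    rw [Finset.sum_const, nsmul_eq_mul] at this
    exact this
  nlinarith

end Crest.Agent.R147.Mv
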