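import Crest.Agent.R147.Nm53Nat

/-!
# Composition of a bounded number of annealed moves (B5e of #7405), finite hypergraph form

`comp`: stages `j = 0, ..., N`, positions `Pos j` (blocks).  From every block `b ∈ Pos j` the cluster of
`vtx b` inside `Ein j b` touches at least `m * K` blocks of `Tgt j b ⊆ Pos (j+1)` with probability
at least `1 - δ`; the hyperedges `blk b'` of the target blocks are outside `Ein j b`.  Blocks of the
last stage satisfy the goal.  Then the goal is reached from every block of stage `0` with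
probability at least `1 - β`, if `δ, 4/(q m) ≤ del N β`.
-/

set_option autoImplicit false
set_option linter.unusedSectionVars false

open Finset

namespace Crest.Agent.R147.Nm

open Crest.Agent.R147.KN

/-- greedy choice of pairwise unrelated elements -/
theorem exists_indep {α : Type*} [DecidableEq α] (r : α → α → Prop) [DecidableRel r]
    (hrefl : ∀ a, r a a) (K m : ℕ) : ∀ T : Finset α, (∀ a ∈ T, (T.filter fun b => r a b).card ≤ K) →
    m * K ≤ T.card → (∀ a b, r a b → r b a) → (0 < K) →
    ∃ Y ⊆ T, Y.card = m ∧ ∀ a ∈ Y, ∀ b ∈ Y, a ≠ b → ¬ r a b := by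
  induction m with
  | zero =>
    intro T _ _ _ _
    exact ⟨∅, Finset.empty_subset _, rfl, fun a ha => absurd ha (Finset.notMem_empty a)⟩
  | succ m ih =>
    intro T hT hcard hsymm hK
    have hne : T.Nonempty := by
      rw [← Finset.card_pos]
      have : 0 < (m + 1) * K := by positivity
      omega
    obtain ⟨a, ha⟩ := hne
    set T' := T.filter fun b => ¬ r a b with hT'
    have hsub : T' ⊆ T := Finset.filter_subset _ _
    have hcard' : m * K ≤ T'.card := by
      have h1 := Finset.card_filter_add_card_filter_not (s := T) (fun b => r a b)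
      have h2 := hT a ha
      have h3 : (m + 1) * K = m * K + K := by ring
      rw [hT']
      omega
    obtain ⟨Y, hY, hYc, hYi⟩ := ih T' (fun b hb => (Finset.card_le_card
      (Finset.filter_subset_filter _ hsub)).trans (hT b (hsub hb))) hcard' hsymm hK
    have haY : a ∉ Y := fun h => (Finset.mem_filter.1 (hY h)).2 (hrefl a)
    refine ⟨insert a Y, ?_, ?_, ?_⟩
    · exact Finset.insert_subset ha (hY.trans hsub)
    · rw [Finset.card_insert_of_notMem haY, hYc]
    · intro x hx y hy hxy
      rcases Finset.mem_insert.1 hx with rfl | hx'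
      · rcases Finset.mem_insert.1 hy with rfl | hy'
        · exact absurd rfl hxy
        · exact (Finset.mem_filter.1 (hY hy')).2
      · rcases Finset.mem_insert.1 hy with rfl | hy'
        · exact fun h => (Finset.mem_filter.1 (hY hx')).2 (hsymm _ _ h)
        · exact hYi x hx' y hy' hxy

/-- admissible error of a single move when `N` moves are composed -/
noncomputable def del : ℕ → ℝ → ℝ
  | 0, β => β
  | N + 1, β => min (β / 4) (del N (β ^ 2 / 32))

theorem del_pos (N : ℕ) : ∀ {β : ℝ}, 0 < β → 0 < del N β := by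
  induction N with
  | zero => intro β h; exact h
  | succ N ih =>
    intro β h
    exact lt_min (by positivity) (ih (by positivity))

variable {V E : Type*} [DecidableEq V] [DecidableEq E] [Fintype V]

open Classical in
/-- one annealed re-centering with blocks -/
theorem one_move (G : HG V E) {Ω Ein : Finset E} (hin : Ein ⊆ Ω) {B : Type*} [DecidableEq B]
    (A : Finset V) (Tgt : Finset B) (blk : B → Finset E) (nb vtx : B → Finset V)
    (hblk : ∀ b ∈ Tgt, blk b ⊆ Ω \ Ein)
    (hnb : ∀ b ∈ Tgt, ∀ x ∈ nb b, vtx b ⊆ G.cl (blk b) {x})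
    (goal : Finset V → Prop) (hgoal : ∀ C C' : Finset V, C ⊆ C' → goal C → goal C')
    {q : ℝ} (hq : 0 < q) (hqb : ∀ b ∈ Tgt, q ≤ ∏ e ∈ blk b, G.p e)
    {K m : ℕ} (hK : 0 < K) (hm : 0 < m)
    (hover : ∀ b ∈ Tgt, (Tgt.filter fun b' => b' = b ∨ ¬ Disjoint (blk b) (blk b')).card ≤ K)
    {δ e τ : ℝ} (hτ : 0 < τ) (he0 : 0 ≤ e)
    (he : ∀ b ∈ Tgt, G.ex Ω (fun S => if goal (G.cl S (vtx b)) then 0 else 1) ≤ e)
    (hδ : G.ex Ein (fun S =>
      if (Tgt.filter fun b => ¬ Disjoint (nb b) (G.cl S A)).card < m * K then 1 else 0) ≤ δ) :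
    G.ex Ω (fun S => if goal (G.cl S A) then 0 else 1)
      ≤ δ + (4 / (q * m) + 2 * e / τ) + τ := by
  have hmain := nat_kn G hin A (Tgt.sigma fun b => nb b) (fun y => y.2) (fun y => blk y.1)
    (fun y => vtx y.1) (fun y hy => hblk y.1 (Finset.mem_sigma.1 hy).1)
    (fun y hy S hS => (hnb y.1 (Finset.mem_sigma.1 hy).1 y.2 (Finset.mem_sigma.1 hy).2).trans
      (G.cl_mono hS (Finset.Subset.refl _)))
    goal hgoal (fun y hy => he y.1 (Finset.mem_sigma.1 hy).1) hτ hq
    (fun y hy => hqb y.1 (Finset.mem_sigma.1 hy).1) he0 hm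
  refine hmain.trans ?_
  have h1 : G.ex Ein (fun S => if ∃ Y ⊆ (Tgt.sigma fun b => nb b), Y.card = m ∧
            (∀ y ∈ Y, ∀ y' ∈ Y, y ≠ y' → Disjoint (blk y.1) (blk y'.1)) ∧
              ∀ y ∈ Y, y.2 ∈ G.cl S A then (0 : ℝ) else 1)
      ≤ G.ex Ein (fun S =>
      if (Tgt.filter fun b => ¬ Disjoint (nb b) (G.cl S A)).card < m * K then 1 else 0) := by
    refine G.ex_mono fun S _ => ?_
    by_cases hc : (Tgt.filter fun b => ¬ Disjoint (nb b) (G.cl S A)).card < m * K
    · rw [if_pos hc]; split_ifs <;> norm_num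
    · rw [if_neg hc]
      push Not at hc
      set T := Tgt.filter fun b => ¬ Disjoint (nb b) (G.cl S A) with hT
      obtain ⟨Y, hY, hYc, hYi⟩ := exists_indep
        (fun b b' => b' = b ∨ ¬ Disjoint (blk b) (blk b')) (fun a => Or.inl rfl) K m T
        (fun b hb => (Finset.card_le_card (Finset.filter_subset_filter _
          (Finset.filter_subset _ _))).trans (hover b (Finset.mem_filter.1 hb).1)) hc
        (fun a b h => by
          rcases h with h | h
          · exact Or.inl h.symm
          · exact Or.inr (fun h' => h h'.symm)) hK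
      -- choose a touching vertex in each block of `Y`
      have hch : ∀ b : B, ∃ x : V, b ∈ Y → x ∈ nb b ∧ x ∈ G.cl S A := by
        intro b
        by_cases hb : b ∈ Y
        · have := (Finset.mem_filter.1 (hY hb)).2
          rw [Finset.not_disjoint_iff] at this
          obtain ⟨x, hx, hx'⟩ := this
          exact ⟨x, fun _ => ⟨hx, hx'⟩⟩
        · by_cases hV : Nonempty V
          · exact ⟨hV.some, fun h => absurd h hb⟩
          · -- no vertices at all: then `T` is empty
            exfalso
            have hTe : T = ∅ := by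
              apply Finset.eq_empty_of_forall_notMem
              intro b' hb'
              have := (Finset.mem_filter.1 hb').2
              rw [Finset.not_disjoint_iff] at this
              obtain ⟨x, _, _⟩ := this
              exact hV ⟨x⟩
            have : 0 < m * K := by positivity
            rw [hTe, Finset.card_empty] at hc
            omega
      choose x hx using hch
      rw [if_pos]
      refine ⟨Y.image (fun b => (⟨b, x b⟩ : Σ _ : B, V)), ?_, ?_, ?_, ?_⟩
      · intro y hy
        rw [Finset.mem_image] at hy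
        obtain ⟨b, hb, rfl⟩ := hy
        rw [Finset.mem_sigma]
        exact ⟨(Finset.mem_filter.1 (hY hb)).1, (hx b hb).1⟩
      · rw [Finset.card_image_of_injective _ (fun b b' h => by
          simp only [Sigma.mk.injEq] at h; exact h.1), hYc]
      · intro y hy y' hy' hne
        rw [Finset.mem_image] at hy hy'
        obtain ⟨b, hb, rfl⟩ := hy
        obtain ⟨b', hb', rfl⟩ := hy'
        have hbb : b ≠ b' := by
          rintro rfl; exact hne rfl
        have := hYi b hb b' hb' hbb
        push Not at this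
        exact this.2
      · intro y hy
        rw [Finset.mem_image] at hy
        obtain ⟨b, hb, rfl⟩ := hy
        exact (hx b hb).2
  refine add_le_add (add_le_add (le_trans ?_ (h1.trans hδ)) le_rfl) le_rfl
  refine G.ex_mono fun S _ => ?_
  split_ifs <;> simp_all

open Classical in
/-- **composition of `N` annealed moves** -/
theorem comp (G : HG V E) {B : Type*} [DecidableEq B] (Ω : Finset E)
    (blk : B → Finset E) (nb vtx : B → Finset V) (goal : Finset V → Prop)
    (hgoal : ∀ C C' : Finset V, C ⊆ C' → goal C → goal C')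
    {q : ℝ} (hq : 0 < q) {K m : ℕ} (hK : 0 < K) (hm : 0 < m) {δ : ℝ}
    (N : ℕ) (Pos : ℕ → Finset B) (Tgt : ℕ → B → Finset B) (Ein : ℕ → B → Finset E)
    (hend : ∀ b ∈ Pos N, goal (vtx b))
    (hTgt : ∀ j < N, ∀ b ∈ Pos j, Tgt j b ⊆ Pos (j + 1))
    (hEin : ∀ j < N, ∀ b ∈ Pos j, Ein j b ⊆ Ω)
    (hblk : ∀ j < N, ∀ b ∈ Pos j, ∀ b' ∈ Tgt j b, blk b' ⊆ Ω \ Ein j b)
    (hnb : ∀ j < N, ∀ b ∈ Pos j, ∀ b' ∈ Tgt j b, ∀ x ∈ nb b', vtx b' ⊆ G.cl (blk b') {x})
    (hqb : ∀ j < N, ∀ b ∈ Pos j, ∀ b' ∈ Tgt j b, q ≤ ∏ e ∈ blk b', G.p e)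
    (hover : ∀ j < N, ∀ b ∈ Pos j, ∀ b' ∈ Tgt j b,
      ((Tgt j b).filter fun b'' => b'' = b' ∨ ¬ Disjoint (blk b') (blk b'')).card ≤ K)
    (hδ : ∀ j < N, ∀ b ∈ Pos j, G.ex (Ein j b) (fun S =>
      if ((Tgt j b).filter fun b' => ¬ Disjoint (nb b') (G.cl S (vtx b))).card < m * K
        then 1 else 0) ≤ δ) :
    ∀ L j, j + L = N → ∀ β : ℝ, 0 < β → δ ≤ del L β → 4 / (q * m) ≤ del L β →
      ∀ b ∈ Pos j, G.ex Ω (fun S => if goal (G.cl S (vtx b)) then 0 else 1) ≤ β := by
  intro L
  induction L with
  | zero =>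
    intro j hj β hβ _ _ b hb
    have hjN : j = N := by omega
    subst hjN
    refine G.ex_le_of_le fun S _ => ?_
    rw [if_pos (hgoal _ _ (G.subset_cl S _) (hend b hb))]
    exact hβ.le
  | succ L ih =>
    intro j hj β hβ h1 h2 b hb
    have hjN : j < N := by omega
    have he := ih (j + 1) (by omega) (β ^ 2 / 32) (by positivity)
      (h1.trans (min_le_right _ _)) (h2.trans (min_le_right _ _))
    have h3 := one_move G (hEin j hjN b hb) (vtx b) (Tgt j b) blk nb vtx (hblk j hjN b hb)
      (hnb j hjN b hb) goal hgoal hq (hqb j hjN b hb) hK hm (hover j hjN b hb)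
      (τ := β / 4) (by positivity) (e := β ^ 2 / 32) (by positivity)
      (fun b' hb' => he b' (hTgt j hjN b hb hb')) (hδ j hjN b hb)
    have h4 : δ ≤ β / 4 := h1.trans (min_le_left _ _)
    have h5 : 4 / (q * m) ≤ β / 4 := h2.trans (min_le_left _ _)
    have h6 : 2 * (β ^ 2 / 32) / (β / 4) = β / 4 := by
      field_simp
      norm_num
    rw [h6] at h3
    linarith

end Crest.Agent.R147.Nm
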