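import Crest.Agent.R147.KN.Win
import Crest.Agent.R147.Nm53Comp
import Crest.Agent.R147.Mv475Scr

/-!
# E4c of S0207, part 1: chains of moves in infinite volume form
-/

set_option autoImplicit false
set_option linter.unusedSectionVars false

open Finset MeasureTheory ProbabilityTheory unitInterval
open Crest.ProbabilityR.Percolation Crest.Agent.R147.KN

namespace Crest.Agent.R147.Mv

universe u
variable {V : Type u}

open Classical in
/-- a cluster touches a vertex set iff there is a connection -/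
theorem not_disj_iff {G : SimpleGraph V} {Λ : Finset V} {p : ℝ} {h0 : 0 ≤ p} {h1 : p < 1}
    {S : Finset (Sym2 V)} (hS : ∀ e ∈ S, e ∈ G.edgeSet) (hΛ : ∀ e ∈ S, ∀ x ∈ e, x ∈ Λ)
    {A Y : Finset V} (hA : A ⊆ Λ) (hY : Y ⊆ Λ) :
    ¬ Disjoint (Win.res Λ Y) ((Win.hg Λ p h0 h1).cl S (Win.res Λ A))
      ↔ ∃ a ∈ A, ∃ y ∈ Y, (openSubgraph G (↑S : Set (Sym2 V))).Reachable a y := by
  rw [Finset.not_disjoint_iff]
  constructor
  · rintro ⟨y, hy, hy'⟩
    rw [Win.mem_cl_iff hS hΛ] at hy'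
    obtain ⟨a, ha, hr⟩ := hy'
    exact ⟨a.1, Win.mem_res.1 ha, y.1, Win.mem_res.1 hy, hr⟩
  · rintro ⟨a, ha, y, hy, hr⟩
    refine ⟨⟨y, hY hy⟩, Win.mem_res.2 hy, ?_⟩
    rw [Win.mem_cl_iff hS hΛ]
    exact ⟨⟨a, hA ha⟩, Win.mem_res.2 ha, hr⟩

/-- stage sets of a plan -/
noncomputable def Pos [DecidableEq V] (Tgt : Bool → V → Finset V) (pl : ℕ → Bool) (x : V) :
    ℕ → Finset V
  | 0 => {x}
  | j + 1 => (Pos Tgt pl x j).biUnion (Tgt (pl j))

/-- all edges used by a plan -/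
noncomputable def Om [DecidableEq V] [DecidableEq (Sym2 V)] (Ein : Bool → V → Finset (Sym2 V))
    (Tgt : Bool → V → Finset V) (blk : V → Finset (Sym2 V)) (pl : ℕ → Bool) (x : V) (L : ℕ) :
    Finset (Sym2 V) :=
  (Finset.range L).biUnion fun j => (Pos Tgt pl x j).biUnion fun b =>
    Ein (pl j) b ∪ (Tgt (pl j) b).biUnion blk

/-- all vertices relevant for a plan -/
noncomputable def Vx [DecidableEq V] [DecidableEq (Sym2 V)]
    (B nb : V → Finset V) (Tgt : Bool → V → Finset V) (pl : ℕ → Bool) (x : V) (L : ℕ) :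
    Finset V :=
  (Finset.range (L + 1)).biUnion fun j => (Pos Tgt pl x j).biUnion fun b => B b ∪ nb b

theorem ends_finite (S : Finset (Sym2 V)) : {v | ∃ e ∈ S, v ∈ e}.Finite := by
  classical
  have : {v | ∃ e ∈ S, v ∈ e} = ⋃ e ∈ S, {v | v ∈ e} := by ext v; simp
  rw [this]
  refine S.finite_toSet.biUnion fun e _ => ?_
  induction e using Sym2.ind with
  | _ a b =>
    have h : {v | v ∈ s(a, b)} = {a, b} := by ext v; simp
    rw [h]
    exact Set.toFinite _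

/-- end points of a finite set of edges -/
noncomputable def ends (S : Finset (Sym2 V)) : Finset V := (ends_finite S).toFinset

theorem mem_ends {S : Finset (Sym2 V)} {v : V} : v ∈ ends S ↔ ∃ e ∈ S, v ∈ e := by
  unfold ends
  rw [Set.Finite.mem_toFinset]
  rfl

theorem Nm_del_mono (N : ℕ) : ∀ {β β' : ℝ}, 0 ≤ β → β ≤ β' → Nm.del N β ≤ Nm.del N β' := by
  induction N with
  | zero => intro β β' _ h; exact h
  | succ N ih =>
    intro β β' h0 h
    refine min_le_min (by linarith) (ih (by positivity) ?_)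
    nlinarith

theorem Nm_del_anti {N N' : ℕ} (hN : N ≤ N') : ∀ {β : ℝ}, 0 < β → β ≤ 1 →
    Nm.del N' β ≤ Nm.del N β := by
  have step : ∀ N, ∀ {β : ℝ}, 0 < β → β ≤ 1 → Nm.del (N + 1) β ≤ Nm.del N β := by
    intro N β h0 h1
    refine (min_le_right _ _).trans (Nm_del_mono N (by positivity) ?_)
    nlinarith
  induction N', hN using Nat.le_induction with
  | base => intro β _ _; exact le_rfl
  | succ N' _ ih =>
    intro β h0 h1
    exact (step N' h0 h1).trans (ih h0 h1)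

section chain

variable [Countable V]

open Classical in
/-- **chain of moves** (infinite volume form) -/
theorem chain (G : SimpleGraph V) (p : I) (hp0 : 0 < (p : ℝ)) (hp1 : (p : ℝ) < 1)
    (B nb : V → Finset V) (blk : V → Finset (Sym2 V))
    (Ein : Bool → V → Finset (Sym2 V)) (Tgt : Bool → V → Finset V)
    (hblkE : ∀ x, ∀ e ∈ blk x, e ∈ G.edgeSet)
    (hconn : ∀ x, ∀ y ∈ nb x, ∀ z ∈ B x,
      (openSubgraph G (↑(blk x) : Set (Sym2 V))).Reachable y z)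
    {Δ K m : ℕ} (hK : 0 < K) (hm : 0 < m)
    (O : Set V) (hcard : ∀ x ∈ O, (blk x).card ≤ Δ)
    (hover : ∀ x ∈ O, ∀ F : Finset V, (∀ y ∈ F, y ∈ O) →
      (F.filter fun y => y = x ∨ ¬ Disjoint (blk x) (blk y)).card ≤ K)
    (hEinE : ∀ i, ∀ x ∈ O, ∀ e ∈ Ein i x, e ∈ G.edgeSet)
    (hTgtO : ∀ i, ∀ x ∈ O, ∀ f ∈ Tgt i x, f ∈ O)
    (hdisj : ∀ i, ∀ x ∈ O, ∀ f ∈ Tgt i x, Disjoint (blk f) (Ein i x))
    {δ : ℝ} (hfail : ∀ i, ∀ x ∈ O, (setBernoulli G.edgeSet p).real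
      {ω | ((Tgt i x).filter fun f => ∃ a ∈ B x, ∃ y ∈ nb f,
        (openSubgraph G (ω ∩ (↑(Ein i x) : Set (Sym2 V)))).Reachable a y).card < m * K} ≤ δ)
    (pl : ℕ → Bool) (L : ℕ) {β : ℝ} (hβ : 0 < β) (hδ : δ ≤ Nm.del L β)
    (hq : 4 / ((p : ℝ) ^ Δ * m) ≤ Nm.del L β)
    (x : V) (hx : x ∈ O) (Far : Set V)
    (hend : ∀ b ∈ Pos Tgt pl x L, ∃ v ∈ B b, v ∈ Far) :
    (setBernoulli G.edgeSet p).real
      {ω | ¬ ∃ a ∈ B x, ∃ v ∈ Far,
        (openSubgraph G (ω ∩ (↑(Om Ein Tgt blk pl x L) : Set (Sym2 V)))).Reachable a v} ≤ β := by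
  set Ω := Om Ein Tgt blk pl x L with hΩ
  set Λ : Finset V := Vx B nb Tgt pl x L ∪ ends Ω with hΛdef
  set H := Win.hg Λ (p : ℝ) hp0.le hp1 with hH
  have hPosO : ∀ j, ∀ b ∈ Pos Tgt pl x j, b ∈ O := by
    intro j
    induction j with
    | zero => intro b hb; rw [Pos, Finset.mem_singleton] at hb; rw [hb]; exact hx
    | succ j ih =>
      intro b hb
      rw [Pos, Finset.mem_biUnion] at hb
      obtain ⟨a, ha, hb⟩ := hb
      exact hTgtO _ a (ih a ha) b hb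
  have hEinΩ : ∀ j < L, ∀ b ∈ Pos Tgt pl x j, Ein (pl j) b ⊆ Ω := by
    intro j hj b hb e he
    rw [hΩ, Om, Finset.mem_biUnion]
    refine ⟨j, Finset.mem_range.2 hj, ?_⟩
    rw [Finset.mem_biUnion]
    exact ⟨b, hb, Finset.mem_union_left _ he⟩
  have hblkΩ : ∀ j < L, ∀ b ∈ Pos Tgt pl x j, ∀ f ∈ Tgt (pl j) b, blk f ⊆ Ω := by
    intro j hj b hb f hf e he
    rw [hΩ, Om, Finset.mem_biUnion]
    refine ⟨j, Finset.mem_range.2 hj, ?_⟩
    rw [Finset.mem_biUnion]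
    exact ⟨b, hb, Finset.mem_union_right _ (Finset.mem_biUnion.2 ⟨f, hf, he⟩)⟩
  have hΩE : ∀ e ∈ Ω, e ∈ G.edgeSet := by
    intro e he
    rw [hΩ, Om, Finset.mem_biUnion] at he
    obtain ⟨j, hj, he⟩ := he
    rw [Finset.mem_biUnion] at he
    obtain ⟨b, hb, he⟩ := he
    rcases Finset.mem_union.1 he with he | he
    · exact hEinE _ b (hPosO j b hb) e he
    · obtain ⟨f, _, he⟩ := Finset.mem_biUnion.1 he
      exact hblkE f e he
  have hΛe : ∀ e ∈ Ω, ∀ v ∈ e, v ∈ Λ := fun e he v hv =>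
    Finset.mem_union_right _ (mem_ends.2 ⟨e, he, hv⟩)
  have hΛB : ∀ j ≤ L, ∀ b ∈ Pos Tgt pl x j, B b ∪ nb b ⊆ Λ := by
    intro j hj b hb v hv
    refine Finset.mem_union_left _ ?_
    rw [Vx, Finset.mem_biUnion]
    refine ⟨j, Finset.mem_range.2 (by omega), ?_⟩
    rw [Finset.mem_biUnion]
    exact ⟨b, hb, hv⟩
  have hTgtPos : ∀ j < L, ∀ b ∈ Pos Tgt pl x j, Tgt (pl j) b ⊆ Pos Tgt pl x (j + 1) := by
    intro j _ b hb f hf
    rw [Pos, Finset.mem_biUnion]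
    exact ⟨b, hb, hf⟩
  have hμ : ∀ (E : Finset (Sym2 V)), (∀ e ∈ E, e ∈ G.edgeSet) → ∀ Q : Set (Sym2 V) → Prop,
      (setBernoulli G.edgeSet p).real {ω | Q (ω ∩ (↑E : Set (Sym2 V)))}
      = H.ex E (fun S => if Q (↑S : Set (Sym2 V)) then 1 else 0) := by
    intro E hE Q
    exact Win.real_eq_ex H G.edgeSet p (fun e => Win.hg_p e) E (fun e he => hE e he) Q
  have hcomp := Nm.comp H (B := V) Ω blk (fun f => Win.res Λ (nb f)) (fun f => Win.res Λ (B f))
    (fun C => ∃ v ∈ C, (v : V) ∈ Far) (fun C C' hCC' ⟨v, hv, hv'⟩ => ⟨v, hCC' hv, hv'⟩)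
    (q := (p : ℝ) ^ Δ) (pow_pos hp0 Δ) hK hm (δ := δ) L (Pos Tgt pl x)
    (fun j => Tgt (pl j)) (fun j => Ein (pl j)) ?_ hTgtPos hEinΩ ?_ ?_ ?_ ?_ ?_ L 0 (by omega)
    β hβ hδ hq x (by rw [Pos]; exact Finset.mem_singleton_self x)
  · rw [hμ Ω hΩE (fun S => ¬ ∃ a ∈ B x, ∃ v ∈ Far, (openSubgraph G S).Reachable a v)]
    refine le_trans (H.ex_mono fun S hS => ?_) hcomp
    by_cases hg : ∃ v ∈ H.cl S (Win.res Λ (B x)), (v : V) ∈ Far
    · obtain ⟨v, hv, hvF⟩ := hg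
      have hv' := hv
      rw [hH, Win.mem_cl_iff (fun e he => hΩE e (hS he)) (fun e he => hΛe e (hS he))] at hv'
      obtain ⟨a, ha, hr⟩ := hv'
      rw [if_neg (not_not.2 ⟨a.1, Win.mem_res.1 ha, v.1, hvF, hr⟩)]
      split_ifs <;> norm_num
    · rw [if_neg hg]
      split_ifs <;> norm_num
  · intro b hb
    obtain ⟨v, hv, hvF⟩ := hend b hb
    exact ⟨⟨v, hΛB L le_rfl b hb (Finset.mem_union_left _ hv)⟩, Win.mem_res.2 hv, hvF⟩
  · intro j hj b hb f hf e he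
    rw [Finset.mem_sdiff]
    exact ⟨hblkΩ j hj b hb f hf he,
      Finset.disjoint_left.1 (hdisj _ b (hPosO j b hb) f hf) he⟩
  · intro j hj b hb f hf y hy z hz
    have hS : ∀ e ∈ blk f, ∀ v ∈ e, v ∈ Λ := fun e he => hΛe e (hblkΩ j hj b hb f hf he)
    rw [hH, Win.mem_cl_iff (hblkE f) hS]
    exact ⟨y, Finset.mem_singleton_self y,
      hconn f y.1 (Win.mem_res.1 hy) z.1 (Win.mem_res.1 hz)⟩
  · intro j hj b hb f hf
    have hfO : f ∈ O := hTgtO _ b (hPosO j b hb) f hf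
    have : ∏ e ∈ blk f, H.p e = (p : ℝ) ^ (blk f).card := by
      rw [Finset.prod_congr rfl (fun e _ => Win.hg_p e), Finset.prod_const]
    rw [this]
    exact pow_le_pow_of_le_one hp0.le hp1.le (hcard f hfO)
  · intro j hj b hb f hf
    exact hover f (hTgtO _ b (hPosO j b hb) f hf) _
      (fun y hy => hTgtO _ b (hPosO j b hb) y hy)
  · intro j hj b hb
    have hbO := hPosO j b hb
    refine le_trans (le_of_eq ?_) (hfail (pl j) b hbO)
    rw [hμ (Ein (pl j) b) (hEinE _ b hbO) (fun S => ((Tgt (pl j) b).filter fun f =>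
      ∃ a ∈ B b, ∃ y ∈ nb f, (openSubgraph G S).Reachable a y).card < m * K)]
    refine H.ex_congr fun S hS => ?_
    have hfe : (Tgt (pl j) b).filter (fun b' => ¬ Disjoint (Win.res Λ (nb b'))
        (H.cl S (Win.res Λ (B b)))) = (Tgt (pl j) b).filter (fun f =>
      ∃ a ∈ B b, ∃ y ∈ nb f, (openSubgraph G (↑S : Set (Sym2 V))).Reachable a y) := by
      refine Finset.filter_congr fun f hf => ?_
      exact not_disj_iff (fun e he => hEinE _ b hbO e (hS he))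
        (fun e he => hΛe e (hEinΩ j hj b hb (hS he)))
        ((Finset.subset_union_left).trans (hΛB j hj.le b hb))
        ((Finset.subset_union_right).trans (hΛB (j + 1) (by omega) f
          (hTgtPos j hj b hb hf)))
    rw [hfe]
    by_cases hc : ((Tgt (pl j) b).filter (fun f =>
      ∃ a ∈ B b, ∃ y ∈ nb f, (openSubgraph G (↑S : Set (Sym2 V))).Reachable a y)).card < m * K
    · rw [if_pos hc, if_pos hc]
    · rw [if_neg hc, if_neg hc]

end chain

end Crest.Agent.R147.Mv
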