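import Mathlib

/-!
# R147, block B5c: nested strips (helper70)

Purely order-theoretic / geometric core: from an abstract "exit function" `f R I M`
(probability that at most `M` exits of the region `R` lie in the class `I`) satisfying FKG and the
uniform exit lemma, produce two good moves `u₁ = (0,1)`, `u₂ = (1,y)`, `|y| ≤ 1` in suitable
linear coordinates `(X',Y')`, with small errors.
-/

open Set Function

namespace Crest.Agent.R147.Ns70

abbrev P := ℤ × ℤ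

/-- box of radius `r`. -/
def box (r : ℝ) : Set P := {v | |(v.1 : ℝ)| ≤ r ∧ |(v.2 : ℝ)| ≤ r}

/-- outer boundary layer of thickness `C`. -/
def obd (C : ℝ) (R : Set P) : Set P := {v | v ∉ R ∧ ∃ w ∈ R, v - w ∈ box C}

/-- The abstract axioms (the INPUT of helper592, #7539; only FKG and EXIT matter). -/
structure Ax (f : Set P → Set P → ℕ → ℝ) (C0 n0 : ℝ) (K m : ℕ) (δ : ℝ) : Prop where
  nonneg : ∀ R I M, 0 ≤ f R I M
  le_one : ∀ R I M, f R I M ≤ 1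
  anti : ∀ R I I' M, I ⊆ I' → f R I' M ≤ f R I M
  mono : ∀ R I M M', M ≤ M' → f R I M ≤ f R I M'
  layer : ∀ R I M, f R I M = f R (I ∩ obd C0 R) M
  fkg : ∀ R I J M M', f R I M * f R J M' ≤ f R (I ∪ J) (M + M')
  exit : ∀ W : ℝ, ∃ l : ℝ, ∀ R : Set P, box n0 ⊆ R → ∀ α β : ℝ, (1 ≤ |α| ∨ 1 ≤ |β|) →
    (∀ v ∈ R, |α * v.1 + β * v.2| ≤ W) → f R (box l) (8 * K * m) ≤ δ ^ (8 * K)

variable {f : Set P → Set P → ℕ → ℝ} {C0 n0 : ℝ} {K m : ℕ} {δ : ℝ}

/-- pigeonhole through FKG: if a union of `n+1` classes is good at level `δ^(n+1)`, one of them is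
good at level `δ`. -/
lemma Ax.prod_lt (h : Ax f C0 n0 K m δ) (hδ : 0 < δ) (R : Set P) (I : ℕ → Set P) (n : ℕ)
    (hI : ∀ j < n + 1, δ < f R (I j) m) :
    δ ^ (n + 1) < f R (⋃ j ∈ Finset.range (n + 1), I j) ((n + 1) * m) := by
  induction n with
  | zero =>
    have := hI 0 (by norm_num)
    simpa using this
  | succ n ih =>
    have ih' := ih (fun j hj => hI j (by omega))
    have h2 := hI (n + 1) (by omega)
    have h3 := h.fkg R (⋃ j ∈ Finset.range (n + 1), I j) (I (n + 1)) ((n + 1) * m) m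
    have h4 : (⋃ j ∈ Finset.range (n + 1 + 1), I j)
        = (⋃ j ∈ Finset.range (n + 1), I j) ∪ I (n + 1) := by
      ext v
      simp only [Finset.mem_range, mem_iUnion, mem_union, exists_prop]
      constructor
      · rintro ⟨j, hj, hv⟩
        rcases Nat.lt_succ_iff_lt_or_eq.1 hj with h | h
        · exact Or.inl ⟨j, h, hv⟩
        · subst h; exact Or.inr hv
      · rintro (⟨j, hj, hv⟩ | hv)
        · exact ⟨j, by omega, hv⟩
        · exact ⟨n + 1, by omega, hv⟩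
    rw [h4]
    have h5 : (n + 1) * m + m = (n + 1 + 1) * m := by ring
    rw [h5] at h3
    refine lt_of_lt_of_le ?_ h3
    rw [pow_succ]
    exact mul_lt_mul'' ih' h2 (by positivity) hδ.le

lemma Ax.piece (h : Ax f C0 n0 K m δ) (hδ : 0 < δ) (R : Set P) (I : ℕ → Set P) {n : ℕ} (hn : 0 < n)
    (U : Set P) (hU : U ∩ obd C0 R ⊆ ⋃ j ∈ Finset.range n, I j)
    (hI : f R U (n * m) ≤ δ ^ n) : ∃ j < n, f R (I j) m ≤ δ := by
  by_contra hcon
  push Not at hcon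
  obtain ⟨n, rfl⟩ : ∃ k, n = k + 1 := ⟨n - 1, by omega⟩
  have h1 := h.prod_lt hδ R I n hcon
  have h2 : f R (⋃ j ∈ Finset.range (n + 1), I j) ((n + 1) * m) ≤ f R U ((n + 1) * m) := by
    rw [h.layer R U]
    exact h.anti _ _ _ _ hU
  linarith

/-- dichotomy -/
lemma Ax.dich (h : Ax f C0 n0 K m δ) (hδ : 0 < δ) (R : Set P) (I J : Set P)
    (hIJ : f R (I ∪ J) (8 * K * m) ≤ δ ^ (8 * K)) :
    f R I (4 * K * m) ≤ δ ^ (4 * K) ∨ f R J (4 * K * m) ≤ δ ^ (4 * K) := by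
  by_contra hcon
  push Not at hcon
  have h3 := h.fkg R I J (4 * K * m) (4 * K * m)
  have h4 : δ ^ (4 * K) * δ ^ (4 * K) < f R I (4 * K * m) * f R J (4 * K * m) :=
    mul_lt_mul'' hcon.1 hcon.2 (by positivity) (by positivity)
  rw [← pow_add] at h4
  have h5 : 4 * K + 4 * K = 8 * K := by ring
  have h6 : 4 * K * m + 4 * K * m = 8 * K * m := by ring
  rw [h5] at h4
  rw [h6] at h3
  linarith

/-- The shapes: `|x| ≤ T`, `|y - s x| ≤ b`. -/
def Q (T b s : ℝ) : Set P := {v | |(v.1 : ℝ)| ≤ T ∧ |(v.2 : ℝ) - s * v.1| ≤ b}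

def Ends (T : ℝ) : Set P := {v | T < |(v.1 : ℝ)|}

def Sides (T b s : ℝ) : Set P := {v | |(v.1 : ℝ)| ≤ T ∧ b < |(v.2 : ℝ) - s * v.1|}

lemma ends_union_sides (T b s : ℝ) : Ends T ∪ Sides T b s = (Q T b s)ᶜ := by
  ext v
  simp only [Ends, Sides, Q, mem_union, mem_ofPred_eq, mem_compl_iff, not_and_or, not_le]
  constructor
  · rintro (h | h)
    · exact Or.inl h
    · exact Or.inr h.2
  · rintro (h | h)
    · exact Or.inl h
    · by_cases h' : |(v.1 : ℝ)| ≤ T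
      · exact Or.inr ⟨h', h⟩
      · exact Or.inl (not_le.1 h')

lemma box_sub_Q {T b s r : ℝ} (hT : r ≤ T) (hs : |s| ≤ 2) (hb : 3 * r ≤ b) : box r ⊆ Q T b s := by
  rintro v ⟨h1, h2⟩
  refine ⟨h1.trans hT, ?_⟩
  have : |(v.2 : ℝ) - s * v.1| ≤ |(v.2 : ℝ)| + |s * v.1| := abs_sub _ _
  rw [abs_mul] at this
  have h3 : |s| * |(v.1 : ℝ)| ≤ 2 * r := by
    apply mul_le_mul hs h1 (abs_nonneg _) (by norm_num)
  linarith

/-- every shape in a strip: total exits good -/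
lemma Ax.total (h : Ax f C0 n0 K m δ) {l W : ℝ}
    (hl : ∀ R : Set P, box n0 ⊆ R → ∀ α β : ℝ, (1 ≤ |α| ∨ 1 ≤ |β|) →
    (∀ v ∈ R, |α * v.1 + β * v.2| ≤ W) → f R (box l) (8 * K * m) ≤ δ ^ (8 * K))
    {T b s : ℝ} (hT : n0 ≤ T) (hs : |s| ≤ 2) (hb : 3 * n0 ≤ b) (hbW : b ≤ W) :
    f (Q T b s) (Ends T ∪ Sides T b s) (8 * K * m) ≤ δ ^ (8 * K) ∧
    (l ≤ T → f (Q T b s) (Sides T b s) (8 * K * m) ≤ δ ^ (8 * K)) := by
  have h1 := hl (Q T b s) (box_sub_Q hT hs hb) (-s) 1 (Or.inr (by simp)) (by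
    rintro v ⟨_, h2⟩
    refine le_trans (le_of_eq ?_) (h2.trans hbW)
    congr 1; ring)
  constructor
  · refine le_trans ?_ h1
    rw [h.layer (Q T b s) (box l)]
    apply h.anti
    rintro v ⟨_, hv⟩
    rw [ends_union_sides]
    exact hv.1
  · intro hlT
    refine le_trans ?_ h1
    rw [h.layer (Q T b s) (box l)]
    apply h.anti
    rintro v ⟨hv1, hv⟩
    refine ⟨hv1.1.trans hlT, ?_⟩
    by_contra hcon
    exact hv.1 ⟨hv1.1.trans hlT, not_lt.1 hcon⟩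

/-- index of the cell containing `u ∈ [0, 2K]`, clamped. -/
noncomputable def cell (K : ℕ) (u : ℝ) : ℕ := min ⌊u⌋.toNat (2 * K - 1)

lemma cell_lt (hK : 0 < K) (u : ℝ) : cell K u < 2 * K := by
  have : cell K u ≤ 2 * K - 1 := min_le_right _ _
  omega

lemma cell_spec (hK : 0 < K) {u η : ℝ} (hη : 0 ≤ η) (h1 : -η ≤ u) (h2 : u ≤ 2 * K + η) :
    (cell K u : ℝ) - η ≤ u ∧ u ≤ cell K u + 1 + η := by
  have hK' : (1 : ℝ) ≤ K := by exact_mod_cast hK
  unfold cell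
  have hc : ((2 * K - 1 : ℕ) : ℝ) = 2 * K - 1 := by
    rw [Nat.cast_sub (by omega)]; push_cast; ring
  rcases lt_or_ge u 0 with hu | hu
  · have : ⌊u⌋.toNat = 0 := by
      rw [Int.toNat_eq_zero]
      have : ⌊u⌋ < 0 := Int.floor_lt.2 (by simpa using hu)
      omega
    rw [this]
    simp only [Nat.zero_le, inf_of_le_left, Nat.cast_zero]
    constructor <;> linarith
  · have h0 : 0 ≤ ⌊u⌋ := Int.floor_nonneg.2 hu
    have hcast : ((⌊u⌋.toNat : ℕ) : ℝ) = (⌊u⌋ : ℝ) := by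
      have : ((⌊u⌋.toNat : ℤ)) = ⌊u⌋ := Int.toNat_of_nonneg h0
      exact_mod_cast congrArg (fun z : ℤ => (z : ℝ)) this
    rcases le_total ⌊u⌋.toNat (2 * K - 1) with h | h
    · rw [min_eq_left h, hcast]
      have := Int.floor_le u
      have := Int.lt_floor_add_one u
      constructor <;> linarith
    · rw [min_eq_right h, hc]
      have h3 : ((2 * K - 1 : ℕ) : ℝ) ≤ (⌊u⌋.toNat : ℕ) := by exact_mod_cast h
      rw [hc, hcast] at h3
      have := Int.floor_le u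
      constructor <;> linarith

/-- centre of the `j`-th cell in `[-1,1]`. -/
noncomputable def ctr (K j : ℕ) : ℝ := -1 + (2 * j + 1) / (2 * K)

lemma abs_ctr_le {j : ℕ} (hK : 0 < K) (hj : j < 2 * K) : |ctr K j| ≤ 1 := by
  have hK' : (1 : ℝ) ≤ K := by exact_mod_cast hK
  have hj' : (j : ℝ) + 1 ≤ 2 * K := by exact_mod_cast hj
  have hj0 : (0 : ℝ) ≤ j := by positivity
  unfold ctr
  rw [abs_le]
  constructor
  · have : (0 : ℝ) ≤ (2 * j + 1) / (2 * K) := by positivity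
    linarith
  · have : ((2 : ℝ) * j + 1) / (2 * K) ≤ 2 := by
      rw [div_le_iff₀ (by positivity)]
      linarith
    linarith

lemma cell_ctr (hK : 0 < K) {τ ξ : ℝ} (hξ : 0 ≤ ξ) (h : |τ| ≤ 1 + ξ) :
    |τ - ctr K (cell K ((τ + 1) * K))| ≤ 1 / (2 * K) + ξ := by
  have hK' : (1 : ℝ) ≤ K := by exact_mod_cast hK
  have hKp : (0 : ℝ) < K := by linarith
  rw [abs_le] at h
  have h1 : -(ξ * K) ≤ (τ + 1) * K := by nlinarith
  have h2 : (τ + 1) * K ≤ 2 * K + ξ * K := by nlinarith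
  obtain ⟨h3, h4⟩ := cell_spec (K := K) hK (by positivity) h1 h2
  set j := cell K ((τ + 1) * K)
  unfold ctr
  have e1 : τ - (-1 + (2 * (j : ℝ) + 1) / (2 * K)) = ((τ + 1) * K - (j + 1 / 2)) / K := by
    field_simp; ring
  have e2 : 1 / (2 * (K : ℝ)) + ξ = (1 / 2 + ξ * K) / K := by
    field_simp
  rw [e1, e2, abs_div, abs_of_pos hKp]
  apply div_le_div_of_nonneg_right _ hKp.le
  rw [abs_le]
  constructor <;> linarith

lemma obd_Q {T b s C0 : ℝ} (hs : |s| ≤ 2) {v : P} (hv : v ∈ obd C0 (Q T b s)) :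
    |(v.1 : ℝ)| ≤ T + C0 ∧ |(v.2 : ℝ) - s * v.1| ≤ b + 3 * C0 := by
  obtain ⟨_, w, ⟨hw1, hw2⟩, hvw1, hvw2⟩ := hv
  simp only [Prod.fst_sub, Prod.snd_sub, Int.cast_sub] at hvw1 hvw2
  constructor
  · have : (v.1 : ℝ) = w.1 + (v.1 - w.1) := by ring
    rw [this]
    exact (abs_add_le _ _).trans (add_le_add hw1 hvw1)
  · have e : (v.2 : ℝ) - s * v.1 = (w.2 - s * w.1) + ((v.2 - w.2) - s * (v.1 - w.1)) := by ring
    rw [e]
    refine (abs_add_le _ _).trans (add_le_add hw2 ?_)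
    refine (abs_sub _ _).trans ?_
    rw [abs_mul]
    have : |s| * |(v.1 : ℝ) - w.1| ≤ 2 * C0 := mul_le_mul hs hvw1 (abs_nonneg _) (by norm_num)
    linarith

/-- STEP: if the ends are good, a small piece of them is good. -/
lemma Ax.step (h : Ax f C0 n0 K m δ) (hδ : 0 < δ) (hK : 0 < K) (hC : 0 ≤ C0) {T b s : ℝ}
    (hb : 0 < b) (hbT : b ≤ T) (hs : |s| ≤ 2) (hbK : 8 * K * C0 ≤ b)
    (hE : f (Q T b s) (Ends T) (4 * K * m) ≤ δ ^ (4 * K)) :
    ∃ σ : ℤ, (σ = 1 ∨ σ = -1) ∧ ∃ s' : ℝ, |s' - s| ≤ b / T ∧ ∃ J : Set P, J ⊆ obd C0 (Q T b s) ∧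
      f (Q T b s) J m ≤ δ ∧ ∀ v ∈ J, T < σ * (v.1 : ℝ) ∧ σ * (v.1 : ℝ) ≤ T + C0 ∧
        |(v.2 : ℝ) - s' * v.1| ≤ b / K := by
  have hT : 0 < T := hb.trans_le hbT
  have hK' : (1 : ℝ) ≤ K := by exact_mod_cast hK
  set τ : P → ℝ := fun v => ((v.2 : ℝ) - s * v.1) / b with hτ
  set I : ℕ → Set P := fun j =>
    if j < 2 * K then {v | T < (v.1 : ℝ) ∧ cell K ((τ v + 1) * K) = j}
    else {v | T < -(v.1 : ℝ) ∧ cell K ((τ v + 1) * K) = j - 2 * K} with hI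
  obtain ⟨j, hj, hfj⟩ := h.piece hδ (Q T b s) I (n := 4 * K) (by omega) (Ends T) (by
    rintro v ⟨hv, _⟩
    have hc := cell_lt (K := K) hK ((τ v + 1) * K)
    simp only [Ends, mem_ofPred_eq] at hv
    rcases lt_abs.1 hv with hv | hv
    · refine mem_biUnion (x := cell K ((τ v + 1) * K)) (Finset.mem_coe.2 (Finset.mem_range.2 (by omega))) ?_
      simp only [hI, hc, if_true]
      exact ⟨hv, rfl⟩
    · refine mem_biUnion (x := cell K ((τ v + 1) * K) + 2 * K) (Finset.mem_coe.2 (Finset.mem_range.2 (by omega))) ?_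
      simp only [hI]
      rw [if_neg (by omega)]
      exact ⟨hv, by omega⟩) hE
  -- the common estimate
  have key : ∀ (σ : ℤ), (σ = 1 ∨ σ = -1) → ∀ j < 2 * K, ∀ v ∈ obd C0 (Q T b s),
      T < σ * (v.1 : ℝ) → cell K ((τ v + 1) * K) = j →
      σ * (v.1 : ℝ) ≤ T + C0 ∧ |(v.2 : ℝ) - (s + σ * ctr K j * b / T) * v.1| ≤ b / K := by
    intro σ hσ j hj v hv hTv hcell
    obtain ⟨h1, h2⟩ := obd_Q hs hv
    have hσ1 : |(σ : ℝ)| = 1 := by rcases hσ with rfl | rfl <;> simp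
    have hσ2 : (σ : ℝ) * σ = 1 := by rcases hσ with rfl | rfl <;> simp
    have h3 : σ * (v.1 : ℝ) ≤ T + C0 := by
      refine (le_abs_self _).trans ?_
      rw [abs_mul, hσ1, one_mul]; exact h1
    refine ⟨h3, ?_⟩
    have h4 : |τ v| ≤ 1 + 3 * C0 / b := by
      simp only [hτ]
      rw [abs_div, abs_of_pos hb, div_le_iff₀ hb]
      have : (1 + 3 * C0 / b) * b = b + 3 * C0 := by field_simp
      rw [this]; exact h2
    have h5 := cell_ctr (K := K) hK (by positivity) h4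
    rw [hcell] at h5
    have e1 : (v.2 : ℝ) - (s + σ * ctr K j * b / T) * v.1
        = b * ((τ v - ctr K j) - ctr K j * (σ * v.1 / T - 1)) := by
      simp only [hτ]
      field_simp
      ring
    rw [e1, abs_mul, abs_of_pos hb]
    have h6 : |ctr K j * (σ * v.1 / T - 1)| ≤ C0 / T := by
      rw [abs_mul]
      have : |(σ * v.1 / T - 1 : ℝ)| ≤ C0 / T := by
        have e : (σ * v.1 / T - 1 : ℝ) = (σ * v.1 - T) / T := by field_simp
        rw [e, abs_div, abs_of_pos hT]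
        apply div_le_div_of_nonneg_right _ hT.le
        rw [abs_of_pos (by linarith)]
        linarith
      calc |ctr K j| * |(σ * v.1 / T - 1 : ℝ)| ≤ 1 * (C0 / T) :=
            mul_le_mul (abs_ctr_le hK hj) this (abs_nonneg _) (by norm_num)
        _ = C0 / T := one_mul _
    have h7 : C0 / T ≤ C0 / b := div_le_div_of_nonneg_left hC hb hbT
    have h8 : |(τ v - ctr K j) - ctr K j * (σ * v.1 / T - 1)| ≤ 1 / (2 * K) + 4 * C0 / b := by
      refine (abs_sub _ _).trans ?_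
      have : 4 * C0 / b = 3 * C0 / b + C0 / b := by ring
      linarith
    calc b * |(τ v - ctr K j) - ctr K j * (σ * v.1 / T - 1)|
        ≤ b * (1 / (2 * K) + 4 * C0 / b) := by gcongr
      _ = b / (2 * K) + 4 * C0 := by field_simp
      _ ≤ b / (2 * K) + b / (2 * K) := by
          gcongr
          rw [le_div_iff₀ (by positivity)]
          linarith
      _ = b / K := by field_simp; ring
  have hslope : ∀ (σ : ℤ), (σ = 1 ∨ σ = -1) → ∀ j < 2 * K,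
      |(s + σ * ctr K j * b / T) - s| ≤ b / T := by
    intro σ hσ j hj
    have hσ1 : |(σ : ℝ)| = 1 := by rcases hσ with rfl | rfl <;> simp
    have e : (s + σ * ctr K j * b / T) - s = σ * (ctr K j) * (b / T) := by ring
    rw [e, abs_mul, abs_mul, hσ1, one_mul, abs_of_pos (show 0 < b / T by positivity)]
    calc |ctr K j| * (b / T) ≤ 1 * (b / T) := by
          gcongr; exact abs_ctr_le hK hj
      _ = b / T := one_mul _
  by_cases hj2 : j < 2 * K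
  · refine ⟨1, Or.inl rfl, s + ((1 : ℤ) : ℝ) * ctr K j * b / T, hslope 1 (Or.inl rfl) j hj2,
      I j ∩ obd C0 (Q T b s), inter_subset_right, ?_, ?_⟩
    · rw [← h.layer]; exact hfj
    · rintro v ⟨hv, hvo⟩
      simp only [hI, hj2, if_true] at hv
      have h1 : T < ((1 : ℤ) : ℝ) * (v.1 : ℝ) := by simpa using hv.1
      exact ⟨h1, key 1 (Or.inl rfl) j hj2 v hvo h1 hv.2⟩
  · refine ⟨-1, Or.inr rfl, s + ((-1 : ℤ) : ℝ) * ctr K (j - 2 * K) * b / T,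
      hslope (-1) (Or.inr rfl) (j - 2 * K) (by omega),
      I j ∩ obd C0 (Q T b s), inter_subset_right, ?_, ?_⟩
    · rw [← h.layer]; exact hfj
    · rintro v ⟨hv, hvo⟩
      simp only [hI, hj2, if_false] at hv
      have h1 : T < ((-1 : ℤ) : ℝ) * (v.1 : ℝ) := by
        have := hv.1
        push_cast; linarith
      exact ⟨h1, key (-1) (Or.inr rfl) (j - 2 * K) (by omega) v hvo h1 hv.2⟩

/-- STOP: if the sides are good, a small piece of them is good. -/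
lemma Ax.stop (h : Ax f C0 n0 K m δ) (hδ : 0 < δ) (hK : 0 < K) {T b s : ℝ}
    (hT : 0 < T) (hs : |s| ≤ 2)
    (hE : f (Q T b s) (Sides T b s) (4 * K * m) ≤ δ ^ (4 * K)) :
    ∃ σ : ℤ, (σ = 1 ∨ σ = -1) ∧ ∃ y : ℝ, |y| ≤ 1 ∧ ∃ J : Set P, J ⊆ obd C0 (Q T b s) ∧
      f (Q T b s) J m ≤ δ ∧ ∀ v ∈ J, b < σ * ((v.2 : ℝ) - s * v.1) ∧
        σ * ((v.2 : ℝ) - s * v.1) ≤ b + 3 * C0 ∧ |(v.1 : ℝ) / T - y| ≤ 1 / (2 * K) ∧
        |(v.1 : ℝ)| ≤ T := by
  set τ : P → ℝ := fun v => (v.1 : ℝ) / T with hτ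
  set I : ℕ → Set P := fun j =>
    if j < 2 * K then {v | |(v.1 : ℝ)| ≤ T ∧ b < ((v.2 : ℝ) - s * v.1) ∧
      cell K ((τ v + 1) * K) = j}
    else {v | |(v.1 : ℝ)| ≤ T ∧ b < -((v.2 : ℝ) - s * v.1) ∧
      cell K ((τ v + 1) * K) = j - 2 * K} with hI
  obtain ⟨j, hj, hfj⟩ := h.piece hδ (Q T b s) I (n := 4 * K) (by omega) (Sides T b s) (by
    rintro v ⟨hv, _⟩
    have hc := cell_lt (K := K) hK ((τ v + 1) * K)
    obtain ⟨hv1, hv⟩ := hv
    rcases lt_abs.1 hv with hv | hv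
    · refine mem_biUnion (x := cell K ((τ v + 1) * K)) (Finset.mem_coe.2 (Finset.mem_range.2 (by omega))) ?_
      simp only [hI, hc, if_true]
      exact ⟨hv1, hv, rfl⟩
    · refine mem_biUnion (x := cell K ((τ v + 1) * K) + 2 * K) (Finset.mem_coe.2 (Finset.mem_range.2 (by omega))) ?_
      simp only [hI]
      rw [if_neg (by omega)]
      exact ⟨hv1, hv, by omega⟩) hE
  have key : ∀ j < 2 * K, ∀ v : P, |(v.1 : ℝ)| ≤ T →
      cell K ((τ v + 1) * K) = j → |(v.1 : ℝ) / T - ctr K j| ≤ 1 / (2 * K) := by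
    intro j hj v hv1 hcell
    have h4 : |τ v| ≤ 1 + 0 := by
      simp only [hτ]
      rw [abs_div, abs_of_pos hT, div_le_iff₀ hT]
      linarith
    have h5 := cell_ctr (K := K) hK le_rfl h4
    rw [hcell] at h5
    simpa using h5
  by_cases hj2 : j < 2 * K
  · refine ⟨1, Or.inl rfl, ctr K j, abs_ctr_le hK hj2,
      I j ∩ obd C0 (Q T b s), inter_subset_right, ?_, ?_⟩
    · rw [← h.layer]; exact hfj
    · rintro v ⟨hv, hvo⟩
      simp only [hI, hj2, if_true] at hv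
      obtain ⟨hv1, hv2, hv3⟩ := hv
      have h9 := (obd_Q hs hvo).2
      refine ⟨by simpa using hv2, ?_, key j hj2 v hv1 hv3, hv1⟩
      have := (le_abs_self _).trans h9
      simpa using this
  · refine ⟨-1, Or.inr rfl, ctr K (j - 2 * K), abs_ctr_le hK (by omega),
      I j ∩ obd C0 (Q T b s), inter_subset_right, ?_, ?_⟩
    · rw [← h.layer]; exact hfj
    · rintro v ⟨hv, hvo⟩
      simp only [hI, hj2, if_false] at hv
      obtain ⟨hv1, hv2, hv3⟩ := hv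
      have h9 := (obd_Q hs hvo).2
      refine ⟨by push_cast; linarith, ?_, key (j - 2 * K) (by omega) v hv1 hv3, hv1⟩
      have := (neg_le_abs _).trans h9
      push_cast; linarith

/-- The OUTPUT of the block. `(L, M)` is a signed permutation of the coordinates;
`Y' v = L v / T` (height), `X' v = (M v - s * L v) / b`.
Move 1 has displacement `(X',Y') = (0,1) ± (2/K, 1/K)` from region `R₁ ⊆ {|Y'| ≤ 1, |X'| ≤ 4}`;
move 2 has displacement `(1,y) ± 1/K` from region `R₂ ⊆ {|Y'| ≤ 1, |X'| ≤ 1}`. -/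
structure Out (f : Set P → Set P → ℕ → ℝ) (C0 n0 t : ℝ) (K m : ℕ) (δ : ℝ)
    (L M : P → ℤ) (T b s y : ℝ) (R₁ R₂ J₁ J₂ : Set P) : Prop where
  coord : ∃ σ σ' : ℤ, (σ = 1 ∨ σ = -1) ∧ (σ' = 1 ∨ σ' = -1) ∧
    ((∀ v, L v = σ * v.1 ∧ M v = σ' * v.2) ∨ (∀ v, L v = σ * v.2 ∧ M v = σ' * v.1))
  b_pos : 0 < b
  b_le : b ≤ T
  s_le : |s| ≤ 2
  y_le : |y| ≤ 1
  thickL : ∀ v ∈ box t, |(L v : ℝ) / T| ≤ 1 / K
  thickM : ∀ v ∈ box t, |((M v : ℝ) - s * L v) / b| ≤ 1 / K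
  box₁ : box n0 ⊆ R₁
  box₂ : box n0 ⊆ R₂
  R₁_L : ∀ v ∈ R₁, |(L v : ℝ) / T| ≤ 1
  R₁_M : ∀ v ∈ R₁, |((M v : ℝ) - s * L v) / b| ≤ 4
  R₂_L : ∀ v ∈ R₂, |(L v : ℝ) / T| ≤ 1
  R₂_M : ∀ v ∈ R₂, |((M v : ℝ) - s * L v) / b| ≤ 1
  J₁_sub : J₁ ⊆ obd C0 R₁
  J₂_sub : J₂ ⊆ obd C0 R₂
  J₁_L : ∀ v ∈ J₁, 1 < (L v : ℝ) / T ∧ (L v : ℝ) / T ≤ 1 + 1 / K
  J₁_M : ∀ v ∈ J₁, |((M v : ℝ) - s * L v) / b| ≤ 2 / K
  J₂_L : ∀ v ∈ J₂, |(L v : ℝ) / T - y| ≤ 1 / K
  J₂_M : ∀ v ∈ J₂, |((M v : ℝ) - s * L v) / b - 1| ≤ 1 / K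
  good₁ : f R₁ J₁ m ≤ δ
  good₂ : f R₂ J₂ m ≤ δ

/-- the final assembly from a good piece `J₁` of the ends of `Q T b s` and good sides of the
next strip `Q T (b/2) s'`. -/
lemma Ax.finish (h : Ax f C0 n0 K m δ) (hδ : 0 < δ) (hK : 0 < K) (hC : 0 ≤ C0) (hn : 0 ≤ n0)
    {t T b s s' : ℝ} (ht : 0 ≤ t) (hC0t : C0 ≤ t) (hb : 0 < b) (hbT : b ≤ T) (hs : |s| ≤ 2)
    (hs' : |s'| ≤ 2) (hbt : 8 * K * t ≤ b) (hbn : 6 * n0 ≤ b) (hss : |s' - s| ≤ b / T) {σ : ℤ}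
    (hσ : σ = 1 ∨ σ = -1) {J : Set P} (hJ : J ⊆ obd C0 (Q T b s)) (hf : f (Q T b s) J m ≤ δ)
    (hJ' : ∀ v ∈ J, T < σ * (v.1 : ℝ) ∧ σ * (v.1 : ℝ) ≤ T + C0 ∧
        |(v.2 : ℝ) - s' * v.1| ≤ b / K)
    (hE : f (Q T (b / 2) s') (Sides T (b / 2) s') (4 * K * m) ≤ δ ^ (4 * K)) :
    ∃ (L M : P → ℤ) (S y : ℝ) (J₂ : Set P),
      (∃ σ σ' : ℤ, (σ = 1 ∨ σ = -1) ∧ (σ' = 1 ∨ σ' = -1) ∧ (∀ v, L v = σ * v.1 ∧ M v = σ' * v.2)) ∧
      Out f C0 n0 t K m δ L M T (b / 2) S y (Q T b s) (Q T (b / 2) s') J J₂ := by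
  have hT : 0 < T := hb.trans_le hbT
  have hK' : (1 : ℝ) ≤ K := by exact_mod_cast hK
  have hKp : (0 : ℝ) < K := by linarith
  have htb : 8 * t ≤ b := by nlinarith
  obtain ⟨σ', hσ', y, hy, J₂, hJ₂, hf₂, hJ₂'⟩ := h.stop hδ hK hT hs' hE
  have hσ1 : |(σ : ℝ)| = 1 := by rcases hσ with rfl | rfl <;> simp
  have hσ2 : (σ : ℝ) * σ = 1 := by rcases hσ with rfl | rfl <;> simp
  have hσ1' : |(σ' : ℝ)| = 1 := by rcases hσ' with rfl | rfl <;> simp
  have hX : ∀ v : P, (((σ' * v.2 : ℤ) : ℝ) - (σ * σ' * s') * ((σ * v.1 : ℤ) : ℝ)) / (b / 2)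
      = σ' * (((v.2 : ℝ) - s' * v.1) / (b / 2)) := by
    intro v
    push_cast
    have : (σ' : ℝ) * v.2 - σ * σ' * s' * (σ * v.1) = σ' * (v.2 - s' * v.1) := by
      calc (σ' : ℝ) * v.2 - σ * σ' * s' * (σ * v.1)
          = σ' * v.2 - (σ * σ) * (σ' * (s' * v.1)) := by ring
        _ = _ := by rw [hσ2]; ring
    rw [this]; ring
  have hXabs : ∀ v : P, |(((σ' * v.2 : ℤ) : ℝ) - (σ * σ' * s') * ((σ * v.1 : ℤ) : ℝ)) / (b / 2)|
      = |(v.2 : ℝ) - s' * v.1| / (b / 2) := by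
    intro v
    rw [hX, abs_mul, hσ1', one_mul, abs_div, abs_of_pos (show 0 < b / 2 by positivity)]
  have hLabs : ∀ v : P, |((σ * v.1 : ℤ) : ℝ) / T| = |(v.1 : ℝ)| / T := by
    intro v
    push_cast
    rw [abs_div, abs_mul, hσ1, one_mul, abs_of_pos hT]
  refine ⟨fun v => σ * v.1, fun v => σ' * v.2, σ * σ' * s', σ * y, J₂,
    ⟨σ, σ', hσ, hσ', fun v => ⟨rfl, rfl⟩⟩, ?_⟩
  constructor
  · exact ⟨σ, σ', hσ, hσ', Or.inl fun v => ⟨rfl, rfl⟩⟩
  · positivity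
  · linarith
  · rw [abs_mul, abs_mul, hσ1, hσ1']; simpa using hs'
  · rw [abs_mul, hσ1, one_mul]; exact hy
  · rintro v ⟨h1, h2⟩
    rw [hLabs, div_le_div_iff₀ hT hKp]
    have : |(v.1 : ℝ)| * K ≤ t * K := by gcongr
    nlinarith
  · rintro v ⟨h1, h2⟩
    rw [hXabs, div_le_div_iff₀ (by positivity) hKp]
    have h3 : |(v.2 : ℝ) - s' * v.1| ≤ 3 * t := by
      refine (abs_sub _ _).trans ?_
      rw [abs_mul]
      have : |s'| * |(v.1 : ℝ)| ≤ 2 * t := mul_le_mul hs' h1 (abs_nonneg _) (by norm_num)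
      linarith
    have : |(v.2 : ℝ) - s' * v.1| * K ≤ 3 * t * K := by gcongr
    nlinarith
  · exact box_sub_Q (by nlinarith) hs (by linarith)
  · exact box_sub_Q (by nlinarith) hs' (by linarith)
  · rintro v ⟨h1, h2⟩
    rw [hLabs, div_le_one hT]; exact h1
  · rintro v ⟨h1, h2⟩
    rw [hXabs, div_le_iff₀ (by positivity)]
    have e : (v.2 : ℝ) - s' * v.1 = (v.2 - s * v.1) - (s' - s) * v.1 := by ring
    rw [e]
    refine (abs_sub _ _).trans ?_
    rw [abs_mul]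
    have : |s' - s| * |(v.1 : ℝ)| ≤ b / T * T := mul_le_mul hss h1 (abs_nonneg _) (by positivity)
    have e2 : b / T * T = b := by field_simp
    rw [e2] at this
    linarith
  · rintro v ⟨h1, h2⟩
    rw [hLabs, div_le_one hT]; exact h1
  · rintro v ⟨h1, h2⟩
    rw [hXabs, div_le_one (by positivity)]; exact h2
  · exact hJ
  · exact hJ₂
  · intro v hv
    obtain ⟨h1, h2, h3⟩ := hJ' v hv
    push_cast
    constructor
    · rw [lt_div_iff₀ hT]; linarith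
    · rw [div_le_iff₀ hT]
      have : (1 + 1 / (K : ℝ)) * T = T + T / K := by ring
      rw [this]
      have h4 : C0 ≤ T / K := by
        rw [le_div_iff₀ hKp]; nlinarith
      linarith
  · intro v hv
    obtain ⟨h1, h2, h3⟩ := hJ' v hv
    rw [hXabs, div_le_iff₀ (by positivity)]
    have : 2 / (K : ℝ) * (b / 2) = b / K := by field_simp
    rw [this]; exact h3
  · intro v hv
    obtain ⟨h1, h2, h3, h4⟩ := hJ₂' v hv
    push_cast
    have e : (σ : ℝ) * v.1 / T - σ * y = σ * (v.1 / T - y) := by ring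
    rw [e, abs_mul, hσ1, one_mul]
    refine h3.trans ?_
    rw [div_le_div_iff₀ (by positivity) hKp]
    linarith
  · intro v hv
    obtain ⟨h1, h2, h3, h4⟩ := hJ₂' v hv
    rw [hX]
    have e : (σ' : ℝ) * (((v.2 : ℝ) - s' * v.1) / (b / 2)) - 1
        = (σ' * ((v.2 : ℝ) - s' * v.1) - b / 2) / (b / 2) := by field_simp
    rw [e, abs_div, abs_of_pos (show 0 < b / 2 by positivity), abs_of_pos (by linarith),
      div_le_div_iff₀ (by positivity) hKp]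
    have : (σ' * ((v.2 : ℝ) - s' * v.1) - b / 2) * K ≤ 3 * C0 * K := by gcongr; linarith
    nlinarith
  · exact hf
  · exact hf₂

/-- Induction over the nested strips. -/
lemma Ax.descent (h : Ax f C0 n0 K m δ) (hδ : 0 < δ) (hδ1 : δ ≤ 1) (hK : 0 < K) (hC : 0 ≤ C0)
    (hn : 0 ≤ n0) {t T B l : ℝ} (ht : 0 ≤ t) (hC0t : C0 ≤ t) (hB : 0 < B) (hBt : 8 * K * t ≤ B)
    (hBn : 6 * n0 ≤ B) (hnT : n0 ≤ T) (hlT : l ≤ T)
    (hl : ∀ R : Set P, box n0 ⊆ R → ∀ α β : ℝ, (1 ≤ |α| ∨ 1 ≤ |β|) →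
      (∀ v ∈ R, |α * v.1 + β * v.2| ≤ B) → f R (box l) (8 * K * m) ≤ δ ^ (8 * K))
    (n : ℕ) : ∀ b s : ℝ, b = B * 2 ^ (n + 1) → b ≤ T → |s| ≤ 2 - 2 * b / T →
      f (Q T b s) (Ends T) (4 * K * m) ≤ δ ^ (4 * K) →
      ∃ (L M : P → ℤ) (b S y : ℝ) (R₁ R₂ J₁ J₂ : Set P), B ≤ b ∧
      (∃ σ σ' : ℤ, (σ = 1 ∨ σ = -1) ∧ (σ' = 1 ∨ σ' = -1) ∧ (∀ v, L v = σ * v.1 ∧ M v = σ' * v.2)) ∧
      Out f C0 n0 t K m δ L M T b S y R₁ R₂ J₁ J₂ := by
  induction n with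
  | zero =>
    intro b s hb hbT hs hE
    have hK' : (1 : ℝ) ≤ K := by exact_mod_cast hK
    have hb0 : 0 < b := by rw [hb]; positivity
    have hT : 0 < T := hb0.trans_le hbT
    have hbB : b / 2 = B := by rw [hb]; norm_num
    have hbT' : 0 ≤ 2 * b / T := by positivity
    have hs2 : |s| ≤ 2 := by linarith
    have hBb : B ≤ b := by linarith
    have hbC : 8 * K * C0 ≤ b := by
      have : 8 * K * C0 ≤ 8 * K * t := by gcongr
      linarith
    obtain ⟨σ, hσ, s', hss, J, hJ, hfJ, hJ'⟩ := h.step hδ hK hC hb0 hbT hs2 hbC hE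
    have hs' : |s'| ≤ 2 := by
      have e : s' = s + (s' - s) := by ring
      rw [e]
      refine (abs_add_le _ _).trans ?_
      have : 2 * b / T = 2 * (b / T) := by ring
      have h0 : 0 ≤ b / T := by positivity
      linarith
    have h2 := (h.total hl (T := T) (b := b / 2) (s := s') hnT hs' (by rw [hbB]; linarith)
      hbB.le).2 hlT
    have h3 : f (Q T (b / 2) s') (Sides T (b / 2) s') (4 * K * m) ≤ δ ^ (4 * K) := by
      refine (h.mono _ _ _ _ (by gcongr; norm_num)).trans (h2.trans ?_)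
      exact pow_le_pow_of_le_one hδ.le hδ1 (by omega)
    obtain ⟨L, M, S, y, J₂, hc, ho⟩ := h.finish hδ hK hC hn ht hC0t hb0 hbT hs2 hs'
      (by linarith) (by linarith) hss hσ hJ hfJ hJ' h3
    exact ⟨L, M, _, S, y, _, _, _, _, hbB.ge, hc, ho⟩
  | succ n ih =>
    intro b s hb hbT hs hE
    have hK' : (1 : ℝ) ≤ K := by exact_mod_cast hK
    have hb0 : 0 < b := by rw [hb]; positivity
    have hT : 0 < T := hb0.trans_le hbT
    have hbB : b / 2 = B * 2 ^ (n + 1) := by rw [hb]; ring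
    have hbT' : 0 ≤ 2 * b / T := by positivity
    have hs2 : |s| ≤ 2 := by linarith
    have h1n : (1 : ℝ) ≤ 2 ^ (n + 1) := one_le_pow₀ (by norm_num)
    have hBb2 : B ≤ b / 2 := by rw [hbB]; nlinarith
    have hBb : B ≤ b := by linarith
    have hbC : 8 * K * C0 ≤ b := by
      have : 8 * K * C0 ≤ 8 * K * t := by gcongr
      linarith
    obtain ⟨σ, hσ, s', hss, J, hJ, hfJ, hJ'⟩ := h.step hδ hK hC hb0 hbT hs2 hbC hE
    have hs'' : |s'| ≤ 2 - 2 * (b / 2) / T := by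
      have e : s' = s + (s' - s) := by ring
      rw [e]
      refine (abs_add_le _ _).trans ?_
      have e1 : 2 * b / T = 2 * (b / T) := by ring
      have e2 : 2 * (b / 2) / T = b / T := by ring
      rw [e2]
      linarith
    have hs' : |s'| ≤ 2 := by
      have : 0 ≤ 2 * (b / 2) / T := by positivity
      linarith
    obtain ⟨l', hl'⟩ := h.exit (b / 2)
    have h2 := (h.total hl' (T := T) (b := b / 2) (s := s') hnT hs' (by linarith)
      le_rfl).1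
    rcases h.dich hδ _ _ _ h2 with h3 | h3
    · exact ih (b / 2) s' hbB (by linarith) hs'' h3
    · obtain ⟨L, M, S, y, J₂, hc, ho⟩ := h.finish hδ hK hC hn ht hC0t hb0 hbT hs2 hs'
        (by linarith) (by linarith) hss hσ hJ hfJ hJ' h3
      exact ⟨L, M, _, S, y, _, _, _, _, hBb2, hc, ho⟩

/-- swapped exit function -/
def swp (f : Set P → Set P → ℕ → ℝ) : Set P → Set P → ℕ → ℝ :=
  fun R I M => f (Prod.swap ⁻¹' R) (Prod.swap ⁻¹' I) M

lemma swap_box (r : ℝ) : Prod.swap ⁻¹' (box r) = box r := by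
  ext v; simp only [box, mem_preimage, mem_ofPred_eq, Prod.fst_swap, Prod.snd_swap]; tauto

lemma swap_obd (C : ℝ) (R : Set P) : Prod.swap ⁻¹' (obd C R) = obd C (Prod.swap ⁻¹' R) := by
  ext v
  simp only [obd, mem_preimage, mem_ofPred_eq]
  constructor
  · rintro ⟨h1, w, hw, hvw⟩
    refine ⟨h1, w.swap, by simpa using hw, ?_⟩
    rw [← swap_box]
    exact hvw
  · rintro ⟨h1, w, hw, hvw⟩
    refine ⟨h1, w.swap, hw, ?_⟩
    rw [← swap_box] at hvw
    exact hvw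

lemma Ax.swp (h : Ax f C0 n0 K m δ) : Ax (swp f) C0 n0 K m δ where
  nonneg R I M := h.nonneg _ _ _
  le_one R I M := h.le_one _ _ _
  anti R I I' M hI := h.anti _ _ _ _ (preimage_mono hI)
  mono R I M M' hM := h.mono _ _ _ _ hM
  layer R I M := by
    unfold Ns70.swp
    rw [h.layer, preimage_inter, swap_obd]
  fkg R I J M M' := by
    unfold Ns70.swp
    rw [preimage_union]
    exact h.fkg _ _ _ _ _
  exit W := by
    obtain ⟨l, hl⟩ := h.exit W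
    refine ⟨l, fun R hR α β hαβ hv => ?_⟩
    unfold Ns70.swp
    rw [swap_box]
    refine hl _ (by rw [← swap_box]; exact preimage_mono hR) β α hαβ.symm ?_
    intro v hv'
    have := hv _ hv'
    simp only [Prod.fst_swap, Prod.snd_swap] at this
    rwa [add_comm]

lemma Out.swap {t T b s y : ℝ} {L M : P → ℤ} {R₁ R₂ J₁ J₂ : Set P}
    (hc : ∃ σ σ' : ℤ, (σ = 1 ∨ σ = -1) ∧ (σ' = 1 ∨ σ' = -1) ∧
      (∀ v, L v = σ * v.1 ∧ M v = σ' * v.2))
    (ho : Out (Ns70.swp f) C0 n0 t K m δ L M T b s y R₁ R₂ J₁ J₂) :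
    Out f C0 n0 t K m δ (fun v => L v.swap) (fun v => M v.swap) T b s y (Prod.swap ⁻¹' R₁)
      (Prod.swap ⁻¹' R₂) (Prod.swap ⁻¹' J₁) (Prod.swap ⁻¹' J₂) where
  coord := by
    obtain ⟨σ, σ', h1, h2, h3⟩ := hc
    exact ⟨σ, σ', h1, h2, Or.inr fun v => ⟨(h3 v.swap).1, (h3 v.swap).2⟩⟩
  b_pos := ho.b_pos
  b_le := ho.b_le
  s_le := ho.s_le
  y_le := ho.y_le
  thickL v hv := ho.thickL v.swap (by rw [← swap_box] at hv; exact hv)
  thickM v hv := ho.thickM v.swap (by rw [← swap_box] at hv; exact hv)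
  box₁ := by rw [← swap_box]; exact preimage_mono ho.box₁
  box₂ := by rw [← swap_box]; exact preimage_mono ho.box₂
  R₁_L v hv := ho.R₁_L v.swap hv
  R₁_M v hv := ho.R₁_M v.swap hv
  R₂_L v hv := ho.R₂_L v.swap hv
  R₂_M v hv := ho.R₂_M v.swap hv
  J₁_sub := by rw [← swap_obd]; exact preimage_mono ho.J₁_sub
  J₂_sub := by rw [← swap_obd]; exact preimage_mono ho.J₂_sub
  J₁_L v hv := ho.J₁_L v.swap hv
  J₁_M v hv := ho.J₁_M v.swap hv
  J₂_L v hv := ho.J₂_L v.swap hv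
  J₂_M v hv := ho.J₂_M v.swap hv
  good₁ := ho.good₁
  good₂ := ho.good₂

/-- MAIN THEOREM of the block: from FKG + the uniform exit lemma we get two good moves which are
"transversal" in suitable coordinates, at an arbitrarily large scale `b ≥ T₀`. -/
theorem core (h : Ax f C0 n0 K m δ) (hδ : 0 < δ) (hδ1 : δ ≤ 1) (hK : 0 < K) (hC : 0 ≤ C0)
    (hn : 0 ≤ n0) (t : ℝ) (T₀ : ℝ) : ∃ (L M : P → ℤ) (T b s y : ℝ) (R₁ R₂ J₁ J₂ : Set P),
      T₀ ≤ b ∧ Out f C0 n0 t K m δ L M T b s y R₁ R₂ J₁ J₂ := by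
  have hK' : (1 : ℝ) ≤ K := by exact_mod_cast hK
  -- thickness
  set t' : ℝ := max t C0 with ht'
  have ht0 : 0 ≤ t' := hC.trans (le_max_right _ _)
  have key : ∃ (L M : P → ℤ) (T b s y : ℝ) (R₁ R₂ J₁ J₂ : Set P),
      T₀ ≤ b ∧ Out f C0 n0 t' K m δ L M T b s y R₁ R₂ J₁ J₂ := by
    set B : ℝ := max (max (8 * K * t') (6 * n0)) (max T₀ 1) with hBdef
    have hB1 : 8 * K * t' ≤ B := (le_max_left _ _).trans (le_max_left _ _)
    have hB2 : 6 * n0 ≤ B := (le_max_right _ _).trans (le_max_left _ _)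
    have hB3 : T₀ ≤ B := (le_max_left _ _).trans (le_max_right _ _)
    have hB4 : 1 ≤ B := (le_max_right _ _).trans (le_max_right _ _)
    have hB : 0 < B := by linarith
    obtain ⟨l, hl⟩ := h.exit B
    obtain ⟨l2, hl2⟩ := h.swp.exit B
    obtain ⟨N, hN⟩ := pow_unbounded_of_one_lt (max (max l l2) n0) (one_lt_two (α := ℝ))
    set T : ℝ := B * 2 ^ (N + 1) with hT
    have hTN : (2 : ℝ) ^ N ≤ T := by
      rw [hT, pow_succ]
      have : (0 : ℝ) < 2 ^ N := by positivity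
      nlinarith
    have hlT : l ≤ T := ((le_max_left _ _).trans (le_max_left _ _)).trans (hN.le.trans hTN)
    have hlT2 : l2 ≤ T := ((le_max_right _ _).trans (le_max_left _ _)).trans (hN.le.trans hTN)
    have hnT : n0 ≤ T := (le_max_right _ _).trans (hN.le.trans hTN)
    have hT0 : 0 < T := by rw [hT]; positivity
    have hBT : B ≤ T := by
      rw [hT]
      have : (1 : ℝ) ≤ 2 ^ (N + 1) := one_le_pow₀ (by norm_num)
      nlinarith
    obtain ⟨lT, hlT'⟩ := h.exit T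
    have h2 := (h.total hlT' (T := T) (b := T) (s := 0) hnT (by norm_num) (by linarith)
      le_rfl).1
    have hslope : |(0 : ℝ)| ≤ 2 - 2 * T / T := by
      rw [mul_div_assoc, div_self hT0.ne']; norm_num
    rcases h.dich hδ _ _ _ h2 with h3 | h3
    · obtain ⟨L, M, b, S, y, R₁, R₂, J₁, J₂, hBb, hc, ho⟩ := h.descent hδ hδ1 hK hC hn ht0
        (le_max_right _ _) hB hB1 hB2 hnT hlT hl N T 0 rfl le_rfl hslope h3
      exact ⟨L, M, T, b, S, y, R₁, R₂, J₁, J₂, hB3.trans hBb, ho⟩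
    · have h4 : swp f (Q T T 0) (Ends T) (4 * K * m) ≤ δ ^ (4 * K) := by
        unfold Ns70.swp
        have e1 : Prod.swap ⁻¹' (Q T T 0) = Q T T 0 := by
          ext v
          simp only [Q, mem_preimage, mem_ofPred_eq, Prod.fst_swap, Prod.snd_swap, zero_mul,
            sub_zero]
          tauto
        rw [e1]
        refine (h.anti _ _ _ _ ?_).trans h3
        rintro v ⟨_, hv⟩
        simpa [Ends] using hv
      obtain ⟨L, M, b, S, y, R₁, R₂, J₁, J₂, hBb, hc, ho⟩ := h.swp.descent hδ hδ1 hK hC hn ht0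
        (le_max_right _ _) hB hB1 hB2 hnT hlT2 hl2 N T 0 rfl le_rfl hslope h4
      exact ⟨_, _, T, b, S, y, _, _, _, _, hB3.trans hBb, Out.swap hc ho⟩
  obtain ⟨L, M, T, b, s, y, R₁, R₂, J₁, J₂, hb, ho⟩ := key
  refine ⟨L, M, T, b, s, y, R₁, R₂, J₁, J₂, hb, ?_⟩
  have hbox : box t ⊆ box t' := by
    rintro v ⟨h1, h2⟩
    exact ⟨h1.trans (le_max_left _ _), h2.trans (le_max_left _ _)⟩
  exact { ho with
    thickL := fun v hv => ho.thickL v (hbox hv)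
    thickM := fun v hv => ho.thickM v (hbox hv) }

end Crest.Agent.R147.Ns70
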