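import Crest.Agent.R147.Nm53Orb
import Crest.Agent.R147.Exit247A
import Crest.Agent.R147.Sp58Boot

/-!
Row 147, block B5/E4a (helper53): the functional `f53 R J M` (exit edges of the block-removed
domain), its axioms (helper592 #7539), and the block-touch form at every point of the orbit.

* `Lam R x`: vertices in no block `B(f)`, `f` in the orbit with `Φ f - Φ x ∉ R`.
* `JJ R J x`: oriented edges ending in a block `B(f)`, `Φ f - Φ x ∈ J \ R`.
* `f53 R J M = fw G p (Lam R o) (B o) (JJ R J o) M`.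
-/

set_option autoImplicit false

open Crest.ProbabilityR.Percolation MeasureTheory ProbabilityTheory unitInterval Filter
open Crest.Agent.R159 Crest.Agent.R159.Sharp Crest.Agent.R147.Cl Crest.Agent.R147.Ex
open scoped Topology

namespace Crest.Agent.R147.Nm

universe u
variable {V : Type u} {G : SimpleGraph V}

/-- block-removed domain around `x` -/
def Lam (hloc : ∀ v : V, (G.neighborSet v).Finite) (Z : St.Z2Data G) (o : V) (k : ℕ)
    (R : Set (ℤ × ℤ)) (x : V) : Set V :=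
  {v | ∀ f ∈ Orb Z o, Z.Φ f - Z.Φ x ∉ R → v ∉ th hloc k {f}}

/-- the class of exits whose outer vertex lies in a removed block with index in `J` -/
def JJ (hloc : ∀ v : V, (G.neighborSet v).Finite) (Z : St.Z2Data G) (o : V) (k : ℕ)
    (R J : Set (ℤ × ℤ)) (x : V) : Set (V × V) :=
  {e | ∃ f ∈ Orb Z o, Z.Φ f - Z.Φ x ∈ J ∧ Z.Φ f - Z.Φ x ∉ R ∧ e.2 ∈ th hloc k {f}}

/-- probability of at most `M` exits in the class `J` -/
noncomputable def f53 (hloc : ∀ v : V, (G.neighborSet v).Finite) (Z : St.Z2Data G) (o : V)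
    (k : ℕ) (p : I) (R J : Set (ℤ × ℤ)) (M : ℕ) : ℝ :=
  fw G p (Lam hloc Z o k R o) (th hloc k {o}) (JJ hloc Z o k R J o) M

section axioms

variable (hloc : ∀ v : V, (G.neighborSet v).Finite) (Z : St.Z2Data G) (o : V) (k : ℕ)

theorem JJ_not_mem {R J : Set (ℤ × ℤ)} {x : V} {e : V × V} (he : e ∈ JJ hloc Z o k R J x) :
    e.2 ∉ Lam hloc Z o k R x := by
  obtain ⟨f, hf, _, hR, hef⟩ := he
  exact fun h => h f hf hR hef

theorem JJ_mono {R J J' : Set (ℤ × ℤ)} (h : J ⊆ J') (x : V) :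
    JJ hloc Z o k R J x ⊆ JJ hloc Z o k R J' x := by
  rintro e ⟨f, hf, h1, h2, h3⟩
  exact ⟨f, hf, h h1, h2, h3⟩

theorem JJ_union (R J J' : Set (ℤ × ℤ)) (x : V) :
    JJ hloc Z o k R (J ∪ J') x = JJ hloc Z o k R J x ∪ JJ hloc Z o k R J' x := by
  ext e
  constructor
  · rintro ⟨f, hf, h1 | h1, h2, h3⟩
    · exact Or.inl ⟨f, hf, h1, h2, h3⟩
    · exact Or.inr ⟨f, hf, h1, h2, h3⟩
  · rintro (⟨f, hf, h1, h2, h3⟩ | ⟨f, hf, h1, h2, h3⟩)
    · exact ⟨f, hf, Or.inl h1, h2, h3⟩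
    · exact ⟨f, hf, Or.inr h1, h2, h3⟩

theorem Lam_mono {R R' : Set (ℤ × ℤ)} (h : R ⊆ R') (x : V) :
    Lam hloc Z o k R x ⊆ Lam hloc Z o k R' x :=
  fun _ hv f hf hR' => hv f hf (fun hR => hR' (h hR))

/-- a vertex of the domain lies in a block with index in `R` -/
theorem Lam_cover {ρ : ℕ} (hρ : ∀ v, ∃ f ∈ Orb Z o, v ∈ th hloc ρ {f}) (hk : ρ ≤ k)
    {R : Set (ℤ × ℤ)} {x v : V} (hv : v ∈ Lam hloc Z o k R x) :
    ∃ f ∈ Orb Z o, v ∈ th hloc ρ {f} ∧ Z.Φ f - Z.Φ x ∈ R := by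
  obtain ⟨f, hf, hvf⟩ := hρ v
  refine ⟨f, hf, hvf, ?_⟩
  by_contra hR
  exact hv f hf hR (th_mono_n hloc hk _ hvf)

variable (p : I)

theorem f53_nonneg (R J : Set (ℤ × ℤ)) (M : ℕ) : 0 ≤ f53 hloc Z o k p R J M := fw_nonneg _ _ _ _ _ _

theorem f53_le_one (R J : Set (ℤ × ℤ)) (M : ℕ) : f53 hloc Z o k p R J M ≤ 1 := fw_le_one _ _ _ _ _ _

theorem f53_anti (R : Set (ℤ × ℤ)) {J J' : Set (ℤ × ℤ)} (h : J ⊆ J') (M : ℕ) :
    f53 hloc Z o k p R J' M ≤ f53 hloc Z o k p R J M :=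
  fw_anti_class p _ _ (JJ_mono hloc Z o k h o) M

theorem f53_mono_m (R J : Set (ℤ × ℤ)) {M M' : ℕ} (h : M ≤ M') :
    f53 hloc Z o k p R J M ≤ f53 hloc Z o k p R J M' := fw_mono_m p _ _ _ h

theorem f53_mul_le [Countable V] (R J J' : Set (ℤ × ℤ)) (M M' : ℕ) :
    f53 hloc Z o k p R J M * f53 hloc Z o k p R J' M' ≤
      f53 hloc Z o k p R (J ∪ J') (M + M') := by
  unfold f53
  rw [JJ_union]
  exact fw_mul_le p _ _ _ _ _ _

/-- monotonicity in the shape (MON) -/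
theorem f53_mon {R R' J : Set (ℤ × ℤ)} (h : R ⊆ R') (hd : J ∩ R' = ∅) (M : ℕ) :
    f53 hloc Z o k p R' J M ≤ f53 hloc Z o k p R J M := by
  have hd' : ∀ v ∈ J, v ∉ R' := fun v hv hv' => by
    have : v ∈ J ∩ R' := ⟨hv, hv'⟩
    rw [hd] at this
    exact this
  refine fw_anti p (Lam_mono hloc Z o k h o) (Finset.Subset.refl _) ?_ le_rfl ?_
  · rintro e ⟨f, hf, h1, h2, h3⟩
    exact ⟨f, hf, h1, hd' _ h1, h3⟩
  · rintro e ⟨f, hf, h1, h2, h3⟩ _ h4
    exact h4 f hf (hd' _ h1) h3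

/-- only indices near `R` matter -/
theorem f53_obd {ρ : ℕ} (hρ : ∀ v, ∃ f ∈ Orb Z o, v ∈ th hloc ρ {f}) (hk : ρ ≤ k)
    {C' : ℕ} (hC' : Z.C * (2 * k + 1) ≤ C') (R J : Set (ℤ × ℤ)) (M : ℕ) :
    f53 hloc Z o k p R J M = f53 hloc Z o k p R
      (J ∩ {v | v ∉ R ∧ ∃ w ∈ R, |v.1 - w.1| ≤ C' ∧ |v.2 - w.2| ≤ C'}) M := by
  unfold f53
  refine fw_congr_class p _ _ ?_ M
  intro e h1 h2 hadj
  constructor
  · rintro ⟨f, hf, hJ, hR, hef⟩
    refine ⟨f, hf, ⟨hJ, hR, ?_⟩, hR, hef⟩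
    obtain ⟨g, hg, heg, hgR⟩ := Lam_cover hloc Z o k hρ hk h1
    refine ⟨_, hgR, ?_⟩
    have h3 : e.2 ∈ th hloc (k + 1) {g} := th_adj hloc (th_mono_n hloc hk _ heg) hadj
    have h4 : f ∈ th hloc ((k + 1) + k) {g} :=
      th_trans hloc h3 ((mem_th_singleton_comm hloc).1 hef)
    have h5 := jump_th hloc Z h4
    have h6 : (Z.C : ℤ) * ((k + 1 + k : ℕ) : ℤ) ≤ C' := by
      have : Z.C * (k + 1 + k) ≤ C' := by
        have e1 : k + 1 + k = 2 * k + 1 := by ring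
        rw [e1]; exact hC'
      exact_mod_cast this
    constructor
    · have : (Z.Φ f - Z.Φ o).1 - (Z.Φ g - Z.Φ o).1 = (Z.Φ f).1 - (Z.Φ g).1 := by
        simp only [Prod.fst_sub]; ring
      rw [this]; exact h5.1.trans h6
    · have : (Z.Φ f - Z.Φ o).2 - (Z.Φ g - Z.Φ o).2 = (Z.Φ f).2 - (Z.Φ g).2 := by
        simp only [Prod.snd_sub]; ring
      rw [this]; exact h5.2.trans h6
  · rintro ⟨f, hf, hJ, hR, hef⟩
    exact ⟨f, hf, hJ.1, hR, hef⟩

/-- the domain contains balls around `x` -/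
theorem ball_subset_Lam {n : ℕ} {R : Set (ℤ × ℤ)} {x : V}
    (hR : ∀ v : ℤ × ℤ, |v.1| ≤ Z.C * (n + k) → |v.2| ≤ Z.C * (n + k) → v ∈ R) {v : V}
    (hv : v ∈ th hloc n {x}) : v ∈ Lam hloc Z o k R x := by
  intro f _ hfR hvf
  apply hfR
  have h1 : f ∈ th hloc (n + k) {x} := th_trans hloc hv ((mem_th_singleton_comm hloc).1 hvf)
  have h2 := jump_th hloc Z h1
  push_cast at h2
  exact hR _ (by simpa using h2.1) (by simpa using h2.2)

/-- balls far from `R` miss the domain -/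
theorem ball_disjoint_Lam {ρ : ℕ} (hρ : ∀ v, ∃ f ∈ Orb Z o, v ∈ th hloc ρ {f}) (hk : ρ ≤ k)
    {r : ℕ} {R : Set (ℤ × ℤ)} {x z : V}
    (hR : ∀ v ∈ R, ¬ (|v.1 - (Z.Φ z - Z.Φ x).1| ≤ Z.C * (r + k) ∧
      |v.2 - (Z.Φ z - Z.Φ x).2| ≤ Z.C * (r + k))) {v : V}
    (hv : v ∈ th hloc r {z}) : v ∉ Lam hloc Z o k R x := by
  intro hL
  obtain ⟨f, hf, hvf, hfR⟩ := Lam_cover hloc Z o k hρ hk hL
  apply hR _ hfR
  have h1 : f ∈ th hloc (r + k) {z} :=
    th_trans hloc hv ((mem_th_singleton_comm hloc).1 (th_mono_n hloc hk _ hvf))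
  have h2 := jump_th hloc Z h1
  push_cast at h2
  have e1 : (Z.Φ f - Z.Φ x).1 - (Z.Φ z - Z.Φ x).1 = (Z.Φ f).1 - (Z.Φ z).1 := by
    simp only [Prod.fst_sub]; ring
  have e2 : (Z.Φ f - Z.Φ x).2 - (Z.Φ z - Z.Φ x).2 = (Z.Φ f).2 - (Z.Φ z).2 := by
    simp only [Prod.snd_sub]; ring
  rw [e1, e2]
  exact h2

/-- exits in a ball around the centre have small indices -/
theorem f53_le_ball {l : ℕ} {R J : Set (ℤ × ℤ)}
    (hJ : ∀ v : ℤ × ℤ, |v.1| ≤ Z.C * (l + k) → |v.2| ≤ Z.C * (l + k) → v ∈ J) (M : ℕ) :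
    f53 hloc Z o k p R J M ≤
      fw G p (Lam hloc Z o k R o) (th hloc k {o}) {e | e.2 ∈ th hloc l {o}} M := by
  have h1 : fw G p (Lam hloc Z o k R o) (th hloc k {o}) {e | e.2 ∈ th hloc l {o}} M =
      fw G p (Lam hloc Z o k R o) (th hloc k {o})
        {e | e.2 ∈ th hloc l {o} ∧ e.2 ∉ Lam hloc Z o k R o} M := by
    refine fw_congr_class p _ _ ?_ M
    intro e _ h2 _
    constructor
    · intro h
      exact And.intro h h2
    · intro h
      exact And.left h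
  rw [h1]
  refine fw_anti_class p _ _ ?_ M
  rintro e ⟨he, hL⟩
  have hL' : ∃ f ∈ Orb Z o, Z.Φ f - Z.Φ o ∉ R ∧ e.2 ∈ th hloc k {f} := by
    by_contra hcon
    push Not at hcon
    exact hL fun f hf hR => hcon f hf hR
  obtain ⟨f, hf, hR, hef⟩ := hL'
  refine ⟨f, hf, ?_, hR, hef⟩
  have h2 : f ∈ th hloc (l + k) {o} := th_trans hloc he ((mem_th_singleton_comm hloc).1 hef)
  have h3 := jump_th hloc Z h2
  push_cast at h3
  exact hJ _ (by simpa using h3.1) (by simpa using h3.2)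

end axioms

/-! ### truncation -/

section trunc

variable (hloc : ∀ v : V, (G.neighborSet v).Finite)

theorem cIn_trunc {c : V} (hcov : ∀ v, ∃ n, v ∈ th hloc n {c}) {Λ : Set V} {A : Finset V}
    {ω : Set (Sym2 V)} {v : V} (h : CIn G Λ A ω v) :
    ∃ r : ℕ, CIn G (Λ ∩ ↑(th hloc r {c})) A ω v := by
  obtain ⟨a, ha, haΛ, hr⟩ := h
  rw [SimpleGraph.reachable_iff_reflTransGen] at hr
  induction hr with
  | refl =>
    obtain ⟨n, hn⟩ := hcov a
    exact ⟨n, CIn.of_mem ha ⟨haΛ, by exact_mod_cast hn⟩⟩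
  | @tail b d _ hbd ih =>
    obtain ⟨r, hr⟩ := ih
    obtain ⟨n, hn⟩ := hcov d
    rw [Inf.openSubgraph_adj, ins_adj] at hbd
    refine ⟨max r n, ?_⟩
    have h1 : CIn G (Λ ∩ ↑(th hloc (max r n) {c})) A ω b := by
      refine hr.mono ?_ (Finset.Subset.refl _) Set.Subset.rfl
      intro x hx
      exact ⟨hx.1, by
        have := hx.2
        rw [Finset.mem_coe] at this ⊢
        exact th_mono_n hloc (le_max_left _ _) _ this⟩
    refine h1.step ⟨hbd.2.2.2, ?_⟩ hbd.2.1 hbd.1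
    rw [Finset.mem_coe]
    exact th_mono_n hloc (le_max_right _ _) _ hn

theorem exit_trunc_mono {c : V} {Λ : Set V} {A : Finset V} {ω : Set (Sym2 V)} {e : V × V}
    (he : e.2 ∉ Λ) {r r' : ℕ} (h : r ≤ r') (h1 : Exit G (Λ ∩ ↑(th hloc r {c})) A ω e) :
    Exit G (Λ ∩ ↑(th hloc r' {c})) A ω e := by
  refine h1.mono ?_ (Finset.Subset.refl _) Set.Subset.rfl (fun h2 => he h2.1)
  intro x hx
  exact ⟨hx.1, by
    have := hx.2
    rw [Finset.mem_coe] at this ⊢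
    exact th_mono_n hloc h _ this⟩

theorem many_trunc {c : V} (hcov : ∀ v, ∃ n, v ∈ th hloc n {c}) {Λ : Set V} {A : Finset V}
    {J : Set (V × V)} {m : ℕ} {ω : Set (Sym2 V)} (h : Many G Λ A J m ω) :
    ∃ r : ℕ, Many G (Λ ∩ ↑(th hloc r {c})) A J m ω := by
  classical
  obtain ⟨T, hT, h1⟩ := h
  have h2 : ∀ e : V × V, ∃ r : ℕ, e ∈ T → Exit G (Λ ∩ ↑(th hloc r {c})) A ω e := by
    intro e
    by_cases he : e ∈ T
    · obtain ⟨r, hr⟩ := cIn_trunc hloc hcov (h1 e he).2.2.2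
      exact ⟨r, fun _ => ⟨fun h3 => (h1 e he).2.1 h3.1, (h1 e he).2.2.1, hr⟩⟩
    · exact ⟨0, fun h3 => absurd h3 he⟩
  choose r hr using h2
  refine ⟨T.sup r, T, hT, fun e he => ⟨(h1 e he).1, ?_⟩⟩
  exact exit_trunc_mono hloc (h1 e he).2.1 (Finset.le_sup (f := r) he) (hr e he)

/-- **truncation**: few exits of the domain cut at a large ball -/
theorem fw_trunc [Countable V] {c : V} (hcov : ∀ v, ∃ n, v ∈ th hloc n {c}) (p : I)
    (Λ : Set V) (A : Finset V) (J : Set (V × V)) (hJ : ∀ e ∈ J, e.2 ∉ Λ) (m : ℕ) {ε : ℝ}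
    (hε : 0 < ε) : ∃ r₀ : ℕ, ∀ r, r₀ ≤ r →
      fw G p (Λ ∩ ↑(th hloc r {c})) A J m ≤ fw G p Λ A J m + ε := by
  set μ := setBernoulli G.edgeSet p with hμ
  let S : ℕ → Set (Set (Sym2 V)) := fun r => {ω | ¬ Many G (Λ ∩ ↑(th hloc r {c})) A J m ω}
  have hmeas : ∀ r, MeasurableSet (S r) := fun r => (measurableSet_many G _ A J m).compl
  have hanti : Antitone S := by
    intro r r' hrr ω hω h1
    apply hω
    obtain ⟨T, hT, h2⟩ := h1
    exact ⟨T, hT, fun e he => ⟨(h2 e he).1,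
      exit_trunc_mono hloc (hJ e (h2 e he).1) hrr (h2 e he).2⟩⟩
  have hlim : Tendsto (fun r => μ (S r)) atTop (𝓝 (μ (⋂ r, S r))) :=
    tendsto_measure_iInter_atTop (fun r => (hmeas r).nullMeasurableSet) hanti
      ⟨0, measure_ne_top _ _⟩
  have hlim' : Tendsto (fun r => μ.real (S r)) atTop (𝓝 (μ.real (⋂ r, S r))) :=
    (ENNReal.tendsto_toReal (measure_ne_top _ _)).comp hlim
  have hle : μ.real (⋂ r, S r) ≤ fw G p Λ A J m := by
    unfold fw
    refine measureReal_mono ?_ (measure_ne_top _ _)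
    intro ω hω h1
    obtain ⟨r, hr⟩ := many_trunc hloc hcov h1
    exact (Set.mem_iInter.1 hω r) hr
  have hev := hlim'.eventually (gt_mem_nhds (show μ.real (⋂ r, S r) < fw G p Λ A J m + ε by
    linarith))
  obtain ⟨r₀, hr₀⟩ := eventually_atTop.1 hev
  exact ⟨r₀, fun r hr => (hr₀ r hr).le⟩

end trunc

/-! ### equivariance and the block-touch form -/

section touch

variable (hloc : ∀ v : V, (G.neighborSet v).Finite) (Z : St.Z2Data G) (o : V) (k : ℕ)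

theorem Lam_image (R : Set (ℤ × ℤ)) (h : Z.H) (x : V) :
    (h : G ≃g G) '' (Lam hloc Z o k R x) = Lam hloc Z o k R ((h : G ≃g G) x) := by
  ext v
  constructor
  · rintro ⟨w, hw, rfl⟩ f hf hR hv
    refine hw ((h : G ≃g G).symm f) (orb_map_symm Z h hf) ?_ ?_
    · rw [phi_symm]
      intro hR'
      apply hR
      rw [Z.equi]
      convert hR' using 1
      abel
    · rw [← th_aut hloc (h : G ≃g G), (h : G ≃g G).apply_symm_apply]
      exact hv
  · intro hv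
    refine ⟨(h : G ≃g G).symm v, ?_, (h : G ≃g G).apply_symm_apply v⟩
    intro f hf hR hv'
    refine hv ((h : G ≃g G) f) (orb_map Z h hf) ?_ ?_
    · rw [phi_diff]; exact hR
    · rw [← th_aut hloc (h : G ≃g G), (h : G ≃g G).apply_symm_apply] at hv'
      exact hv'

theorem JJ_image (R J : Set (ℤ × ℤ)) (h : Z.H) (x : V) :
    {e : V × V | ((h : G ≃g G).symm e.1, (h : G ≃g G).symm e.2) ∈ JJ hloc Z o k R J x} =
      JJ hloc Z o k R J ((h : G ≃g G) x) := by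
  ext e
  constructor
  · rintro ⟨f, hf, hJ, hR, hef⟩
    refine ⟨(h : G ≃g G) f, orb_map Z h hf, ?_, ?_, ?_⟩
    · rw [phi_diff]; exact hJ
    · rw [phi_diff]; exact hR
    · rw [← th_aut hloc (h : G ≃g G), (h : G ≃g G).apply_symm_apply] at hef
      exact hef
  · rintro ⟨f, hf, hJ, hR, hef⟩
    have h1 : Z.Φ ((h : G ≃g G).symm f) - Z.Φ x = Z.Φ f - Z.Φ ((h : G ≃g G) x) := by
      rw [phi_symm, Z.equi]; abel
    refine ⟨(h : G ≃g G).symm f, orb_map_symm Z h hf, ?_, ?_, ?_⟩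
    · rw [h1]; exact hJ
    · rw [h1]; exact hR
    · show (h : G ≃g G).symm e.2 ∈ _
      rw [← th_aut hloc (h : G ≃g G), (h : G ≃g G).apply_symm_apply,
        (h : G ≃g G).apply_symm_apply]
      exact hef

/-- **equivariance** of the truncated functional -/
theorem fw_orb [Countable V] (p : I) (R J : Set (ℤ × ℤ)) (M r : ℕ) {x : V} (hx : x ∈ Orb Z o) :
    fw G p (Lam hloc Z o k R x ∩ ↑(th hloc r {x})) (th hloc k {x}) (JJ hloc Z o k R J x) M =
      fw G p (Lam hloc Z o k R o ∩ ↑(th hloc r {o})) (th hloc k {o}) (JJ hloc Z o k R J o) M := by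
  classical
  obtain ⟨h, rfl⟩ := hx
  rw [← fw_aut p (h : G ≃g G) (Lam hloc Z o k R o ∩ ↑(th hloc r {o})) (th hloc k {o})]
  congr 1
  · rw [Set.image_inter (h : G ≃g G).injective, Lam_image]
    congr 1
    rw [Sp.th_image, Finset.coe_image]
  · rw [Sp.th_image]
  · rw [JJ_image]

open Classical in
/-- target blocks -/
noncomputable def tgt (R J : Set (ℤ × ℤ)) (r : ℕ) (x : V) : Finset V :=
  (th hloc (r + 1 + k) {x}).filter
    (fun f => f ∈ Orb Z o ∧ Z.Φ f - Z.Φ x ∈ J ∧ Z.Φ f - Z.Φ x ∉ R)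

open Classical in
/-- edges inside the truncated domain -/
noncomputable def ein (R : Set (ℤ × ℤ)) (r : ℕ) (x : V) : Finset (Sym2 V) :=
  (inE hloc (th hloc r {x})).filter (fun e => ∀ v ∈ e, v ∈ Lam hloc Z o k R x)

theorem mem_tgt {R J : Set (ℤ × ℤ)} {r : ℕ} {x f : V} : f ∈ tgt hloc Z o k R J r x ↔
    f ∈ th hloc (r + 1 + k) {x} ∧ f ∈ Orb Z o ∧ Z.Φ f - Z.Φ x ∈ J ∧ Z.Φ f - Z.Φ x ∉ R := by
  classical
  unfold tgt
  rw [Finset.mem_filter]

theorem mem_ein {R : Set (ℤ × ℤ)} {r : ℕ} {x a b : V} : s(a, b) ∈ ein hloc Z o k R r x ↔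
    G.Adj a b ∧ (a ∈ th hloc r {x} ∧ b ∈ th hloc r {x}) ∧
      a ∈ Lam hloc Z o k R x ∧ b ∈ Lam hloc Z o k R x := by
  classical
  unfold ein
  rw [Finset.mem_filter, mem_inE]
  constructor
  · rintro ⟨⟨h1, h2, h3⟩, h4⟩
    exact ⟨h1, ⟨h2, h3⟩, h4 a (Sym2.mem_mk_left a b), h4 b (Sym2.mem_mk_right a b)⟩
  · rintro ⟨h1, ⟨h2, h3⟩, h4, h5⟩
    refine ⟨⟨h1, h2, h3⟩, ?_⟩
    intro v hv
    rcases Sym2.mem_iff.1 hv with rfl | rfl
    · exact h4
    · exact h5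

theorem ein_subset_edgeSet (R : Set (ℤ × ℤ)) (r : ℕ) (x : V) :
    (↑(ein hloc Z o k R r x) : Set (Sym2 V)) ⊆ G.edgeSet := by
  intro e
  induction e using Sym2.ind with
  | h a b =>
    intro he
    rw [Finset.mem_coe, mem_ein] at he
    simpa using he.1

/-- the edges touching a target block are not edges of the domain -/
theorem disjoint_ein {R J : Set (ℤ × ℤ)} {r : ℕ} {x f : V} (hf : f ∈ tgt hloc Z o k R J r x) :
    Disjoint (toE hloc (th hloc k {f})) (ein hloc Z o k R r x) := by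
  rw [Finset.disjoint_left]
  intro e
  induction e using Sym2.ind with
  | h a b =>
    intro h1 h2
    rw [mem_toE] at h1
    rw [mem_ein] at h2
    rw [mem_tgt] at hf
    rcases h1.2 with h3 | h3
    · exact h2.2.2.1 f hf.2.1 hf.2.2.2 h3
    · exact h2.2.2.2 f hf.2.1 hf.2.2.2 h3

open Classical in
/-- the blocks of `T` touched from the block of `x` through the edges `ω ∩ E` -/
noncomputable def touched (T : Finset V) (E ω : Set (Sym2 V)) (x : V) : Finset V :=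
  T.filter (fun b => ∃ y ∈ th hloc (k + 1) {b}, ∃ a ∈ th hloc k {x},
    (openSubgraph G (ω ∩ E)).Reachable a y)

theorem mem_touched {T : Finset V} {E ω : Set (Sym2 V)} {x b : V} :
    b ∈ touched hloc k T E ω x ↔ b ∈ T ∧ ∃ y ∈ th hloc (k + 1) {b}, ∃ a ∈ th hloc k {x},
      (openSubgraph G (ω ∩ E)).Reachable a y := by
  classical
  unfold touched
  simp only [Finset.mem_filter]

/-- many exits give many touched blocks -/
theorem not_many_of_few {D : ℕ} (hD : ∀ v, (nb hloc v).card ≤ D) {R J : Set (ℤ × ℤ)} {r m : ℕ}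
    {x : V} {ω : Set (Sym2 V)}
    (h : (touched hloc k (tgt hloc Z o k R J r x) ↑(ein hloc Z o k R r x) ω x).card < m) :
    ¬ Many G (Lam hloc Z o k R x ∩ ↑(th hloc r {x})) (th hloc k {x}) (JJ hloc Z o k R J x)
      (m * (D + 1) ^ (k + 1)) ω := by
  classical
  rintro ⟨T, hT, h1⟩
  have h2 : ∀ e : V × V, ∃ f : V, e ∈ T → f ∈ Orb Z o ∧ Z.Φ f - Z.Φ x ∈ J ∧
      Z.Φ f - Z.Φ x ∉ R ∧ e.2 ∈ th hloc k {f} := by
    intro e
    by_cases he : e ∈ T
    · obtain ⟨f, hf⟩ := (h1 e he).1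
      exact ⟨f, fun _ => hf⟩
    · exact ⟨x, fun h3 => absurd h3 he⟩
  choose f hf using h2
  have hmem : ∀ e ∈ T, f e ∈ touched hloc k (tgt hloc Z o k R J r x)
      ↑(ein hloc Z o k R r x) ω x := by
    intro e he
    obtain ⟨hfO, hfJ, hfR, hef⟩ := hf e he
    obtain ⟨-, hadj, a, ha, haΛ, hr⟩ := (h1 e he).2
    have hmem1 : e.1 ∈ Lam hloc Z o k R x ∩ ↑(th hloc r {x}) := (h1 e he).2.2.2.mem
    have h3 : e.2 ∈ th hloc (r + 1) {x} := th_adj hloc (by
      have := hmem1.2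
      rwa [Finset.mem_coe] at this) hadj
    rw [mem_touched, mem_tgt]
    refine ⟨⟨th_trans hloc h3 ((mem_th_singleton_comm hloc).1 hef), hfO, hfJ, hfR⟩,
      e.1, th_adj hloc hef hadj.symm, a, ha, ?_⟩
    refine hr.mono ?_
    intro u v huv
    rw [Inf.openSubgraph_adj, ins_adj] at huv
    rw [Inf.openSubgraph_adj]
    refine ⟨⟨huv.1, ?_⟩, huv.2.1⟩
    rw [Finset.mem_coe, mem_ein]
    have h4 := huv.2.2.1.2
    have h5 := huv.2.2.2.2
    rw [Finset.mem_coe] at h4 h5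
    exact ⟨huv.2.1, ⟨h4, h5⟩, huv.2.2.1.1, huv.2.2.2.1⟩
  have h3 : T.card ≤ (D + 1) ^ (k + 1) *
      (touched hloc k (tgt hloc Z o k R J r x) ↑(ein hloc Z o k R r x) ω x).card := by
    refine Finset.card_le_mul_card_image_of_maps_to (f := f) hmem _ ?_
    intro b _
    have h4 : (T.filter fun e => f e = b) ⊆
        (th hloc k {b}).biUnion (fun v => (nb hloc v).image (fun u => (u, v))) := by
      intro e he
      rw [Finset.mem_filter] at he
      rw [Finset.mem_biUnion]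
      refine ⟨e.2, ?_, ?_⟩
      · rw [← he.2]; exact (hf e he.1).2.2.2
      · rw [Finset.mem_image]
        exact ⟨e.1, (mem_nb hloc).2 (h1 e he.1).2.2.1.symm, rfl⟩
    refine (Finset.card_le_card h4).trans ?_
    refine (Finset.card_biUnion_le_card_mul _ _ D (fun v _ =>
      Finset.card_image_le.trans (hD v))).trans ?_
    have h5 := card_th_le hloc hD k {b}
    rw [Finset.card_singleton, mul_one] at h5
    calc (th hloc k {b}).card * D ≤ (D + 1) ^ k * (D + 1) :=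
          Nat.mul_le_mul h5 (Nat.le_succ D)
      _ = (D + 1) ^ (k + 1) := (pow_succ _ _).symm
  have h4 : (D + 1) ^ (k + 1) *
      (touched hloc k (tgt hloc Z o k R J r x) ↑(ein hloc Z o k R r x) ω x).card ≤
      m * (D + 1) ^ (k + 1) := by
    rw [Nat.mul_comm m]
    exact Nat.mul_le_mul_left _ h.le
  omega

/-- **block-touch form of a good move, at every point of the orbit** -/
theorem few_touched_le [Countable V] (hconn : G.Connected) {D : ℕ}
    (hD : ∀ v, (nb hloc v).card ≤ D) (p : I) (R J : Set (ℤ × ℤ)) (m : ℕ) {δ ε : ℝ}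
    (hδ : f53 hloc Z o k p R J (m * (D + 1) ^ (k + 1)) ≤ δ) (hε : 0 < ε) :
    ∃ r₀ : ℕ, ∀ r, r₀ ≤ r → ∀ x ∈ Orb Z o,
      (setBernoulli G.edgeSet p).real {ω | (touched hloc k (tgt hloc Z o k R J r x)
        ↑(ein hloc Z o k R r x) ω x).card < m} ≤ δ + ε := by
  have hcov : ∀ v, ∃ n, v ∈ th hloc n {o} := by
    intro a
    obtain ⟨w⟩ := hconn.preconnected o a
    exact ⟨w.length, (mem_th hloc).2 ⟨o, Finset.mem_singleton_self o, w, le_rfl⟩⟩
  obtain ⟨r₀, hr₀⟩ := fw_trunc hloc hcov p (Lam hloc Z o k R o) (th hloc k {o})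
    (JJ hloc Z o k R J o) (fun e he => JJ_not_mem hloc Z o k he) (m * (D + 1) ^ (k + 1)) hε
  refine ⟨r₀, fun r hr x hx => ?_⟩
  calc (setBernoulli G.edgeSet p).real {ω | (touched hloc k (tgt hloc Z o k R J r x)
        ↑(ein hloc Z o k R r x) ω x).card < m}
      ≤ fw G p (Lam hloc Z o k R x ∩ ↑(th hloc r {x})) (th hloc k {x})
          (JJ hloc Z o k R J x) (m * (D + 1) ^ (k + 1)) :=
        measureReal_mono (fun ω hω => not_many_of_few hloc Z o k hD hω) (measure_ne_top _ _)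
    _ = _ := fw_orb hloc Z o k p R J _ r hx
    _ ≤ _ := (hr₀ r hr).trans (by unfold f53 at hδ; linarith)

end touch

end Crest.Agent.R147.Nm
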