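import Crest.Agent.R147.KN.TStar

/-!
# Kozma–Nitzan inequality for general increasing goals, a start set, and a sure-open set

`kn_set`: percolation on `Ω` with the hyperedges of `O` open for sure, poles `F` (finite set of
vertices), a start SET `A`, an arbitrary increasing property `goal` of vertex sets: if from every
pole the goal fails with probability at most `τ`, then
`P(cluster of A meets F and the goal fails from A) ≤ τ`.
-/

set_option autoImplicit false
set_option linter.unusedSectionVars false

open Finset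

namespace Crest.Agent.R147.Nm

open Crest.Agent.R147.KN

variable {V E : Type*} [DecidableEq V] [DecidableEq E] [Fintype V]

open Classical in
/-- saturation of a finite set under a relation -/
noncomputable def sat (r : V → V → Prop) (D : Finset V) : Finset V :=
  Finset.univ.filter (fun y => ∃ x ∈ D, r x y)

theorem mem_sat {r : V → V → Prop} {D : Finset V} {y : V} :
    y ∈ sat r D ↔ ∃ x ∈ D, r x y := by
  classical
  simp [sat]

theorem subset_sat {r : V → V → Prop} (hr : Equivalence r) (D : Finset V) : D ⊆ sat r D :=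
  fun x hx => mem_sat.2 ⟨x, hx, hr.refl x⟩

theorem sat_mono {r : V → V → Prop} {D D' : Finset V} (h : D ⊆ D') : sat r D ⊆ sat r D' := by
  intro y hy
  obtain ⟨x, hx, hxy⟩ := mem_sat.1 hy
  exact mem_sat.2 ⟨x, h hx, hxy⟩

theorem sat_sat {r : V → V → Prop} (hr : Equivalence r) (D : Finset V) :
    sat r (sat r D) = sat r D := by
  apply Finset.Subset.antisymm
  · intro z hz
    obtain ⟨y, hy, hyz⟩ := mem_sat.1 hz
    obtain ⟨x, hx, hxy⟩ := mem_sat.1 hy
    exact mem_sat.2 ⟨x, hx, hr.trans hxy hyz⟩
  · exact subset_sat hr _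

theorem disj_sat {r : V → V → Prop} (hr : Equivalence r) {D D' : Finset V} :
    Disjoint (sat r D) D' ↔ Disjoint D (sat r D') := by
  rw [Finset.disjoint_left, Finset.disjoint_left]
  constructor
  · intro h x hx hx'
    obtain ⟨y, hy, hyx⟩ := mem_sat.1 hx'
    exact h (mem_sat.2 ⟨x, hx, hr.symm hyx⟩) hy
  · intro h y hy hy'
    obtain ⟨x, hx, hxy⟩ := mem_sat.1 hy
    exact h hx (mem_sat.2 ⟨y, hy', hr.symm hxy⟩)

/-- the contracted hypergraph: every hyperedge is saturated -/
noncomputable def con (G : HG V E) (r : V → V → Prop) : HG V E where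
  inc e := sat r (G.inc e)
  p := G.p
  p_nonneg := G.p_nonneg
  p_lt := G.p_lt

theorem con_ex (G : HG V E) (r : V → V → Prop) (A : Finset E) (f : Finset E → ℝ) :
    (con G r).ex A f = G.ex A f := rfl

theorem sat_cl_con (G : HG V E) {r : V → V → Prop} (hr : Equivalence r) (S : Finset E)
    (D : Finset V) : sat r ((con G r).cl S D) = (con G r).cl S (sat r D) := by
  have key : ∀ T : Finset V, (con G r).Sat S T → (con G r).Sat S (sat r T) := by
    intro T hT e he
    rcases hT e he with h | h
    · exact Or.inl (h.trans (subset_sat hr T))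
    · right
      have h2 : Disjoint (sat r (G.inc e)) T := h
      show Disjoint (sat r (G.inc e)) (sat r T)
      rw [← disj_sat hr, sat_sat hr]
      exact h2
  apply Finset.Subset.antisymm
  · -- the cluster of a saturated set is saturated
    have h1 : (con G r).cl S D ⊆ (con G r).cl S (sat r D) :=
      (con G r).cl_mono (Finset.Subset.refl _) (subset_sat hr D)
    refine (sat_mono h1).trans ?_
    -- saturated core
    classical
    set T := (con G r).cl S (sat r D) with hT
    set T' := T.filter (fun y => ∀ z, r y z → z ∈ T) with hT'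
    have hsub : T ⊆ T' := by
      refine (con G r).cl_subset ?_ ?_
      · intro y hy
        rw [hT', Finset.mem_filter]
        refine ⟨(con G r).subset_cl S _ hy, fun z hz => ?_⟩
        refine (con G r).subset_cl S _ ?_
        obtain ⟨x, hx, hxy⟩ := mem_sat.1 hy
        exact mem_sat.2 ⟨x, hx, hr.trans hxy hz⟩
      · intro e he
        rcases (con G r).sat_cl S (sat r D) e he with h | h
        · left
          intro y hy
          rw [hT', Finset.mem_filter]
          refine ⟨h hy, fun z hz => h ?_⟩
          have hy' : y ∈ sat r (G.inc e) := hy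
          show z ∈ sat r (G.inc e)
          obtain ⟨x, hx, hxy⟩ := mem_sat.1 hy'
          exact mem_sat.2 ⟨x, hx, hr.trans hxy hz⟩
        · right
          exact Finset.disjoint_of_subset_right (Finset.filter_subset _ _) h
    intro z hz
    obtain ⟨y, hy, hyz⟩ := mem_sat.1 hz
    exact (Finset.mem_filter.1 (hsub hy)).2 z hyz
  · refine (con G r).cl_subset (sat_mono ((con G r).subset_cl S D)) ?_
    exact key _ ((con G r).sat_cl S D)

/-- glue relation: same cluster of `O`, or both in the cluster of `A` -/
def glue (G : HG V E) (O : Finset E) (A : Finset V) (x y : V) : Prop :=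
  y ∈ G.cl O {x} ∨ (x ∈ G.cl O A ∧ y ∈ G.cl O A)

theorem glue_equiv (G : HG V E) (O : Finset E) (A : Finset V) : Equivalence (glue G O A) where
  refl x := Or.inl (G.subset_cl O {x} (Finset.mem_singleton_self x))
  symm := by
    intro x y h
    rcases h with h | h
    · exact Or.inl (G.mem_cl_symm h)
    · exact Or.inr ⟨h.2, h.1⟩
  trans := by
    intro x y z h1 h2
    have hstep : ∀ {a b : V}, b ∈ G.cl O {a} → a ∈ G.cl O A → b ∈ G.cl O A := by
      intro a b hb ha
      have h3 : G.cl O {a} ⊆ G.cl O (G.cl O A) :=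
        G.cl_mono (Finset.Subset.refl _) (by rwa [Finset.singleton_subset_iff])
      rw [G.cl_cl] at h3
      exact h3 hb
    rcases h1 with h1 | h1 <;> rcases h2 with h2 | h2
    · left
      rw [← G.cl_singleton_eq h1]; exact h2
    · exact Or.inr ⟨hstep (G.mem_cl_symm h1) h2.1, h2.2⟩
    · exact Or.inr ⟨h1.1, hstep h2 h1.2⟩
    · exact Or.inr ⟨h1.1, h2.2⟩

theorem sat_glue_eq (G : HG V E) {O : Finset E} {A T : Finset V} (hT : G.Sat O T)
    (hA : G.cl O A ⊆ T) : sat (glue G O A) T = T := by
  apply Finset.Subset.antisymm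
  · intro y hy
    obtain ⟨x, hx, hxy⟩ := mem_sat.1 hy
    rcases hxy with h | h
    · exact G.cl_subset (by rwa [Finset.singleton_subset_iff]) hT h
    · exact hA h.2
  · exact subset_sat (glue_equiv G O A) T

theorem gSat_of_sat (G : HG V E) {O : Finset E} {A T : Finset V}
    (hT : sat (glue G O A) T = T) : G.Sat O T := by
  intro e he
  by_cases hd : Disjoint (G.inc e) T
  · exact Or.inr hd
  · left
    rw [Finset.not_disjoint_iff] at hd
    obtain ⟨x, hx, hxT⟩ := hd
    intro y hy
    rw [← hT, mem_sat]
    refine ⟨x, hxT, Or.inl ?_⟩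
    rcases G.sat_cl O {x} e he with h | h
    · exact h hy
    · exact absurd (G.subset_cl O {x} (Finset.mem_singleton_self x))
        (Finset.disjoint_left.1 h hx)

theorem con_cl_start (G : HG V E) (O S : Finset E) (A : Finset V) {a : V} (ha : a ∈ A) :
    (con G (glue G O A)).cl S (sat (glue G O A) {a}) = G.cl (O ∪ S) A := by
  set r := glue G O A with hr
  have he := glue_equiv G O A
  have hAT : G.cl O A ⊆ G.cl (O ∪ S) A := G.cl_mono Finset.subset_union_left (Finset.Subset.refl _)
  have hsT : sat r (G.cl (O ∪ S) A) = G.cl (O ∪ S) A :=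
    sat_glue_eq G ((G.sat_cl (O ∪ S) A).mono Finset.subset_union_left) hAT
  apply Finset.Subset.antisymm
  · refine (con G r).cl_subset ?_ ?_
    · rw [← hsT]
      exact sat_mono (by rw [Finset.singleton_subset_iff]; exact G.subset_cl _ _ ha)
    · intro e heS
      rcases G.sat_cl (O ∪ S) A e (Finset.mem_union_right _ heS) with h | h
      · left
        show sat r (G.inc e) ⊆ _
        rw [← hsT]
        exact sat_mono h
      · right
        show Disjoint (sat r (G.inc e)) _
        rw [disj_sat he, hsT]
        exact h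
  · set T' := (con G r).cl S (sat r {a}) with hT'
    have hs' : sat r T' = T' := by
      rw [hT', sat_cl_con G he, sat_sat he]
    refine G.cl_subset ?_ ?_
    · intro y hy
      refine (con G r).subset_cl S _ ?_
      exact mem_sat.2 ⟨a, Finset.mem_singleton_self a, Or.inr ⟨G.subset_cl _ _ ha,
        G.subset_cl _ _ hy⟩⟩
    · intro e heS
      rcases Finset.mem_union.1 heS with h | h
      · exact gSat_of_sat G hs' e h
      · rcases (con G r).sat_cl S (sat r {a}) e h with h1 | h1
        · left
          exact (subset_sat he (G.inc e)).trans h1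
        · right
          exact Finset.disjoint_of_subset_left (subset_sat he (G.inc e)) h1

theorem cl_subset_con_cl (G : HG V E) (O S : Finset E) (A D : Finset V) :
    G.cl (O ∪ S) D ⊆ (con G (glue G O A)).cl S (sat (glue G O A) D) := by
  set r := glue G O A with hr
  have he := glue_equiv G O A
  set T' := (con G r).cl S (sat r D) with hT'
  have hs' : sat r T' = T' := by
    rw [hT', sat_cl_con G he, sat_sat he]
  refine G.cl_subset ?_ ?_
  · exact (subset_sat he D).trans ((con G r).subset_cl S _)
  · intro e heS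
    rcases Finset.mem_union.1 heS with h | h
    · exact gSat_of_sat G hs' e h
    · rcases (con G r).sat_cl S (sat r D) e h with h1 | h1
      · left
        exact (subset_sat he (G.inc e)).trans h1
      · right
        exact Finset.disjoint_of_subset_left (subset_sat he (G.inc e)) h1

open Classical in
/-- **Kozma–Nitzan for sets and increasing goals** (constant one), with a sure-open set `O`. -/
theorem kn_set (G : HG V E) (Ω O : Finset E) (A F : Finset V) (goal : Finset V → Prop)
    (hgoal : ∀ C C' : Finset V, C ⊆ C' → goal C → goal C') {τ : ℝ} (hτ0 : 0 ≤ τ)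
    (hτ : ∀ y ∈ F, G.ex Ω (fun S => if goal (G.cl (O ∪ S) {y}) then 0 else 1) ≤ τ) :
    G.ex Ω (fun S => if ¬ Disjoint (G.cl (O ∪ S) A) F ∧ ¬ goal (G.cl (O ∪ S) A) then 1 else 0)
      ≤ τ := by
  rcases A.eq_empty_or_nonempty with hA | ⟨a, ha⟩
  · subst hA
    refine G.ex_le_of_le fun S _ => ?_
    have h0 : G.cl (O ∪ S) ∅ = ∅ := by
      apply Finset.eq_empty_of_forall_notMem
      intro x hx
      obtain ⟨y, hy, _⟩ := (G.mem_cl_iff_exists).1 hx
      simp at hy
    rw [h0, if_neg (fun h => h.1 (Finset.disjoint_empty_left _))]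
    exact hτ0
  set r := glue G O A with hr
  have he := glue_equiv G O A
  set K := con G r with hK
  set P := sat r F with hP
  -- T* for the contracted hypergraph, one query at `a`
  obtain ⟨ℓ, hℓ0, hℓu, hℓ1⟩ := K.Tstar Ω P (fun _ _ => some a) 1 P ∅
    (Finset.disjoint_empty_right _) (Finset.union_empty P).symm
  set u : Finset V → ℝ := fun C => if goal (sat r C) then 1 else 0 with hu
  have humono : Monotone u := by
    intro C C' h
    simp only [hu]
    by_cases h1 : goal (sat r C)
    · rw [if_pos h1, if_pos (hgoal _ _ (sat_mono h) h1)]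
    · rw [if_neg h1]; split_ifs <;> norm_num
  have h1 := hℓu u humono
  have hrun : ∀ Φ : Finset V → ℝ,
      K.run Ω P (fun _ _ => some a) (fun _ => 0)
        (fun C D => if Disjoint D ∅ then Φ (C ∪ D) else 0) 1 ∅
      = G.ex Ω (fun S => if Disjoint (K.cl S {a}) P then 0 else Φ (K.cl S {a})) := by
    intro Φ
    simp only [HG.run, HG.off_empty, Finset.disjoint_empty_right, if_true, Finset.empty_union]
    rfl
  have hrun1 : K.run Ω P (fun _ _ => some a) (fun _ => 0)
        (fun _ D => if Disjoint D ∅ then 1 else 0) 1 ∅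
      = G.ex Ω (fun S => if Disjoint (K.cl S {a}) P then 0 else 1) := by
    simp only [HG.run, HG.off_empty, Finset.disjoint_empty_right, if_true]
    rfl
  have hrunu : K.run Ω P (fun _ _ => some a) (fun _ => 0)
        (fun C D => if Disjoint D ∅ then u (C ∪ D) else 0) 1 ∅
      = G.ex Ω (fun S => if Disjoint (K.cl S {a}) P then 0 else u (K.cl S {a})) := hrun u
  rw [hrunu] at h1
  rw [hrun1] at hℓ1
  -- weights
  have h5 : ∀ i, K.cE Ω ∅ i (fun _ => 1) = 1 := by
    intro i
    unfold HG.cE
    simp only [Finset.disjoint_empty_right, if_true]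
    rw [K.ex_const]
  have h10 : ∑ i ∈ P, ℓ i * K.cE Ω ∅ i (fun _ => 1) = ∑ i ∈ P, ℓ i := by
    refine Finset.sum_congr rfl fun i _ => ?_
    rw [h5, mul_one]
  rw [h10] at hℓ1
  have hle1 : ∑ i ∈ P, ℓ i ≤ 1 := by
    rw [hℓ1]
    refine G.ex_le_of_le fun S _ => ?_
    split_ifs <;> norm_num
  -- failure from each pole
  have h6 : ∀ i ∈ P, 1 - τ ≤ K.cE Ω ∅ i u := by
    intro i hi
    obtain ⟨y, hy, hyi⟩ := mem_sat.1 hi
    have h7 := hτ y hy
    have h8 : 1 - G.ex Ω (fun S => if goal (G.cl (O ∪ S) {y}) then (0 : ℝ) else 1)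
        ≤ K.cE Ω ∅ i u := by
      have h11 := G.ex_sub Ω (fun _ => (1 : ℝ))
        (fun S => if goal (G.cl (O ∪ S) {y}) then (0 : ℝ) else 1)
      rw [G.ex_const] at h11
      rw [← h11]
      unfold HG.cE
      show G.ex Ω _ ≤ G.ex Ω _
      refine G.ex_mono fun S _ => ?_
      simp only [Finset.disjoint_empty_right, if_true, hu]
      have hsub : G.cl (O ∪ S) {y} ⊆ sat r (K.cl S {i}) := by
        have h12 := cl_subset_con_cl G O S A {y}
        have h13 : sat r ({y} : Finset V) = sat r {i} := by
          apply Finset.Subset.antisymm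
          · intro z hz
            obtain ⟨w, hw, hwz⟩ := mem_sat.1 hz
            rw [Finset.mem_singleton] at hw
            subst hw
            exact mem_sat.2 ⟨i, Finset.mem_singleton_self i, he.trans (he.symm hyi) hwz⟩
          · intro z hz
            obtain ⟨w, hw, hwz⟩ := mem_sat.1 hz
            rw [Finset.mem_singleton] at hw
            subst hw
            exact mem_sat.2 ⟨y, Finset.mem_singleton_self y, he.trans hyi hwz⟩
        rw [hK, sat_cl_con G he, ← h13]
        exact h12
      by_cases h14 : goal (G.cl (O ∪ S) {y})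
      · rw [if_pos h14, if_pos (hgoal _ _ hsub h14)]; norm_num
      · rw [if_neg h14]; split_ifs <;> norm_num
    linarith
  have h9 : (1 - τ) * ∑ i ∈ P, ℓ i ≤ ∑ i ∈ P, ℓ i * K.cE Ω ∅ i u := by
    rw [Finset.mul_sum]
    refine Finset.sum_le_sum fun i hi => ?_
    have := mul_le_mul_of_nonneg_left (h6 i hi) (hℓ0 i)
    linarith
  -- conclusion
  have h15 : G.ex Ω (fun S => if ¬ Disjoint (G.cl (O ∪ S) A) F ∧ ¬ goal (G.cl (O ∪ S) A)
      then (1 : ℝ) else 0)
      ≤ G.ex Ω (fun S => (if Disjoint (K.cl S {a}) P then (0 : ℝ) else 1)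
        - (if Disjoint (K.cl S {a}) P then 0 else u (K.cl S {a}))) := by
    refine G.ex_mono fun S _ => ?_
    have hcl : sat r (K.cl S {a}) = G.cl (O ∪ S) A := by
      rw [hK, sat_cl_con G he]
      exact con_cl_start G O S A ha
    by_cases hd : Disjoint (K.cl S {a}) P
    · have h16 : Disjoint (G.cl (O ∪ S) A) F := by
        rw [← hcl, disj_sat he]
        exact hd
      rw [if_neg (fun h => h.1 h16), if_pos hd, if_pos hd]
      norm_num
    · rw [if_neg hd, if_neg hd]
      simp only [hu, hcl]
      by_cases h17 : goal (G.cl (O ∪ S) A)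
      · rw [if_neg (fun h => h.2 h17), if_pos h17]; norm_num
      · rw [if_neg h17]; split_ifs <;> norm_num
  rw [G.ex_sub] at h15
  have h18 : ∑ i ∈ P, ℓ i * τ ≤ τ := by
    rw [← Finset.sum_mul]
    nlinarith
  have h19 : 0 ≤ ∑ i ∈ P, ℓ i := Finset.sum_nonneg fun i _ => hℓ0 i
  nlinarith

end Crest.Agent.R147.Nm
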