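import Crest.Agent.R147.Nm53KN

/-!
# Natural-mark Kozma–Nitzan inequality (#6953 Fix 1 = #6571 (0))

`nat_kn`: no sprinkling, no independent marks.  `Ωin` = edges inside the domain, `D y` = gadgets
made of edges outside the domain, attached to the possible exits `v y`.
-/

set_option autoImplicit false
set_option linter.unusedSectionVars false

open Finset

namespace Crest.Agent.R147.Nm

open Crest.Agent.R147.KN

variable {V E : Type*} [DecidableEq V] [DecidableEq E]

theorem ex_comm (G : HG V E) (A B : Finset E) (f : Finset E → Finset E → ℝ) :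
    G.ex A (fun S => G.ex B (fun T => f S T)) = G.ex B (fun T => G.ex A (fun S => f S T)) := by
  unfold HG.ex
  simp only [Finset.mul_sum]
  rw [Finset.sum_comm]
  refine Finset.sum_congr rfl fun T _ => Finset.sum_congr rfl fun S _ => ?_
  ring

open Classical in
/-- expectation on the event that the hyperedges of `D` are all open -/
theorem ex_ind_subset_mul (G : HG V E) {D A : Finset E} (h : D ⊆ A) (f : Finset E → ℝ) :
    G.ex A (fun S => if D ⊆ S then f S else 0)
      = (∏ e ∈ D, G.p e) * G.ex (A \ D) (fun T => f (D ∪ T)) := by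
  have hA : A = D ∪ (A \ D) := by rw [Finset.union_sdiff_of_subset h]
  conv_lhs => rw [hA]
  rw [G.ex_union Finset.disjoint_sdiff]
  have h1 : ∀ S, S ⊆ D → G.ex (A \ D) (fun T => if D ⊆ S ∪ T then f (S ∪ T) else 0)
      = if S = D then G.ex (A \ D) (fun T => f (D ∪ T)) else 0 := by
    intro S hS
    by_cases hSD : S = D
    · subst hSD
      rw [if_pos rfl]
      refine G.ex_congr fun T _ => ?_
      rw [if_pos Finset.subset_union_left]
    · rw [if_neg hSD]
      have h2 : ∀ T, T ⊆ A \ D → (if D ⊆ S ∪ T then f (S ∪ T) else 0) = 0 := by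
        intro T hT
        rw [if_neg]
        intro hD
        apply hSD
        apply Finset.Subset.antisymm hS
        intro x hx
        rcases Finset.mem_union.1 (hD hx) with h3 | h3
        · exact h3
        · exact absurd hx (Finset.mem_sdiff.1 (hT h3)).2
      rw [G.ex_congr h2, G.ex_const]
  rw [G.ex_congr h1]
  unfold HG.ex
  rw [Finset.sum_eq_single D]
  · beta_reduce
    rw [if_pos rfl]
    unfold HG.wt
    simp
  · intro S _ hSD
    beta_reduce
    rw [if_neg hSD, mul_zero]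
  · intro hD
    exact absurd (Finset.mem_powerset_self D) hD

open Classical in
theorem ex_ind_subset (G : HG V E) {D A : Finset E} (h : D ⊆ A) :
    G.ex A (fun S => if D ⊆ S then (1 : ℝ) else 0) = ∏ e ∈ D, G.p e := by
  rw [ex_ind_subset_mul G h (fun _ => 1), G.ex_const, mul_one]

open Classical in
/-- a decreasing function on the event that `D` is open -/
theorem ex_ind_subset_anti (G : HG V E) {D A : Finset E} (h : D ⊆ A) (f : Finset E → ℝ)
    (hf : ∀ S S', S ⊆ S' → f S' ≤ f S) :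
    G.ex A (fun S => if D ⊆ S then f S else 0) ≤ (∏ e ∈ D, G.p e) * G.ex A f := by
  rw [ex_ind_subset_mul G h]
  refine mul_le_mul_of_nonneg_left ?_ (Finset.prod_nonneg fun e _ => G.p_nonneg e)
  have hA : A = D ∪ (A \ D) := by rw [Finset.union_sdiff_of_subset h]
  conv_rhs => rw [hA]
  rw [G.ex_union Finset.disjoint_sdiff]
  refine G.le_ex_of_le fun S hS => ?_
  refine G.ex_mono fun T _ => ?_
  exact hf _ _ (Finset.union_subset_union_left hS)

open Classical in
/-- second moment: `m` independent marks, each of them bad with small conditional probability -/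
theorem no_good_mark (G : HG V E) {ι : Type*} (U : Finset E) (Y : Finset ι)
    (D : ι → Finset E) (hDU : ∀ y ∈ Y, D y ⊆ U)
    (hdis : ∀ y ∈ Y, ∀ y' ∈ Y, y ≠ y' → Disjoint (D y) (D y'))
    (φ : ι → Finset E → ℝ) {τ ε : ℝ} (hτ : 0 < τ)
    (hφ0 : ∀ y ∈ Y, ∀ I, 0 ≤ φ y I)
    (hφ : ∀ y ∈ Y, G.ex U (fun I => if D y ⊆ I then φ y I else 0)
      ≤ (∏ e ∈ D y, G.p e) * ε)
    (hμ : 0 < ∑ y ∈ Y, ∏ e ∈ D y, G.p e) :
    G.ex U (fun I => if ∀ y ∈ Y, ¬ (D y ⊆ I ∧ φ y I ≤ τ) then (1 : ℝ) else 0)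
      ≤ 4 / (∑ y ∈ Y, ∏ e ∈ D y, G.p e) + 2 * ε / τ := by
  set μ := ∑ y ∈ Y, ∏ e ∈ D y, G.p e with hμdef
  set N1 : Finset E → ℝ := fun I => ∑ y ∈ Y, if D y ⊆ I then (1 : ℝ) else 0 with hN1
  set N2 : Finset E → ℝ := fun I => ∑ y ∈ Y, (if D y ⊆ I then φ y I / τ else 0) with hN2
  have hpt : ∀ I, I ⊆ U → (if ∀ y ∈ Y, ¬ (D y ⊆ I ∧ φ y I ≤ τ) then (1 : ℝ) else 0)
      ≤ 4 / μ ^ 2 * (N1 I - μ) ^ 2 + 2 / μ * N2 I := by
    intro I _
    have hN2nn : 0 ≤ N2 I := by
      simp only [hN2]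
      refine Finset.sum_nonneg fun y hy => ?_
      split_ifs
      · exact div_nonneg (hφ0 y hy I) hτ.le
      · exact le_refl _
    have hA : 0 ≤ 4 / μ ^ 2 * (N1 I - μ) ^ 2 := by positivity
    have hB : 0 ≤ 2 / μ * N2 I := by positivity
    split_ifs with hall
    · by_cases hsmall : N1 I ≤ μ / 2
      · have h1 : μ ^ 2 / 4 ≤ (N1 I - μ) ^ 2 := by nlinarith
        have h2 : 1 ≤ 4 / μ ^ 2 * (N1 I - μ) ^ 2 := by
          rw [div_mul_eq_mul_div, le_div_iff₀ (by positivity)]
          linarith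
        linarith
      · push Not at hsmall
        have h3 : N1 I ≤ N2 I := by
          simp only [hN1, hN2]
          refine Finset.sum_le_sum fun y hy => ?_
          by_cases hDy : D y ⊆ I
          · rw [if_pos hDy, if_pos hDy, le_div_iff₀ hτ, one_mul]
            by_contra hlt
            push Not at hlt
            exact hall y hy ⟨hDy, hlt.le⟩
          · rw [if_neg hDy, if_neg hDy]
        have h4 : 1 ≤ 2 / μ * N2 I := by
          rw [div_mul_eq_mul_div, le_div_iff₀ hμ]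
          linarith
        linarith
    · linarith
  refine (G.ex_mono hpt).trans ?_
  rw [G.ex_add, G.ex_mul_left, G.ex_mul_left]
  -- variance
  have hE1 : ∀ y ∈ Y, G.ex U (fun I => if D y ⊆ I then (1 : ℝ) else 0) = ∏ e ∈ D y, G.p e :=
    fun y hy => ex_ind_subset G (hDU y hy)
  have hvar : G.ex U (fun I => (N1 I - μ) ^ 2) ≤ μ := by
    have h5 : ∀ I, I ⊆ U → (N1 I - μ) ^ 2
        = (∑ y ∈ Y, ∑ y' ∈ Y, (if D y ⊆ I then (1 : ℝ) else 0) * (if D y' ⊆ I then (1 : ℝ) else 0))
          - 2 * μ * N1 I + μ ^ 2 := by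
      intro I _
      have : (∑ y ∈ Y, ∑ y' ∈ Y, (if D y ⊆ I then (1 : ℝ) else 0)
          * (if D y' ⊆ I then (1 : ℝ) else 0)) = N1 I * N1 I := by
        rw [hN1, Finset.sum_mul_sum]
      rw [this]; ring
    rw [G.ex_congr h5]
    have h6 : G.ex U (fun I => (∑ y ∈ Y, ∑ y' ∈ Y, (if D y ⊆ I then (1 : ℝ) else 0)
          * (if D y' ⊆ I then (1 : ℝ) else 0)) - 2 * μ * N1 I + μ ^ 2)
        = (∑ y ∈ Y, ∑ y' ∈ Y, G.ex U (fun I => (if D y ⊆ I then (1 : ℝ) else 0)
          * (if D y' ⊆ I then (1 : ℝ) else 0))) - 2 * μ * G.ex U N1 + μ ^ 2 := by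
      rw [G.ex_add U (fun I => (∑ y ∈ Y, ∑ y' ∈ Y, (if D y ⊆ I then (1 : ℝ) else 0)
          * (if D y' ⊆ I then (1 : ℝ) else 0)) - 2 * μ * N1 I) (fun _ => μ ^ 2),
        G.ex_sub U (fun I => (∑ y ∈ Y, ∑ y' ∈ Y, (if D y ⊆ I then (1 : ℝ) else 0)
          * (if D y' ⊆ I then (1 : ℝ) else 0))) (fun I => 2 * μ * N1 I), G.ex_const,
        G.ex_mul_left]
      congr 2
      rw [G.ex_sum]
      exact Finset.sum_congr rfl fun y _ => by rw [G.ex_sum]
    rw [h6]
    have h7 : G.ex U N1 = μ := by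
      rw [hN1, G.ex_sum, hμdef]
      exact Finset.sum_congr rfl hE1
    have h8 : (∑ y ∈ Y, ∑ y' ∈ Y, G.ex U (fun I => (if D y ⊆ I then (1 : ℝ) else 0)
          * (if D y' ⊆ I then (1 : ℝ) else 0)))
        ≤ ∑ y ∈ Y, ((∏ e ∈ D y, G.p e) + ∑ y' ∈ Y, (∏ e ∈ D y, G.p e) * (∏ e ∈ D y', G.p e)) := by
      refine Finset.sum_le_sum fun y hy => ?_
      rw [← Finset.add_sum_erase Y _ hy, ← Finset.add_sum_erase Y
        (fun y' => (∏ e ∈ D y, G.p e) * (∏ e ∈ D y', G.p e)) hy]
      have hdiag : G.ex U (fun I => (if D y ⊆ I then (1 : ℝ) else 0)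
          * (if D y ⊆ I then (1 : ℝ) else 0)) = ∏ e ∈ D y, G.p e := by
        rw [← hE1 y hy]
        refine G.ex_congr fun I _ => ?_
        split_ifs <;> norm_num
      have hoff : ∀ y' ∈ Y.erase y, G.ex U (fun I => (if D y ⊆ I then (1 : ℝ) else 0)
          * (if D y' ⊆ I then (1 : ℝ) else 0)) = (∏ e ∈ D y, G.p e) * (∏ e ∈ D y', G.p e) := by
        intro y' hy'
        have hne : y ≠ y' := (Finset.ne_of_mem_erase hy').symm
        have hy'Y := Finset.mem_of_mem_erase hy'
        have hd := hdis y hy y' hy'Y hne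
        have : ∀ I, I ⊆ U → (if D y ⊆ I then (1 : ℝ) else 0) * (if D y' ⊆ I then (1 : ℝ) else 0)
            = if D y ∪ D y' ⊆ I then (1 : ℝ) else 0 := by
          intro I _
          by_cases h9 : D y ⊆ I <;> by_cases h10 : D y' ⊆ I <;>
            simp [h9, h10, Finset.union_subset_iff]
        rw [G.ex_congr this, ex_ind_subset G (Finset.union_subset (hDU y hy) (hDU y' hy'Y)),
          Finset.prod_union hd]
      rw [hdiag, Finset.sum_congr rfl hoff]
      have : 0 ≤ (∏ e ∈ D y, G.p e) * (∏ e ∈ D y, G.p e) := mul_self_nonneg _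
      linarith
    have h11 : ∑ y ∈ Y, ((∏ e ∈ D y, G.p e) + ∑ y' ∈ Y, (∏ e ∈ D y, G.p e) * (∏ e ∈ D y', G.p e))
        = μ + μ * μ := by
      rw [Finset.sum_add_distrib, ← Finset.sum_mul_sum]
    rw [h11] at h8
    rw [h7]
    nlinarith
  have hN2e : G.ex U N2 ≤ μ * ε / τ := by
    rw [hN2, G.ex_sum, hμdef, Finset.sum_mul, Finset.sum_div]
    refine Finset.sum_le_sum fun y hy => ?_
    have h12 := hφ y hy
    have h13 : G.ex U (fun I => if D y ⊆ I then φ y I / τ else 0)
        = G.ex U (fun I => if D y ⊆ I then φ y I else 0) / τ := by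
      rw [div_eq_mul_inv, ← G.ex_mul_right]
      refine G.ex_congr fun I _ => ?_
      split_ifs
      · rw [div_eq_mul_inv]
      · rw [zero_mul]
    rw [h13]
    exact div_le_div_of_nonneg_right h12 hτ.le
  have h14 : 4 / μ ^ 2 * G.ex U (fun I => (N1 I - μ) ^ 2) ≤ 4 / μ := by
    calc 4 / μ ^ 2 * G.ex U (fun I => (N1 I - μ) ^ 2) ≤ 4 / μ ^ 2 * μ :=
          mul_le_mul_of_nonneg_left hvar (by positivity)
      _ = 4 / μ := by field_simp
  have h15 : 2 / μ * G.ex U N2 ≤ 2 * ε / τ := by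
    calc 2 / μ * G.ex U N2 ≤ 2 / μ * (μ * ε / τ) :=
          mul_le_mul_of_nonneg_left hN2e (by positivity)
      _ = 2 * ε / τ := by field_simp
  linarith

variable [Fintype V]

open Classical in
/-- **Natural-mark Kozma–Nitzan inequality** (N). -/
theorem nat_kn (G : HG V E) {Ω Ωin : Finset E} (hin : Ωin ⊆ Ω) (A : Finset V)
    {ι : Type*} (Y0 : Finset ι) (v : ι → V) (D : ι → Finset E) (B : ι → Finset V)
    (hD : ∀ y ∈ Y0, D y ⊆ Ω \ Ωin)
    (hDB : ∀ y ∈ Y0, ∀ S : Finset E, D y ⊆ S → B y ⊆ G.cl S {v y})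
    (goal : Finset V → Prop) (hgoal : ∀ C C' : Finset V, C ⊆ C' → goal C → goal C')
    {ε τ κ : ℝ}
    (hε : ∀ y ∈ Y0, G.ex Ω (fun S => if goal (G.cl S (B y)) then 0 else 1) ≤ ε)
    (hτ : 0 < τ) (hκ : 0 < κ) (hκD : ∀ y ∈ Y0, κ ≤ ∏ e ∈ D y, G.p e)
    (hε0 : 0 ≤ ε) {m : ℕ} (hm : 0 < m) :
    G.ex Ω (fun S => if goal (G.cl S A) then 0 else 1)
      ≤ G.ex Ωin (fun S => if ∃ Y ⊆ Y0, Y.card = m ∧
            (∀ y ∈ Y, ∀ y' ∈ Y, y ≠ y' → Disjoint (D y) (D y')) ∧ ∀ y ∈ Y, v y ∈ G.cl S A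
          then 0 else 1)
        + (4 / (κ * m) + 2 * ε / τ) + τ := by
  set U := Y0.biUnion D with hU
  set R := Ω \ U with hR
  have hUΩ : U ⊆ Ω := by
    rw [hU, Finset.biUnion_subset]
    exact fun y hy => (hD y hy).trans Finset.sdiff_subset
  have hinR : Ωin ⊆ R := by
    intro e he
    rw [hR, Finset.mem_sdiff]
    refine ⟨hin he, fun h => ?_⟩
    rw [hU, Finset.mem_biUnion] at h
    obtain ⟨y, hy, hey⟩ := h
    exact (Finset.mem_sdiff.1 (hD y hy hey)).2 he
  have hΩ : Ω = U ∪ R := by rw [hR, Finset.union_sdiff_of_subset hUΩ]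
  have hdUR : Disjoint U R := by rw [hR]; exact Finset.disjoint_sdiff
  -- quenched failure probabilities
  set φ : ι → Finset E → ℝ := fun y I =>
    G.ex R (fun S => if goal (G.cl (I ∪ S) {v y}) then 0 else 1) with hφdef
  have hφ0 : ∀ y I, 0 ≤ φ y I := fun y I => G.ex_nonneg fun S _ => by split_ifs <;> norm_num
  have hanti : ∀ (X : Finset V) (S S' : Finset E), S ⊆ S' →
      (if goal (G.cl S' X) then (0 : ℝ) else 1) ≤ if goal (G.cl S X) then 0 else 1 := by
    intro X S S' h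
    by_cases h1 : goal (G.cl S X)
    · rw [if_pos h1, if_pos (hgoal _ _ (G.cl_mono h (Finset.Subset.refl _)) h1)]
    · rw [if_neg h1]; split_ifs <;> norm_num
  have hφ : ∀ y ∈ Y0, G.ex U (fun I => if D y ⊆ I then φ y I else 0)
      ≤ (∏ e ∈ D y, G.p e) * ε := by
    intro y hy
    have hDyU : D y ⊆ U := Finset.subset_biUnion_of_mem D hy
    have h1 : G.ex U (fun I => if D y ⊆ I then φ y I else 0)
        = G.ex Ω (fun S => if D y ⊆ S then (if goal (G.cl S {v y}) then (0 : ℝ) else 1) else 0) := by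
      conv_rhs => rw [hΩ]
      rw [G.ex_union hdUR]
      refine G.ex_congr fun I hI => ?_
      by_cases hDI : D y ⊆ I
      · rw [if_pos hDI]
        simp only [hφdef]
        refine G.ex_congr fun S _ => ?_
        rw [if_pos (hDI.trans Finset.subset_union_left)]
      · rw [if_neg hDI]
        have : ∀ S, S ⊆ R → (if D y ⊆ I ∪ S then
            (if goal (G.cl (I ∪ S) {v y}) then (0 : ℝ) else 1) else 0) = 0 := by
          intro S hS
          rw [if_neg]
          intro h2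
          apply hDI
          intro e he
          rcases Finset.mem_union.1 (h2 he) with h3 | h3
          · exact h3
          · exact absurd (hS h3) (Finset.disjoint_left.1 hdUR (hDyU he))
        rw [G.ex_congr this, G.ex_const]
    rw [h1]
    have h4 : G.ex Ω (fun S => if D y ⊆ S then (if goal (G.cl S {v y}) then (0 : ℝ) else 1) else 0)
        ≤ G.ex Ω (fun S => if D y ⊆ S then (if goal (G.cl S (B y)) then (0 : ℝ) else 1) else 0) := by
      refine G.ex_mono fun S _ => ?_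
      by_cases h5 : D y ⊆ S
      · rw [if_pos h5, if_pos h5]
        have h6 : G.cl S (B y) ⊆ G.cl S {v y} := by
          have := G.cl_mono (Finset.Subset.refl S) (hDB y hy S h5)
          rwa [G.cl_cl] at this
        by_cases h7 : goal (G.cl S (B y))
        · rw [if_pos h7, if_pos (hgoal _ _ h6 h7)]
        · rw [if_neg h7]; split_ifs <;> norm_num
      · rw [if_neg h5, if_neg h5]
    refine h4.trans ?_
    refine (ex_ind_subset_anti G (hDyU.trans hUΩ) _ (hanti (B y))).trans ?_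
    exact mul_le_mul_of_nonneg_left (hε y hy) (Finset.prod_nonneg fun e _ => G.p_nonneg e)
  -- good marks
  set F : Finset E → Finset V := fun I => (Y0.filter fun y => D y ⊆ I ∧ φ y I ≤ τ).image v with hF
  have hstep : ∀ I, I ⊆ U → G.ex R (fun S => if goal (G.cl (I ∪ S) A) then (0 : ℝ) else 1)
      ≤ τ + G.ex Ωin (fun T => if Disjoint (G.cl T A) (F I) then (1 : ℝ) else 0) := by
    intro I _
    have h1 := kn_set G R I A (F I) goal hgoal hτ.le (by
      intro z hz
      simp only [hF] at hz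
      rw [Finset.mem_image] at hz
      obtain ⟨y, hy, hyz⟩ := hz
      rw [Finset.mem_filter] at hy
      rw [← hyz]
      exact hy.2.2)
    have h2 := G.ex_sub_config hinR (fun T => if Disjoint (G.cl T A) (F I) then (1 : ℝ) else 0)
    rw [← h2]
    refine le_trans ?_ (add_le_add_left h1 _)
    rw [← G.ex_add]
    refine G.ex_mono fun S _ => ?_
    by_cases h3 : goal (G.cl (I ∪ S) A)
    · rw [if_pos h3]
      have : (0 : ℝ) ≤ if ¬Disjoint (G.cl (I ∪ S) A) (F I) ∧ ¬goal (G.cl (I ∪ S) A)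
          then 1 else 0 := by split_ifs <;> norm_num
      have h4 : (0 : ℝ) ≤ if Disjoint (G.cl (S ∩ Ωin) A) (F I) then 1 else 0 := by
        split_ifs <;> norm_num
      linarith
    · rw [if_neg h3]
      by_cases h5 : Disjoint (G.cl (I ∪ S) A) (F I)
      · have h6 : Disjoint (G.cl (S ∩ Ωin) A) (F I) :=
          Finset.disjoint_of_subset_left (G.cl_mono
            (Finset.inter_subset_left.trans Finset.subset_union_right)
            (Finset.Subset.refl _)) h5
        rw [if_pos h6]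
        have : (0 : ℝ) ≤ if ¬Disjoint (G.cl (I ∪ S) A) (F I) ∧ ¬goal (G.cl (I ∪ S) A)
          then 1 else 0 := by split_ifs <;> norm_num
        linarith
      · rw [if_pos ⟨h5, h3⟩]
        have h4 : (0 : ℝ) ≤ if Disjoint (G.cl (S ∩ Ωin) A) (F I) then 1 else 0 := by
          split_ifs <;> norm_num
        linarith
  have htot : G.ex Ω (fun S => if goal (G.cl S A) then (0 : ℝ) else 1)
      ≤ τ + G.ex Ωin (fun T => G.ex U (fun I =>
          if Disjoint (G.cl T A) (F I) then (1 : ℝ) else 0)) := by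
    conv_lhs => rw [hΩ]
    rw [G.ex_union hdUR, ex_comm G Ωin U]
    refine (G.ex_mono hstep).trans (le_of_eq ?_)
    rw [G.ex_add, G.ex_const]
  refine htot.trans ?_
  -- each inside configuration
  have hin2 : ∀ T, T ⊆ Ωin → G.ex U (fun I => if Disjoint (G.cl T A) (F I) then (1 : ℝ) else 0)
      ≤ (if ∃ Y ⊆ Y0, Y.card = m ∧
            (∀ y ∈ Y, ∀ y' ∈ Y, y ≠ y' → Disjoint (D y) (D y')) ∧ ∀ y ∈ Y, v y ∈ G.cl T A
          then 0 else 1) + (4 / (κ * m) + 2 * ε / τ) := by
    intro T _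
    have hpos : 0 ≤ 4 / (κ * m) + 2 * ε / τ := by positivity
    split_ifs with hY
    · obtain ⟨Y, hYY0, hYm, hYd, hYv⟩ := hY
      have hμ0 : κ * m ≤ ∑ y ∈ Y, ∏ e ∈ D y, G.p e := by
        calc κ * m = ∑ _y ∈ Y, κ := by rw [Finset.sum_const, hYm, nsmul_eq_mul, mul_comm]
          _ ≤ _ := Finset.sum_le_sum fun y hy => hκD y (hYY0 hy)
      have hκm : 0 < κ * m := by positivity
      have h1 := no_good_mark G U Y D (fun y hy => Finset.subset_biUnion_of_mem D (hYY0 hy)) hYd
        φ hτ (fun y _ I => hφ0 y I) (fun y hy => hφ y (hYY0 hy)) (lt_of_lt_of_le hκm hμ0)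
      have h2 : 4 / (∑ y ∈ Y, ∏ e ∈ D y, G.p e) ≤ 4 / (κ * m) :=
        div_le_div_of_nonneg_left (by norm_num) hκm hμ0
      have h3 : G.ex U (fun I => if Disjoint (G.cl T A) (F I) then (1 : ℝ) else 0)
          ≤ G.ex U (fun I => if ∀ y ∈ Y, ¬ (D y ⊆ I ∧ φ y I ≤ τ) then (1 : ℝ) else 0) := by
        refine G.ex_mono fun I _ => ?_
        by_cases h4 : Disjoint (G.cl T A) (F I)
        · rw [if_pos h4, if_pos]
          intro y hy h5
          refine Finset.disjoint_left.1 h4 (hYv y hy) ?_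
          simp only [hF]
          rw [Finset.mem_image]
          exact ⟨y, Finset.mem_filter.2 ⟨hYY0 hy, h5⟩, rfl⟩
        · rw [if_neg h4]; split_ifs <;> norm_num
      linarith
    · have : G.ex U (fun I => if Disjoint (G.cl T A) (F I) then (1 : ℝ) else 0) ≤ 1 :=
        G.ex_le_of_le fun I _ => by split_ifs <;> norm_num
      linarith
  have h3 := G.ex_mono hin2
  rw [G.ex_add, G.ex_const] at h3
  linarith

end Crest.Agent.R147.Nm
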