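import Crest.Agent.R147.StGraph
import Crest.Agent.R147.Cl684Exp

/-!
Row 147 (helper53): orbit, covering radius, jump bound for `Z2Data`.

* `Orb Z o`: the orbit of `o` under `Z.H`.
* `exists_cover`: every vertex is within distance `ρ` of the orbit.
* `jump_th`: `v ∈ th n {u}` changes `Φ` by at most `C n` in both coordinates.
* `reach_block`: blocks `th k {b}` are connected through their own edges.
-/

set_option autoImplicit false

open Crest.ProbabilityR.Percolation
open Crest.Agent.R159 Crest.Agent.R159.Sharp Crest.Agent.R147.Cl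

namespace Crest.Agent.R147.Nm

universe u
variable {V : Type u} {G : SimpleGraph V}

/-- the orbit of `o` -/
def Orb (Z : St.Z2Data G) (o : V) : Set V := {v | ∃ h : Z.H, (h : G ≃g G) o = v}

theorem mem_orb_self (Z : St.Z2Data G) (o : V) : o ∈ Orb Z o := ⟨1, rfl⟩

theorem orb_map (Z : St.Z2Data G) {o f : V} (h : Z.H) (hf : f ∈ Orb Z o) :
    (h : G ≃g G) f ∈ Orb Z o := by
  obtain ⟨g, rfl⟩ := hf
  exact ⟨h * g, rfl⟩

theorem orb_map_symm (Z : St.Z2Data G) {o f : V} (h : Z.H) (hf : f ∈ Orb Z o) :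
    (h : G ≃g G).symm f ∈ Orb Z o := orb_map Z h⁻¹ hf

theorem phi_symm (Z : St.Z2Data G) (h : Z.H) (v : V) :
    Z.Φ ((h : G ≃g G).symm v) = Z.Φ v - Multiplicative.toAdd (Z.φ h) := by
  have := Z.equi h ((h : G ≃g G).symm v)
  rw [(h : G ≃g G).apply_symm_apply] at this
  rw [this]
  abel

/-- differences of `Φ` are invariant -/
theorem phi_diff (Z : St.Z2Data G) (h : Z.H) (u v : V) :
    Z.Φ ((h : G ≃g G) u) - Z.Φ ((h : G ≃g G) v) = Z.Φ u - Z.Φ v := by
  rw [Z.equi, Z.equi]
  abel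

theorem phi_diff_symm (Z : St.Z2Data G) (h : Z.H) (u v : V) :
    Z.Φ ((h : G ≃g G).symm u) - Z.Φ ((h : G ≃g G).symm v) = Z.Φ u - Z.Φ v := by
  rw [phi_symm, phi_symm]
  abel

/-- **covering radius** of the orbit -/
theorem exists_cover (hconn : G.Connected) (hloc : ∀ v : V, (G.neighborSet v).Finite)
    (Z : St.Z2Data G) (o : V) : ∃ ρ : ℕ, ∀ v, ∃ f ∈ Orb Z o, v ∈ th hloc ρ {f} := by
  classical
  have h1 : ∀ a : V, ∃ n : ℕ, a ∈ th hloc n {o} := by
    intro a
    obtain ⟨w⟩ := hconn.preconnected o a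
    exact ⟨w.length, (mem_th hloc).2 ⟨o, Finset.mem_singleton_self o, w, le_rfl⟩⟩
  choose n hn using h1
  refine ⟨Z.F.sup n, fun v => ?_⟩
  obtain ⟨h, hv⟩ := Z.cov v
  refine ⟨(h : G ≃g G).symm o, orb_map_symm Z h (mem_orb_self Z o), ?_⟩
  have h2 : (h : G ≃g G) v ∈ th hloc (Z.F.sup n) {o} :=
    th_mono_n hloc (Finset.le_sup (f := n) hv) _ (hn _)
  rw [← th_aut hloc (h : G ≃g G), (h : G ≃g G).apply_symm_apply]
  exact h2

/-- jumps along walks -/
theorem jump_walk (Z : St.Z2Data G) {u v : V} (w : G.Walk u v) :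
    |(Z.Φ v).1 - (Z.Φ u).1| ≤ Z.C * w.length ∧ |(Z.Φ v).2 - (Z.Φ u).2| ≤ Z.C * w.length := by
  induction w with
  | nil => simp
  | @cons a b c hab w ih =>
    have h1 := Z.jump a b hab
    rw [SimpleGraph.Walk.length_cons]
    push_cast
    rw [abs_le, abs_le] at *
    constructor
    · constructor <;> nlinarith [h1.1.1, h1.1.2, ih.1.1, ih.1.2]
    · constructor <;> nlinarith [h1.2.1, h1.2.2, ih.2.1, ih.2.2]

/-- jumps inside balls -/
theorem jump_th (hloc : ∀ v : V, (G.neighborSet v).Finite) (Z : St.Z2Data G) {n : ℕ} {u v : V}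
    (h : v ∈ th hloc n {u}) :
    |(Z.Φ v).1 - (Z.Φ u).1| ≤ Z.C * n ∧ |(Z.Φ v).2 - (Z.Φ u).2| ≤ Z.C * n := by
  obtain ⟨a, ha, w, hw⟩ := (mem_th hloc).1 h
  rw [Finset.mem_singleton] at ha
  subst ha
  have h1 := jump_walk Z w
  have h2 : (Z.C : ℤ) * w.length ≤ Z.C * n := by
    have : (w.length : ℤ) ≤ n := by exact_mod_cast hw
    exact mul_le_mul_of_nonneg_left this (by positivity)
  exact ⟨h1.1.trans h2, h1.2.trans h2⟩

/-- triangle inequality for balls -/
theorem th_trans (hloc : ∀ v : V, (G.neighborSet v).Finite) {n m : ℕ} {u v w : V}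
    (h1 : v ∈ th hloc n {u}) (h2 : w ∈ th hloc m {v}) : w ∈ th hloc (n + m) {u} := by
  rw [Nat.add_comm, ← th_add, mem_th_iff_exists]
  exact ⟨v, h1, h2⟩

theorem th_adj (hloc : ∀ v : V, (G.neighborSet v).Finite) {n : ℕ} {u v w : V}
    (h1 : v ∈ th hloc n {u}) (h2 : G.Adj v w) : w ∈ th hloc (n + 1) {u} := by
  rw [th_succ]
  exact (mem_nbh hloc).2 (Or.inr ⟨v, h1, h2⟩)

theorem mem_th_self (hloc : ∀ v : V, (G.neighborSet v).Finite) (n : ℕ) (u : V) :
    u ∈ th hloc n {u} := subset_th hloc n _ (Finset.mem_singleton_self u)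

/-- the centre of a block is joined to every vertex of the block inside the block -/
theorem reach_centre (hloc : ∀ v : V, (G.neighborSet v).Finite) {k : ℕ} {b : V}
    {ω : Set (Sym2 V)} (hω : ∀ x y, x ∈ th hloc k {b} → y ∈ th hloc k {b} → G.Adj x y →
      s(x, y) ∈ ω) {y : V} (hy : y ∈ th hloc k {b}) : (openSubgraph G ω).Reachable b y := by
  have key : ∀ n, n ≤ k → ∀ y, y ∈ th hloc n {b} → (openSubgraph G ω).Reachable b y := by
    intro n
    induction n with
    | zero =>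
      intro _ y hy
      rw [th_zero, Finset.mem_singleton] at hy
      rw [hy]
    | succ n ih =>
      intro hn y hy
      rw [th_succ, mem_nbh] at hy
      rcases hy with hy | ⟨a, ha, hay⟩
      · exact ih (by omega) y hy
      · refine (ih (by omega) a ha).trans (SimpleGraph.Adj.reachable ?_)
        rw [Inf.openSubgraph_adj]
        refine ⟨hω a y (th_mono_n hloc (by omega) _ ha) ?_ hay, hay⟩
        exact th_mono_n hloc hn _ (th_adj hloc ha hay)
  exact key k le_rfl y hy

/-- **blocks are connected through their own edges**, from every vertex of the block or adjacent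
to it -/
theorem reach_block (hloc : ∀ v : V, (G.neighborSet v).Finite) {k : ℕ} {b x y : V}
    (hx : x ∈ th hloc (k + 1) {b}) (hy : y ∈ th hloc k {b}) {ω : Set (Sym2 V)}
    (hω : (↑(toE hloc (th hloc k {b})) : Set (Sym2 V)) ⊆ ω) :
    (openSubgraph G ω).Reachable x y := by
  have hω' : ∀ x y, x ∈ th hloc k {b} → G.Adj x y → s(x, y) ∈ ω := by
    intro x y hx hxy
    exact hω ((mem_toE hloc).2 ⟨hxy, Or.inl hx⟩)
  have h1 : ∀ z, z ∈ th hloc k {b} → (openSubgraph G ω).Reachable b z := fun z hz =>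
    reach_centre hloc (fun x y hx _ hxy => hω' x y hx hxy) hz
  have h2 : (openSubgraph G ω).Reachable b x := by
    rw [th_succ, mem_nbh] at hx
    rcases hx with hx | ⟨a, ha, hax⟩
    · exact h1 x hx
    · refine (h1 a ha).trans (SimpleGraph.Adj.reachable ?_)
      rw [Inf.openSubgraph_adj]
      exact ⟨hω' a x ha hax, hax⟩
  exact h2.symm.trans (h1 y hy)

end Crest.Agent.R147.Nm
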