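import Mathlib.Algebra.BigOperators.Intervals
import Mathlib.Algebra.Field.ZMod
import Mathlib.Data.Set.Finite.Basic
import Mathlib.Data.Set.Finite.Lattice
import Mathlib.Order.Interval.Finset.SuccPred
import Mathlib.Order.Interval.Set.Infinite
import Mathlib.Tactic

/-!
# Boundary connectivity in `ℤ × ℤ` (Timár's parity argument)

`F` is a finite subset of `ℤ × ℤ` that contains `0` and is connected for nearest neighbour steps,
`Out F` the unbounded component of the complement.  The exits (pairs of a point of `F` and a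
neighbouring point of `Out F`) form a set that is connected for the relation "base points at
sup-distance at most one".
-/

set_option autoImplicit false

namespace Crest.Agent.R147.Pe

/-- The square lattice. -/
abbrev Z2 := ℤ × ℤ

/-- The four unit vectors. -/
def dv : Fin 4 → Z2
  | 0 => (1, 0)
  | 1 => (0, 1)
  | 2 => (-1, 0)
  | 3 => (0, -1)

/-- Nearest neighbours. -/
def Nb (a b : Z2) : Prop := ∃ i, b = a + dv i

/-- Joined by nearest neighbour steps, all of whose end points are in `S`. -/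
def Jn (S : Set Z2) : Z2 → Z2 → Prop := Relation.ReflTransGen (fun a b => Nb a b ∧ b ∈ S)

theorem Nb.symm {a b : Z2} (h : Nb a b) : Nb b a := by
  obtain ⟨i, rfl⟩ := h
  fin_cases i
  · exact ⟨2, by ext <;> simp [dv]⟩
  · exact ⟨3, by ext <;> simp [dv]⟩
  · exact ⟨0, by ext <;> simp [dv]⟩
  · exact ⟨1, by ext <;> simp [dv]⟩

theorem Jn.mem {S : Set Z2} {a b : Z2} (h : Jn S a b) (ha : a ∈ S) : b ∈ S := by
  induction h with
  | refl => exact ha
  | tail _ h _ => exact h.2

/-- Straight path. -/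
theorem jn_line {S : Set Z2} (z : Z2) (i : Fin 4) (n : ℕ)
    (h : ∀ k : ℕ, k ≤ n → z + k • dv i ∈ S) : Jn S z (z + n • dv i) := by
  induction n with
  | zero => rw [zero_smul, add_zero]; exact Relation.ReflTransGen.refl
  | succ n ih =>
    refine (ih (fun k hk => h k (by omega))).tail ⟨⟨i, ?_⟩, h (n + 1) le_rfl⟩
    rw [add_smul, one_smul, add_assoc]

/-- Primitive of a function on the integers. -/
theorem exists_prim {A : Type*} [AddCommGroup A] (u : ℤ → A) :
    ∃ U : ℤ → A, U 0 = 0 ∧ ∀ n, U (n + 1) = U n + u n := by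
  refine ⟨fun n => ∑ k ∈ Finset.Ico 0 n, u k - ∑ k ∈ Finset.Ico n 0, u k, by simp, fun n => ?_⟩
  rcases le_or_gt 0 n with hn | hn
  · have h1 : Finset.Ico (0 : ℤ) (n + 1) = insert n (Finset.Ico 0 n) := by
      ext x; simp only [Finset.mem_Ico, Finset.mem_insert]; omega
    have h2 : Finset.Ico (n + 1) (0 : ℤ) = ∅ := by
      ext x; simp only [Finset.mem_Ico, Finset.notMem_empty, iff_false]; omega
    have h3 : Finset.Ico n (0 : ℤ) = ∅ := by
      ext x; simp only [Finset.mem_Ico, Finset.notMem_empty, iff_false]; omega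
    simp only [h1, h2, h3, Finset.sum_empty, sub_zero]
    rw [Finset.sum_insert (by simp), add_comm]
  · have h1 : Finset.Ico n (0 : ℤ) = insert n (Finset.Ico (n + 1) 0) := by
      ext x; simp only [Finset.mem_Ico, Finset.mem_insert]; omega
    have h2 : Finset.Ico (0 : ℤ) (n + 1) = ∅ := by
      ext x; simp only [Finset.mem_Ico, Finset.notMem_empty, iff_false]; omega
    have h3 : Finset.Ico (0 : ℤ) n = ∅ := by
      ext x; simp only [Finset.mem_Ico, Finset.notMem_empty, iff_false]; omega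
    simp only [h1, h2, h3, Finset.sum_empty, zero_sub]
    rw [Finset.sum_insert (by simp)]
    abel

/-- A cochain on the edges of `ℤ × ℤ` that is closed on all unit squares is exact. -/
theorem exists_potential (fh fv : Z2 → ZMod 2)
    (hc : ∀ z : Z2, fh z + fv (z + dv 0) + fh (z + dv 1) + fv z = 0) :
    ∃ g : Z2 → ZMod 2, (∀ z, g (z + dv 0) = g z + fh z) ∧ (∀ z, g (z + dv 1) = g z + fv z) := by
  obtain ⟨U, -, hU⟩ := exists_prim (fun x : ℤ => fh (x, 0))
  choose P hP0 hP using fun x : ℤ => exists_prim (fun y : ℤ => fv (x, y))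
  refine ⟨fun z => U z.1 + P z.1 z.2, ?_, ?_⟩
  · rintro ⟨x, y⟩
    have key : ∀ y : ℤ, P (x + 1) y + fh (x, 0) = P x y + fh (x, y) := by
      have hstep : ∀ y : ℤ, fv (x + 1, y) + fh (x, y + 1) = fv (x, y) + fh (x, y) := by
        intro y
        have h := hc (x, y)
        simp only [dv, Prod.mk_add_mk, add_zero] at h
        have h2 : ∀ a b c d : ZMod 2, a + b + c + d = 0 → b + c = d + a := by decide
        exact h2 _ _ _ _ h
      have h2 : ∀ a b c d e f g : ZMod 2, a + b = c + d → e + f = g + d →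
          a + e + b = c + g + f := by decide
      have h3 : ∀ a b c d e f g : ZMod 2, a + e + b = c + g + f → e + f = g + d →
          a + b = c + d := by decide
      intro y
      induction y using Int.induction_on with
      | zero => rw [hP0, hP0]
      | succ n ih =>
        rw [hP, hP]
        exact h2 _ _ _ _ _ _ _ ih (hstep n)
      | pred n ih =>
        have e1 := hP (x + 1) (-(n : ℤ) - 1)
        have e2 := hP x (-(n : ℤ) - 1)
        have e3 := hstep (-(n : ℤ) - 1)
        rw [sub_add_cancel] at e1 e2 e3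
        rw [e1, e2] at ih
        exact h3 _ _ _ _ _ _ _ ih e3
    have h1 : ((x, y) : Z2) + dv 0 = (x + 1, y) := by simp [dv]
    simp only [h1]
    rw [hU]
    have := key y
    have h4 : ∀ a b c d e : ZMod 2, a + b = c + d → e + b + a = e + c + d := by decide
    exact h4 _ _ _ _ _ this
  · rintro ⟨x, y⟩
    have h1 : ((x, y) : Z2) + dv 1 = (x, y + 1) := by simp [dv]
    simp only [h1]
    rw [hP, add_assoc]

/-- Points at sup-distance at most one. -/
def Near (z w : Z2) : Prop := z.1 ≤ w.1 + 1 ∧ w.1 ≤ z.1 + 1 ∧ z.2 ≤ w.2 + 1 ∧ w.2 ≤ z.2 + 1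

theorem Near.symm {z w : Z2} (h : Near z w) : Near w z := ⟨h.2.1, h.1, h.2.2.2, h.2.2.1⟩

/-- Exits: a point of `F` together with a direction that leads to `O`. -/
def Ex (F O : Set Z2) : Set (Z2 × Fin 4) := {s | s.1 ∈ F ∧ s.1 + dv s.2 ∈ O}

/-- The same edge, from the other side. -/
def rev (s : Z2 × Fin 4) : Z2 × Fin 4 := (s.1 + dv s.2, s.2 + 2)

theorem rev_back (s : Z2 × Fin 4) : (rev s).1 + dv (rev s).2 = s.1 := by
  obtain ⟨⟨x, y⟩, i⟩ := s
  fin_cases i <;> simp [rev, dv]

theorem rev_rev (s : Z2 × Fin 4) : rev (rev s) = s := by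
  refine Prod.ext (rev_back s) ?_
  change s.2 + 2 + 2 = s.2
  generalize s.2 = i
  revert i
  decide

open Classical in
/-- **Boundary connectivity.** -/
theorem exits_connected {F O : Set Z2} (h1 : ∀ z ∈ O, z ∉ F)
    (h2 : ∀ z ∈ O, ∀ w, Nb z w → w ∉ F → w ∈ O) {a b : Z2} (hb : b ∈ O)
    (hO : ∀ z ∈ O, Jn O b z) (ha : a ∈ F) (hF : ∀ z ∈ F, Jn F a z) {A : Set (Z2 × Fin 4)} (hA : A ⊆ Ex F O) (hne : A.Nonempty)
    (hcl : ∀ s ∈ A, ∀ t ∈ Ex F O, Near s.1 t.1 → t ∈ A) : A = Ex F O := by
  set f : Z2 × Fin 4 → ZMod 2 := fun s => if s ∈ A ∨ rev s ∈ A then 1 else 0 with hf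
  set o : Z2 → ZMod 2 := fun z => if z ∈ O then 1 else 0 with ho
  have hfrev : ∀ s, f (rev s) = f s := by
    intro s
    simp only [hf, rev_rev]
    exact if_congr or_comm rfl rfl
  -- the indicator of the exit edges is the coboundary of the indicator of `O`
  have he : ∀ s : Z2 × Fin 4, (if s ∈ Ex F O ∨ rev s ∈ Ex F O then (1 : ZMod 2) else 0)
      = o s.1 + o (s.1 + dv s.2) := by
    intro s
    have hrev : rev s ∈ Ex F O ↔ s.1 + dv s.2 ∈ F ∧ s.1 ∈ O := by
      constructor
      · rintro ⟨h3, h4⟩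
        exact ⟨h3, by rwa [rev_back] at h4⟩
      · rintro ⟨h3, h4⟩
        exact ⟨h3, by rw [rev_back]; exact h4⟩
    by_cases hz : s.1 ∈ O <;> by_cases hw : s.1 + dv s.2 ∈ O
    · have h3 : ¬ (s ∈ Ex F O ∨ rev s ∈ Ex F O) := by
        rw [hrev]
        rintro (h | h)
        · exact h1 _ hz h.1
        · exact h1 _ hw h.1
      simp only [if_neg h3, ho, if_pos hz, if_pos hw]
      decide
    · have h3 : rev s ∈ Ex F O := by
        rw [hrev]
        refine ⟨?_, hz⟩
        by_contra h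
        exact hw (h2 _ hz _ ⟨s.2, rfl⟩ h)
      simp only [if_pos (Or.inr h3), ho, if_pos hz, if_neg hw, add_zero]
    · have h3 : s ∈ Ex F O := by
        refine ⟨?_, hw⟩
        by_contra h
        exact hz (h2 _ hw _ (Nb.symm ⟨s.2, rfl⟩) h)
      simp only [if_pos (Or.inl h3), ho, if_neg hz, if_pos hw, zero_add]
    · have h3 : ¬ (s ∈ Ex F O ∨ rev s ∈ Ex F O) := by
        rw [hrev]
        rintro (h | h)
        · exact hw h.2
        · exact hz h.2
      simp only [if_neg h3, ho, if_neg hz, if_neg hw, add_zero]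
  -- closedness
  have hclosed : ∀ z : Z2, f (z, 0) + f (z + dv 0, 1) + f (z + dv 1, 0) + f (z, 1) = 0 := by
    intro z
    set Q : Set Z2 := {w | z.1 ≤ w.1 ∧ w.1 ≤ z.1 + 1 ∧ z.2 ≤ w.2 ∧ w.2 ≤ z.2 + 1} with hQ
    have hnear : ∀ w ∈ Q, ∀ w' ∈ Q, Near w w' := by
      rintro w ⟨a1, a2, a3, a4⟩ w' ⟨b1, b2, b3, b4⟩
      exact ⟨by omega, by omega, by omega, by omega⟩
    have hQs : ∀ s : Z2 × Fin 4, (s = (z, 0) ∨ s = (z + dv 0, 1) ∨ s = (z + dv 1, 0) ∨ s = (z, 1)) →
        s.1 ∈ Q ∧ (rev s).1 ∈ Q := by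
      obtain ⟨x, y⟩ := z
      rintro s (rfl | rfl | rfl | rfl) <;> simp [hQ, rev, dv]
    by_cases hex : ∃ t ∈ A, t.1 ∈ Q
    · obtain ⟨t, htA, htQ⟩ := hex
      have hfe : ∀ s : Z2 × Fin 4,
          (s = (z, 0) ∨ s = (z + dv 0, 1) ∨ s = (z + dv 1, 0) ∨ s = (z, 1)) →
          f s = o s.1 + o (s.1 + dv s.2) := by
        intro s hs
        rw [← he s]
        obtain ⟨hs1, hs2⟩ := hQs s hs
        have hiff : (s ∈ A ∨ rev s ∈ A) ↔ (s ∈ Ex F O ∨ rev s ∈ Ex F O) := by
          constructor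
          · rintro (h | h)
            · exact Or.inl (hA h)
            · exact Or.inr (hA h)
          · rintro (h | h)
            · exact Or.inl (hcl t htA _ h (hnear _ htQ _ hs1))
            · exact Or.inr (hcl t htA _ h (hnear _ htQ _ hs2))
        simp only [hf, hiff]
      rw [hfe (z, 0) (by simp), hfe (z + dv 0, 1) (by simp), hfe (z + dv 1, 0) (by simp),
        hfe (z, 1) (by simp)]
      have h3 : z + dv 1 + dv 0 = z + dv 0 + dv 1 := by abel
      simp only [h3]
      have h4 : ∀ a b c d : ZMod 2, a + b + (b + c) + (d + c) + (a + d) = 0 := by decide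
      exact h4 _ _ _ _
    · push Not at hex
      have hf0 : ∀ s : Z2 × Fin 4,
          (s = (z, 0) ∨ s = (z + dv 0, 1) ∨ s = (z + dv 1, 0) ∨ s = (z, 1)) → f s = 0 := by
        intro s hs
        obtain ⟨hs1, hs2⟩ := hQs s hs
        have h3 : ¬ (s ∈ A ∨ rev s ∈ A) := by
          rintro (h | h)
          · exact hex _ h hs1
          · exact hex _ h hs2
        simp only [hf, if_neg h3]
      rw [hf0 (z, 0) (by simp), hf0 (z + dv 0, 1) (by simp), hf0 (z + dv 1, 0) (by simp),
        hf0 (z, 1) (by simp)]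
      simp
  obtain ⟨g, hg0, hg1⟩ := exists_potential (fun z => f (z, 0)) (fun z => f (z, 1)) hclosed
  have hg : ∀ z i, g (z + dv i) = g z + f (z, i) := by
    have hswap : ∀ a b c : ZMod 2, a = b + c → b = a + c := by decide
    intro z i
    fin_cases i
    · exact hg0 z
    · exact hg1 z
    · have h3 := hg0 (z + dv 2)
      have h4 : z + dv 2 + dv 0 = z := by
        obtain ⟨x, y⟩ := z; simp [dv]
      have h5 : f (z + dv 2, 0) = f (z, 2) := hfrev (z, 2)
      rw [h4] at h3
      change g (z + dv 2) = g z + f (z, 2)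
      rw [← h5]
      exact hswap _ _ _ h3
    · have h3 := hg1 (z + dv 3)
      have h4 : z + dv 3 + dv 1 = z := by
        obtain ⟨x, y⟩ := z; simp [dv]
      have h5 : f (z + dv 3, 1) = f (z, 3) := hfrev (z, 3)
      rw [h4] at h3
      change g (z + dv 3) = g z + f (z, 3)
      rw [← h5]
      exact hswap _ _ _ h3
  -- `g` is constant on `F` and on `O`
  have hgF : ∀ z ∈ F, g z = g a := by
    intro z hz
    have := hF z hz
    clear hz
    induction this with
    | refl => rfl
    | @tail c d hcd hd ih =>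
      obtain ⟨⟨i, rfl⟩, hdF⟩ := hd
      have hcF : c ∈ F := Jn.mem hcd ha
      rw [hg, ih]
      have h3 : ¬ ((c, i) ∈ A ∨ rev (c, i) ∈ A) := by
        rintro (h | h)
        · exact h1 _ (hA h).2 hdF
        · have h4 := (hA h).2
          rw [rev_back] at h4
          exact h1 _ h4 hcF
      simp only [hf, if_neg h3, add_zero]
  have hgO : ∀ z ∈ O, g z = g b := by
    intro z hz
    have := hO z hz
    clear hz
    induction this with
    | refl => rfl
    | @tail c d hcd hd ih =>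
      obtain ⟨⟨i, rfl⟩, hdO⟩ := hd
      have hcO : c ∈ O := Jn.mem hcd hb
      rw [hg, ih]
      have h3 : ¬ ((c, i) ∈ A ∨ rev (c, i) ∈ A) := by
        rintro (h | h)
        · exact h1 _ hcO (hA h).1
        · exact h1 _ hdO (hA h).1
      simp only [hf, if_neg h3, add_zero]
  have hconst : ∀ s ∈ Ex F O, f s = g a + g b := by
    intro s hs
    have h3 := hg s.1 s.2
    rw [hgF _ hs.1, hgO _ hs.2] at h3
    have h4 : ∀ x y z : ZMod 2, x = y + z → z = y + x := by decide
    exact h4 _ _ _ h3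
  obtain ⟨s0, hs0⟩ := hne
  have h5 : g a + g b = 1 := by
    rw [← hconst s0 (hA hs0)]
    simp only [hf, if_pos (Or.inl hs0)]
  refine Set.Subset.antisymm hA fun s hs => ?_
  by_contra hsA
  have h6 : ¬ (s ∈ A ∨ rev s ∈ A) := by
    rintro (h | h)
    · exact hsA h
    · exact h1 _ hs.2 (hA h).1
  have h7 := hconst s hs
  rw [h5] at h7
  simp only [hf, if_neg h6] at h7
  exact absurd h7 (by decide)

/-- The unbounded component of the complement of a finite set. -/
theorem exists_out {F : Set Z2} (hF : F.Finite) :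
    ∃ (O : Set Z2) (b : Z2), (∀ z ∈ O, z ∉ F) ∧ (∀ z ∈ O, ∀ w, Nb z w → w ∉ F → w ∈ O) ∧
      b ∈ O ∧ (∀ z ∈ O, Jn O b z) ∧ Oᶜ.Finite := by
  obtain ⟨N, hN⟩ : ∃ N : ℤ, ∀ z ∈ F, |z.1| < N ∧ |z.2| < N := by
    obtain ⟨B1, hB1⟩ := (hF.image fun z : Z2 => |z.1|).bddAbove
    obtain ⟨B2, hB2⟩ := (hF.image fun z : Z2 => |z.2|).bddAbove
    refine ⟨max B1 B2 + 1, fun z hz => ?_⟩
    have h1 : |z.1| ≤ B1 := hB1 (Set.mem_image_of_mem _ hz)
    have h2 : |z.2| ≤ B2 := hB2 (Set.mem_image_of_mem _ hz)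
    have h3 := le_max_left B1 B2
    have h4 := le_max_right B1 B2
    constructor <;> omega
  have hrow : ∀ x x' y : ℤ, N ≤ |y| → Jn Fᶜ (x, y) (x', y) := by
    intro x x' y hy
    have hmem : ∀ u : ℤ, ((u, y) : Z2) ∈ Fᶜ := fun u hu => absurd (hN _ hu).2 (not_lt.mpr hy)
    rcases le_total x x' with h | h
    · obtain ⟨n, hn⟩ := Int.eq_ofNat_of_zero_le (sub_nonneg.mpr h)
      have e : ((x', y) : Z2) = (x, y) + n • dv 0 := by
        ext <;> simp [dv]
        omega
      rw [e]
      refine jn_line _ _ _ fun k _ => ?_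
      have e2 : ((x, y) : Z2) + k • dv 0 = (x + k, y) := by simp [dv]
      rw [e2]
      exact hmem _
    · obtain ⟨n, hn⟩ := Int.eq_ofNat_of_zero_le (sub_nonneg.mpr h)
      have e : ((x', y) : Z2) = (x, y) + n • dv 2 := by
        ext <;> simp [dv]
        omega
      rw [e]
      refine jn_line _ _ _ fun k _ => ?_
      have e2 : ((x, y) : Z2) + k • dv 2 = (x - k, y) := by ext <;> simp [dv]; ring
      rw [e2]
      exact hmem _
  have hcol : ∀ x y y' : ℤ, N ≤ |x| → Jn Fᶜ (x, y) (x, y') := by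
    intro x y y' hx
    have hmem : ∀ u : ℤ, ((x, u) : Z2) ∈ Fᶜ := fun u hu => absurd (hN _ hu).1 (not_lt.mpr hx)
    rcases le_total y y' with h | h
    · obtain ⟨n, hn⟩ := Int.eq_ofNat_of_zero_le (sub_nonneg.mpr h)
      have e : ((x, y') : Z2) = (x, y) + n • dv 1 := by
        ext <;> simp [dv]
        omega
      rw [e]
      refine jn_line _ _ _ fun k _ => ?_
      have e2 : ((x, y) : Z2) + k • dv 1 = (x, y + k) := by simp [dv]
      rw [e2]
      exact hmem _
    · obtain ⟨n, hn⟩ := Int.eq_ofNat_of_zero_le (sub_nonneg.mpr h)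
      have e : ((x, y') : Z2) = (x, y) + n • dv 3 := by
        ext <;> simp [dv]
        omega
      rw [e]
      refine jn_line _ _ _ fun k _ => ?_
      have e2 : ((x, y) : Z2) + k • dv 3 = (x, y - k) := by ext <;> simp [dv]; ring
      rw [e2]
      exact hmem _
  have hNN : N ≤ |N| := le_abs_self N
  set b : Z2 := (N, N) with hb
  have hbF : b ∈ Fᶜ := fun h => absurd (hN _ h).1 (not_lt.mpr hNN)
  set O : Set Z2 := {z | Jn Fᶜ b z} with hO
  have hbO : b ∈ O := Relation.ReflTransGen.refl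
  have h2 : ∀ z ∈ O, ∀ w, Nb z w → w ∉ F → w ∈ O := fun z hz w hzw hw =>
    Relation.ReflTransGen.tail hz ⟨hzw, hw⟩
  refine ⟨O, b, fun z hz => Jn.mem hz hbF, h2, hbO, fun z hz => ?_, ?_⟩
  · have hz' : Jn Fᶜ b z := hz
    clear hz
    induction hz' with
    | refl => exact Relation.ReflTransGen.refl
    | @tail c d hcd hd ih => exact ih.tail ⟨hd.1, Relation.ReflTransGen.tail hcd hd⟩
  · refine Set.Finite.subset (Set.finite_Icc ((-N, -N) : Z2) (N, N)) ?_
    rintro ⟨x, y⟩ hz
    have h3 : |x| < N := by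
      by_contra h
      push Not at h
      exact hz ((hrow N x N hNN).trans (hcol x N y h))
    have h4 : |y| < N := by
      by_contra h
      push Not at h
      exact hz ((hcol N N y hNN).trans (hrow N x y h))
    rw [abs_lt] at h3 h4
    exact ⟨⟨h3.1.le, h4.1.le⟩, ⟨h3.2.le, h4.2.le⟩⟩

end Crest.Agent.R147.Pe
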