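import Crest.Agent.R147.Pe666Walk
import Mathlib.MeasureTheory.Measure.MeasureSpace
import Mathlib.Analysis.SpecificLimits.Basic

/-!
# The deterministic Peierls lemma on `ℤ × ℤ`
-/

set_option autoImplicit false

namespace Crest.Agent.R147.Pe

/-- The two oriented unit vectors: `false ↦ (1,0)`, `true ↦ (0,1)`. -/
def ev : Bool → Z2
  | false => (1, 0)
  | true => (0, 1)

/-- Congruent modulo `R` in both coordinates. -/
def Cong (R : ℕ) (z w : Z2) : Prop := (R : ℤ) ∣ z.1 - w.1 ∧ (R : ℤ) ∣ z.2 - w.2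

section Geometry

variable {F O : Set Z2}

theorem exit_dir (h2 : Oᶜ.Finite) {z : Z2} (hz : z ∉ O) (i : Fin 4) :
    ∃ n : ℕ, z + n • dv i ∉ O ∧ z + (n + 1) • dv i ∈ O := by
  classical
  have hex : ∃ n : ℕ, z + n • dv i ∈ O := by
    by_contra h
    push Not at h
    have hinj : Function.Injective fun n : ℕ => z + n • dv i := by
      intro m n hmn
      have h3 : m • dv i = n • dv i := add_left_cancel hmn
      fin_cases i <;> simpa [dv] using h3
    exact Set.infinite_of_injective_forall_mem hinj (fun n => h n) h2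
  have h3 := Nat.find_spec hex
  have h4 : Nat.find hex ≠ 0 := by
    intro h
    rw [h, zero_smul, add_zero] at h3
    exact hz h3
  obtain ⟨m, hm⟩ := Nat.exists_eq_succ_of_ne_zero h4
  refine ⟨m, Nat.find_min hex (by omega), ?_⟩
  rw [hm] at h3
  exact h3

theorem ivt (h0 : (0 : Z2) ∈ F) {z : Z2} (hz : Jn F 0 z) :
    ∀ k : ℤ, 0 ≤ k → k ≤ z.1 → ∃ w ∈ F, w.1 = k := by
  induction hz with
  | refl => exact fun k hk hk' => ⟨0, h0, le_antisymm hk hk'⟩
  | @tail c d hcd hd ih =>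
    intro k hk hk'
    obtain ⟨⟨i, rfl⟩, hdF⟩ := hd
    by_cases hkc : k ≤ c.1
    · exact ih k hk hkc
    · refine ⟨_, hdF, ?_⟩
      have : (dv i).1 ≤ 1 := by fin_cases i <;> simp [dv]
      have h5 : (c + dv i).1 = c.1 + (dv i).1 := rfl
      omega

theorem card_shift (K : Finset Z2) (v : Z2) [DecidablePred fun z => z + v ∉ K]
    [DecidablePred fun z => z - v ∉ K] :
    (K.filter fun z => z + v ∉ K).card = (K.filter fun z => z - v ∉ K).card := by
  classical
  have h1 := Finset.card_filter_add_card_filter_not (s := K) (fun z => z + v ∈ K)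
  have h2 := Finset.card_filter_add_card_filter_not (s := K) (fun z => z - v ∈ K)
  have h3 : (K.filter fun z => z + v ∈ K).card = (K.filter fun z => z - v ∈ K).card := by
    refine Finset.card_bij' (fun z _ => z + v) (fun z _ => z - v) ?_ ?_ ?_ ?_
    · intro z hz
      rw [Finset.mem_filter] at hz ⊢
      exact ⟨hz.2, by rw [add_sub_cancel_right]; exact hz.1⟩
    · intro z hz
      rw [Finset.mem_filter] at hz ⊢
      exact ⟨hz.2, by rw [sub_add_cancel]; exact hz.1⟩
    · intro z _; simp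
    · intro z _; simp
  have h4 : ∀ a b c d e : ℕ, a + b = e → c + d = e → a = c → b = d := by omega
  convert h4 _ _ _ _ _ h1 h2 h3 using 2

end Geometry

open Classical in
/-- The exits of a finite connected set. -/
theorem exists_exits {F : Set Z2} (hF : F.Finite) (h0 : (0 : Z2) ∈ F) (hc : ∀ z ∈ F, Jn F 0 z) :
    ∃ E : Finset (Z2 × Fin 4), (∀ s ∈ E, s.1 ∈ F ∧ s.1 + dv s.2 ∉ F) ∧
      (∃ x : ℕ, x < E.card ∧ (((x : ℤ), (0 : ℤ)), (0 : Fin 4)) ∈ E ∧
        ∀ A : Finset (Z2 × Fin 4), A ⊆ E → (((x : ℤ), (0 : ℤ)), (0 : Fin 4)) ∈ A →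
          (∀ s ∈ A, ∀ t ∈ E, Near s.1 t.1 → t ∈ A) → A = E) ∧
      E.card = 2 * (E.filter fun s => s.2 = 0 ∨ s.2 = 1).card := by
  obtain ⟨O, b, h1, h2, hb, hO, hfin⟩ := exists_out hF
  have hinF : ∀ z, z ∉ O → ∀ i, z + dv i ∈ O → z ∈ F := by
    intro z hz i hi
    by_contra h
    exact hz (h2 _ hi _ (Nb.symm ⟨i, rfl⟩) h)
  set K : Finset Z2 := hfin.toFinset with hK
  have hmemK : ∀ z, z ∈ K ↔ z ∉ O := by intro z; simp [hK]
  set E : Finset (Z2 × Fin 4) := (K ×ˢ (Finset.univ : Finset (Fin 4))).filter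
    (fun s => s.1 + dv s.2 ∉ K) with hE
  have hmemE : ∀ s, s ∈ E ↔ s ∈ Ex F O := by
    intro s
    rw [hE, Finset.mem_filter, Finset.mem_product, hmemK, hmemK, not_not]
    constructor
    · rintro ⟨⟨h3, -⟩, h4⟩
      exact ⟨hinF _ h3 _ h4, h4⟩
    · rintro ⟨h3, h4⟩
      exact ⟨⟨fun h => h1 _ h h3, Finset.mem_univ _⟩, h4⟩
  have h0O : (0 : Z2) ∉ O := fun h => h1 _ h h0
  -- the exit on the positive axis
  obtain ⟨x, hx1, hx2⟩ := exit_dir hfin h0O 0
  have e1 : (0 : Z2) + x • dv 0 = ((x : ℤ), 0) := by simp [dv]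
  have e2 : (0 : Z2) + (x + 1) • dv 0 = ((x : ℤ), 0) + dv 0 := by simp [dv]
  rw [e1] at hx1
  rw [e2] at hx2
  have hxE : (((x : ℤ), (0 : ℤ)), (0 : Fin 4)) ∈ E := by
    rw [hmemE]
    exact ⟨hinF _ hx1 0 hx2, hx2⟩
  have hxF : (((x : ℤ), (0 : ℤ)) : Z2) ∈ F := hinF _ hx1 0 hx2
  refine ⟨E, fun s hs => ?_, ⟨x, ?_, hxE, ?_⟩, ?_⟩
  · have hs' := (hmemE s).mp hs
    exact ⟨hs'.1, h1 _ hs'.2⟩
  · -- column argument
    have hcol : (Finset.Icc (0 : ℤ) x) ⊆ E.image fun s => s.1.1 := by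
      intro k hk
      rw [Finset.mem_Icc] at hk
      obtain ⟨w, hwF, hwk⟩ := ivt h0 (hc _ hxF) k hk.1 hk.2
      have hwO : w ∉ O := fun h => h1 _ h hwF
      obtain ⟨m, hm1, hm2⟩ := exit_dir hfin hwO 1
      have e3 : w + (m + 1) • dv 1 = (w + m • dv 1) + dv 1 := by
        rw [add_smul, one_smul, add_assoc]
      rw [e3] at hm2
      refine Finset.mem_image.mpr ⟨(w + m • dv 1, 1), ?_, ?_⟩
      · rw [hmemE]
        exact ⟨hinF _ hm1 1 hm2, hm2⟩
      · obtain ⟨w1, w2⟩ := w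
        simp only at hwk
        simp [dv, hwk]
    have h3 := Finset.card_le_card hcol
    rw [Int.card_Icc] at h3
    have h4 : (E.image fun s : Z2 × Fin 4 => s.1.1).card ≤ E.card := Finset.card_image_le
    omega
  · intro A hA hxA hcl
    have h3 := exits_connected h1 h2 hb hO h0 hc (A := (A : Set (Z2 × Fin 4)))
      (fun s hs => (hmemE s).mp (hA hs)) ⟨_, hxA⟩
      (fun s hs t ht hst => hcl s hs t ((hmemE t).mpr ht) hst)
    ext s
    rw [hmemE, ← h3]
    rfl
  · have hdir : ∀ i : Fin 4, (E.filter fun s => s.2 = i).card =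
        (K.filter fun z => z + dv i ∉ K).card := by
      intro i
      have h3 : (E.filter fun s => s.2 = i) =
          (K.filter fun z => z + dv i ∉ K).image fun z => (z, i) := by
        ext s
        simp only [hE, Finset.mem_filter, Finset.mem_product, Finset.mem_univ, and_true,
          Finset.mem_image]
        constructor
        · rintro ⟨⟨h3, h4⟩, rfl⟩
          exact ⟨s.1, ⟨h3, h4⟩, rfl⟩
        · rintro ⟨z, ⟨h3, h4⟩, rfl⟩
          exact ⟨⟨h3, h4⟩, rfl⟩
      rw [h3, Finset.card_image_of_injective]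
      intro z w h
      exact (Prod.mk.inj h).1
    have h02 : (E.filter fun s => s.2 = 2).card = (E.filter fun s => s.2 = 0).card := by
      rw [hdir, hdir, card_shift K (dv 0)]
      have : ∀ z : Z2, z + dv 2 = z - dv 0 := by
        rintro ⟨x, y⟩; simp [dv, sub_eq_add_neg]
      simp only [this]
    have h13 : (E.filter fun s => s.2 = 3).card = (E.filter fun s => s.2 = 1).card := by
      rw [hdir, hdir, card_shift K (dv 1)]
      have : ∀ z : Z2, z + dv 3 = z - dv 1 := by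
        rintro ⟨x, y⟩; simp [dv, sub_eq_add_neg]
      simp only [this]
    have hsum : E.card = ∑ i : Fin 4, (E.filter fun s => s.2 = i).card :=
      Finset.card_eq_sum_card_fiberwise (fun s _ => Finset.mem_univ _)
    have hor : (E.filter fun s => s.2 = 0 ∨ s.2 = 1).card =
        (E.filter fun s => s.2 = 0).card + (E.filter fun s => s.2 = 1).card := by
      rw [Finset.filter_or, Finset.card_union_of_disjoint]
      rw [Finset.disjoint_filter]
      intro s _ h h'
      rw [h] at h'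
      exact absurd h' (by decide)
    rw [hsum, hor]
    simp only [Fin.sum_univ_four]
    rw [h02, h13]
    ring

/-- Residue class of an exit. -/
def cls (R : ℕ) (s : Z2 × Fin 4) : (ℤ × ℤ) × Fin 4 := ((s.1.1 % R, s.1.2 % R), s.2)

/-- All residue classes. -/
noncomputable def clss (R : ℕ) : Finset ((ℤ × ℤ) × Fin 4) :=
  (Finset.Ico (0 : ℤ) R ×ˢ Finset.Ico (0 : ℤ) R) ×ˢ {0, 1}

theorem card_clss (R : ℕ) : (clss R).card = 2 * R ^ 2 := by
  simp only [clss, Finset.card_product, Int.card_Ico, sub_zero, Int.toNat_natCast]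
  have : ({0, 1} : Finset (Fin 4)).card = 2 := rfl
  rw [this]
  ring

open Classical in
/-- Base points of the exits of a set in a given class. -/
noncomputable def pts (R : ℕ) (c : (ℤ × ℤ) × Fin 4) (S : Finset (Z2 × Fin 4)) : Finset Z2 :=
  (S.filter fun s => cls R s = c).image Prod.fst

/-- The sets of base points coded by walks of length `2 (l - 1)` from the positive axis. -/
noncomputable def fam0 (R l : ℕ) : Finset (Finset Z2) := by
  classical
  exact ((Finset.range l) ×ˢ (clss R)).biUnion fun q =>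
    (walks (((q.1 : ℤ), (0 : ℤ)), (0 : Fin 4)) (2 * (l - 1))).image (pts R q.2)

theorem card_fam0_le (R l : ℕ) : (fam0 R l).card ≤ l * (2 * R ^ 2) * 36 ^ (2 * (l - 1)) := by
  classical
  unfold fam0
  refine Finset.card_biUnion_le.trans ?_
  refine (Finset.sum_le_card_nsmul _ _ (36 ^ (2 * (l - 1))) fun q _ =>
    Finset.card_image_le.trans (card_walks_le _ _)).trans ?_
  rw [Finset.card_product, Finset.card_range, card_clss, smul_eq_mul]

theorem cong_of_cls {R : ℕ} {s t : Z2 × Fin 4} (h : cls R s = cls R t) : Cong R s.1 t.1 := by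
  simp only [cls, Prod.mk.injEq] at h
  exact ⟨Int.ModEq.dvd (show t.1.1 % R = s.1.1 % R from h.1.1.symm),
    Int.ModEq.dvd (show t.1.2 % R = s.1.2 % R from h.1.2.symm)⟩

/-- **Deterministic Peierls lemma**, before re-indexing. -/
theorem exists_mem_fam0 {R : ℕ} (hR : 0 < R) {F : Set Z2} (hF : F.Finite) (h0 : (0 : Z2) ∈ F)
    (hc : ∀ z ∈ F, Jn F 0 z) :
    ∃ l, ∃ T ∈ fam0 R l, 0 < l ∧ l ≤ 4 * R ^ 2 * T.card ∧
      (∀ z ∈ T, ∀ w ∈ T, Cong R z w) ∧ ∃ d : Bool, ∀ z ∈ T, z ∈ F ∧ z + ev d ∉ F := by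
  classical
  obtain ⟨E, hE, ⟨x, hx, hxE, hcon⟩, hhalf⟩ := exists_exits hF h0 hc
  obtain ⟨L, hL, hvis⟩ := exists_walk hxE hcon
  set OE := E.filter fun s => s.2 = 0 ∨ s.2 = 1 with hOE
  have hmaps : ∀ s ∈ OE, cls R s ∈ clss R := by
    intro s hs
    rw [hOE, Finset.mem_filter] at hs
    have hR' : (0 : ℤ) < R := by exact_mod_cast hR
    simp only [cls, clss, Finset.mem_product, Finset.mem_Ico, Finset.mem_insert,
      Finset.mem_singleton]
    exact ⟨⟨⟨Int.emod_nonneg _ hR'.ne', Int.emod_lt_of_pos _ hR'⟩,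
      ⟨Int.emod_nonneg _ hR'.ne', Int.emod_lt_of_pos _ hR'⟩⟩, hs.2⟩
  have hne : (clss R).Nonempty := by
    rw [← Finset.card_pos, card_clss]
    positivity
  obtain ⟨c, hc', hcmax⟩ := Finset.exists_max_image (clss R)
    (fun c => (OE.filter fun s => cls R s = c).card) hne
  have hsum := Finset.card_eq_sum_card_fiberwise hmaps
  have hle := Finset.sum_le_card_nsmul (clss R) (fun c' => (OE.filter fun s => cls R s = c').card)
    ((OE.filter fun s => cls R s = c).card) hcmax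
  rw [← hsum, card_clss, smul_eq_mul] at hle
  -- in the class `c`, all exits are oriented
  have hc2 : c.2 = 0 ∨ c.2 = 1 := by
    simp only [clss, Finset.mem_product, Finset.mem_insert, Finset.mem_singleton] at hc'
    exact hc'.2
  have hfil : (OE.filter fun s => cls R s = c) = E.filter fun s => cls R s = c := by
    ext s
    simp only [hOE, Finset.mem_filter]
    constructor
    · rintro ⟨⟨h3, -⟩, h4⟩
      exact ⟨h3, h4⟩
    · rintro ⟨h3, h4⟩
      refine ⟨⟨h3, ?_⟩, h4⟩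
      have h5 : s.2 = c.2 := by rw [← h4]; rfl
      rw [h5]
      exact hc2
  have hcard : (pts R c E).card = (OE.filter fun s => cls R s = c).card := by
    rw [hfil, pts, Finset.card_image_of_injOn]
    intro s hs t ht hst
    simp only [Finset.coe_filter, Set.mem_setOf_eq] at hs ht
    have h5 : s.2 = c.2 := by rw [← hs.2]; rfl
    have h6 : t.2 = c.2 := by rw [← ht.2]; rfl
    exact Prod.ext hst (h5.trans h6.symm)
  have hlpos : 0 < E.card := Finset.card_pos.mpr ⟨_, hxE⟩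
  refine ⟨E.card, pts R c E, ?_, hlpos, ?_, ?_, ?_⟩
  · unfold fam0
    refine Finset.mem_biUnion.mpr ⟨(x, c), Finset.mem_product.mpr
      ⟨Finset.mem_range.mpr hx, hc'⟩, Finset.mem_image.mpr ⟨E, ?_, rfl⟩⟩
    rw [← hL]
    conv => enter [2]; rw [← hvis]
    exact vis_mem_walks _ _
  · rw [hcard]
    calc E.card = 2 * OE.card := hhalf
      _ ≤ 2 * (2 * R ^ 2 * (OE.filter fun s => cls R s = c).card) := by gcongr
      _ = 4 * R ^ 2 * (OE.filter fun s => cls R s = c).card := by ring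
  · intro z hz w hw
    simp only [pts, Finset.mem_image, Finset.mem_filter] at hz hw
    obtain ⟨s, ⟨-, hs⟩, rfl⟩ := hz
    obtain ⟨t, ⟨-, ht⟩, rfl⟩ := hw
    exact cong_of_cls (hs.trans ht.symm)
  · have hd : ∃ d : Bool, ev d = dv c.2 := by
      rcases hc2 with h | h
      · exact ⟨false, by rw [h]; rfl⟩
      · exact ⟨true, by rw [h]; rfl⟩
    obtain ⟨d, hd⟩ := hd
    refine ⟨d, fun z hz => ?_⟩
    simp only [pts, Finset.mem_image, Finset.mem_filter] at hz
    obtain ⟨s, ⟨hsE, hs⟩, rfl⟩ := hz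
    have h5 : s.2 = c.2 := by rw [← hs]; rfl
    rw [hd, ← h5]
    exact hE s hsE

open Classical in
/-- Families of sets of `n` base points. -/
noncomputable def fam (R n : ℕ) : Finset (Finset Z2) :=
  ((Finset.Icc 1 (4 * R ^ 2 * n)).biUnion (fam0 R)).filter fun T =>
    T.card = n ∧ ∀ z ∈ T, ∀ w ∈ T, Cong R z w

/-- The constant in the counting bound. -/
def cst (R : ℕ) : ℕ := (2 * 1296 * (2 * R ^ 2) + 1) ^ (4 * R ^ 2)

theorem card_fam_le {R : ℕ} (hR : 0 < R) (n : ℕ) : (fam R n).card ≤ cst R ^ n := by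
  classical
  set B := 2 * 1296 * (2 * R ^ 2) with hB
  have h1 : ∀ l ∈ Finset.Icc 1 (4 * R ^ 2 * n), (fam0 R l).card ≤ B ^ l := by
    intro l hl
    rw [Finset.mem_Icc] at hl
    refine (card_fam0_le R l).trans ?_
    have h2 : l ≤ 2 ^ l := (Nat.lt_two_pow_self).le
    have h3 : 2 * R ^ 2 ≤ (2 * R ^ 2) ^ l := Nat.le_self_pow (by omega) _
    have h4 : 36 ^ (2 * (l - 1)) ≤ 1296 ^ l := by
      rw [pow_mul]
      exact Nat.pow_le_pow_right (by norm_num) (by omega)
    calc l * (2 * R ^ 2) * 36 ^ (2 * (l - 1)) ≤ 2 ^ l * (2 * R ^ 2) ^ l * 1296 ^ l := by gcongr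
      _ = B ^ l := by rw [hB, ← mul_pow, ← mul_pow]; congr 1; ring
  have h2 : ∀ m : ℕ, ∑ l ∈ Finset.Icc 1 m, B ^ l ≤ (B + 1) ^ m := by
    intro m
    induction m with
    | zero => simp
    | succ m ih =>
      rw [Finset.sum_Icc_succ_top (by omega)]
      calc ∑ l ∈ Finset.Icc 1 m, B ^ l + B ^ (m + 1) ≤ (B + 1) ^ m + B ^ m * B := by
            rw [pow_succ]; gcongr
        _ ≤ (B + 1) ^ m + (B + 1) ^ m * B := by gcongr; omega
        _ = (B + 1) ^ (m + 1) := by ring
  calc (fam R n).card ≤ ((Finset.Icc 1 (4 * R ^ 2 * n)).biUnion (fam0 R)).card :=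
        Finset.card_filter_le _ _
    _ ≤ ∑ l ∈ Finset.Icc 1 (4 * R ^ 2 * n), (fam0 R l).card := Finset.card_biUnion_le
    _ ≤ ∑ l ∈ Finset.Icc 1 (4 * R ^ 2 * n), B ^ l := Finset.sum_le_sum h1
    _ ≤ (B + 1) ^ (4 * R ^ 2 * n) := h2 _
    _ = cst R ^ n := by rw [cst, pow_mul]

/-- **Deterministic Peierls lemma.**  Every finite nearest-neighbour-connected `F ∋ 0` has, for a
direction `d ∈ {(1,0), (0,1)}`, a non-empty set `T` of points of `F` that leave `F` in the direction
`d`, that are pairwise congruent modulo `R`, and that belongs to a family with at most `cst R ^ n`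
members of size `n`. -/
theorem exists_mem_fam {R : ℕ} (hR : 0 < R) {F : Set Z2} (hF : F.Finite) (h0 : (0 : Z2) ∈ F)
    (hc : ∀ z ∈ F, Jn F 0 z) :
    ∃ T ∈ fam R T.card, 0 < T.card ∧ (∀ z ∈ T, ∀ w ∈ T, Cong R z w) ∧
      ∃ d : Bool, ∀ z ∈ T, z ∈ F ∧ z + ev d ∉ F := by
  classical
  obtain ⟨l, T, hT, hl, hlT, hcong, d, hd⟩ := exists_mem_fam0 hR hF h0 hc
  refine ⟨T, ?_, ?_, hcong, d, hd⟩
  · refine Finset.mem_filter.mpr ⟨Finset.mem_biUnion.mpr ⟨l, Finset.mem_Icc.mpr ⟨hl, hlT⟩, hT⟩,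
      rfl, hcong⟩
  · rcases Nat.eq_zero_or_pos T.card with h | h
    · rw [h] at hlT
      omega
    · exact h

theorem card_of_mem_fam {R n : ℕ} {T : Finset Z2} (h : T ∈ fam R n) : T.card = n := by
  classical
  exact (Finset.mem_filter.mp h).2.1

theorem cong_of_mem_fam {R n : ℕ} {T : Finset Z2} (h : T ∈ fam R n) :
    ∀ z ∈ T, ∀ w ∈ T, Cong R z w := by
  classical
  exact (Finset.mem_filter.mp h).2.2

end Crest.Agent.R147.Pe
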