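import Crest.Agent.R147.Pe666Main
import Mathlib.MeasureTheory.Measure.MeasureSpace
import Mathlib.Analysis.SpecificLimits.Basic

/-!
# Union bounds for the Peierls argument
-/

set_option autoImplicit false

namespace Crest.Agent.R147.Pe

open MeasureTheory
open scoped ENNReal

/-- Finite form: one finite family serves all connected sets with at most `N` points. -/
theorem exists_window_family {R : ℕ} (hR : 0 < R) {κ : ℝ} (hκ0 : 0 ≤ κ)
    (hκ : κ * (8 * cst R) ≤ 1) (N : ℕ) :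
    ∃ G : Finset (Finset Z2), (∀ T ∈ G, T.Nonempty ∧ ∀ z ∈ T, ∀ w ∈ T, Cong R z w) ∧
      ∑ T ∈ G, κ ^ T.card ≤ 1 / 4 ∧
      ∀ F : Set Z2, F.Finite → F.ncard ≤ N → (0 : Z2) ∈ F → (∀ z ∈ F, Jn F 0 z) →
        ∃ T ∈ G, ∃ d : Bool, ∀ z ∈ T, z ∈ F ∧ z + ev d ∉ F := by
  classical
  refine ⟨(Finset.Icc 1 N).biUnion (fam R), ?_, ?_, ?_⟩
  · intro T hT
    obtain ⟨n, hn, hT⟩ := Finset.mem_biUnion.mp hT
    rw [Finset.mem_Icc] at hn
    refine ⟨?_, cong_of_mem_fam hT⟩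
    rw [← Finset.card_pos, card_of_mem_fam hT]
    omega
  · rw [Finset.sum_biUnion]
    · have h1 : ∀ n ∈ Finset.Icc 1 N, ∑ T ∈ fam R n, κ ^ T.card ≤ (1 / 8 : ℝ) ^ n := by
        intro n _
        calc ∑ T ∈ fam R n, κ ^ T.card = ∑ T ∈ fam R n, κ ^ n :=
              Finset.sum_congr rfl fun T hT => by rw [card_of_mem_fam hT]
          _ = (fam R n).card * κ ^ n := by rw [Finset.sum_const, nsmul_eq_mul]
          _ ≤ (cst R : ℝ) ^ n * κ ^ n := by
              gcongr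
              exact_mod_cast card_fam_le hR n
          _ = (cst R * κ) ^ n := by rw [mul_pow]
          _ ≤ (1 / 8 : ℝ) ^ n := by
              gcongr
              linarith
      have h2 : ∀ N : ℕ, ∑ n ∈ Finset.Icc 1 N, (1 / 8 : ℝ) ^ n ≤ (1 - (1 / 8) ^ N) / 7 := by
        intro N
        induction N with
        | zero => simp
        | succ m ih =>
          rw [Finset.sum_Icc_succ_top (by omega)]
          have : (1 / 8 : ℝ) ^ (m + 1) = (1 / 8) ^ m / 8 := by rw [pow_succ]; ring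
          rw [this]
          linarith
      refine (Finset.sum_le_sum h1).trans ((h2 N).trans ?_)
      have : (0 : ℝ) ≤ (1 / 8) ^ N := by positivity
      linarith
    · intro m _ n _ hmn
      rw [Function.onFun, Finset.disjoint_left]
      intro T hT hT'
      exact hmn ((card_of_mem_fam hT).symm.trans (card_of_mem_fam hT'))
  · intro F hF hN h0 hc
    obtain ⟨T, hT, hpos, -, d, hd⟩ := exists_mem_fam hR hF h0 hc
    refine ⟨T, Finset.mem_biUnion.mpr ⟨T.card, Finset.mem_Icc.mpr ⟨hpos, ?_⟩, hT⟩, d, hd⟩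
    refine le_trans ?_ hN
    rw [← Set.ncard_coe_finset]
    exact Set.ncard_le_ncard (fun z hz => (hd z hz).1) hF

/-- **Peierls bound**, for a measure. -/
theorem peierls {Ω : Type*} [MeasurableSpace Ω] (μ : Measure Ω) {R : ℕ} (hR : 0 < R) {κ : ℝ≥0∞}
    (hκ : κ * (8 * cst R) ≤ 1) (F : Ω → Set Z2) (Bad : Set Ω)
    (hBad : ∀ ω ∈ Bad, (F ω).Finite ∧ (0 : Z2) ∈ F ω ∧ ∀ z ∈ F ω, Jn (F ω) 0 z)
    (hμ : ∀ (d : Bool) (T : Finset Z2), T.Nonempty → (∀ z ∈ T, ∀ w ∈ T, Cong R z w) →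
      μ {ω | ∀ z ∈ T, z ∈ F ω ∧ z + ev d ∉ F ω} ≤ κ ^ T.card) :
    μ Bad ≤ 1 / 2 := by
  classical
  have hsub : Bad ⊆ ⋃ n : ℕ, ⋃ T ∈ fam R (n + 1), ⋃ d ∈ (Finset.univ : Finset Bool),
      {ω | ∀ z ∈ T, z ∈ F ω ∧ z + ev d ∉ F ω} := by
    intro ω hω
    obtain ⟨h1, h2, h3⟩ := hBad ω hω
    obtain ⟨T, hT, hpos, -, d, hd⟩ := exists_mem_fam hR h1 h2 h3
    obtain ⟨m, hm⟩ := Nat.exists_eq_succ_of_ne_zero hpos.ne'
    rw [hm] at hT
    exact Set.mem_iUnion.mpr ⟨m, Set.mem_biUnion hT (Set.mem_biUnion (Finset.mem_univ d) hd)⟩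
  have hterm : ∀ n : ℕ, μ (⋃ T ∈ fam R (n + 1), ⋃ d ∈ (Finset.univ : Finset Bool),
      {ω | ∀ z ∈ T, z ∈ F ω ∧ z + ev d ∉ F ω}) ≤ (1 / 8 : ℝ≥0∞) ^ n * (1 / 4) := by
    intro n
    refine (measure_biUnion_finset_le _ _).trans ?_
    have h1 : ∀ T ∈ fam R (n + 1), μ (⋃ d ∈ (Finset.univ : Finset Bool),
        {ω | ∀ z ∈ T, z ∈ F ω ∧ z + ev d ∉ F ω}) ≤ 2 * κ ^ (n + 1) := by
      intro T hT
      refine (measure_biUnion_finset_le _ _).trans ?_
      have hTc := card_of_mem_fam hT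
      have hTn : T.Nonempty := by
        rw [← Finset.card_pos, hTc]
        omega
      refine (Finset.sum_le_sum fun d _ => (hμ d T hTn (cong_of_mem_fam hT)).trans_eq
        (by rw [hTc])).trans ?_
      simp
    refine (Finset.sum_le_card_nsmul _ _ _ h1).trans ?_
    rw [nsmul_eq_mul]
    have h2 : ((fam R (n + 1)).card : ℝ≥0∞) ≤ (cst R : ℝ≥0∞) ^ (n + 1) := by
      exact_mod_cast card_fam_le hR (n + 1)
    have h3 : κ * cst R ≤ 1 / 8 := by
      rw [ENNReal.le_div_iff_mul_le (by simp) (by simp)]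
      calc κ * cst R * 8 = κ * (8 * cst R) := by ring
        _ ≤ 1 := hκ
    calc ((fam R (n + 1)).card : ℝ≥0∞) * (2 * κ ^ (n + 1))
        ≤ (cst R : ℝ≥0∞) ^ (n + 1) * (2 * κ ^ (n + 1)) := by gcongr
      _ = 2 * (κ * cst R) ^ (n + 1) := by rw [mul_pow]; ring
      _ ≤ 2 * (1 / 8) ^ (n + 1) := by gcongr
      _ = (1 / 8) ^ n * (2 * (1 / 8)) := by rw [pow_succ]; ring
      _ = (1 / 8) ^ n * (1 / 4) := by
          congr 1
          rw [mul_one_div]
          rw [ENNReal.div_eq_div_iff (by simp) (by simp) (by simp) (by simp)]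
          norm_num
  calc μ Bad ≤ _ := measure_mono hsub
    _ ≤ ∑' n : ℕ, (1 / 8 : ℝ≥0∞) ^ n * (1 / 4) :=
        (measure_iUnion_le _).trans (ENNReal.tsum_le_tsum hterm)
    _ = (1 - 1 / 8)⁻¹ * (1 / 4) := by rw [ENNReal.tsum_mul_right, ENNReal.tsum_geometric]
    _ ≤ 1 / 2 := by
        have h1 : (1 / 2 : ℝ≥0∞) ≤ 1 - 1 / 8 := by
          rw [ENNReal.le_sub_iff_add_le_right (by simp)]
          · have h2 : (1 / 2 : ℝ≥0∞) + 1 / 8 ≤ 1 / 2 + 1 / 2 := by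
              gcongr
              norm_num
            exact h2.trans_eq (ENNReal.add_halves 1)
          · exact ENNReal.div_le_of_le_mul (by norm_num)
        calc ((1 : ℝ≥0∞) - 1 / 8)⁻¹ * (1 / 4) ≤ (1 / 2)⁻¹ * (1 / 4) := by
              gcongr
          _ = 1 / 2 := by
              simp only [one_div, inv_inv]
              rw [← div_eq_mul_inv]
              rw [← one_div, ENNReal.div_eq_div_iff (by simp) (by simp) (by simp) (by simp)]
              norm_num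

/-- **Peierls bound**, for a monotone additive functional `L` (a finite expectation); the random
set `F` has at most `N` points on the event `Bad`. -/
theorem peierls_lin {ι : Type*} (L : (ι → ℝ) → ℝ)
    (hmono : ∀ f g : ι → ℝ, (∀ x, f x ≤ g x) → L f ≤ L g)
    (hsum : ∀ (s : Finset (Finset Z2 × Bool)) (f : Finset Z2 × Bool → ι → ℝ),
      L (fun x => ∑ q ∈ s, f q x) = ∑ q ∈ s, L (f q))
    {R : ℕ} (hR : 0 < R) {κ : ℝ} (hκ0 : 0 ≤ κ) (hκ : κ * (8 * cst R) ≤ 1) (N : ℕ)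
    (F : ι → Set Z2) (Bad : Set ι)
    (hBad : ∀ x ∈ Bad, (F x).Finite ∧ (F x).ncard ≤ N ∧ (0 : Z2) ∈ F x ∧ ∀ z ∈ F x, Jn (F x) 0 z)
    (hL : ∀ (d : Bool) (T : Finset Z2), T.Nonempty → (∀ z ∈ T, ∀ w ∈ T, Cong R z w) →
      L ({x | ∀ z ∈ T, z ∈ F x ∧ z + ev d ∉ F x}.indicator fun _ => 1) ≤ κ ^ T.card) :
    L (Bad.indicator fun _ => 1) ≤ 1 / 2 := by
  classical
  obtain ⟨G, hG1, hG2, hG3⟩ := exists_window_family hR hκ0 hκ N
  have h1 : ∀ x, Bad.indicator (fun _ => (1 : ℝ)) x ≤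
      ∑ q ∈ G ×ˢ (Finset.univ : Finset Bool),
        {x | ∀ z ∈ q.1, z ∈ F x ∧ z + ev q.2 ∉ F x}.indicator (fun _ => (1 : ℝ)) x := by
    intro x
    have hnn : ∀ q ∈ G ×ˢ (Finset.univ : Finset Bool), (0 : ℝ) ≤
        {x | ∀ z ∈ q.1, z ∈ F x ∧ z + ev q.2 ∉ F x}.indicator (fun _ => (1 : ℝ)) x :=
      fun q _ => Set.indicator_nonneg (fun _ _ => zero_le_one) x
    by_cases hx : x ∈ Bad
    · obtain ⟨h2, h3, h4, h5⟩ := hBad x hx
      obtain ⟨T, hT, d, hd⟩ := hG3 (F x) h2 h3 h4 h5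
      rw [Set.indicator_of_mem hx]
      refine le_trans ?_ (Finset.single_le_sum hnn
        (Finset.mem_product.mpr ⟨hT, Finset.mem_univ d⟩ : (T, d) ∈ _))
      rw [Set.indicator_of_mem (show x ∈ {x | ∀ z ∈ (T, d).1, z ∈ F x ∧ z + ev (T, d).2 ∉ F x}
        from hd)]
    · rw [Set.indicator_of_notMem hx]
      exact Finset.sum_nonneg hnn
  refine (hmono _ _ h1).trans ?_
  rw [hsum, Finset.sum_product]
  calc ∑ T ∈ G, ∑ d : Bool,
        L ({x | ∀ z ∈ T, z ∈ F x ∧ z + ev d ∉ F x}.indicator fun _ => 1)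
      ≤ ∑ T ∈ G, ∑ _d : Bool, κ ^ T.card :=
        Finset.sum_le_sum fun T hT => Finset.sum_le_sum fun d _ => hL d T (hG1 T hT).1 (hG1 T hT).2
    _ = 2 * ∑ T ∈ G, κ ^ T.card := by
        rw [Finset.mul_sum]
        refine Finset.sum_congr rfl fun T _ => ?_
        simp [two_mul]
    _ ≤ 2 * (1 / 4) := by gcongr
    _ = 1 / 2 := by norm_num

end Crest.Agent.R147.Pe
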