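import Crest.Agent.R147.Pe666Conn

/-!
# Walks through connected sets of exits, and their number
-/

set_option autoImplicit false

namespace Crest.Agent.R147.Pe

/-- Moves: a displacement in `{-1,0,1}²` and a new direction. -/
abbrev Mv := (Fin 3 × Fin 3) × Fin 4

/-- Effect of a move. -/
def mv (s : Z2 × Fin 4) (m : Mv) : Z2 × Fin 4 :=
  ((s.1.1 + ((m.1.1 : ℕ) : ℤ) - 1, s.1.2 + ((m.1.2 : ℕ) : ℤ) - 1), m.2)

/-- End point of a walk. -/
def fin (s : Z2 × Fin 4) (L : List Mv) : Z2 × Fin 4 := L.foldl mv s

/-- The set of exits visited by a walk. -/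
def vis : Z2 × Fin 4 → List Mv → Finset (Z2 × Fin 4)
  | s, [] => {s}
  | s, m :: L => insert s (vis (mv s m) L)

theorem exists_mv {s t : Z2 × Fin 4} (h : Near s.1 t.1) : ∃ m, mv s m = t := by
  obtain ⟨h1, h2, h3, h4⟩ := h
  obtain ⟨⟨x, y⟩, i⟩ := s
  obtain ⟨⟨x', y'⟩, j⟩ := t
  simp only at h1 h2 h3 h4
  have a1 : (x' - x + 1).toNat < 3 := by omega
  have a2 : (y' - y + 1).toNat < 3 := by omega
  refine ⟨((⟨_, a1⟩, ⟨_, a2⟩), j), ?_⟩
  simp only [mv, Prod.mk.injEq, and_true]
  constructor <;> omega

theorem mem_vis_start (s : Z2 × Fin 4) (L : List Mv) : s ∈ vis s L := by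
  cases L <;> simp [vis]

theorem vis_append (s : Z2 × Fin 4) (L L' : List Mv) :
    vis s (L ++ L') = vis s L ∪ vis (fin s L) L' := by
  induction L generalizing s with
  | nil =>
    simp only [List.nil_append, vis, fin, List.foldl_nil]
    ext t
    simp only [Finset.mem_union, Finset.mem_singleton]
    constructor
    · exact Or.inr
    · rintro (rfl | h)
      · exact mem_vis_start _ _
      · exact h
  | cons m L ih =>
    simp only [List.cons_append, vis, ih, Finset.insert_union, fin, List.foldl_cons]

theorem mem_vis {s t : Z2 × Fin 4} {L : List Mv} :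
    t ∈ vis s L ↔ ∃ L1 L2, L = L1 ++ L2 ∧ fin s L1 = t := by
  induction L generalizing s with
  | nil =>
    simp only [vis, Finset.mem_singleton]
    constructor
    · rintro rfl
      exact ⟨[], [], rfl, rfl⟩
    · rintro ⟨L1, L2, h, h2⟩
      have : L1 = [] := by
        cases L1 with
        | nil => rfl
        | cons a L => simp at h
      subst this
      exact h2.symm
  | cons m L ih =>
    simp only [vis, Finset.mem_insert, ih]
    constructor
    · rintro (rfl | ⟨L1, L2, h, h2⟩)
      · exact ⟨[], _, rfl, rfl⟩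
      · exact ⟨m :: L1, L2, by rw [h]; rfl, h2⟩
    · rintro ⟨L1, L2, h, h2⟩
      cases L1 with
      | nil => exact Or.inl h2.symm
      | cons a L1 =>
        simp only [List.cons_append, List.cons.injEq] at h
        obtain ⟨rfl, h⟩ := h
        exact Or.inr ⟨L1, L2, h, h2⟩

/-- A set that is connected for `Near` is the set of points of a short walk. -/
theorem exists_walk {S : Finset (Z2 × Fin 4)} {s0 : Z2 × Fin 4} (h0 : s0 ∈ S)
    (hS : ∀ A : Finset (Z2 × Fin 4), A ⊆ S → s0 ∈ A →
      (∀ s ∈ A, ∀ t ∈ S, Near s.1 t.1 → t ∈ A) → A = S) :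
    ∃ L : List Mv, L.length = 2 * (S.card - 1) ∧ vis s0 L = S := by
  classical
  have key : ∀ n : ℕ, n + 1 ≤ S.card → ∃ L : List Mv, L.length = 2 * n ∧ vis s0 L ⊆ S ∧
      (vis s0 L).card = n + 1 := by
    intro n
    induction n with
    | zero =>
      intro _
      exact ⟨[], rfl, by simpa [vis] using h0, by simp [vis]⟩
    | succ n ih =>
      intro hn
      obtain ⟨L, hL, hLS, hLc⟩ := ih (by omega)
      have hne : vis s0 L ≠ S := by
        intro h
        rw [h] at hLc
        omega
      have h1 : ¬ ∀ s ∈ vis s0 L, ∀ t ∈ S, Near s.1 t.1 → t ∈ vis s0 L := fun h =>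
        hne (hS _ hLS (mem_vis_start _ _) h)
      push Not at h1
      obtain ⟨s, hs, t, ht, hst, htn⟩ := h1
      obtain ⟨L1, L2, rfl, hfin⟩ := mem_vis.mp hs
      obtain ⟨m, hm⟩ := exists_mv hst
      obtain ⟨m', hm'⟩ := exists_mv hst.symm
      have hv : vis s0 (L1 ++ ([m, m'] ++ L2)) = insert t (vis s0 (L1 ++ L2)) := by
        rw [vis_append, vis_append, vis_append, hfin]
        have h2 : fin s [m, m'] = s := by
          simp only [fin, List.foldl_cons, List.foldl_nil, hm, hm']
        have h3 : vis s [m, m'] = {s, t} := by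
          simp only [vis, hm, hm']
          ext u
          simp only [Finset.mem_insert, Finset.mem_singleton]
          tauto
        rw [h2, h3]
        have h4 : s ∈ vis s L2 := mem_vis_start _ _
        ext u
        simp only [Finset.mem_union, Finset.mem_insert, Finset.mem_singleton]
        constructor
        · rintro (h | (rfl | rfl) | h)
          · exact Or.inr (Or.inl h)
          · exact Or.inr (Or.inr h4)
          · exact Or.inl rfl
          · exact Or.inr (Or.inr h)
        · rintro (rfl | h | h)
          · exact Or.inr (Or.inl (Or.inr rfl))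
          · exact Or.inl h
          · exact Or.inr (Or.inr h)
      refine ⟨L1 ++ ([m, m'] ++ L2), ?_, ?_, ?_⟩
      · simp only [List.length_append, List.length_cons, List.length_nil] at hL ⊢
        omega
      · rw [hv]
        exact Finset.insert_subset ht hLS
      · rw [hv, Finset.card_insert_of_notMem htn, hLc]
  have hpos : 0 < S.card := Finset.card_pos.mpr ⟨s0, h0⟩
  obtain ⟨L, h1, h2, h3⟩ := key (S.card - 1) (by omega)
  exact ⟨L, h1, Finset.eq_of_subset_of_card_le h2 (by omega)⟩

/-- All visited sets of walks of a given length. -/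
noncomputable def walks (s : Z2 × Fin 4) (n : ℕ) : Finset (Finset (Z2 × Fin 4)) := by
  classical exact Finset.univ.image fun f : Fin n → Mv => vis s (List.ofFn f)

theorem card_walks_le (s : Z2 × Fin 4) (n : ℕ) : (walks s n).card ≤ 36 ^ n := by
  classical
  refine Finset.card_image_le.trans ?_
  simp

theorem vis_mem_walks (s : Z2 × Fin 4) (L : List Mv) : vis s L ∈ walks s L.length := by
  classical
  refine Finset.mem_image.mpr ⟨fun i => L.get i, Finset.mem_univ _, ?_⟩
  rw [List.ofFn_get]

end Crest.Agent.R147.Pe
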