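import Mathlib

/-!
R147, block B6a: oriented Peierls argument on `ℕ × ℕ`, fully combinatorial
(boundary darts of a finite set of unit squares form a permutation).
-/

set_option autoImplicit false

namespace Crest.Agent.R147.Pe919

open Finset

/-- directions: 0 = E, 1 = N, 2 = W, 3 = S -/
abbrev Dir := Fin 4

/-- direction vectors -/
def vec : Dir → ℤ × ℤ := ![(1, 0), (0, 1), (-1, 0), (0, -1)]

/-- tail corner of the dart of direction `d` having the unit square `0` on its left -/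
def cor : Dir → ℤ × ℤ := ![(0, 0), (1, 0), (1, 1), (0, 1)]

lemma cor_succ (d : Dir) : cor (d + 1) = cor d + vec d := by
  fin_cases d <;> decide

lemma cor_pred (d : Dir) : vec (d - 1) + cor (d - 1) = cor d := by
  fin_cases d <;> decide

lemma vec_succ (d : Dir) : vec (d + 1) = - vec (d - 1) := by
  fin_cases d <;> decide

lemma vec_pp (d : Dir) : vec (d - 1 - 1) = - vec d := by
  fin_cases d <;> decide

/-- successor of a boundary dart: walk along the boundary of `W` with `W` on the left -/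
def nxt (W : Finset (ℤ × ℤ)) (s : (ℤ × ℤ) × Dir) : (ℤ × ℤ) × Dir :=
  if s.1 + vec s.2 ∈ W then
    if s.1 + vec s.2 + vec (s.2 - 1) ∈ W then (s.1 + vec s.2 + vec (s.2 - 1), s.2 - 1)
    else (s.1 + vec s.2, s.2)
  else (s.1, s.2 + 1)

/-- predecessor of a boundary dart -/
def prv (W : Finset (ℤ × ℤ)) (s : (ℤ × ℤ) × Dir) : (ℤ × ℤ) × Dir :=
  if s.1 - vec s.2 ∈ W then
    if s.1 - vec s.2 + vec (s.2 - 1) ∈ W then (s.1 - vec s.2 + vec (s.2 - 1), s.2 + 1)
    else (s.1 - vec s.2, s.2)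
  else (s.1, s.2 - 1)

/-- boundary darts -/
def BD (W : Finset (ℤ × ℤ)) : Finset ((ℤ × ℤ) × Dir) :=
  (W ×ˢ (Finset.univ : Finset Dir)).filter (fun s => s.1 + vec (s.2 - 1) ∉ W)

lemma mem_BD {W : Finset (ℤ × ℤ)} {s : (ℤ × ℤ) × Dir} :
    s ∈ BD W ↔ s.1 ∈ W ∧ s.1 + vec (s.2 - 1) ∉ W := by
  simp [BD]

lemma card_BD_le (W : Finset (ℤ × ℤ)) : (BD W).card ≤ 4 * W.card := by
  refine (Finset.card_filter_le _ _).trans ?_
  rw [Finset.card_product]
  simp [mul_comm]

lemma nxt_mem {W : Finset (ℤ × ℤ)} {s : (ℤ × ℤ) × Dir} (hs : s ∈ BD W) : nxt W s ∈ BD W := by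
  obtain ⟨h1, h2⟩ := mem_BD.1 hs
  unfold nxt
  by_cases h3 : s.1 + vec s.2 ∈ W
  · by_cases h4 : s.1 + vec s.2 + vec (s.2 - 1) ∈ W
    · rw [if_pos h3, if_pos h4, mem_BD]
      refine ⟨h4, ?_⟩
      have : s.1 + vec s.2 + vec (s.2 - 1) + vec (s.2 - 1 - 1) = s.1 + vec (s.2 - 1) := by
        rw [vec_pp]; abel
      show s.1 + vec s.2 + vec (s.2 - 1) + vec (s.2 - 1 - 1) ∉ W
      rw [this]
      exact h2
    · rw [if_pos h3, if_neg h4, mem_BD]
      exact ⟨h3, h4⟩
  · rw [if_neg h3, mem_BD]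
    refine ⟨h1, ?_⟩
    show s.1 + vec (s.2 + 1 - 1) ∉ W
    rw [add_sub_cancel_right]
    exact h3

lemma prv_nxt {W : Finset (ℤ × ℤ)} {s : (ℤ × ℤ) × Dir} (hs : s ∈ BD W) :
    prv W (nxt W s) = s := by
  obtain ⟨h1, h2⟩ := mem_BD.1 hs
  obtain ⟨v, d⟩ := s
  simp only at h1 h2
  unfold nxt
  simp only
  by_cases h3 : v + vec d ∈ W
  · by_cases h4 : v + vec d + vec (d - 1) ∈ W
    · rw [if_pos h3, if_pos h4]
      unfold prv
      simp only
      have e1 : v + vec d + vec (d - 1) - vec (d - 1) = v + vec d := by abel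
      have e2 : v + vec d + vec (d - 1 - 1) = v := by rw [vec_pp]; abel
      rw [e1, if_pos h3, e2, if_pos h1]
      simp
    · rw [if_pos h3, if_neg h4]
      unfold prv
      simp only
      have e1 : v + vec d - vec d = v := by abel
      rw [e1, if_pos h1, if_neg h2]
  · rw [if_neg h3]
    unfold prv
    simp only
    have e1 : v - vec (d + 1) = v + vec (d - 1) := by rw [vec_succ]; abel
    rw [e1, if_neg h2]
    simp

/-- tail point of a dart -/
def tail (s : (ℤ × ℤ) × Dir) : ℤ × ℤ := s.1 + cor s.2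

lemma tail_nxt (W : Finset (ℤ × ℤ)) (s : (ℤ × ℤ) × Dir) : tail (nxt W s) = tail s + vec s.2 := by
  unfold nxt tail
  split_ifs with h3 h4
  · simp only
    rw [← cor_pred s.2]; abel
  · simp only; abel
  · simp only
    rw [cor_succ]; abel

/-- tail point after `i` steps of a word of directions started at the origin -/
def tl {n : ℕ} (w : Fin n → Dir) (i : Fin n) : ℤ × ℤ :=
  ∑ j ∈ Finset.univ.filter (fun j => j < i), vec (w j)

/-- the failing site attached to a dart of direction `N` or `W` with tail `t` -/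
def fsite (t : ℤ × ℤ) (d : Dir) : ℤ × ℤ := if d = 1 then t else t - (1, 0)

/-- set of failing sites read off a word -/
def A {n : ℕ} (w : Fin n → Dir) : Finset (ℤ × ℤ) :=
  (Finset.univ.filter (fun i => w i = 1 ∨ w i = 2)).image (fun i => fsite (tl w i) (w i))

lemma fsite_tail {s : (ℤ × ℤ) × Dir} (h : s.2 = 1 ∨ s.2 = 2) :
    fsite (tail s) s.2 = s.1 + vec (s.2 - 1) := by
  obtain ⟨v, d⟩ := s
  rcases h with h | h <;> simp only at h <;> subst h
  · show fsite (v + cor 1) 1 = v + vec 0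
    simp [fsite, cor, vec]
  · show fsite (v + cor 2) 2 = v + vec 1
    have : (2 : Fin 4) ≠ 1 := by decide
    simp only [fsite, if_neg this]
    show v + (1, 1) - (1, 0) = v + (0, 1)
    rw [add_sub_assoc]
    rfl

/-- a closed word has as many `N, W` steps as `E, S` steps -/
lemma two_mul_card {n : ℕ} (w : Fin n → Dir) (h : ∑ i, vec (w i) = 0) :
    2 * (Finset.univ.filter (fun i => w i = 1 ∨ w i = 2)).card = n := by
  have key : ∀ d : Dir, (if d = 1 ∨ d = 2 then (2 : ℤ) else 0) = 1 - (vec d).1 + (vec d).2 := by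
    intro d; fin_cases d <;> decide
  have h1 : ∑ i, (vec (w i)).1 = 0 := by
    have := congrArg Prod.fst h
    rwa [Prod.fst_sum] at this
  have h2 : ∑ i, (vec (w i)).2 = 0 := by
    have := congrArg Prod.snd h
    rwa [Prod.snd_sum] at this
  have h3 : ∑ i : Fin n, (if w i = 1 ∨ w i = 2 then (2 : ℤ) else 0) = n := by
    rw [Finset.sum_congr rfl (fun i _ => key (w i))]
    rw [Finset.sum_add_distrib, Finset.sum_sub_distrib, h1, h2]
    simp
  rw [← Finset.sum_filter, Finset.sum_const, nsmul_eq_mul] at h3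
  have : ((2 * (Finset.univ.filter (fun i => w i = 1 ∨ w i = 2)).card : ℕ) : ℤ) = (n : ℕ) := by
    push_cast
    linarith
  exact_mod_cast this

/-- the oriented edge `(z, b)` (`b = false`: `z → z + (1,0)`, `b = true`: `z → z + (0,1)`) crossed by
a dart of direction `N` or `W` with tail `t` -/
def fedge (t : ℤ × ℤ) (d : Dir) : (ℤ × ℤ) × Bool :=
  if d = 1 then (t - (1, 0), false) else (t - (1, 1), true)

/-- oriented edges crossed by the `N`, `W` darts of a word -/
def AD {n : ℕ} (w : Fin n → Dir) : Finset ((ℤ × ℤ) × Bool) :=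
  (Finset.univ.filter (fun i => w i = 1 ∨ w i = 2)).image (fun i => fedge (tl w i) (w i))

/-- unit step attached to a Boolean -/
def ev (b : Bool) : ℤ × ℤ := if b then (0, 1) else (1, 0)

lemma fedge_tail {s : (ℤ × ℤ) × Dir} (h : s.2 = 1 ∨ s.2 = 2) :
    fedge (tail s) s.2 = (s.1, decide (s.2 = 2)) ∧ ev (decide (s.2 = 2)) = vec (s.2 - 1) := by
  obtain ⟨v, d⟩ := s
  rcases h with h | h <;> simp only at h <;> subst h
  · refine ⟨?_, by show ev (decide ((1 : Fin 4) = 2)) = vec (1 - 1); decide⟩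
    show fedge (v + cor 1) 1 = (v, false)
    simp [fedge, cor]
  · refine ⟨?_, by show ev (decide ((2 : Fin 4) = 2)) = vec (2 - 1); decide⟩
    show fedge (v + cor 2) 2 = (v, true)
    have : (2 : Fin 4) ≠ 1 := by decide
    simp only [fedge, if_neg this]
    simp [cor]

/-- **Deterministic Peierls lemma** (both forms; no connectedness of `W`). -/
theorem exists_word_full (W : Finset (ℤ × ℤ)) (h0 : (0, 0) ∈ W)
    (h1 : ((0 : ℤ), (-1 : ℤ)) ∉ W) :
    ∃ n : ℕ, 1 ≤ n ∧ n ≤ 4 * W.card ∧ ∃ w : Fin n → Dir, n ≤ 4 * (A w).card ∧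
      (∀ f ∈ A w, f ∉ W ∧ (f - (1, 0) ∈ W ∨ f - (0, 1) ∈ W)) ∧
      2 * (AD w).card = n ∧ ∀ e ∈ AD w, e.1 ∈ W ∧ e.1 + ev e.2 ∉ W := by
  classical
  -- the orbit of the starting dart
  let F : {s // s ∈ BD W} → {s // s ∈ BD W} := fun s => ⟨nxt W s.1, nxt_mem s.2⟩
  have hF : Function.Injective F := by
    intro s t hst
    have := congrArg (fun u => prv W u.1) hst
    simp only [F] at this
    rw [prv_nxt s.2, prv_nxt t.2] at this
    exact Subtype.ext this
  have hs0 : (((0 : ℤ), (0 : ℤ)), (0 : Dir)) ∈ BD W := by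
    rw [mem_BD]
    exact ⟨h0, by simpa [vec] using h1⟩
  let s0 : {s // s ∈ BD W} := ⟨_, hs0⟩
  have hper : s0 ∈ Function.periodicPts F := hF.mem_periodicPts s0
  have hpos : 0 < Function.minimalPeriod F s0 := Function.minimalPeriod_pos_of_mem_periodicPts hper
  set n := Function.minimalPeriod F s0 with hn
  have hinj : ∀ i < n, ∀ j < n, F^[i] s0 = F^[j] s0 → i = j := by
    intro i hi j hj hij
    exact Function.iterate_injOn_Iio_minimalPeriod (f := F) (x := s0) (Set.mem_Iio.2 hi)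
      (Set.mem_Iio.2 hj) hij
  have hret : F^[n] s0 = s0 := Function.iterate_minimalPeriod
  let w : Fin n → Dir := fun i => (F^[i.1] s0).1.2
  -- tails
  have htail : ∀ i : ℕ, tail (F^[i] s0).1 = ∑ j ∈ Finset.range i, vec (F^[j] s0).1.2 := by
    intro i
    induction i with
    | zero => simp [tail, cor, s0]
    | succ i ih =>
      rw [Function.iterate_succ_apply', Finset.sum_range_succ, ← ih]
      exact tail_nxt W _
  have htl : ∀ i : Fin n, tl w i = tail (F^[i.1] s0).1 := by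
    intro i
    rw [htail]
    unfold tl
    refine Finset.sum_bij (fun (j : Fin n) _ => j.1) ?_ ?_ ?_ ?_
    · intro j hj
      simpa using hj
    · intro a _ b _ hab
      exact Fin.ext hab
    · intro b hb
      rw [Finset.mem_range] at hb
      exact ⟨⟨b, hb.trans i.2⟩, Finset.mem_filter.2 ⟨Finset.mem_univ _, hb⟩, rfl⟩
    · intro j _
      rfl
  have hclosed : ∑ i, vec (w i) = 0 := by
    have h2 := htail n
    rw [hret] at h2
    have h3 : tail s0.1 = 0 := by simp [tail, cor, s0]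
    rw [h3] at h2
    rw [h2, Finset.sum_range]
  have hcount := two_mul_card w hclosed
  refine ⟨n, hpos, ?_, w, ?_, ?_, ?_, ?_⟩
  · -- n ≤ number of boundary darts
    have : Fintype.card (Fin n) ≤ Fintype.card {s // s ∈ BD W} := by
      refine Fintype.card_le_of_injective (fun i : Fin n => F^[i.1] s0) ?_
      intro i j hij
      exact Fin.ext (hinj i.1 i.2 j.1 j.2 hij)
    rw [Fintype.card_fin, Fintype.card_coe] at this
    exact this.trans (card_BD_le W)
  · -- count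
    have hsite : ∀ i : Fin n, (w i = 1 ∨ w i = 2) → fsite (tl w i) (w i) =
        (F^[i.1] s0).1.1 + vec (w i - 1) := by
      intro i hi
      rw [htl]
      exact fsite_tail hi
    have hone : ∀ d : Dir, (d = 1 ∨ d = 2) →
        (Finset.univ.filter (fun i => w i = d)).card ≤ (A w).card := by
      intro d hd
      refine Finset.card_le_card_of_injOn (fun i => fsite (tl w i) (w i)) ?_ ?_
      · intro i hi
        have hi' : w i = d := by simpa using hi
        refine Finset.mem_coe.2 (Finset.mem_image_of_mem _ ?_)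
        simp only [Finset.mem_filter, Finset.mem_univ, true_and]
        rw [hi']; exact hd
      · intro i hi j hj hij
        have hi' : w i = d := by simpa using hi
        have hj' : w j = d := by simpa using hj
        simp only at hij
        rw [hsite i (by rw [hi']; exact hd), hsite j (by rw [hj']; exact hd), hi', hj'] at hij
        have h4 : (F^[i.1] s0).1.1 = (F^[j.1] s0).1.1 := add_right_cancel hij
        have h5 : (F^[i.1] s0).1.2 = (F^[j.1] s0).1.2 := by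
          show w i = w j
          rw [hi', hj']
        exact Fin.ext (hinj i.1 i.2 j.1 j.2 (Subtype.ext (Prod.ext h4 h5)))
    have hsplit : (Finset.univ.filter (fun i => w i = 1 ∨ w i = 2)).card ≤
        (Finset.univ.filter (fun i => w i = 1)).card +
        (Finset.univ.filter (fun i => w i = 2)).card := by
      rw [Finset.filter_or]
      exact Finset.card_union_le _ _
    have e1 := hone 1 (Or.inl rfl)
    have e2 := hone 2 (Or.inr rfl)
    omega
  · -- sites
    intro f hf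
    obtain ⟨i, hi, rfl⟩ := Finset.mem_image.1 hf
    have hi' : w i = 1 ∨ w i = 2 := by simpa using hi
    have hb := mem_BD.1 (F^[i.1] s0).2
    have hs : fsite (tl w i) (w i) = (F^[i.1] s0).1.1 + vec (w i - 1) := by
      rw [htl]
      exact fsite_tail hi'
    rw [hs]
    refine ⟨hb.2, ?_⟩
    rcases hi' with hi' | hi'
    · left
      rw [hi']
      show (F^[i.1] s0).1.1 + (1, 0) - (1, 0) ∈ W
      rw [add_sub_cancel_right]; exact hb.1
    · right
      rw [hi']
      show (F^[i.1] s0).1.1 + (0, 1) - (0, 1) ∈ W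
      rw [add_sub_cancel_right]; exact hb.1
  · -- count of oriented edges
    suffices hAD : (AD w).card = (Finset.univ.filter (fun i => w i = 1 ∨ w i = 2)).card by
      rw [hAD]; exact hcount
    unfold AD
    refine Finset.card_image_of_injOn ?_
    intro i hi j hj hij
    have hi' : w i = 1 ∨ w i = 2 := by simpa using hi
    have hj' : w j = 1 ∨ w j = 2 := by simpa using hj
    have e1 : fedge (tl w i) (w i) = ((F^[i.1] s0).1.1, decide (w i = 2)) := by
      rw [htl]; exact (fedge_tail (s := (F^[i.1] s0).1) hi').1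
    have e2 : fedge (tl w j) (w j) = ((F^[j.1] s0).1.1, decide (w j = 2)) := by
      rw [htl]; exact (fedge_tail (s := (F^[j.1] s0).1) hj').1
    simp only at hij
    rw [e1, e2, Prod.mk.injEq] at hij
    have h6 : (w i = 2) ↔ (w j = 2) := by simpa using hij.2
    have h5 : w i = w j := by
      rcases hi' with hi' | hi' <;> rcases hj' with hj' | hj'
      · rw [hi', hj']
      · exact absurd (h6.2 hj') (by rw [hi']; decide)
      · exact absurd (h6.1 hi') (by rw [hj']; decide)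
      · rw [hi', hj']
    exact Fin.ext (hinj i.1 i.2 j.1 j.2 (Subtype.ext (Prod.ext hij.1 h5)))
  · -- oriented edges
    intro e he
    obtain ⟨i, hi, rfl⟩ := Finset.mem_image.1 he
    have hi' : w i = 1 ∨ w i = 2 := by simpa using hi
    have hb := mem_BD.1 (F^[i.1] s0).2
    have e1 := fedge_tail (s := (F^[i.1] s0).1) hi'
    rw [← htl] at e1
    have e2 : fedge (tl w i) (w i) = ((F^[i.1] s0).1.1, decide (w i = 2)) := e1.1
    rw [e2]
    refine ⟨hb.1, ?_⟩
    show (F^[i.1] s0).1.1 + ev (decide (w i = 2)) ∉ W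
    have e3 : ev (decide (w i = 2)) = vec (w i - 1) := e1.2
    rw [e3]
    exact hb.2

/-- **Deterministic Peierls lemma, oriented-edge form** (for every finite `W ∋ 0`, `(0,-1) ∉ W`). -/
theorem exists_word_darts (W : Finset (ℤ × ℤ)) (h0 : (0, 0) ∈ W)
    (h1 : ((0 : ℤ), (-1 : ℤ)) ∉ W) :
    ∃ n : ℕ, 1 ≤ n ∧ n ≤ 4 * W.card ∧ ∃ w : Fin n → Dir,
      2 * (AD w).card = n ∧ ∀ e ∈ AD w, e.1 ∈ W ∧ e.1 + ev e.2 ∉ W := by
  obtain ⟨n, h1, h2, w, _, _, h5, h6⟩ := exists_word_full W h0 h1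
  exact ⟨n, h1, h2, w, h5, h6⟩

/-- **Deterministic Peierls lemma.** -/
theorem exists_word (W : Finset (ℤ × ℤ)) (h0 : (0, 0) ∈ W) (h1 : ((0 : ℤ), (-1 : ℤ)) ∉ W) :
    ∃ n : ℕ, 1 ≤ n ∧ n ≤ 4 * W.card ∧ ∃ w : Fin n → Dir, n ≤ 4 * (A w).card ∧
      ∀ f ∈ A w, f ∉ W ∧ (f - (1, 0) ∈ W ∨ f - (0, 1) ∈ W) := by
  obtain ⟨n, h1, h2, w, h3, h4, _, _⟩ := exists_word_full W h0 h1
  exact ⟨n, h1, h2, w, h3, h4⟩

/-! ### sites in `ℕ × ℕ` -/

/-- `f` is failing: not wet but one of its two parents is wet -/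
def Fail (wet : ℕ × ℕ → Prop) (f : ℕ × ℕ) : Prop :=
  ¬ wet f ∧ ∃ v, wet v ∧ (f = v + (1, 0) ∨ f = v + (0, 1))

/-- coordinates to `ℕ` -/
def toN (f : ℤ × ℤ) : ℕ × ℕ := (f.1.toNat, f.2.toNat)

/-- embedding of `ℕ × ℕ` into `ℤ × ℤ` -/
def emb (v : ℕ × ℕ) : ℤ × ℤ := ((v.1 : ℤ), (v.2 : ℤ))

lemma toN_emb (v : ℕ × ℕ) : toN (emb v) = v := by
  simp [toN, emb]

lemma emb_inj : Function.Injective emb := by
  intro a b h
  have := congrArg toN h
  rwa [toN_emb, toN_emb] at this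

/-- failing sites of a word, in `ℕ × ℕ` -/
def AN {n : ℕ} (w : Fin n → Dir) : Finset (ℕ × ℕ) := (A w).image toN

/-- **Deterministic Peierls lemma, sites in `ℕ × ℕ`, cut at layer `m`.** -/
theorem exists_word_nat (wet : ℕ × ℕ → Prop) (m : ℕ) (h0 : wet (0, 0))
    (hm : ∀ v : ℕ × ℕ, v.1 + v.2 = m → ¬ wet v) :
    ∃ n : ℕ, 1 ≤ n ∧ n ≤ 4 * (m * m) ∧ ∃ w : Fin n → Dir, n ≤ 4 * (AN w).card ∧
      ∀ f ∈ AN w, (1 ≤ f.1 + f.2 ∧ f.1 + f.2 ≤ m) ∧ Fail wet f := by
  classical
  have hm0 : 0 < m := by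
    rcases Nat.eq_zero_or_pos m with h | h
    · exact absurd h0 (hm (0, 0) (by simp [h]))
    · exact h
  let S : Finset (ℕ × ℕ) := (Finset.range m ×ˢ Finset.range m).filter
    (fun v => v.1 + v.2 < m ∧ wet v)
  have hS : ∀ v, v ∈ S ↔ v.1 + v.2 < m ∧ wet v := by
    intro v
    simp only [S, Finset.mem_filter, Finset.mem_product, Finset.mem_range]
    constructor
    · rintro ⟨_, h⟩; exact h
    · rintro ⟨h1, h2⟩
      exact ⟨⟨by omega, by omega⟩, h1, h2⟩
  let W : Finset (ℤ × ℤ) := S.image emb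
  have hcard : W.card ≤ m * m := by
    refine Finset.card_image_le.trans ((Finset.card_filter_le _ _).trans ?_)
    rw [Finset.card_product, Finset.card_range]
  have hW0 : ((0 : ℤ), (0 : ℤ)) ∈ W := by
    refine Finset.mem_image.2 ⟨(0, 0), (hS _).2 ⟨by simpa using hm0, h0⟩, ?_⟩
    simp [emb]
  have hW1 : ((0 : ℤ), (-1 : ℤ)) ∉ W := by
    intro h
    obtain ⟨v, _, hv⟩ := Finset.mem_image.1 h
    have := congrArg Prod.snd hv
    simp only [emb] at this
    omega
  obtain ⟨n, hn1, hn2, w, hw1, hw2⟩ := exists_word W hW0 hW1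
  -- every site of `A w` is the image of a failing site
  have key : ∀ f ∈ A w, ∃ g : ℕ × ℕ, emb g = f ∧ (1 ≤ g.1 + g.2 ∧ g.1 + g.2 ≤ m) ∧ Fail wet g := by
    intro f hf
    obtain ⟨h1, h2⟩ := hw2 f hf
    have aux : ∀ (v c : ℕ × ℕ), v ∈ S → (c = (1, 0) ∨ c = (0, 1)) → f = emb (v + c) →
        ∃ g : ℕ × ℕ, emb g = f ∧ (1 ≤ g.1 + g.2 ∧ g.1 + g.2 ≤ m) ∧ Fail wet g := by
      intro v c hv hc hfv
      obtain ⟨hv1, hv2⟩ := (hS v).1 hv
      have hsum : (v + c).1 + (v + c).2 = v.1 + v.2 + 1 := by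
        rcases hc with rfl | rfl
        · simp only [Prod.fst_add, Prod.snd_add]; omega
        · simp only [Prod.fst_add, Prod.snd_add]; omega
      refine ⟨v + c, hfv.symm, ⟨by omega, by omega⟩, ?_, v, hv2, ?_⟩
      · intro hwet
        by_cases hlt : (v + c).1 + (v + c).2 < m
        · exact h1 (Finset.mem_image.2 ⟨v + c, (hS _).2 ⟨hlt, hwet⟩, hfv.symm⟩)
        · exact hm (v + c) (by omega) hwet
      · rcases hc with rfl | rfl
        · exact Or.inl rfl
        · exact Or.inr rfl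
    rcases h2 with h2 | h2
    · obtain ⟨v, hv, hve⟩ := Finset.mem_image.1 h2
      refine aux v (1, 0) hv (Or.inl rfl) ?_
      have : f = emb v + (1, 0) := by rw [hve]; abel
      rw [this]
      ext <;> simp [emb]
    · obtain ⟨v, hv, hve⟩ := Finset.mem_image.1 h2
      refine aux v (0, 1) hv (Or.inr rfl) ?_
      have : f = emb v + (0, 1) := by rw [hve]; abel
      rw [this]
      ext <;> simp [emb]
  have hcard2 : (AN w).card = (A w).card := by
    unfold AN
    refine Finset.card_image_of_injOn ?_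
    intro f hf g hg hfg
    obtain ⟨f', rfl, _⟩ := key f hf
    obtain ⟨g', rfl, _⟩ := key g hg
    simp only [toN_emb] at hfg
    rw [hfg]
  refine ⟨n, hn1, hn2.trans (Nat.mul_le_mul_left 4 hcard), w, by rw [hcard2]; exact hw1, ?_⟩
  intro f hf
  obtain ⟨g, hg, rfl⟩ := Finset.mem_image.1 hf
  obtain ⟨g', rfl, h1, h2⟩ := key g hg
  rw [toN_emb]
  exact ⟨h1, h2⟩

/-! ### union bound -/

section Union

variable {Ω : Type*} (Pr : Set Ω → ℝ)

lemma pr_biUnion (emp : Pr ∅ ≤ 0) (sub : ∀ s t : Set Ω, Pr (s ∪ t) ≤ Pr s + Pr t)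
    {ι : Type*} (s : Finset ι) (E : ι → Set Ω) :
    Pr (⋃ i ∈ s, E i) ≤ ∑ i ∈ s, Pr (E i) := by
  classical
  induction s using Finset.induction_on with
  | empty => simpa using emp
  | insert a s ha ih =>
    rw [Finset.set_biUnion_insert, Finset.sum_insert ha]
    exact (sub _ _).trans (by linarith)

lemma geom_bound (N : ℕ) : ∑ n ∈ Finset.Icc 1 N, (1 / 4 : ℝ) ^ n ≤ 1 / 3 := by
  have : ∀ N : ℕ, ∑ n ∈ Finset.Icc 1 N, (1 / 4 : ℝ) ^ n = 1 / 3 - (1 / 3) * (1 / 4) ^ N := by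
    intro N
    induction N with
    | zero => simp
    | succ N ih =>
      rw [Finset.sum_Icc_succ_top (by omega), ih]
      ring
  rw [this]
  have : (0 : ℝ) ≤ (1 / 4) ^ N := by positivity
  linarith

/-- **Oriented Peierls argument**, abstract (monotone subadditive `Pr`): if any prescribed finite
set `A` of sites (in the layers `1, …, m`) is failing with probability at most `c κ^|A|`,
`κ ≤ 2^{-16}`, and the origin is always wet, then the probability that layer `m` contains no wet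
site is at most `c / 3`. -/
theorem peierls_abs (emp : Pr ∅ ≤ 0) (sub : ∀ s t : Set Ω, Pr (s ∪ t) ≤ Pr s + Pr t)
    (mono : ∀ s t : Set Ω, s ⊆ t → Pr s ≤ Pr t)
    (wet : Ω → ℕ × ℕ → Prop) (h0 : ∀ ω, wet ω (0, 0)) {c κ : ℝ} (hc : 0 ≤ c) (hκ0 : 0 ≤ κ)
    (hκ : κ ≤ 1 / 65536) (m : ℕ)
    (H : ∀ A : Finset (ℕ × ℕ), (∀ f ∈ A, 1 ≤ f.1 + f.2 ∧ f.1 + f.2 ≤ m) →
      Pr {ω | ∀ f ∈ A, Fail (wet ω) f} ≤ c * κ ^ A.card) :
    Pr {ω | ∀ v : ℕ × ℕ, v.1 + v.2 = m → ¬ wet ω v} ≤ c * (1 / 3) := by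
  classical
  let good : (n : ℕ) → Finset (Fin n → Dir) := fun n =>
    Finset.univ.filter (fun w => n ≤ 4 * (AN w).card ∧ ∀ f ∈ AN w, 1 ≤ f.1 + f.2 ∧ f.1 + f.2 ≤ m)
  let Ev : (n : ℕ) → (Fin n → Dir) → Set Ω := fun n w => {ω | ∀ f ∈ AN w, Fail (wet ω) f}
  have hsub : {ω | ∀ v : ℕ × ℕ, v.1 + v.2 = m → ¬ wet ω v} ⊆
      ⋃ n ∈ Finset.Icc 1 (4 * (m * m)), ⋃ w ∈ good n, Ev n w := by
    intro ω hω
    obtain ⟨n, hn1, hn2, w, hw1, hw2⟩ := exists_word_nat (wet ω) m (h0 ω) hω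
    simp only [Set.mem_iUnion]
    refine ⟨n, Finset.mem_Icc.2 ⟨hn1, hn2⟩, w, ?_, fun f hf => (hw2 f hf).2⟩
    simp only [good, Finset.mem_filter, Finset.mem_univ, true_and]
    exact ⟨hw1, fun f hf => (hw2 f hf).1⟩
  have hword : ∀ n, ∀ w ∈ good n, Pr (Ev n w) ≤ c * (1 / 16) ^ n := by
    intro n w hw
    simp only [good, Finset.mem_filter, Finset.mem_univ, true_and] at hw
    refine (H (AN w) hw.2).trans (mul_le_mul_of_nonneg_left ?_ hc)
    have h1 : κ ^ (AN w).card ≤ (1 / 65536) ^ (AN w).card := pow_le_pow_left₀ hκ0 hκ _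
    have h2 : ((1 : ℝ) / 65536) ^ (AN w).card = (1 / 16) ^ (4 * (AN w).card) := by
      rw [pow_mul]; norm_num
    have h3 : ((1 : ℝ) / 16) ^ (4 * (AN w).card) ≤ (1 / 16) ^ n :=
      pow_le_pow_of_le_one (by norm_num) (by norm_num) hw.1
    linarith
  have hn : ∀ n, Pr (⋃ w ∈ good n, Ev n w) ≤ c * (1 / 4) ^ n := by
    intro n
    refine (pr_biUnion Pr emp sub _ _).trans ((Finset.sum_le_sum (hword n)).trans ?_)
    rw [Finset.sum_const, nsmul_eq_mul]
    have hcard : ((good n).card : ℝ) ≤ 4 ^ n := by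
      have : (good n).card ≤ 4 ^ n := by
        refine (Finset.card_le_univ _).trans ?_
        simp
      exact_mod_cast this
    calc ((good n).card : ℝ) * (c * (1 / 16) ^ n)
        ≤ 4 ^ n * (c * (1 / 16) ^ n) :=
          mul_le_mul_of_nonneg_right hcard (mul_nonneg hc (by positivity))
      _ = c * (1 / 4) ^ n := by
          rw [mul_left_comm, ← mul_pow]; norm_num
  calc Pr {ω | ∀ v : ℕ × ℕ, v.1 + v.2 = m → ¬ wet ω v}
      ≤ Pr (⋃ n ∈ Finset.Icc 1 (4 * (m * m)), ⋃ w ∈ good n, Ev n w) := mono _ _ hsub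
    _ ≤ ∑ n ∈ Finset.Icc 1 (4 * (m * m)), Pr (⋃ w ∈ good n, Ev n w) :=
        pr_biUnion Pr emp sub _ _
    _ ≤ ∑ n ∈ Finset.Icc 1 (4 * (m * m)), c * (1 / 4) ^ n := Finset.sum_le_sum fun n _ => hn n
    _ = c * ∑ n ∈ Finset.Icc 1 (4 * (m * m)), (1 / 4 : ℝ) ^ n := by rw [Finset.mul_sum]
    _ ≤ c * (1 / 3) := mul_le_mul_of_nonneg_left (geom_bound _) hc

end Union

/-- Peierls for a finite weighted sum. -/
theorem peierls_sum {Ω : Type*} (S : Finset Ω) (wt : Ω → ℝ) (hwt : ∀ ω ∈ S, 0 ≤ wt ω)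
    (wet : Ω → ℕ × ℕ → Prop) (h0 : ∀ ω, wet ω (0, 0)) {κ : ℝ} (hκ0 : 0 ≤ κ)
    (hκ : κ ≤ 1 / 65536) (m : ℕ) [∀ (A : Finset (ℕ × ℕ)) ω, Decidable (∀ f ∈ A, Fail (wet ω) f)]
    [∀ ω, Decidable (∀ v : ℕ × ℕ, v.1 + v.2 = m → ¬ wet ω v)]
    (H : ∀ A : Finset (ℕ × ℕ), (∀ f ∈ A, 1 ≤ f.1 + f.2 ∧ f.1 + f.2 ≤ m) →
      ∑ ω ∈ S, wt ω * (if ∀ f ∈ A, Fail (wet ω) f then 1 else 0)
        ≤ κ ^ A.card * ∑ ω ∈ S, wt ω) :
    ∑ ω ∈ S, wt ω * (if ∀ v : ℕ × ℕ, v.1 + v.2 = m → ¬ wet ω v then 1 else 0)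
      ≤ (1 / 3) * ∑ ω ∈ S, wt ω := by
  classical
  have key := peierls_abs (Ω := Ω) (fun E => ∑ ω ∈ S, wt ω * (if ω ∈ E then 1 else 0))
    (by simp) ?_ ?_ wet h0 (c := ∑ ω ∈ S, wt ω) (Finset.sum_nonneg hwt) hκ0 hκ m ?_
  · simp only [Set.mem_ofPred_eq] at key
    rw [mul_comm]
    convert key using 4
  · intro s t
    rw [← Finset.sum_add_distrib]
    refine Finset.sum_le_sum fun ω hω => ?_
    have := hwt ω hω
    by_cases h1 : ω ∈ s <;> by_cases h2 : ω ∈ t <;> simp [h1, h2, this]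
  · intro s t hst
    refine Finset.sum_le_sum fun ω hω => ?_
    have := hwt ω hω
    by_cases h1 : ω ∈ s
    · simp [h1, hst h1]
    · simp only [h1, if_false, mul_zero]
      split_ifs <;> simp [this]
  · intro A hA
    have := H A hA
    simp only [Set.mem_ofPred_eq]
    rw [mul_comm]
    convert this using 4

/-- Peierls for a probability measure (no measurability needed). -/
theorem peierls_measure {Ω : Type*} [MeasurableSpace Ω] (μ : MeasureTheory.Measure Ω)
    [MeasureTheory.IsProbabilityMeasure μ]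
    (wet : Ω → ℕ × ℕ → Prop) (h0 : ∀ ω, wet ω (0, 0)) {κ : ℝ} (hκ0 : 0 ≤ κ)
    (hκ : κ ≤ 1 / 65536) (m : ℕ)
    (H : ∀ A : Finset (ℕ × ℕ), (∀ f ∈ A, 1 ≤ f.1 + f.2 ∧ f.1 + f.2 ≤ m) →
      μ.real {ω | ∀ f ∈ A, Fail (wet ω) f} ≤ κ ^ A.card) :
    μ.real {ω | ∀ v : ℕ × ℕ, v.1 + v.2 = m → ¬ wet ω v} ≤ 1 / 3 := by
  have key := peierls_abs (Ω := Ω) (fun E => μ.real E) (by simp)
    (fun s t => MeasureTheory.measureReal_union_le s t)
    (fun s t h => MeasureTheory.measureReal_mono h) wet h0 (c := 1) zero_le_one hκ0 hκ m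
    (fun A hA => by simpa using H A hA)
  simpa using key

end Crest.Agent.R147.Pe919
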