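import Crest.Agent.R147.Pe919
import Crest.Agent.R147.KN.Basic

/-!
R147, block B6a: oriented Peierls argument for finite hypergraph percolation (`HG.ex`).
-/

set_option autoImplicit false

namespace Crest.Agent.R147.Pe919

open Finset Crest.Agent.R147.KN

variable {V E : Type*} [DecidableEq V] [DecidableEq E] (G : HG V E)

open Classical in
/-- **Oriented Peierls argument for `HG.ex`.** -/
theorem peierls_ex (Ω : Finset E) (wet : Finset E → ℕ × ℕ → Prop) (h0 : ∀ S, wet S (0, 0))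
    {κ : ℝ} (hκ0 : 0 ≤ κ) (hκ : κ ≤ 1 / 65536) (m : ℕ)
    (H : ∀ A : Finset (ℕ × ℕ), (∀ f ∈ A, 1 ≤ f.1 + f.2 ∧ f.1 + f.2 ≤ m) →
      G.ex Ω (fun S => if ∀ f ∈ A, Fail (wet S) f then 1 else 0) ≤ κ ^ A.card) :
    G.ex Ω (fun S => if ∀ v : ℕ × ℕ, v.1 + v.2 = m → ¬ wet S v then 1 else 0) ≤ 1 / 3 := by
  have hone : ∑ S ∈ Ω.powerset, G.wt Ω S = 1 := by
    have := G.ex_const Ω 1
    unfold HG.ex at this
    simpa using this
  have key := peierls_sum Ω.powerset (G.wt Ω) (fun S _ => G.wt_nonneg Ω S) wet h0 hκ0 hκ m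
    (by
      intro A hA
      have := H A hA
      unfold HG.ex at this
      rw [hone, mul_one]
      exact this)
  rw [hone, mul_one] at key
  exact key

open Classical in
/-- Complementary form: some site of layer `m` is wet with probability at least `2/3`. -/
theorem peierls_ex' (Ω : Finset E) (wet : Finset E → ℕ × ℕ → Prop) (h0 : ∀ S, wet S (0, 0))
    {κ : ℝ} (hκ0 : 0 ≤ κ) (hκ : κ ≤ 1 / 65536) (m : ℕ)
    (H : ∀ A : Finset (ℕ × ℕ), (∀ f ∈ A, 1 ≤ f.1 + f.2 ∧ f.1 + f.2 ≤ m) →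
      G.ex Ω (fun S => if ∀ f ∈ A, Fail (wet S) f then 1 else 0) ≤ κ ^ A.card) :
    2 / 3 ≤ G.ex Ω (fun S => if ∃ v : ℕ × ℕ, v.1 + v.2 = m ∧ wet S v then 1 else 0) := by
  have h1 := peierls_ex G Ω wet h0 hκ0 hκ m H
  have h2 : G.ex Ω (fun S => if ∃ v : ℕ × ℕ, v.1 + v.2 = m ∧ wet S v then (1 : ℝ) else 0) =
      G.ex Ω (fun S => (1 : ℝ) - if ∀ v : ℕ × ℕ, v.1 + v.2 = m → ¬ wet S v then (1 : ℝ) else 0) := by
    refine G.ex_congr fun S _ => ?_
    by_cases h : ∃ v : ℕ × ℕ, v.1 + v.2 = m ∧ wet S v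
    · have h' : ¬ ∀ v : ℕ × ℕ, v.1 + v.2 = m → ¬ wet S v := by
        intro h''
        obtain ⟨v, hv1, hv2⟩ := h
        exact h'' v hv1 hv2
      simp only [if_pos h, if_neg h', sub_zero]
    · have h' : ∀ v : ℕ × ℕ, v.1 + v.2 = m → ¬ wet S v := fun v hv hw => h ⟨v, hv, hw⟩
      simp only [if_neg h, if_pos h', sub_self]
  rw [h2, G.ex_sub Ω (fun _ => (1 : ℝ)), G.ex_const]
  linarith

end Crest.Agent.R147.Pe919
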