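import Crest.Agent.R147.Ns70
import Crest.Agent.R147.Sc113Def

/-!
# R147, block E4b: the planar arithmetic of the renormalisation lattice

`(L, M)` is a signed permutation of the coordinates of `ℤ²` (helper70's `Ns70.Out`), `L` is the
height, `X v = (M v - s * L v) / b` the normalised horizontal coordinate.
-/

set_option autoImplicit false

namespace Crest.Agent.R147.Pg

open Crest.Agent.R147.Sc (lev ch)

/-- Points of the coarse plane. -/
abbrev P := ℤ × ℤ

/-- `(L, M)` is a signed permutation of the coordinates. -/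
def Coord (L M : P → ℤ) : Prop := ∃ σ σ' : ℤ, (σ = 1 ∨ σ = -1) ∧ (σ' = 1 ∨ σ' = -1) ∧
    ((∀ v, L v = σ * v.1 ∧ M v = σ' * v.2) ∨ (∀ v, L v = σ * v.2 ∧ M v = σ' * v.1))

/-- The normalised horizontal coordinate. -/
noncomputable def X (L M : P → ℤ) (s b : ℝ) (v : P) : ℝ := ((M v : ℝ) - s * L v) / b

variable {L M : P → ℤ} {s b : ℝ}

theorem Coord.L_add (h : Coord L M) (u v : P) : L (u + v) = L u + L v := by
  obtain ⟨σ, σ', _, _, h | h⟩ := h
  · rw [(h _).1, (h _).1, (h _).1, Prod.fst_add]; ring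
  · rw [(h _).1, (h _).1, (h _).1, Prod.snd_add]; ring

theorem Coord.M_add (h : Coord L M) (u v : P) : M (u + v) = M u + M v := by
  obtain ⟨σ, σ', _, _, h | h⟩ := h
  · rw [(h _).2, (h _).2, (h _).2, Prod.snd_add]; ring
  · rw [(h _).2, (h _).2, (h _).2, Prod.fst_add]; ring

theorem Coord.L_zero (h : Coord L M) : L 0 = 0 := by
  have := h.L_add 0 0
  rw [add_zero] at this
  omega

theorem Coord.M_zero (h : Coord L M) : M 0 = 0 := by
  have := h.M_add 0 0
  rw [add_zero] at this
  omega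

theorem Coord.L_sub (h : Coord L M) (u v : P) : L (u - v) = L u - L v := by
  have := h.L_add (u - v) v
  rw [sub_add_cancel] at this
  omega

theorem Coord.M_sub (h : Coord L M) (u v : P) : M (u - v) = M u - M v := by
  have := h.M_add (u - v) v
  rw [sub_add_cancel] at this
  omega

theorem Coord.X_add (h : Coord L M) (u v : P) : X L M s b (u + v) = X L M s b u + X L M s b v := by
  unfold X
  rw [h.L_add, h.M_add]
  push_cast
  ring

theorem Coord.X_sub (h : Coord L M) (u v : P) : X L M s b (u - v) = X L M s b u - X L M s b v := by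
  unfold X
  rw [h.L_sub, h.M_sub]
  push_cast
  ring

theorem Coord.X_zero (h : Coord L M) : X L M s b 0 = 0 := by
  unfold X
  rw [h.L_zero, h.M_zero]
  simp

/-- `|L v|` is bounded by the sup norm. -/
theorem Coord.abs_L_le (h : Coord L M) {v : P} {c : ℤ} (h1 : |v.1| ≤ c) (h2 : |v.2| ≤ c) :
    |L v| ≤ c := by
  obtain ⟨σ, σ', hσ, hσ', h | h⟩ := h
  · rw [(h v).1]; rcases hσ with rfl | rfl <;> simpa using h1
  · rw [(h v).1]; rcases hσ with rfl | rfl <;> simpa using h2

theorem Coord.abs_M_le (h : Coord L M) {v : P} {c : ℤ} (h1 : |v.1| ≤ c) (h2 : |v.2| ≤ c) :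
    |M v| ≤ c := by
  obtain ⟨σ, σ', hσ, hσ', h | h⟩ := h
  · rw [(h v).2]; rcases hσ' with rfl | rfl <;> simpa using h2
  · rw [(h v).2]; rcases hσ' with rfl | rfl <;> simpa using h1

theorem Coord.surj (h : Coord L M) (l m : ℤ) : ∃ v : P, L v = l ∧ M v = m := by
  obtain ⟨σ, σ', hσ, hσ', h | h⟩ := h
  · refine ⟨(σ * l, σ' * m), ?_, ?_⟩
    · rw [(h _).1]; rcases hσ with rfl | rfl <;> ring
    · rw [(h _).2]; rcases hσ' with rfl | rfl <;> ring
  · refine ⟨(σ' * m, σ * l), ?_, ?_⟩
    · rw [(h _).1]; rcases hσ with rfl | rfl <;> ring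
    · rw [(h _).2]; rcases hσ' with rfl | rfl <;> ring

theorem Coord.ext (h : Coord L M) {u v : P} (h1 : L u = L v) (h2 : M u = M v) : u = v := by
  obtain ⟨σ, σ', hσ, hσ', h | h⟩ := h
  · rw [(h _).1, (h _).1] at h1
    rw [(h _).2, (h _).2] at h2
    rcases hσ with rfl | rfl <;> rcases hσ' with rfl | rfl <;> ext <;> omega
  · rw [(h _).1, (h _).1] at h1
    rw [(h _).2, (h _).2] at h2
    rcases hσ with rfl | rfl <;> rcases hσ' with rfl | rfl <;> ext <;> omega

/-- A lattice vector of given height and (nearly) given horizontal coordinate. -/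
theorem Coord.exists_vec (h : Coord L M) (hb : 1 ≤ b) (l : ℤ) (d : ℝ) :
    ∃ v : P, L v = l ∧ |X L M s b v - d| ≤ 1 / 2 := by
  obtain ⟨v, h1, h2⟩ := h.surj l (round (s * l + d * b))
  refine ⟨v, h1, ?_⟩
  unfold X
  rw [h1, h2]
  have h3 := abs_sub_round (s * l + d * b)
  have hb0 : 0 < b := by linarith
  have h4 : ((round (s * l + d * b) : ℝ) - s * l) / b - d
      = -((s * l + d * b) - round (s * l + d * b)) / b := by
    field_simp
    ring
  rw [h4, neg_div, abs_neg, abs_div, abs_of_pos hb0, div_le_iff₀ hb0]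
  calc |s * (l : ℝ) + d * b - (round (s * l + d * b) : ℤ)| ≤ 1 / 2 := h3
    _ ≤ 1 / 2 * b := by linarith

/-- The horizontal displacement towards the child `i`. -/
noncomputable def tgt (i : Bool) : ℝ := if i then 10 else 50

/-- The data of the renormalisation lattice. -/
structure Lat (L M : P → ℤ) (s b : ℝ) (h : ℤ) (D : Bool → P) : Prop where
  coord : Coord L M
  b_ge : 1 ≤ b
  L_D : ∀ i, L (D i) = h
  X_D : ∀ i, |X L M s b (D i) - tgt i| ≤ 1 / 2

theorem exists_lat (hc : Coord L M) (hb : 1 ≤ b) (h : ℤ) : ∃ D : Bool → P, Lat L M s b h D := by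
  choose D h1 h2 using fun i : Bool => hc.exists_vec (s := s) hb h (tgt i)
  exact ⟨D, hc, hb, h1, h2⟩

/-- The centre of the site `v`. -/
def zz (D : Bool → P) (v : ℕ × ℕ) : P := (v.1 : ℤ) • D false + (v.2 : ℤ) • D true

theorem lev_ch (i : Bool) (v : ℕ × ℕ) : lev (ch i v) = lev v + 1 := by
  unfold lev ch
  cases i <;> simp <;> omega

theorem zz_ch (D : Bool → P) (i : Bool) (v : ℕ × ℕ) : zz D (ch i v) = zz D v + D i := by
  unfold zz ch
  cases i
  · simp only [Bool.false_eq_true, if_false]; push_cast; rw [add_smul, one_smul]; abel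
  · simp only [if_true]; push_cast; rw [add_smul, one_smul]; abel

theorem zz_zero (D : Bool → P) : zz D (0, 0) = 0 := by
  unfold zz; simp

theorem Coord.L_nsmul (h : Coord L M) (n : ℕ) (v : P) : L ((n : ℤ) • v) = n * L v := by
  induction n with
  | zero => simp [h.L_zero]
  | succ n ih =>
    push_cast
    rw [add_smul, one_smul, h.L_add, ih]
    ring

theorem Coord.X_nsmul (h : Coord L M) (n : ℕ) (v : P) :
    X L M s b ((n : ℤ) • v) = n * X L M s b v := by
  induction n with
  | zero => simp [h.X_zero]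
  | succ n ih =>
    push_cast
    rw [add_smul, one_smul, h.X_add, ih]
    ring

variable {h : ℤ} {D : Bool → P}

theorem Lat.L_zz (hl : Lat L M s b h D) (v : ℕ × ℕ) : L (zz D v) = lev v * h := by
  unfold zz lev
  rw [hl.coord.L_add, hl.coord.L_nsmul, hl.coord.L_nsmul, hl.L_D, hl.L_D]
  push_cast
  ring

theorem Lat.X_zz (hl : Lat L M s b h D) (v : ℕ × ℕ) :
    X L M s b (zz D v) = v.1 * X L M s b (D false) + v.2 * X L M s b (D true) := by
  unfold zz
  rw [hl.coord.X_add, hl.coord.X_nsmul, hl.coord.X_nsmul]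

/-- Sites of the same level are well separated. -/
theorem Lat.sep (hl : Lat L M s b h D) {v w : ℕ × ℕ} (hlev : lev w = lev v)
    (hvw : v.1 + 6 ≤ w.1) : 234 ≤ X L M s b (zz D w) - X L M s b (zz D v) := by
  rw [hl.X_zz, hl.X_zz]
  have h1 := abs_le.1 (hl.X_D false)
  have h2 := abs_le.1 (hl.X_D true)
  have h3 : tgt false = 50 := by simp [tgt]
  have h4 : tgt true = 10 := by simp [tgt]
  rw [h3] at h1
  rw [h4] at h2
  obtain ⟨n, hn⟩ := Nat.exists_eq_add_of_le hvw
  have hv2 : v.2 = w.2 + 6 + n := by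
    unfold lev at hlev; omega
  rw [hn, hv2]
  push_cast
  have hn0 : (0 : ℝ) ≤ n := by positivity
  nlinarith [h1.1, h2.2]

end Crest.Agent.R147.Pg
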