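import Crest.Agent.R147.Pg592B
import Crest.Agent.R147.Sc113Link

/-!
# R147, block E4b, second part: from the tubes (E4c) to a contradiction

`Tubes`: a family of tubes `tubf q x a` and of target blocks `Ys q x a` (`q` = number of
horizontal moves, `x ∈ O` start block, `a` = height of the next screen relative to `x`).
-/

set_option autoImplicit false
set_option linter.unusedSectionVars false

open Crest.ProbabilityR.Percolation MeasureTheory ProbabilityTheory unitInterval Filter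
open Crest.Agent.R147.Cl

namespace Crest.Agent.R147.Pg

open Crest.Agent.R147.Sc (lev ch)

universe u
variable {V : Type u}

/-- The geometry of the tubes. -/
structure Tubes (G : SimpleGraph V) (hloc : ∀ v : V, (G.neighborSet v).Finite) (rp : V → P)
    (O : Set V) (Bv nb : V → Finset V) (L M : P → ℤ) (s b T : ℝ) (h w : ℤ) (ρ mt : ℕ)
    (tubf : ℕ → V → ℤ → Finset (Sym2 V)) (Ys : ℕ → V → ℤ → Finset V) : Prop where
  edge : ∀ q, 1 ≤ q → q ≤ 59 → ∀ x ∈ O, ∀ r, 0 ≤ r → r < w → ∀ e ∈ tubf q x (h - r),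
    e ∈ G.edgeSet
  below : ∀ q, 1 ≤ q → q ≤ 59 → ∀ x ∈ O, ∀ r, 0 ≤ r → r < w → ∀ e ∈ tubf q x (h - r),
    ∀ v ∈ e, ∀ f ∈ O, v ∈ Bv f → L (rp f - rp x) < h - r
  horiz : ∀ q, 1 ≤ q → q ≤ 59 → ∀ x ∈ O, ∀ r, 0 ≤ r → r < w → ∀ e ∈ tubf q x (h - r),
    ∀ v ∈ e, |X L M s b (rp v - rp x)| ≤ 70
  vert : ∀ q, 1 ≤ q → q ≤ 59 → ∀ x ∈ O, ∀ r, 0 ≤ r → r < w → ∀ e ∈ tubf q x (h - r),
    ∀ v ∈ e, -(3 * T) ≤ L (rp v - rp x)
  ball : ∀ q, 1 ≤ q → q ≤ 59 → ∀ x ∈ O, ∀ r, 0 ≤ r → r < w → ∀ e ∈ tubf q x (h - r),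
    ∀ v ∈ e, v ∈ th hloc ρ {x}
  card : ∀ q, 1 ≤ q → q ≤ 59 → ∀ x ∈ O, ∀ r, 0 ≤ r → r < w → (tubf q x (h - r)).card ≤ mt
  Ys_O : ∀ q, 1 ≤ q → q ≤ 59 → ∀ x ∈ O, ∀ r, 0 ≤ r → r < w → ∀ f ∈ Ys q x (h - r), f ∈ O
  Ys_low : ∀ q, 1 ≤ q → q ≤ 59 → ∀ x ∈ O, ∀ r, 0 ≤ r → r < w → ∀ f ∈ Ys q x (h - r),
    h - r ≤ L (rp f - rp x)
  Ys_high : ∀ q, 1 ≤ q → q ≤ 59 → ∀ x ∈ O, ∀ r, 0 ≤ r → r < w → ∀ f ∈ Ys q x (h - r),
    L (rp f - rp x) < h - r + w
  Ys_X : ∀ q, 1 ≤ q → q ≤ 59 → ∀ x ∈ O, ∀ r, 0 ≤ r → r < w → ∀ f ∈ Ys q x (h - r),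
    |X L M s b (rp f - rp x) - q| ≤ 6
  Ys_ball : ∀ q, 1 ≤ q → q ≤ 59 → ∀ x ∈ O, ∀ r, 0 ≤ r → r < w → ∀ f ∈ Ys q x (h - r),
    f ∈ th hloc ρ {x}

theorem tgt_cases (i : Bool) : tgt i = 50 ∨ tgt i = 10 := by
  cases i
  · left; simp [tgt]
  · right; simp [tgt]

open Classical in
/-- The number of horizontal moves from the horizontal offset `x` to the child `i`. -/
noncomputable def par (x : ℝ) (i : Bool) : ℕ :=
  if hx : |x| ≤ 8 then (Pl.exists_param hx (tgt_cases i)).choose else 1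

theorem par_spec {x : ℝ} (hx : |x| ≤ 8) (i : Bool) :
    1 ≤ par x i ∧ par x i ≤ 59 ∧ |x + par x i - tgt i| ≤ 1 / 2 := by
  unfold par
  rw [dif_pos hx]
  exact (Pl.exists_param hx (tgt_cases i)).choose_spec

variable {G : SimpleGraph V} {hloc : ∀ v : V, (G.neighborSet v).Finite} {rp : V → P}
  {O : Set V} {Bv nb : V → Finset V} {blk : V → Finset (Sym2 V)} {k Lb K : ℕ} {c : ℤ}
  {L M : P → ℤ} {s b T : ℝ} {h w : ℤ} {D : Bool → P} {ρ mt : ℕ}
  {tubf : ℕ → V → ℤ → Finset (Sym2 V)} {Ys : ℕ → V → ℤ → Finset V} {o : V} {r : ℕ → ℕ}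

/-- the radii of the windows -/
def rad (k ρ : ℕ) (n : ℕ) : ℕ := n * (k + ρ)

/-- the tube from the block `f` of the site `v` to the child `i` -/
noncomputable def tub (rp : V → P) (L M : P → ℤ) (s b : ℝ) (h : ℤ) (D : Bool → P)
    (tubf : ℕ → V → ℤ → Finset (Sym2 V)) (v : ℕ × ℕ) (f : V) (i : Bool) : Finset (Sym2 V) :=
  tubf (par (X L M s b (rp f - zz D v)) i) f (h - (L (rp f) - lev v * h))

section

variable (hl : Loc G hloc rp O Bv nb blk k Lb K c) (hD : Lat L M s b h D)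
  (hn : Num c w h b s k (rad k ρ))
  (ht : Tubes G hloc rp O Bv nb L M s b T h w ρ mt tubf Ys)
  (hcov : ∀ v, ∃ f ∈ O, v ∈ Bv f) (hh : 3 * T + c ≤ h)

include hl hD hn ht hcov hh

/-- a tube starting near the site `v` stays in the region of the site -/
theorem tub_Rg_aux {v : ℕ × ℕ} {f : V} (hf : f ∈ O) (hfr : f ∈ th hloc (rad k ρ (lev v)) {o})
    (h1 : lev v * h ≤ L (rp f)) (h2 : L (rp f) < lev v * h + w)
    (h3 : |X L M s b (rp f - zz D v)| ≤ 8) (i : Bool) :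
    tub rp L M s b h D tubf v f i ⊆ Rg hloc rp O Bv L M s b h D o (rad k ρ) v := by
  intro e he
  obtain ⟨hp1, hp2, hp3⟩ := par_spec h3 i
  have hr0 : 0 ≤ L (rp f) - lev v * h := by omega
  have hrw : L (rp f) - lev v * h < w := by omega
  unfold tub at he
  rw [mem_Rg]
  refine ⟨?_, ht.edge _ hp1 hp2 f hf _ hr0 hrw e he, ?_, ?_⟩
  · intro x hx
    have h4 := ht.ball _ hp1 hp2 f hf _ hr0 hrw e he x hx
    have h5 : th hloc ρ {f} ⊆ th hloc (ρ + rad k ρ (lev v)) {o} := by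
      rw [← th_add]
      exact th_mono hloc ρ (Finset.singleton_subset_iff.2 hfr)
    refine th_mono_n hloc ?_ _ (h5 h4)
    unfold rad
    have : (lev v + 1) * (k + ρ) = lev v * (k + ρ) + (k + ρ) := by ring
    omega
  · intro x hx
    constructor
    · intro g hg hxg
      have h4 := ht.below _ hp1 hp2 f hf _ hr0 hrw e he x hx g hg hxg
      rw [hD.coord.L_sub] at h4
      push_cast
      linarith
    · have h4 := ht.horiz _ hp1 hp2 f hf _ hr0 hrw e he x hx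
      have h5 : rp x - zz D v = (rp x - rp f) + (rp f - zz D v) := by abel
      rw [h5, hD.coord.X_add]
      calc |X L M s b (rp x - rp f) + X L M s b (rp f - zz D v)|
          ≤ |X L M s b (rp x - rp f)| + |X L M s b (rp f - zz D v)| := abs_add_le _ _
        _ ≤ 100 := by linarith
  · intro h2v
    obtain ⟨x, hx⟩ : ∃ x, x ∈ e := by
      induction e with
      | _ x y => exact ⟨x, Sym2.mem_mk_left x y⟩
    refine ⟨x, hx, fun hcon => ?_⟩
    obtain ⟨g, hg, hxg⟩ := hcov x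
    have h4 := hcon g hg hxg
    have h5 := ht.vert _ hp1 hp2 f hf _ hr0 hrw e he x hx
    rw [hD.coord.L_sub] at h5
    have h6 := abs_le.1 (L_near hl hD hg (hl.Bv_nb g hg hxg))
    have h7 : ((lev v - 1 : ℕ) : ℤ) = lev v - 1 := by omega
    rw [h7] at h4
    have h4' : (L (rp g) : ℝ) < (lev v - 1) * h := by exact_mod_cast h4
    have h6' : (L (rp x) : ℝ) - L (rp g) ≤ c := by exact_mod_cast h6.2
    have h1' : (lev v : ℝ) * h ≤ L (rp f) := by exact_mod_cast h1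
    push_cast at h5
    linarith

theorem tub_Rg {v : ℕ × ℕ} {f : V}
    (hf : f ∈ Y hloc rp O L M s b h D w o (rad k ρ) v) (i : Bool) :
    tub rp L M s b h D tubf v f i ⊆ Rg hloc rp O Bv L M s b h D o (rad k ρ) v := by
  obtain ⟨_, h1, h2, h3, h4, h5⟩ := mem_Y.1 hf
  exact tub_Rg_aux hl hD hn ht hcov hh h2 h1 h3 h4 h5 i

theorem tub_card_aux {v : ℕ × ℕ} {f : V} (hf : f ∈ O)
    (h1 : lev v * h ≤ L (rp f)) (h2 : L (rp f) < lev v * h + w)
    (h3 : |X L M s b (rp f - zz D v)| ≤ 8) (i : Bool) :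
    (tub rp L M s b h D tubf v f i).card ≤ mt := by
  obtain ⟨hp1, hp2, hp3⟩ := par_spec h3 i
  exact ht.card _ hp1 hp2 f hf _ (by omega) (by omega)

/-- the target blocks of the tube are blocks of the child -/
theorem Ys_sub {v : ℕ × ℕ} {f : V} (hf : f ∈ O) (hfr : f ∈ th hloc (rad k ρ (lev v)) {o})
    (h1 : lev v * h ≤ L (rp f)) (h2 : L (rp f) < lev v * h + w)
    (h3 : |X L M s b (rp f - zz D v)| ≤ 8) (i : Bool) :
    Ys (par (X L M s b (rp f - zz D v)) i) f (h - (L (rp f) - lev v * h)) ⊆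
      Y hloc rp O L M s b h D w o (rad k ρ) (ch i v) := by
  intro g hg
  obtain ⟨hp1, hp2, hp3⟩ := par_spec h3 i
  have hr0 : 0 ≤ L (rp f) - lev v * h := by omega
  have hrw : L (rp f) - lev v * h < w := by omega
  have e1 := ht.Ys_low _ hp1 hp2 f hf _ hr0 hrw g hg
  have e2 := ht.Ys_high _ hp1 hp2 f hf _ hr0 hrw g hg
  rw [hD.coord.L_sub] at e1 e2
  have hlev : lev (ch i v) = lev v + 1 := lev_ch i v
  rw [mem_Y, hlev]
  refine ⟨?_, ?_, ht.Ys_O _ hp1 hp2 f hf _ hr0 hrw g hg, ?_, ?_, ?_⟩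
  · intro hcon
    rw [hcon] at hlev
    unfold lev at hlev
    omega
  · have h4 := ht.Ys_ball _ hp1 hp2 f hf _ hr0 hrw g hg
    have h5 : th hloc ρ {f} ⊆ th hloc (ρ + rad k ρ (lev v)) {o} := by
      rw [← th_add]
      exact th_mono hloc ρ (Finset.singleton_subset_iff.2 hfr)
    refine th_mono_n hloc ?_ _ (h5 h4)
    unfold rad
    have : (lev v + 1) * (k + ρ) = lev v * (k + ρ) + (k + ρ) := by ring
    omega
  · push_cast
    linarith
  · push_cast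
    linarith
  · have h4 := ht.Ys_X _ hp1 hp2 f hf _ hr0 hrw g hg
    have h5 : rp g - zz D (ch i v) = (rp g - rp f) + (rp f - zz D v) - D i := by
      rw [zz_ch]; abel
    rw [h5, hD.coord.X_sub, hD.coord.X_add]
    have h6 := abs_le.1 (hD.X_D i)
    have h7 := abs_le.1 h4
    have h8 := abs_le.1 hp3
    rw [abs_le]
    constructor <;> linarith [h6.1, h6.2, h7.1, h7.2, h8.1, h8.2]

/-- **E4b + B6.**  The annealed statement for the tubes gives percolation below `p`. -/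
theorem exists_lt_pos [Countable V] (ho : o ∈ O) (hrp : rp o = 0) (hK : 1 ≤ K) (p : I)
    (hp0 : 0 < (p : ℝ)) (N : ℕ) (hN : 1 ≤ N) (β : ℝ) (hβ : 0 ≤ β) (τ : ℝ) (hτ : 0 < τ)
    (hnum : τ + (4 / ((p : ℝ) ^ Lb * N) + 4 * β / τ) < (1 / 2) ^ (102 * 6))
    (hANN : ∀ q, 1 ≤ q → q ≤ 59 → ∀ x ∈ O, ∀ r : ℤ, 0 ≤ r → r < w →
      (setBernoulli G.edgeSet p).real {ω | Win.ntouch G nb (Ys q x (h - r)) (Bv x)
        (ω ∩ (↑(tubf q x (h - r)) : Set (Sym2 V))) < N * K} ≤ β) :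
    ∃ p' : I, (p' : ℝ) < p ∧ 0 < setBernoulli G.edgeSet p' {ω | HasInfiniteCluster G ω} := by
  classical
  have hzz : rp o - zz D (0, 0) = 0 := by rw [zz_zero, hrp]; simp
  have ho3 : |X L M s b (rp o - zz D (0, 0))| ≤ 8 := by
    rw [hzz, hD.coord.X_zero]; norm_num
  have hLo : L (rp o) = 0 := by rw [hrp]; exact hD.coord.L_zero
  have hlev0 : lev ((0, 0) : ℕ × ℕ) = 0 := rfl
  have ho1 : (lev ((0, 0) : ℕ × ℕ) : ℤ) * h ≤ L (rp o) := by rw [hlev0, hLo]; simp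
  have ho2 : L (rp o) < (lev ((0, 0) : ℕ × ℕ) : ℤ) * h + w := by
    rw [hlev0, hLo]; simpa using hn.w_pos
  have hor : o ∈ th hloc (rad k ρ (lev ((0, 0) : ℕ × ℕ))) {o} :=
    subset_th hloc _ _ (Finset.mem_singleton_self o)
  have hmono : ∀ {Y₁ Y₂ : Finset V} (A : Finset V) (E : Set (Sym2 V)), Y₁ ⊆ Y₂ →
      (setBernoulli G.edgeSet p).real {ω | Win.ntouch G nb Y₂ A (ω ∩ E) < N * K} ≤
      (setBernoulli G.edgeSet p).real {ω | Win.ntouch G nb Y₁ A (ω ∩ E) < N * K} := by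
    intro Y₁ Y₂ A E hY
    refine measureReal_mono ?_ (measure_ne_top _ _)
    intro ω hω
    have h1 : Win.ntouch G nb Y₂ A (ω ∩ E) < N * K := hω
    have h2 : Win.ntouch G nb Y₁ A (ω ∩ E) ≤ Win.ntouch G nb Y₂ A (ω ∩ E) := by
      unfold Win.ntouch
      exact Finset.card_le_card (Finset.filter_subset_filter _ hY)
    exact lt_of_le_of_lt h2 h1
  refine Win.exists_lt_pos (mkLay hl hD hn hK (Bv o) (tub rp L M s b h D tubf)
    (fun i => tub rp L M s b h D tubf (0, 0) o i) mt (w := w) (o := o) ?_ ?_ ?_ ?_)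
    Win.scStmt p hp0 N hN β hβ τ hτ hnum ?_ ?_
  · intro v f hf i
    obtain ⟨_, h1, h2, h3, h4, h5⟩ := mem_Y.1 hf
    exact tub_card_aux hl hD hn ht hcov hh h2 h3 h4 h5 i
  · intro i
    exact tub_card_aux hl hD hn ht hcov hh ho ho1 ho2 ho3 i
  · intro v f hf i
    exact tub_Rg hl hD hn ht hcov hh hf i
  · intro i
    exact tub_Rg_aux hl hD hn ht hcov hh ho hor ho1 ho2 ho3 i
  · intro v _ f hf i
    obtain ⟨_, h1, h2, h3, h4, h5⟩ := mem_Y.1 hf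
    obtain ⟨hp1, hp2, hp3⟩ := par_spec h5 i
    refine (hmono (Bv f) _ (Ys_sub hl hD hn ht hcov hh h2 h1 h3 h4 h5 i)).trans ?_
    exact hANN _ hp1 hp2 f h2 _ (by omega) (by omega)
  · intro i
    obtain ⟨hp1, hp2, hp3⟩ := par_spec ho3 i
    refine (hmono (Bv o) _ (Ys_sub hl hD hn ht hcov hh ho hor ho1 ho2 ho3 i)).trans ?_
    exact hANN _ hp1 hp2 o ho _ (by omega) (by omega)

end

end Crest.Agent.R147.Pg
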