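import Crest.Agent.R147.Sc113Lev

/-!
# Screens: all levels
-/

set_option autoImplicit false
set_option linter.unusedSectionVars false

open Finset

namespace Crest.Agent.R147.Sc

open Crest.Agent.R147.KN Crest.Agent.R147.KN.HG

variable {V E B : Type*} [DecidableEq V] [DecidableEq E] [Fintype V] [DecidableEq B]

namespace Dat

variable (D : Dat V E B) (G : HG V E)

/-- the game `(v, i)` is lost: `v` is wet, its child is not -/
noncomputable def lost (i : Bool) (v : ℕ × ℕ) (S : Finset E) : ℝ :=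
  ind (D.wet G S v ∧ ¬ D.wet G S (ch i v))

/-- the fresh region of the games `(v, i)`, `v ∈ J`, at level `n` -/
def fr (n : ℕ) (i : Bool) (J : Finset (ℕ × ℕ)) : Finset E :=
  (J.biUnion fun v => D.Rg v \ D.lay n) ∪ (J.biUnion fun v => D.Rg (ch i v) ∩ D.lay (n + 1))

variable {D} {G}

theorem lost_nonneg (i : Bool) (v : ℕ × ℕ) (S : Finset E) : 0 ≤ D.lost G i v S := ind_nonneg _

theorem lost_le_one (i : Bool) (v : ℕ × ℕ) (S : Finset E) : D.lost G i v S ≤ 1 := ind_le_one _

theorem fr_mono {n : ℕ} {i : Bool} {J J' J'' : Finset (ℕ × ℕ)} (h1 : J' ⊆ J) (h2 : J'' ⊆ J) :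
    (J'.biUnion fun v => D.Rg v \ D.lay n) ∪ (J''.biUnion fun v => D.Rg (ch i v) ∩ D.lay (n + 1))
      ⊆ D.fr n i J :=
  Finset.union_subset_union (Finset.biUnion_subset_biUnion_of_subset_left _ h1)
    (Finset.biUnion_subset_biUnion_of_subset_left _ h2)

section facts

variable {q β : ℝ} {K M R N : ℕ}
  (h : Scr G D.A D.blk D.nb D.vtx D.En D.Y D.Rg q β K M R N)

include h

theorem level_type1_zero (i : Bool) (J : Finset (ℕ × ℕ)) (hL : D.L = M * K)
    (hβs : β ≤ D.s) (hJ : ∀ v ∈ J, lev v = 0) :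
    ∀ S₀, Disjoint S₀ (J.biUnion fun v => D.Rg v \ D.lay 0) →
      G.ex (J.biUnion fun v => D.Rg v \ D.lay 0) (fun S => ∏ v ∈ J,
        ind (D.wet G (S₀ ∪ S) v ∧ ¬ D.Q (ch i v) (D.C G (0 + 1) (S₀ ∪ S)))) ≤ D.s ^ J.card := by
  classical
  intro S₀ hS₀
  by_cases hJe : J = ∅
  · subst hJe
    simp
  · have hJ1 : J = {(0, 0)} := by
      ext v
      rw [Finset.mem_singleton]
      constructor
      · intro hv; exact lev_eq_zero (hJ v hv)
      · rintro rfl
        obtain ⟨w, hw⟩ := Finset.nonempty_iff_ne_empty.2 hJe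
        have := lev_eq_zero (hJ w hw)
        rwa [this] at hw
    rw [hJ1, Finset.singleton_biUnion, lay_zero h, Finset.sdiff_empty, Finset.card_singleton,
      pow_one]
    simp only [Finset.prod_singleton]
    refine (ex_le_ex_of_le G (h.ann_zero i) ?_).trans hβs
    intro S hS
    by_cases hQ : D.Q (ch i (0, 0)) (G.cl S D.A)
    · rw [ind_of_not]
      · exact bad_nonneg _ _
      · rintro ⟨-, hn⟩
        apply hn
        refine Q_mono _ _ _ ?_ hQ
        unfold Dat.C
        refine G.cl_mono ?_ (Finset.Subset.refl _)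
        refine Finset.subset_inter Finset.subset_union_right ?_
        exact hS.trans (h.Rg_sub (0, 0) (by simp [lev]))
    · have : bad (Tgt D.nb (D.Y (ch i (0, 0))) (M * K)) (G.cl S D.A) = 1 := by
        refine bad_of_not ?_
        rw [← hL]
        exact hQ
      rw [this]
      exact ind_le_one _

/-- **the estimate for one level** -/
theorem level_step {n : ℕ} (hnN : n + 1 ≤ N) (i : Bool) (J : Finset (ℕ × ℕ))
    (hs : 0 < D.s) (hq : 0 < q) (hβ : 0 ≤ β) (hM : 1 ≤ M) (hK : 1 ≤ K) (hL : D.L = M * K)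
    (hβs : β ≤ D.s) (hJ : ∀ v ∈ J, lev v = n)
    (hsep : ∀ v ∈ J, ∀ w ∈ J, v ≠ w → v.1 + R ≤ w.1 ∨ w.1 + R ≤ v.1) :
    ∀ S₀, Disjoint S₀ (D.fr n i J) →
      G.ex (D.fr n i J) (fun S => ∏ v ∈ J, D.lost G i v (S₀ ∪ S))
        ≤ (D.s + (4 / (q * M) + 4 * β / D.s)) ^ J.card := by
  classical
  intro S₀ hS₀
  set a : ℕ × ℕ → Finset E → ℝ := fun v S =>
    ind (D.wet G S v ∧ ¬ D.Q (ch i v) (D.C G (n + 1) S)) with ha
  set z : ℕ × ℕ → Finset E → ℝ := fun v S =>
    ind (D.Q (ch i v) (D.C G (n + 1) S) ∧ ¬ D.wet G S (ch i v)) with hz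
  set κ : ℝ := 4 / (q * M) + 4 * β / D.s with hκ
  have hκ0 : 0 ≤ κ := by
    have : (0 : ℝ) ≤ (M : ℝ) := Nat.cast_nonneg _
    rw [hκ]; positivity
  have ha0 : ∀ v S, 0 ≤ a v S := fun v S => ind_nonneg _
  have hz0 : ∀ v S, 0 ≤ z v S := fun v S => ind_nonneg _
  have hsplit : ∀ v S, D.lost G i v S ≤ a v S + z v S := by
    intro v S
    by_cases hl : D.wet G S v ∧ ¬ D.wet G S (ch i v)
    · by_cases hQ : D.Q (ch i v) (D.C G (n + 1) S)
      · have : z v S = 1 := ind_of ⟨hQ, hl.2⟩
        rw [this]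
        have := lost_le_one (D := D) (G := G) i v S
        linarith [ha0 v S]
      · have : a v S = 1 := ind_of ⟨hl.1, hQ⟩
        rw [this]
        have := lost_le_one (D := D) (G := G) i v S
        linarith [hz0 v S]
    · have : D.lost G i v S = 0 := ind_of_not hl
      rw [this]
      exact add_nonneg (ha0 v S) (hz0 v S)
  have h1 : G.ex (D.fr n i J) (fun S => ∏ v ∈ J, D.lost G i v (S₀ ∪ S))
      ≤ G.ex (D.fr n i J) (fun S => ∑ t ∈ J.powerset,
        (∏ v ∈ t, a v (S₀ ∪ S)) * ∏ v ∈ J \ t, z v (S₀ ∪ S)) := by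
    refine G.ex_mono fun S _ => ?_
    rw [← Finset.prod_add]
    exact Finset.prod_le_prod (fun v _ => lost_nonneg _ _ _) fun v _ => hsplit v _
  refine h1.trans ?_
  rw [G.ex_sum, ← Finset.sum_pow_mul_eq_add_pow]
  refine Finset.sum_le_sum fun t ht => ?_
  have htJ : t ⊆ J := Finset.mem_powerset.1 ht
  have hcard : (J \ t).card = J.card - t.card := Finset.card_sdiff_of_subset htJ
  rw [← hcard]
  refine ex_le_of_region G (F' := (t.biUnion fun v => D.Rg v \ D.lay n) ∪
    ((J \ t).biUnion fun v => D.Rg (ch i v) ∩ D.lay (n + 1)))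
    (fr_mono htJ Finset.sdiff_subset)
    (X := fun S => (∏ v ∈ t, a v S) * ∏ v ∈ J \ t, z v S) ?_ S₀ hS₀
  clear h1 hS₀ S₀
  intro S₀ hS₀
  set F1 : Finset E := t.biUnion fun v => D.Rg v \ D.lay n with hF1
  set F2 : Finset E := (J \ t).biUnion fun v => D.Rg (ch i v) ∩ D.lay (n + 1) with hF2
  have hF1E : F1 ⊆ D.En (n + 1) := by
    rw [hF1, Finset.biUnion_subset]
    intro v hv
    have hlv := hJ v (htJ hv)
    have := h.Rg_sub v (by omega)
    rw [hlv] at this
    exact Finset.sdiff_subset.trans this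
  have hF2E : Disjoint F2 (D.En (n + 1)) := by
    rw [hF2, Finset.disjoint_biUnion_left]
    intro v _
    exact Finset.disjoint_of_subset_left Finset.inter_subset_right (lay_disj h hnN)
  have hd : Disjoint F1 F2 := Finset.disjoint_of_subset_left hF1E hF2E.symm
  have hS1 : Disjoint S₀ F1 := Finset.disjoint_of_subset_right Finset.subset_union_left hS₀
  have hS2 : Disjoint S₀ F2 := Finset.disjoint_of_subset_right Finset.subset_union_right hS₀
  have hb1 : G.ex F1 (fun S => ∏ v ∈ t, a v (S₀ ∪ S)) ≤ D.s ^ t.card := by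
    by_cases hn : n = 0
    · subst hn
      exact level_type1_zero h i t hL hβs (fun v hv => hJ v (htJ hv)) S₀ hS1
    · exact level_type1 h (Nat.one_le_iff_ne_zero.2 hn) (by omega) i t hs.le
        (fun v hv => hJ v (htJ hv)) (fun v hv w hw => hsep v (htJ hv) w (htJ hw)) S₀ hS1
  have hb2 : ∀ S ⊆ F1, G.ex F2 (fun T => ∏ v ∈ J \ t, z v ((S₀ ∪ S) ∪ T)) ≤ κ ^ (J \ t).card := by
    intro S hS
    exact level_type2 h hnN i (J \ t) hs hq hβ hM hK hL
      (fun v hv => hJ v (Finset.sdiff_subset hv))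
      (fun v hv w hw => hsep v (Finset.sdiff_subset hv) w (Finset.sdiff_subset hw)) (S₀ ∪ S)
      (Finset.disjoint_union_left.2 ⟨hS2, Finset.disjoint_of_subset_left hS hd⟩)
  rw [G.ex_union hd]
  have h2 : G.ex F1 (fun S => G.ex F2 (fun T => (∏ v ∈ t, a v (S₀ ∪ (S ∪ T)))
        * ∏ v ∈ J \ t, z v (S₀ ∪ (S ∪ T))))
      ≤ G.ex F1 (fun S => (∏ v ∈ t, a v (S₀ ∪ S)) * κ ^ (J \ t).card) := by
    refine G.ex_mono fun S hS => ?_
    have h3 : G.ex F2 (fun T => (∏ v ∈ t, a v (S₀ ∪ (S ∪ T)))
        * ∏ v ∈ J \ t, z v (S₀ ∪ (S ∪ T)))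
        = (∏ v ∈ t, a v (S₀ ∪ S)) * G.ex F2 (fun T => ∏ v ∈ J \ t, z v ((S₀ ∪ S) ∪ T)) := by
      rw [← G.ex_mul_left]
      refine G.ex_congr fun T hT => ?_
      have hTE : T ∩ D.En (n + 1) = ∅ := by
        rw [← Finset.disjoint_iff_inter_eq_empty]
        exact Finset.disjoint_of_subset_left hT hF2E
      have hcap : (S₀ ∪ (S ∪ T)) ∩ D.En (n + 1) = (S₀ ∪ S) ∩ D.En (n + 1) := by
        rw [← Finset.union_assoc, Finset.union_inter_distrib_right, hTE, Finset.union_empty]
      rw [Finset.union_assoc]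
      congr 1
      refine Finset.prod_congr rfl fun v hv => ?_
      have hlv := hJ v (htJ hv)
      simp only [ha]
      rw [C_congr hcap]
      refine ind_congr ?_
      have := wet_congr h (v := v) (by omega) (S := S₀ ∪ (S ∪ T)) (S' := S₀ ∪ S)
        (by rw [hlv]; exact hcap)
      rw [this]
    rw [h3]
    exact mul_le_mul_of_nonneg_left (hb2 S hS) (Finset.prod_nonneg fun v _ => ha0 v _)
  refine h2.trans ?_
  rw [G.ex_mul_right]
  exact mul_le_mul_of_nonneg_right hb1 (pow_nonneg hκ0 _)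

/-- **all levels**: the games of one class -/
theorem games (hs : 0 < D.s) (hq : 0 < q) (hβ : 0 ≤ β) (hM : 1 ≤ M) (hK : 1 ≤ K)
    (hL : D.L = M * K) (hβs : β ≤ D.s) (i : Bool) {Ω : Finset E} (hΩ : D.En (N + 1) ⊆ Ω) :
    ∀ n : ℕ, ∀ Γ : Finset (ℕ × ℕ), (∀ v ∈ Γ, lev v < n) → (∀ v ∈ Γ, lev v + 1 ≤ N) →
      (∀ v ∈ Γ, ∀ w ∈ Γ, lev v % 3 = lev w % 3) →
      (∀ v ∈ Γ, ∀ w ∈ Γ, v.1 % R = w.1 % R) →
      G.ex Ω (fun S => ∏ v ∈ Γ, D.lost G i v S)
        ≤ (D.s + (4 / (q * M) + 4 * β / D.s)) ^ Γ.card := by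
  classical
  intro n
  induction n with
  | zero =>
    intro Γ h1 _ _ _
    have : Γ = ∅ := by
      rw [Finset.eq_empty_iff_forall_notMem]
      intro v hv
      exact absurd (h1 v hv) (Nat.not_lt_zero _)
    subst this
    simp [G.ex_const]
  | succ n ih =>
    intro Γ h1 h2 h3 h4
    set κ : ℝ := D.s + (4 / (q * M) + 4 * β / D.s) with hκ
    have hκ0 : 0 ≤ κ := by
      have : (0 : ℝ) ≤ (M : ℝ) := Nat.cast_nonneg _
      rw [hκ]; positivity
    set Γ₁ : Finset (ℕ × ℕ) := Γ.filter (fun v => lev v = n) with hΓ₁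
    set Γ₀ : Finset (ℕ × ℕ) := Γ.filter (fun v => ¬ lev v = n) with hΓ₀
    have h0lt : ∀ v ∈ Γ₀, lev v < n := by
      intro v hv
      rw [hΓ₀, Finset.mem_filter] at hv
      have := h1 v hv.1
      omega
    have hsub0 : Γ₀ ⊆ Γ := Finset.filter_subset _ _
    have hsub1 : Γ₁ ⊆ Γ := Finset.filter_subset _ _
    have ih0 := ih Γ₀ h0lt (fun v hv => h2 v (hsub0 hv))
      (fun v hv w hw => h3 v (hsub0 hv) w (hsub0 hw))
      (fun v hv w hw => h4 v (hsub0 hv) w (hsub0 hw))
    by_cases hne : Γ₁ = ∅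
    · have hΓ : Γ = Γ₀ := by
        have := Finset.filter_union_filter_not_eq (fun v => lev v = n) Γ
        rw [← hΓ₁, ← hΓ₀, hne, Finset.empty_union] at this
        exact this.symm
      rw [hΓ]
      exact ih0
    · obtain ⟨w₀, hw₀⟩ := Finset.nonempty_iff_ne_empty.2 hne
      have hw₀' := Finset.mem_filter.1 hw₀
      have hnN : n + 1 ≤ N := by
        have := h2 w₀ hw₀'.1
        omega
      have hlow : ∀ v ∈ Γ₀, lev v + 3 ≤ n := by
        intro v hv
        have ha := h0lt v hv
        have hb := h3 v (hsub0 hv) w₀ hw₀'.1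
        rw [hw₀'.2] at hb
        omega
      have hsep : ∀ v ∈ Γ₁, ∀ w ∈ Γ₁, v ≠ w → v.1 + R ≤ w.1 ∨ w.1 + R ≤ v.1 := by
        intro v hv w hw hvw
        have hv' := Finset.mem_filter.1 hv
        have hw' := Finset.mem_filter.1 hw
        have hmod := h4 v hv'.1 w hw'.1
        have hne1 : v.1 ≠ w.1 := by
          intro heq
          apply hvw
          have ha : v.1 + v.2 = w.1 + w.2 := hv'.2.trans hw'.2.symm
          exact Prod.ext heq (by omega)
        rcases lt_or_gt_of_ne hne1 with hlt | hlt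
        · left
          have hdvd : R ∣ w.1 - v.1 := (Nat.modEq_iff_dvd' hlt.le).1 hmod
          have := Nat.le_of_dvd (by omega) hdvd
          omega
        · right
          have hdvd : R ∣ v.1 - w.1 := (Nat.modEq_iff_dvd' hlt.le).1 hmod.symm
          have := Nat.le_of_dvd (by omega) hdvd
          omega
      have hJ : ∀ v ∈ Γ₁, lev v = n := fun v hv => (Finset.mem_filter.1 hv).2
      have hFΩ : D.fr n i Γ₁ ⊆ Ω := by
        refine Finset.Subset.trans ?_ hΩ
        unfold Dat.fr
        refine Finset.union_subset ?_ ?_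
        · rw [Finset.biUnion_subset]
          intro v hv
          have hlv := hJ v hv
          have ha := h.Rg_sub v (by omega)
          exact Finset.sdiff_subset.trans (ha.trans (h.En_mono (by omega)))
        · rw [Finset.biUnion_subset]
          intro v hv
          have ha := lay_sub h (n := n + 1) hnN
          exact Finset.inter_subset_right.trans (ha.trans (h.En_mono (by omega)))
      have hstep := ex_step G hFΩ (u := fun S => ∏ v ∈ Γ₀, D.lost G i v S)
        (X := fun S => ∏ v ∈ Γ₁, D.lost G i v S) (c := κ ^ Γ₁.card)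
        (fun S => Finset.prod_nonneg fun v _ => lost_nonneg _ _ _) ?_
        (level_step h hnN i Γ₁ hs hq hβ hM hK hL hβs hJ hsep)
      · have hprod : ∀ S, ∏ v ∈ Γ, D.lost G i v S
            = (∏ v ∈ Γ₀, D.lost G i v S) * ∏ v ∈ Γ₁, D.lost G i v S := by
          intro S
          rw [mul_comm]
          exact (Finset.prod_filter_mul_prod_filter_not Γ (fun v => lev v = n) _).symm
        have hcard : Γ.card = Γ₁.card + Γ₀.card :=
          (Finset.card_filter_add_card_filter_not (fun v => lev v = n)).symm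
        simp only [hprod]
        refine hstep.trans ?_
        rw [hcard, pow_add]
        exact mul_le_mul_of_nonneg_left ih0 (pow_nonneg hκ0 _)
      · intro S T hT hS
        refine Finset.prod_congr rfl fun v hv => ?_
        have hlv := hlow v hv
        have hT0 : T ∩ D.En (lev v + 2) = ∅ := by
          rw [← Finset.disjoint_iff_inter_eq_empty]
          refine Finset.disjoint_of_subset_left hT ?_
          refine Finset.disjoint_of_subset_right (h.En_mono (show lev v + 2 ≤ n - 1 by omega)) ?_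
          unfold Dat.fr
          rw [Finset.disjoint_union_left]
          constructor
          · rw [Finset.disjoint_biUnion_left]
            intro w hw
            have hlw := hJ w hw
            have ha := h.Rg_disj w (by omega) (by omega)
            rw [hlw] at ha
            exact Finset.disjoint_of_subset_left Finset.sdiff_subset ha
          · rw [Finset.disjoint_biUnion_left]
            intro w hw
            refine Finset.disjoint_of_subset_left Finset.inter_subset_right ?_
            exact Finset.disjoint_of_subset_right (h.En_mono (by omega)) (lay_disj h hnN)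
        have hcap : ∀ m, m ≤ lev v + 2 → (S ∪ T) ∩ D.En m = S ∩ D.En m := by
          intro m hm
          have : T ∩ D.En m = ∅ := by
            rw [← Finset.disjoint_iff_inter_eq_empty] at hT0 ⊢
            exact Finset.disjoint_of_subset_right (h.En_mono hm) hT0
          rw [Finset.union_inter_distrib_right, this, Finset.union_empty]
        unfold Dat.lost
        refine ind_congr ?_
        have ha := wet_congr h (v := v) (by omega) (S := S ∪ T) (S' := S) (hcap _ (by omega))
        have hb := wet_congr h (v := ch i v) (by rw [lev_ch]; omega) (S := S ∪ T) (S' := S)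
          (by rw [lev_ch]; exact hcap _ (by omega))
        rw [ha, hb]

end facts

end Dat

end Crest.Agent.R147.Sc
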