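import Crest.Agent.R147.Sc113Def

/-!
# Screens: the estimate for one level
-/

set_option autoImplicit false
set_option linter.unusedSectionVars false

open Finset

namespace Crest.Agent.R147.Sc

open Crest.Agent.R147.KN Crest.Agent.R147.KN.HG

/-- indicator -/
noncomputable def ind (P : Prop) : ℝ := open Classical in if P then 1 else 0

theorem ind_of {P : Prop} (h : P) : ind P = 1 := by unfold ind; rw [if_pos h]

theorem ind_of_not {P : Prop} (h : ¬ P) : ind P = 0 := by unfold ind; rw [if_neg h]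

theorem ind_nonneg (P : Prop) : 0 ≤ ind P := by
  by_cases h : P
  · rw [ind_of h]; norm_num
  · rw [ind_of_not h]

theorem ind_le_one (P : Prop) : ind P ≤ 1 := by
  by_cases h : P
  · rw [ind_of h]
  · rw [ind_of_not h]; norm_num

theorem ind_mono {P Q : Prop} (h : P → Q) : ind P ≤ ind Q := by
  by_cases hP : P
  · rw [ind_of hP, ind_of (h hP)]
  · rw [ind_of_not hP]; exact ind_nonneg _

theorem ind_congr {P Q : Prop} (h : P ↔ Q) : ind P = ind Q := by
  rw [propext h]

theorem prod_ind {ι : Type*} (J : Finset ι) (P : ι → Prop) :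
    ∏ j ∈ J, ind (P j) = ind (∀ j ∈ J, P j) := by
  by_cases h : ∀ j ∈ J, P j
  · rw [ind_of h]
    exact Finset.prod_eq_one fun j hj => ind_of (h j hj)
  · rw [ind_of_not h]
    push Not at h
    obtain ⟨j, hj, h1⟩ := h
    exact Finset.prod_eq_zero hj (ind_of_not h1)

/-- bundled data -/
structure Dat (V E B : Type*) where
  A : Finset V
  blk : B → Finset E
  nb : B → Finset V
  vtx : B → Finset V
  En : ℕ → Finset E
  Y : ℕ × ℕ → Finset B
  Rg : ℕ × ℕ → Finset E
  /-- the number of blocks in a target -/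
  L : ℕ
  /-- the threshold for quenched probabilities -/
  s : ℝ

variable {V E B : Type*} [DecidableEq V] [DecidableEq E] [Fintype V] [DecidableEq B]

theorem lev_ch (i : Bool) (v : ℕ × ℕ) : lev (ch i v) = lev v + 1 := by
  unfold lev ch
  split_ifs <;> simp only <;> omega

theorem ch_ne_zero (i : Bool) (v : ℕ × ℕ) : ch i v ≠ (0, 0) := by
  intro h
  have := lev_ch i v
  rw [h] at this
  simp [lev] at this

theorem ch_inj (i : Bool) {v w : ℕ × ℕ} (h : ch i v = ch i w) : v = w := by
  unfold ch at h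
  obtain ⟨v1, v2⟩ := v
  obtain ⟨w1, w2⟩ := w
  split_ifs at h
  · simp only [Prod.mk.injEq] at h ⊢
    omega
  · simp only [Prod.mk.injEq] at h ⊢
    omega

theorem ch_fst_add (i : Bool) {v w : ℕ × ℕ} {R : ℕ} (h : v.1 + R ≤ w.1) :
    (ch i v).1 + R ≤ (ch i w).1 := by
  unfold ch
  split_ifs <;> simp only <;> omega

theorem lev_eq_zero {v : ℕ × ℕ} (h : lev v = 0) : v = (0, 0) := by
  obtain ⟨v1, v2⟩ := v
  unfold lev at h
  simp only at h
  simp only [Prod.mk.injEq]
  omega

/-- extension of a conditional bound to a larger region -/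
theorem ex_le_of_region (G : HG V E) {F F' : Finset E} (hF : F' ⊆ F) {X : Finset E → ℝ} {c : ℝ}
    (hX : ∀ S₀, Disjoint S₀ F' → G.ex F' (fun S => X (S₀ ∪ S)) ≤ c) :
    ∀ S₀, Disjoint S₀ F → G.ex F (fun S => X (S₀ ∪ S)) ≤ c := by
  intro S₀ hS₀
  have hd : Disjoint (F \ F') F' := Finset.sdiff_disjoint
  have h1 : G.ex F (fun S => X (S₀ ∪ S))
      = G.ex ((F \ F') ∪ F') (fun S => X (S₀ ∪ S)) := by
    rw [Finset.sdiff_union_of_subset hF]
  rw [h1, G.ex_union hd]
  refine G.ex_le_of_le fun T hT => ?_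
  have h2 := hX (S₀ ∪ T) (Finset.disjoint_union_left.2
    ⟨Finset.disjoint_of_subset_right hF hS₀, Finset.disjoint_of_subset_left hT hd⟩)
  simpa only [Finset.union_assoc] using h2

namespace Dat

variable (D : Dat V E B) (G : HG V E)

/-- cluster of the source at level `n` -/
noncomputable def C (n : ℕ) (S : Finset E) : Finset V := G.cl (S ∩ D.En n) D.A

/-- all hyperedges of the blocks of level `n` -/
def lay (n : ℕ) : Finset E := (Finset.HasAntidiagonal.antidiagonal n).biUnion fun v => (D.Y v).biUnion D.blk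

/-- target of the site `w` -/
def Q (w : ℕ × ℕ) : Finset V → Prop := Tgt D.nb (D.Y w) D.L

/-- quenched failure probability -/
noncomputable def phi (v : ℕ × ℕ) (b : B) (i : Bool) (S : Finset E) : ℝ :=
  G.ex (D.Rg v \ D.lay (lev v)) (fun S' =>
    bad (D.Q (ch i v)) (G.cl (S' ∪ (S ∩ (D.Rg v ∩ D.lay (lev v)))) (D.vtx b)))

/-- good blocks -/
def good (v : ℕ × ℕ) (S : Finset E) (b : B) : Prop :=
  D.blk b ⊆ S ∧ ∀ i, D.phi G v b i S ≤ D.s

/-- wet sites -/
def wet (S : Finset E) (v : ℕ × ℕ) : Prop :=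
  v = (0, 0) ∨ ∃ b ∈ D.Y v, ¬ Disjoint (D.nb b) (D.C G (lev v) S) ∧ D.good G v S b

variable {D} {G}

theorem Q_mono (w : ℕ × ℕ) (F F' : Finset V) (h : F ⊆ F') (hF : D.Q w F) : D.Q w F' := by
  unfold Dat.Q Tgt at *
  refine hF.trans (Finset.card_le_card ?_)
  intro b hb
  rw [Finset.mem_filter] at hb ⊢
  exact ⟨hb.1, fun hd => hb.2 (Finset.disjoint_of_subset_right h hd)⟩

theorem mem_lay {v : ℕ × ℕ} {b : B} (hb : b ∈ D.Y v) : D.blk b ⊆ D.lay (lev v) := by
  intro e he
  unfold Dat.lay
  rw [Finset.mem_biUnion]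
  refine ⟨v, ?_, ?_⟩
  · rw [Finset.HasAntidiagonal.mem_antidiagonal]; rfl
  · rw [Finset.mem_biUnion]
    exact ⟨b, hb, he⟩

theorem C_congr {n : ℕ} {S S' : Finset E} (h : S ∩ D.En n = S' ∩ D.En n) :
    D.C G n S = D.C G n S' := by
  unfold Dat.C
  rw [h]

theorem phi_congr {v : ℕ × ℕ} {b : B} {i : Bool} {S S' : Finset E}
    (h : S ∩ (D.Rg v ∩ D.lay (lev v)) = S' ∩ (D.Rg v ∩ D.lay (lev v))) :
    D.phi G v b i S = D.phi G v b i S' := by
  unfold Dat.phi
  rw [h]

theorem phi_nonneg (v : ℕ × ℕ) (b : B) (i : Bool) (S : Finset E) : 0 ≤ D.phi G v b i S :=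
  G.ex_nonneg fun _ _ => bad_nonneg _ _

theorem phi_anti (v : ℕ × ℕ) (b : B) (i : Bool) {S S' : Finset E} (h : S ⊆ S') :
    D.phi G v b i S' ≤ D.phi G v b i S := by
  unfold Dat.phi
  refine G.ex_mono fun T _ => ?_
  refine bad_anti (Q_mono _) (G.cl_mono ?_ (Finset.Subset.refl _))
  exact Finset.union_subset_union (Finset.Subset.refl _)
    (Finset.inter_subset_inter h (Finset.Subset.refl _))

theorem phi_ex (v : ℕ × ℕ) (b : B) (i : Bool) :
    G.ex (D.Rg v ∩ D.lay (lev v)) (D.phi G v b i)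
      = G.ex (D.Rg v) (fun S => bad (D.Q (ch i v)) (G.cl S (D.vtx b))) := by
  have hd : Disjoint (D.Rg v ∩ D.lay (lev v)) (D.Rg v \ D.lay (lev v)) := by
    rw [Finset.disjoint_left]
    intro e he he'
    exact (Finset.mem_sdiff.1 he').2 (Finset.mem_inter.1 he).2
  have hu : (D.Rg v ∩ D.lay (lev v)) ∪ (D.Rg v \ D.lay (lev v)) = D.Rg v := by
    rw [Finset.union_comm]; exact Finset.sdiff_union_inter _ _
  have h1 := G.ex_union hd (fun S => bad (D.Q (ch i v)) (G.cl S (D.vtx b)))
  rw [hu] at h1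
  rw [h1]
  refine G.ex_congr fun S hS => ?_
  unfold Dat.phi
  refine G.ex_congr fun T _ => ?_
  rw [Finset.inter_eq_left.2 hS, Finset.union_comm]

section facts

variable {q β : ℝ} {K M R N : ℕ}
  (h : Scr G D.A D.blk D.nb D.vtx D.En D.Y D.Rg q β K M R N)

include h

theorem lay_sub {n : ℕ} (hn : n ≤ N) : D.lay n ⊆ D.En (n + 1) := by
  unfold Dat.lay
  intro e he
  rw [Finset.mem_biUnion] at he
  obtain ⟨v, hv, he⟩ := he
  rw [Finset.mem_biUnion] at he
  obtain ⟨b, hb, he⟩ := he
  have hv' : lev v = n := Finset.HasAntidiagonal.mem_antidiagonal.1 hv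
  have := h.blk_sub v (by omega) b hb he
  rwa [hv'] at this

theorem lay_disj {n : ℕ} (hn : n ≤ N) : Disjoint (D.lay n) (D.En n) := by
  unfold Dat.lay
  rw [Finset.disjoint_biUnion_left]
  intro v hv
  rw [Finset.disjoint_biUnion_left]
  intro b hb
  have hv' : lev v = n := Finset.HasAntidiagonal.mem_antidiagonal.1 hv
  have := h.blk_disj v (by omega) b hb
  rwa [hv'] at this

theorem lay_zero : D.lay 0 = ∅ := by
  unfold Dat.lay
  rw [Finset.eq_empty_iff_forall_notMem]
  intro e he
  rw [Finset.mem_biUnion] at he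
  obtain ⟨v, hv, he⟩ := he
  have hv' : v = (0, 0) := lev_eq_zero (Finset.HasAntidiagonal.mem_antidiagonal.1 hv)
  rw [hv', h.Y_zero, Finset.biUnion_empty] at he
  exact absurd he (Finset.notMem_empty _)

/-- wetness only depends on the inside of the next screen -/
theorem wet_congr {v : ℕ × ℕ} (hv : lev v ≤ N) {S S' : Finset E}
    (hS : S ∩ D.En (lev v + 1) = S' ∩ D.En (lev v + 1)) :
    D.wet G S v ↔ D.wet G S' v := by
  have hsub : ∀ X : Finset E, X ⊆ D.En (lev v + 1) → S ∩ X = S' ∩ X := by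
    intro X hX
    have h1 : S ∩ X = (S ∩ D.En (lev v + 1)) ∩ X := by
      rw [Finset.inter_assoc, Finset.inter_eq_right.2 hX]
    have h2 : S' ∩ X = (S' ∩ D.En (lev v + 1)) ∩ X := by
      rw [Finset.inter_assoc, Finset.inter_eq_right.2 hX]
    rw [h1, h2, hS]
  have hC : D.C G (lev v) S = D.C G (lev v) S' :=
    C_congr (hsub _ (h.En_mono (Nat.le_succ _)))
  have hphi : ∀ b i, D.phi G v b i S = D.phi G v b i S' := by
    intro b i
    exact phi_congr (hsub _ (Finset.inter_subset_right.trans (lay_sub h hv)))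
  have hblk : ∀ b ∈ D.Y v, (D.blk b ⊆ S ↔ D.blk b ⊆ S') := by
    intro b hb
    have h1 := hsub _ (h.blk_sub v hv b hb)
    constructor
    · intro h2
      rw [Finset.inter_eq_right.2 h2] at h1
      rw [h1]
      exact Finset.inter_subset_left
    · intro h2
      rw [Finset.inter_eq_right.2 h2] at h1
      rw [← h1]
      exact Finset.inter_subset_left
  unfold Dat.wet Dat.good
  rw [hC]
  simp only [hphi]
  constructor
  · rintro (h1 | ⟨b, hb, h1, h2, h3⟩)
    · exact Or.inl h1
    · exact Or.inr ⟨b, hb, h1, (hblk b hb).1 h2, h3⟩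
  · rintro (h1 | ⟨b, hb, h1, h2, h3⟩)
    · exact Or.inl h1
    · exact Or.inr ⟨b, hb, h1, (hblk b hb).2 h2, h3⟩

/-- a touched open block belongs to the next cluster -/
theorem vtx_sub_C {v : ℕ × ℕ} (hv : lev v ≤ N) {S : Finset E} {b : B} (hb : b ∈ D.Y v)
    (ht : ¬ Disjoint (D.nb b) (D.C G (lev v) S)) (hS : D.blk b ⊆ S) :
    D.vtx b ⊆ D.C G (lev v + 1) S := by
  rw [Finset.not_disjoint_iff] at ht
  obtain ⟨x, hx, hxC⟩ := ht
  refine (h.vtx_cl v hv b hb x hx).trans ?_
  unfold Dat.C at hxC ⊢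
  have h1 : G.cl (D.blk b) {x} ⊆ G.cl (S ∩ D.En (lev v + 1)) (G.cl (S ∩ D.En (lev v + 1)) D.A) := by
    refine G.cl_mono (Finset.subset_inter hS (h.blk_sub v hv b hb)) ?_
    rw [Finset.singleton_subset_iff]
    exact G.cl_mono (Finset.inter_subset_inter (Finset.Subset.refl _)
      (h.En_mono (Nat.le_succ _))) (Finset.Subset.refl _) hxC
  rwa [G.cl_cl] at h1

/-- **type 1 bound for one level** -/
theorem level_type1 {n : ℕ} (hn1 : 1 ≤ n) (hnN : n ≤ N) (i : Bool) (J : Finset (ℕ × ℕ))
    (hs : 0 ≤ D.s)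
    (hJ : ∀ v ∈ J, lev v = n)
    (hsep : ∀ v ∈ J, ∀ w ∈ J, v ≠ w → v.1 + R ≤ w.1 ∨ w.1 + R ≤ v.1) :
    ∀ S₀, Disjoint S₀ (J.biUnion fun v => D.Rg v \ D.lay n) →
      G.ex (J.biUnion fun v => D.Rg v \ D.lay n) (fun S => ∏ v ∈ J,
        ind (D.wet G (S₀ ∪ S) v ∧ ¬ D.Q (ch i v) (D.C G (n + 1) (S₀ ∪ S)))) ≤ D.s ^ J.card := by
  classical
  intro S₀ hS₀
  have hdisj : ∀ v ∈ J, ∀ w ∈ J, v ≠ w →
      Disjoint (D.Rg v \ D.lay n) (D.Rg w \ D.lay n) := by
    intro v hv w hw hvw
    refine Finset.disjoint_of_subset_left Finset.sdiff_subset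
      (Finset.disjoint_of_subset_right Finset.sdiff_subset ?_)
    have hv' := hJ v hv
    have hw' := hJ w hw
    rcases hsep v hv w hw hvw with h1 | h1
    · exact h.Rg_sep v w (by omega) (by omega) h1
    · exact (h.Rg_sep w v (by omega) (by omega) h1).symm
  -- sets of good vertices
  set Z : ℕ × ℕ → Finset V := fun v =>
    ((D.Y v).filter (fun b => D.good G v S₀ b)).biUnion D.vtx with hZ
  set H : Finset E := S₀ ∩ D.lay n with hH
  have hreg : ∀ v ∈ J, D.Rg v \ D.lay n ⊆ D.En (n + 1) := by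
    intro v hv
    have := h.Rg_sub v (by rw [hJ v hv]; exact hnN)
    rw [hJ v hv] at this
    exact Finset.sdiff_subset.trans this
  have key := type1 G J (fun v => D.Rg v \ D.lay n) hdisj (S₀ ∩ D.En (n + 1)) H
    (Finset.inter_subset_inter (Finset.Subset.refl _) (lay_sub h hnN)) Z
    (fun v => D.Q (ch i v)) (fun v _ => Q_mono _) (fun _ => D.s) (fun _ _ => hs) ?_ D.A
    (fun F => ind (∀ v ∈ J, ¬ Disjoint F (Z v) ∧ ¬ D.Q (ch i v) F)) (fun F => ind_le_one _) ?_
  · rw [Finset.prod_const] at key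
    refine ex_le_ex_of_le G key ?_
    intro S hS
    rw [prod_ind]
    refine ind_mono ?_
    intro hall v hv
    obtain ⟨hwet, hnQ⟩ := hall v hv
    have hSE : S ⊆ D.En (n + 1) := by
      refine hS.trans ?_
      rw [Finset.biUnion_subset]
      exact hreg
    have hC : D.C G (n + 1) (S₀ ∪ S) = G.cl (S₀ ∩ D.En (n + 1) ∪ S) D.A := by
      unfold Dat.C
      rw [Finset.union_inter_distrib_right, Finset.inter_eq_left.2 hSE]
    rw [hC] at hnQ
    refine ⟨?_, hnQ⟩
    rw [← hC]
    have hlv := hJ v hv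
    have hvne : v ≠ (0, 0) := by
      intro h0
      rw [h0] at hlv
      simp [lev] at hlv
      omega
    rcases hwet with h0 | ⟨b, hb, ht, hg1, hg2⟩
    · exact absurd h0 hvne
    · -- the block is good for `S₀` as well
      have hSlay : S ∩ D.lay n = ∅ := by
        rw [← Finset.disjoint_iff_inter_eq_empty]
        refine Finset.disjoint_of_subset_left hS ?_
        rw [Finset.disjoint_biUnion_left]
        intro w _
        exact Finset.sdiff_disjoint
      have hX : ∀ X : Finset E, X ⊆ D.lay n → (S₀ ∪ S) ∩ X = S₀ ∩ X := by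
        intro X hX
        have : S ∩ X = ∅ := by
          rw [← Finset.disjoint_iff_inter_eq_empty] at hSlay ⊢
          exact Finset.disjoint_of_subset_right hX hSlay
        rw [Finset.union_inter_distrib_right, this, Finset.union_empty]
      have hblay : D.blk b ⊆ D.lay n := by
        have := mem_lay hb
        rwa [hlv] at this
      have hgood : D.good G v S₀ b := by
        constructor
        · have h1 := hX _ hblay
          rw [Finset.inter_eq_right.2 hg1] at h1
          rw [h1]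
          exact Finset.inter_subset_left
        · intro j
          have h1 : D.phi G v b j (S₀ ∪ S) = D.phi G v b j S₀ := by
            refine phi_congr (hX _ ?_)
            rw [hlv]
            exact Finset.inter_subset_right
          rw [← h1]
          exact hg2 j
      have hsubC := vtx_sub_C h (by omega) hb ht hg1
      rw [hlv] at hsubC
      obtain ⟨y, hy⟩ := h.vtx_ne v (by omega) b hb
      rw [Finset.not_disjoint_iff]
      refine ⟨y, hsubC hy, ?_⟩
      simp only [hZ, Finset.mem_biUnion, Finset.mem_filter]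
      exact ⟨b, ⟨hb, hgood⟩, hy⟩
  · intro v hv y hy
    have hlv := hJ v hv
    simp only [hZ, Finset.mem_biUnion, Finset.mem_filter] at hy
    obtain ⟨b, ⟨hb, hg1, hg2⟩, hy⟩ := hy
    refine le_trans ?_ (hg2 i)
    unfold Dat.phi
    rw [hlv]
    refine G.ex_mono fun S _ => ?_
    refine bad_anti (Q_mono _) ?_
    have hblay : D.blk b ⊆ H := by
      have := mem_lay hb
      rw [hlv] at this
      exact Finset.subset_inter hg1 this
    have h1 : D.vtx b ⊆ G.cl (S ∪ H) {y} :=
      (h.vtx_cl v (by omega) b hb y (h.vtx_nb v (by omega) b hb hy)).trans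
        (G.cl_mono (hblay.trans Finset.subset_union_right) (Finset.Subset.refl _))
    have h2 : G.cl (S ∪ S₀ ∩ (D.Rg v ∩ D.lay n)) (D.vtx b)
        ⊆ G.cl (S ∪ H) (G.cl (S ∪ H) {y}) := by
      refine G.cl_mono ?_ h1
      refine Finset.union_subset_union (Finset.Subset.refl _) ?_
      exact Finset.inter_subset_inter (Finset.Subset.refl _) Finset.inter_subset_right
    rwa [G.cl_cl] at h2
  · intro F hF
    rw [ind_of_not]
    intro hall
    obtain ⟨v, hv, h1 | h1⟩ := hF
    · exact (hall v hv).1 h1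
    · exact (hall v hv).2 h1

/-- **type 2 bound for one level** -/
theorem level_type2 {n : ℕ} (hnN : n + 1 ≤ N) (i : Bool) (J : Finset (ℕ × ℕ))
    (hs : 0 < D.s) (hq : 0 < q) (hβ : 0 ≤ β) (hM : 1 ≤ M) (hK : 1 ≤ K) (hL : D.L = M * K)
    (hJ : ∀ v ∈ J, lev v = n)
    (hsep : ∀ v ∈ J, ∀ w ∈ J, v ≠ w → v.1 + R ≤ w.1 ∨ w.1 + R ≤ v.1) :
    ∀ S₀, Disjoint S₀ (J.biUnion fun v => D.Rg (ch i v) ∩ D.lay (n + 1)) →
      G.ex (J.biUnion fun v => D.Rg (ch i v) ∩ D.lay (n + 1)) (fun S => ∏ v ∈ J,
        ind (D.Q (ch i v) (D.C G (n + 1) (S₀ ∪ S)) ∧ ¬ D.wet G (S₀ ∪ S) (ch i v)))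
        ≤ (4 / (q * M) + 4 * β / D.s) ^ J.card := by
  classical
  intro S₀ hS₀
  have hdisj : ∀ v ∈ J, ∀ w ∈ J, v ≠ w →
      Disjoint (D.Rg (ch i v) ∩ D.lay (n + 1)) (D.Rg (ch i w) ∩ D.lay (n + 1)) := by
    intro v hv w hw hvw
    refine Finset.disjoint_of_subset_left Finset.inter_subset_left
      (Finset.disjoint_of_subset_right Finset.inter_subset_left ?_)
    have hv' := hJ v hv
    have hw' := hJ w hw
    have hlv := lev_ch i v
    have hlw := lev_ch i w
    rcases hsep v hv w hw hvw with h1 | h1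
    · exact h.Rg_sep _ _ (by omega) (by omega) (ch_fst_add i h1)
    · exact (h.Rg_sep _ _ (by omega) (by omega) (ch_fst_add i h1)).symm
  have hlayd : Disjoint (D.lay (n + 1)) (D.En (n + 1)) := lay_disj h hnN
  -- touched blocks
  set T : ℕ × ℕ → Finset B := fun w =>
    (D.Y w).filter (fun b => ¬ Disjoint (D.nb b) (D.C G (n + 1) S₀)) with hT
  set L : ℕ × ℕ → Finset E := fun v => D.Rg (ch i v) ∩ D.lay (n + 1) with hLdef
  set g : ℕ × ℕ → Finset E → ℝ := fun v S =>
    ind (D.L ≤ (T (ch i v)).card ∧ ¬ ∃ b ∈ T (ch i v), D.blk b ⊆ S ∩ L v ∧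
      ∀ j, D.phi G (ch i v) b j (S ∩ L v) ≤ D.s) with hg
  have hprod := ex_prod_le G J L hdisj g (fun v _ S => ind_nonneg _) ?_
    (fun _ => 4 / (q * M) + 4 * β / D.s) ?_
  · rw [Finset.prod_const] at hprod
    refine ex_le_ex_of_le G hprod ?_
    intro S hS
    refine Finset.prod_le_prod (fun v _ => ind_nonneg _) fun v hv => ?_
    refine ind_mono ?_
    rintro ⟨hQ, hnw⟩
    have hSd : Disjoint S (D.En (n + 1)) := by
      refine Finset.disjoint_of_subset_left hS ?_
      rw [Finset.disjoint_biUnion_left]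
      intro w _
      exact Finset.disjoint_of_subset_left Finset.inter_subset_right hlayd
    have hC : D.C G (n + 1) (S₀ ∪ S) = D.C G (n + 1) S₀ := by
      refine C_congr ?_
      rw [Finset.union_inter_distrib_right, Finset.disjoint_iff_inter_eq_empty.1 hSd,
        Finset.union_empty]
    have hlv := hJ v hv
    have hlw : lev (ch i v) = n + 1 := by rw [lev_ch, hlv]
    constructor
    · rw [hC] at hQ
      exact hQ
    · rintro ⟨b, hb, hb1, hb2⟩
      apply hnw
      rw [hT] at hb
      simp only [Finset.mem_filter] at hb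
      refine Or.inr ⟨b, hb.1, ?_, ?_, ?_⟩
      · rw [hlw, hC]; exact hb.2
      · exact (hb1.trans Finset.inter_subset_left).trans Finset.subset_union_right
      · intro j
        have h1 : D.phi G (ch i v) b j (S₀ ∪ S) = D.phi G (ch i v) b j (S ∩ L v) := by
          refine phi_congr ?_
          rw [hlw]
          have h2 : S₀ ∩ L v = ∅ := by
            rw [← Finset.disjoint_iff_inter_eq_empty]
            exact Finset.disjoint_of_subset_right
              (Finset.subset_biUnion_of_mem (fun v => D.Rg (ch i v) ∩ D.lay (n + 1)) hv) hS₀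
          change (S₀ ∪ S) ∩ L v = (S ∩ L v) ∩ L v
          rw [Finset.union_inter_distrib_right, h2, Finset.empty_union, Finset.inter_assoc,
            Finset.inter_self]
        rw [h1]
        exact hb2 j
  · intro v hv S
    simp only [hg]
    rw [Finset.inter_assoc, Finset.inter_self]
  · intro v hv
    have hlv := hJ v hv
    have hlw : lev (ch i v) = n + 1 := by rw [lev_ch, hlv]
    have hchne := ch_ne_zero i v
    by_cases hcard : D.L ≤ (T (ch i v)).card
    · have hTY : ∀ b ∈ T (ch i v), b ∈ D.Y (ch i v) := by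
        intro b hb
        exact (Finset.mem_filter.1 hb).1
      have hblkL : ∀ b ∈ T (ch i v), D.blk b ⊆ L v := by
        intro b hb
        refine Finset.subset_inter (h.blk_Rg _ (by omega) b (hTY b hb)) ?_
        have := mem_lay (hTY b hb)
        rwa [hlw] at this
      have h2 := type2 G (L v) (T (ch i v)) D.blk hblkL K M hK
        (fun b hb => (Finset.card_le_card (Finset.filter_subset_filter _
          (Finset.filter_subset _ _))).trans (h.overlap _ (by omega) b (hTY b hb)))
        (by rw [← hL]; exact hcard) q D.s β hq hs (by omega)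
        (fun b hb => h.q_le _ (by omega) b (hTY b hb)) (Finset.univ : Finset Bool)
        (fun b j S => D.phi G (ch i v) b j S) (fun b _ j _ S => phi_nonneg _ _ _ _)
        (fun b _ j _ S S' hSS => phi_anti _ _ _ hSS) ?_ (g v) (fun S => ind_le_one _) ?_
      · refine h2.trans (le_of_eq ?_)
        simp only [Finset.card_univ, Fintype.card_bool]
        norm_num
      · intro b hb j _
        have h3 := phi_ex (D := D) (G := G) (ch i v) b j
        rw [hlw] at h3
        change G.ex (D.Rg (ch i v) ∩ D.lay (n + 1)) (D.phi G (ch i v) b j) ≤ β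
        rw [h3]
        have h4 := h.ann (ch i v) (by omega) hchne b (hTY b hb) j
        rw [← hL] at h4
        exact h4
      · rintro S ⟨b, hb, hb1, hb2⟩
        simp only [hg]
        rw [ind_of_not]
        rintro ⟨-, hno⟩
        apply hno
        refine ⟨b, hb, Finset.subset_inter hb1 (hblkL b hb), fun j => ?_⟩
        have h1 : D.phi G (ch i v) b j (S ∩ L v) = D.phi G (ch i v) b j S := by
          refine phi_congr ?_
          rw [hlw]
          change (S ∩ L v) ∩ L v = S ∩ L v
          rw [Finset.inter_assoc, Finset.inter_self]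
        rw [h1]
        exact hb2 j (Finset.mem_univ _)
    · have h0 : g v = fun _ => 0 := by
        funext S
        simp only [hg]
        exact ind_of_not fun hh => hcard hh.1
      rw [h0, G.ex_const]
      have : (0 : ℝ) ≤ (M : ℝ) := Nat.cast_nonneg _
      positivity

end facts

end Dat

end Crest.Agent.R147.Sc
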