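import Crest.Agent.R147.Sc113Ind
import Crest.Agent.R147.Pe919HG

/-!
# Screens: thinning, Peierls argument, main theorem of the renormalisation
-/

set_option autoImplicit false
set_option linter.unusedSectionVars false

open Finset

namespace Crest.Agent.R147.Sc

open Crest.Agent.R147.KN Crest.Agent.R147.KN.HG Crest.Agent.R147.Pe919

variable {V E B : Type*} [DecidableEq V] [DecidableEq E] [Fintype V] [DecidableEq B]

/-- pigeonhole -/
theorem exists_large_fiber {ι κ : Type*} [DecidableEq ι] [DecidableEq κ] (A : Finset ι)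
    (T : Finset κ) (hT : T.Nonempty) (c : ι → κ) (hc : ∀ a ∈ A, c a ∈ T) :
    ∃ y ∈ T, A.card ≤ T.card * (A.filter (fun a => c a = y)).card := by
  by_contra hcon
  push Not at hcon
  have h1 : A.card = ∑ y ∈ T, (A.filter (fun a => c a = y)).card :=
    Finset.card_eq_sum_card_fiberwise hc
  have h2 : ∑ y ∈ T, T.card * (A.filter (fun a => c a = y)).card < ∑ _y ∈ T, A.card :=
    Finset.sum_lt_sum_of_nonempty hT hcon
  rw [← Finset.mul_sum, ← h1, Finset.sum_const, smul_eq_mul] at h2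
  exact lt_irrefl _ h2

/-- the parent of a site -/
def par (i : Bool) (f : ℕ × ℕ) : ℕ × ℕ := if i then (f.1, f.2 - 1) else (f.1 - 1, f.2)

theorem par_ch (i : Bool) (v : ℕ × ℕ) : par i (ch i v) = v := by
  unfold par ch
  cases i <;> simp

namespace Dat

variable {D : Dat V E B} {G : HG V E}

/-- the site `f` fails because of its parent in direction `i` -/
noncomputable def lostTo (D : Dat V E B) (G : HG V E) (i : Bool) (f : ℕ × ℕ) (S : Finset E) : ℝ :=
  ind ((∃ v, f = ch i v ∧ D.wet G S v) ∧ ¬ D.wet G S f)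

theorem lostTo_eq {i : Bool} {f : ℕ × ℕ} (hf : ch i (par i f) = f) (S : Finset E) :
    D.lostTo G i f S = D.lost G i (par i f) S := by
  unfold Dat.lostTo Dat.lost
  refine ind_congr ?_
  rw [hf]
  constructor
  · rintro ⟨⟨v, hv, hw⟩, h2⟩
    refine ⟨?_, h2⟩
    rw [hv, par_ch]
    exact hw
  · rintro ⟨h1, h2⟩
    exact ⟨⟨par i f, hf.symm, h1⟩, h2⟩

theorem lostTo_zero {i : Bool} {f : ℕ × ℕ} (hf : ¬ ch i (par i f) = f) (S : Finset E) :
    D.lostTo G i f S = 0 := by
  unfold Dat.lostTo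
  refine ind_of_not ?_
  rintro ⟨⟨v, hv, -⟩, -⟩
  apply hf
  rw [hv, par_ch]

section facts

variable {q β : ℝ} {K M R N : ℕ}
  (h : Scr G D.A D.blk D.nb D.vtx D.En D.Y D.Rg q β K M R N)

include h

/-- one class of failing sites -/
theorem class_bound (hs : 0 < D.s) (hq : 0 < q) (hβ : 0 ≤ β) (hM : 1 ≤ M) (hK : 1 ≤ K)
    (hL : D.L = M * K) (hβs : β ≤ D.s) (i : Bool) {Ω : Finset E} (hΩ : D.En (N + 1) ⊆ Ω)
    (Γ : Finset (ℕ × ℕ)) (h1 : ∀ f ∈ Γ, 1 ≤ lev f ∧ lev f ≤ N)
    (h3 : ∀ v ∈ Γ, ∀ w ∈ Γ, lev v % 3 = lev w % 3)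
    (h4 : ∀ v ∈ Γ, ∀ w ∈ Γ, v.1 % R = w.1 % R) :
    G.ex Ω (fun S => ∏ f ∈ Γ, D.lostTo G i f S)
      ≤ (D.s + (4 / (q * M) + 4 * β / D.s)) ^ Γ.card := by
  classical
  have hκ0 : 0 ≤ D.s + (4 / (q * M) + 4 * β / D.s) := by
    have : (0 : ℝ) ≤ (M : ℝ) := Nat.cast_nonneg _
    positivity
  by_cases hpar : ∀ f ∈ Γ, ch i (par i f) = f
  · have hinj : Set.InjOn (par i) (Γ : Set (ℕ × ℕ)) := by
      intro f hf g hg hfg
      rw [← hpar f hf, ← hpar g hg, hfg]
    have hcard : (Γ.image (par i)).card = Γ.card := Finset.card_image_of_injOn hinj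
    have hlev : ∀ f ∈ Γ, lev (par i f) + 1 = lev f := by
      intro f hf
      have := lev_ch i (par i f)
      rw [hpar f hf] at this
      omega
    have key := games h hs hq hβ hM hK hL hβs i hΩ N (Γ.image (par i)) ?_ ?_ ?_ ?_
    · rw [hcard] at key
      refine le_trans (le_of_eq ?_) key
      refine G.ex_congr fun S _ => ?_
      rw [Finset.prod_image hinj]
      exact Finset.prod_congr rfl fun f hf => lostTo_eq (hpar f hf) S
    · intro v hv
      obtain ⟨f, hf, rfl⟩ := Finset.mem_image.1 hv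
      have := hlev f hf
      have := h1 f hf
      omega
    · intro v hv
      obtain ⟨f, hf, rfl⟩ := Finset.mem_image.1 hv
      have := hlev f hf
      have := h1 f hf
      omega
    · intro v hv w hw
      obtain ⟨f, hf, rfl⟩ := Finset.mem_image.1 hv
      obtain ⟨g, hg, rfl⟩ := Finset.mem_image.1 hw
      have ha := hlev f hf
      have hb := hlev g hg
      have hc := h3 f hf g hg
      omega
    · intro v hv w hw
      obtain ⟨f, hf, rfl⟩ := Finset.mem_image.1 hv
      obtain ⟨g, hg, rfl⟩ := Finset.mem_image.1 hw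
      have ha := hpar f hf
      have hb := hpar g hg
      have hc := h4 f hf g hg
      cases i with
      | true => simpa [par] using hc
      | false =>
        have ha' : f.1 = (par false f).1 + 1 := by
          have := congrArg Prod.fst ha
          simpa [ch] using this.symm
        have hb' : g.1 = (par false g).1 + 1 := by
          have := congrArg Prod.fst hb
          simpa [ch] using this.symm
        rw [ha', hb'] at hc
        exact Nat.ModEq.add_right_cancel' 1 hc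
  · push Not at hpar
    obtain ⟨f, hf, hne⟩ := hpar
    have h0 : (fun S => ∏ f ∈ Γ, D.lostTo G i f S) = fun _ => 0 := by
      funext S
      exact Finset.prod_eq_zero hf (lostTo_zero hne S)
    rw [h0, G.ex_const]
    exact pow_nonneg hκ0 _

/-- all sites of `W` fail with probability at most `2^{-16 #W}` -/
theorem fail_bound (hs : 0 < D.s) (hq : 0 < q) (hβ : 0 ≤ β) (hM : 1 ≤ M) (hK : 1 ≤ K)
    (hR : 1 ≤ R) (hL : D.L = M * K)
    (hnum : D.s + (4 / (q * M) + 4 * β / D.s) ≤ (1 / 2) ^ (102 * R))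
    {Ω : Finset E} (hΩ : D.En (N + 1) ⊆ Ω) (W : Finset (ℕ × ℕ))
    (hW : ∀ f ∈ W, 1 ≤ f.1 + f.2 ∧ f.1 + f.2 ≤ N) :
    G.ex Ω (fun S => ind (∀ f ∈ W, Fail (D.wet G S) f)) ≤ (1 / 65536) ^ W.card := by
  classical
  set κ : ℝ := D.s + (4 / (q * M) + 4 * β / D.s) with hκ
  have hMr : (0 : ℝ) ≤ (M : ℝ) := Nat.cast_nonneg _
  have hκ0 : 0 ≤ κ := by
    rw [hκ]; positivity
  have hβs : β ≤ D.s := by
    have h1 : 0 ≤ 4 / (q * M) := by positivity
    have h2 : (1 / 2 : ℝ) ^ (102 * R) ≤ 1 := pow_le_one₀ (by norm_num) (by norm_num)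
    have h3 : 4 * β / D.s ≤ 1 := by
      rw [hκ] at hnum
      linarith
    rw [div_le_one hs] at h3
    linarith
  -- expansion over the parents
  have hexp : G.ex Ω (fun S => ind (∀ f ∈ W, Fail (D.wet G S) f))
      ≤ ∑ t ∈ W.powerset, G.ex Ω (fun S => (∏ f ∈ t, D.lostTo G false f S)
        * ∏ f ∈ W \ t, D.lostTo G true f S) := by
    rw [← G.ex_sum]
    refine G.ex_mono fun S _ => ?_
    rw [← Finset.prod_add, ← prod_ind]
    refine Finset.prod_le_prod (fun f _ => ind_nonneg _) fun f _ => ?_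
    by_cases hF : Fail (D.wet G S) f
    · rw [ind_of hF]
      obtain ⟨hn, v, hv, hf | hf⟩ := hF
      · have : D.lostTo G false f S = 1 := ind_of ⟨⟨v, by rw [hf]; rfl, hv⟩, hn⟩
        rw [this]
        have : 0 ≤ D.lostTo G true f S := ind_nonneg _
        linarith
      · have : D.lostTo G true f S = 1 := ind_of ⟨⟨v, by rw [hf]; rfl, hv⟩, hn⟩
        rw [this]
        have : 0 ≤ D.lostTo G false f S := ind_nonneg _
        linarith
    · rw [ind_of_not hF]
      exact add_nonneg (ind_nonneg _) (ind_nonneg _)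
  have hterm : ∀ t ∈ W.powerset, G.ex Ω (fun S => (∏ f ∈ t, D.lostTo G false f S)
        * ∏ f ∈ W \ t, D.lostTo G true f S) ≤ (1 / 2) ^ (17 * W.card) := by
    intro t ht
    have htW : t ⊆ W := Finset.mem_powerset.1 ht
    set T : Finset (Bool × ℕ × ℕ) := Finset.univ ×ˢ (Finset.range 3 ×ˢ Finset.range R) with hT
    have hTcard : T.card = 6 * R := by
      rw [hT, Finset.card_product, Finset.card_product, Finset.card_range, Finset.card_range,
        Finset.card_univ, Fintype.card_bool]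
      ring
    have hTne : T.Nonempty := by
      rw [← Finset.card_pos, hTcard]
      omega
    obtain ⟨⟨b0, r0, c0⟩, hy, hcardW⟩ := exists_large_fiber W T hTne
      (fun f => (decide (f ∈ t), lev f % 3, f.1 % R)) (fun f _ => by
        rw [hT, Finset.mem_product, Finset.mem_product]
        refine ⟨Finset.mem_univ _, ?_, ?_⟩
        · exact Finset.mem_range.2 (Nat.mod_lt _ (by norm_num))
        · exact Finset.mem_range.2 (Nat.mod_lt _ (by omega)))
    set Γ : Finset (ℕ × ℕ) := W.filter (fun f => (decide (f ∈ t), lev f % 3, f.1 % R)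
      = (b0, r0, c0)) with hΓ
    have hΓW : Γ ⊆ W := Finset.filter_subset _ _
    have hΓp : ∀ f ∈ Γ, decide (f ∈ t) = b0 ∧ lev f % 3 = r0 ∧ f.1 % R = c0 := by
      intro f hf
      have := (Finset.mem_filter.1 hf).2
      simpa only [Prod.mk.injEq] using this
    rw [hTcard] at hcardW
    have hcb := class_bound h hs hq hβ hM hK hL hβs (!b0) hΩ Γ
      (fun f hf => hW f (hΓW hf))
      (fun v hv w hw => (hΓp v hv).2.1.trans (hΓp w hw).2.1.symm)
      (fun v hv w hw => (hΓp v hv).2.2.trans (hΓp w hw).2.2.symm)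
    have hle : G.ex Ω (fun S => (∏ f ∈ t, D.lostTo G false f S)
        * ∏ f ∈ W \ t, D.lostTo G true f S)
        ≤ G.ex Ω (fun S => ∏ f ∈ Γ, D.lostTo G (!b0) f S) := by
      refine G.ex_mono fun S _ => ?_
      have hz0 : ∀ (j : Bool) (X : Finset (ℕ × ℕ)), 0 ≤ ∏ f ∈ X, D.lostTo G j f S :=
        fun j X => Finset.prod_nonneg fun f _ => ind_nonneg _
      have hz1 : ∀ (j : Bool) (X : Finset (ℕ × ℕ)), ∏ f ∈ X, D.lostTo G j f S ≤ 1 :=
        fun j X => Finset.prod_le_one (fun f _ => ind_nonneg _) fun f _ => ind_le_one _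
      have hsubprod : ∀ (j : Bool) (X : Finset (ℕ × ℕ)), Γ ⊆ X →
          ∏ f ∈ X, D.lostTo G j f S ≤ ∏ f ∈ Γ, D.lostTo G j f S := by
        intro j X hX
        rw [← Finset.prod_sdiff hX]
        exact mul_le_of_le_one_left (hz0 _ _) (hz1 _ _)
      cases b0 with
      | true =>
        have hsub : Γ ⊆ t := fun f hf => by simpa using (hΓp f hf).1
        calc (∏ f ∈ t, D.lostTo G false f S) * ∏ f ∈ W \ t, D.lostTo G true f S
            ≤ (∏ f ∈ t, D.lostTo G false f S) * 1 :=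
              mul_le_mul_of_nonneg_left (hz1 _ _) (hz0 _ _)
          _ = ∏ f ∈ t, D.lostTo G false f S := mul_one _
          _ ≤ _ := hsubprod _ _ hsub
      | false =>
        have hsub : Γ ⊆ W \ t := fun f hf => by
          rw [Finset.mem_sdiff]
          exact ⟨hΓW hf, by simpa using (hΓp f hf).1⟩
        calc (∏ f ∈ t, D.lostTo G false f S) * ∏ f ∈ W \ t, D.lostTo G true f S
            ≤ 1 * ∏ f ∈ W \ t, D.lostTo G true f S :=
              mul_le_mul_of_nonneg_right (hz1 _ _) (hz0 _ _)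
          _ = ∏ f ∈ W \ t, D.lostTo G true f S := one_mul _
          _ ≤ _ := hsubprod _ _ hsub
    refine hle.trans (hcb.trans ?_)
    calc κ ^ Γ.card ≤ ((1 / 2 : ℝ) ^ (102 * R)) ^ Γ.card := pow_le_pow_left₀ hκ0 hnum _
      _ = (1 / 2 : ℝ) ^ (102 * R * Γ.card) := (pow_mul _ _ _).symm
      _ ≤ (1 / 2) ^ (17 * W.card) := by
        refine pow_le_pow_of_le_one (by norm_num) (by norm_num) ?_
        nlinarith
  refine hexp.trans ((Finset.sum_le_sum hterm).trans (le_of_eq ?_))
  rw [Finset.sum_const, Finset.card_powerset, nsmul_eq_mul, pow_mul]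
  push_cast
  rw [← mul_pow]
  norm_num

end facts

end Dat

open Classical in
/-- **Main theorem of the renormalisation with fresh screens.** -/
theorem main {G : HG V E} {A : Finset V} {blk : B → Finset E} {nb vtx : B → Finset V}
    {En : ℕ → Finset E} {Y : ℕ × ℕ → Finset B} {Rg : ℕ × ℕ → Finset E} {q β : ℝ}
    {K M R N : ℕ} (h : Scr G A blk nb vtx En Y Rg q β K M R N) (hq : 0 < q) (hβ : 0 ≤ β)
    (hM : 1 ≤ M) (hK : 1 ≤ K) (hR : 1 ≤ R) (hN : 1 ≤ N) {s : ℝ} (hs : 0 < s)
    (hnum : s + (4 / (q * M) + 4 * β / s) ≤ (1 / 2) ^ (102 * R)) {Ω : Finset E}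
    (hΩ : En (N + 1) ⊆ Ω) :
    1 / 2 ≤ G.ex Ω (fun S => if ∃ v, lev v = N ∧ ∃ b ∈ Y v, ¬ Disjoint (G.cl S A) (vtx b)
      then 1 else 0) := by
  set D : Dat V E B := ⟨A, blk, nb, vtx, En, Y, Rg, M * K, s⟩ with hD
  have h' : Scr G D.A D.blk D.nb D.vtx D.En D.Y D.Rg q β K M R N := h
  have hp := peierls_ex' G Ω (fun S => D.wet G S) (fun S => Or.inl rfl) (κ := 1 / 65536)
    (by norm_num) (le_refl _) N (fun W hW => by
      refine le_trans (le_of_eq ?_) (Dat.fail_bound h' hs hq hβ hM hK hR rfl hnum hΩ W hW)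
      refine G.ex_congr fun S _ => ?_
      by_cases hF : ∀ f ∈ W, Fail (D.wet G S) f
      · rw [if_pos hF, ind_of hF]
      · rw [if_neg hF, ind_of_not hF])
  have h1 : (1 / 2 : ℝ) ≤ 2 / 3 := by norm_num
  refine h1.trans (hp.trans ?_)
  refine G.ex_mono fun S _ => ?_
  by_cases hw : ∃ v : ℕ × ℕ, v.1 + v.2 = N ∧ D.wet G S v
  · rw [if_pos hw, if_pos]
    obtain ⟨v, hv, hwet⟩ := hw
    refine ⟨v, hv, ?_⟩
    rcases hwet with h0 | ⟨b, hb, ht, hg1, -⟩
    · rw [h0] at hv
      simp at hv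
      omega
    · refine ⟨b, hb, ?_⟩
      have hlv : lev v = N := hv
      have hsub := Dat.vtx_sub_C h' (by omega) hb ht hg1
      obtain ⟨y, hy⟩ := h.vtx_ne v (by omega) b hb
      rw [Finset.not_disjoint_iff]
      refine ⟨y, ?_, hy⟩
      exact G.cl_mono Finset.inter_subset_left (Finset.Subset.refl _) (hsub hy)
  · rw [if_neg hw]
    split_ifs <;> norm_num

end Crest.Agent.R147.Sc
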