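import Crest.Agent.R147.Sc113Q

/-!
# Screens: one-level estimates

`frz G H` : the hypergraph in which the (open, frozen) hyperedges `H` have been contracted.
`type1` : the product Kozma–Nitzan estimate with frozen edges.
`type2` : a large set of touched blocks contains a good block.
-/

set_option autoImplicit false
set_option linter.unusedSectionVars false

open Finset

namespace Crest.Agent.R147.Sc

open Crest.Agent.R147.KN Crest.Agent.R147.KN.HG

variable {V E : Type*} [DecidableEq V] [DecidableEq E] [Fintype V] (G : HG V E)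

/-! ### freezing -/

/-- contract the frozen open hyperedges `H` -/
noncomputable def frz (H : Finset E) : HG V E where
  inc e := G.cl H (G.inc e)
  p := G.p
  p_nonneg := G.p_nonneg
  p_lt := G.p_lt

theorem frz_ex (H A : Finset E) (f : Finset E → ℝ) : (frz G H).ex A f = G.ex A f := rfl

theorem frz_cl_of_subset {H S : Finset E} (hHS : H ⊆ S) (D : Finset V) :
    (frz G H).cl S D = G.cl S D := by
  apply Finset.Subset.antisymm
  · refine (frz G H).cl_subset (G.subset_cl S D) ?_
    intro e he
    have hsat : G.Sat H (G.cl S D) := (G.sat_cl S D).mono hHS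
    rcases G.sat_cl S D e he with h | h
    · exact Or.inl (G.cl_subset h hsat)
    · exact Or.inr (G.disj_cl_of_sat hsat h)
  · refine G.cl_subset ((frz G H).subset_cl S D) ?_
    intro e he
    rcases (frz G H).sat_cl S D e he with h | h
    · exact Or.inl ((G.subset_cl H (G.inc e)).trans h)
    · exact Or.inr (Finset.disjoint_of_subset_left (G.subset_cl H (G.inc e)) h)

theorem cl_frz_cl (H S : Finset E) (D : Finset V) :
    G.cl H ((frz G H).cl S D) = G.cl (S ∪ H) D := by
  apply Finset.Subset.antisymm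
  · refine G.cl_subset ?_ ((G.sat_cl (S ∪ H) D).mono Finset.subset_union_right)
    rw [← frz_cl_of_subset G (H := H) (S := S ∪ H) Finset.subset_union_right D]
    exact (frz G H).cl_mono Finset.subset_union_left (Finset.Subset.refl _)
  · refine G.cl_subset (((frz G H).subset_cl S D).trans (G.subset_cl H _)) ?_
    intro e he
    rcases Finset.mem_union.1 he with h | h
    · rcases (frz G H).sat_cl S D e h with h1 | h1
      · exact Or.inl (((G.subset_cl H (G.inc e)).trans h1).trans (G.subset_cl H _))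
      · right
        have h2 : Disjoint (G.cl H ((frz G H).cl S D)) (G.cl H (G.inc e)) :=
          G.disj_cl_of_sat (G.sat_cl H (G.inc e)) h1.symm
        exact (Finset.disjoint_of_subset_right (G.subset_cl H (G.inc e)) h2).symm
    · exact G.sat_cl H _ e h

/-- **type 1 estimate**: product Kozma–Nitzan with frozen open hyperedges `H ⊆ S₀`. -/
theorem type1 {ι : Type*} [DecidableEq ι] (J : Finset ι) (Reg : ι → Finset E)
    (hdisj : ∀ i ∈ J, ∀ j ∈ J, i ≠ j → Disjoint (Reg i) (Reg j)) (S₀ H : Finset E)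
    (hH : H ⊆ S₀) (B : ι → Finset V) (Q : ι → Finset V → Prop)
    (hQ : ∀ j ∈ J, ∀ F F', F ⊆ F' → Q j F → Q j F') (ε : ι → ℝ) (hε0 : ∀ j ∈ J, 0 ≤ ε j)
    (hε : ∀ j ∈ J, ∀ y ∈ B j, G.ex (Reg j) (fun S => bad (Q j) (G.cl (S ∪ H) {y})) ≤ ε j)
    (A : Finset V) (f : Finset V → ℝ)
    (hf0 : ∀ F, f F ≤ 1)
    (hf : ∀ F, (∃ j ∈ J, Disjoint F (B j) ∨ Q j F) → f F ≤ 0) :
    G.ex (J.biUnion Reg) (fun S => f (G.cl (S₀ ∪ S) A)) ≤ ∏ j ∈ J, ε j := by
  classical
  have h := PKNQ_cond (frz G H) J Reg hdisj S₀ B (fun j F => Q j (G.cl H F))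
    (fun j hj F F' hF h1 => hQ j hj _ _ (G.cl_mono (Finset.Subset.refl _) hF) h1) ε hε0 ?_ A
    (fun F => if G.cl H F = F then f F else (if ∃ j ∈ J, Disjoint F (B j) ∨ Q j (G.cl H F)
      then 0 else 1)) ?_ ?_
  · refine le_trans (le_of_eq ?_) h
    rw [frz_ex]
    refine G.ex_congr fun S _ => ?_
    have h1 : (frz G H).cl (S₀ ∪ S) A = G.cl (S₀ ∪ S) A :=
      frz_cl_of_subset G (hH.trans Finset.subset_union_left) A
    have h2 : G.cl H (G.cl (S₀ ∪ S) A) = G.cl (S₀ ∪ S) A :=
      G.cl_eq_of_sat ((G.sat_cl (S₀ ∪ S) A).mono (hH.trans Finset.subset_union_left))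
    simp only [h1]
    rw [if_pos h2]
  · intro j hj y hy
    rw [frz_ex]
    refine le_trans (le_of_eq ?_) (hε j hj y hy)
    refine G.ex_congr fun S _ => ?_
    have : bad (fun F => Q j (G.cl H F)) ((frz G H).cl S {y})
        = bad (Q j) (G.cl H ((frz G H).cl S {y})) := rfl
    rw [this, cl_frz_cl]
  · intro F
    split_ifs
    · exact hf0 F
    · norm_num
    · norm_num
  · intro F hF
    by_cases h1 : G.cl H F = F
    · rw [if_pos h1]
      refine hf F ?_
      obtain ⟨j, hj, h2⟩ := hF
      refine ⟨j, hj, ?_⟩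
      rw [h1] at h2
      exact h2
    · rw [if_neg h1, if_pos hF]

/-! ### general facts on expectations -/

theorem ex_le_ex_of_le {A : Finset E} {f g : Finset E → ℝ} {c : ℝ}
    (h : G.ex A g ≤ c) (h' : ∀ S, S ⊆ A → f S ≤ g S) : G.ex A f ≤ c :=
  (G.ex_mono h').trans h

/-- conditional step: `u` does not look at `F`, and `X` has conditional expectation `≤ c`. -/
theorem ex_step {Ω F : Finset E} (hF : F ⊆ Ω) {u X : Finset E → ℝ} {c : ℝ}
    (hu0 : ∀ S, 0 ≤ u S) (hu : ∀ S T, T ⊆ F → Disjoint S F → u (S ∪ T) = u S)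
    (hX : ∀ S₀, Disjoint S₀ F → G.ex F (fun S => X (S₀ ∪ S)) ≤ c) :
    G.ex Ω (fun S => u S * X S) ≤ c * G.ex Ω u := by
  have hΩ : Ω = (Ω \ F) ∪ F := by rw [Finset.sdiff_union_of_subset hF]
  have hd : Disjoint (Ω \ F) F := Finset.sdiff_disjoint
  rw [hΩ, G.ex_union hd, G.ex_union hd, ← G.ex_mul_left]
  refine G.ex_mono fun S hS => ?_
  have hSF : Disjoint S F := Finset.disjoint_of_subset_left hS hd
  have h1 : G.ex F (fun T => u (S ∪ T) * X (S ∪ T)) = u S * G.ex F (fun T => X (S ∪ T)) := by
    rw [← G.ex_mul_left]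
    exact G.ex_congr fun T hT => by rw [hu S T hT hSF]
  have h2 : G.ex F (fun T => u (S ∪ T)) = u S := by
    rw [← G.ex_const F (u S)]
    exact G.ex_congr fun T hT => hu S T hT hSF
  rw [h1, h2, mul_comm c]
  exact mul_le_mul_of_nonneg_left (hX S hSF) (hu0 S)

/-- product of nonnegative functions of disjoint regions -/
theorem ex_prod_le {ι : Type*} [DecidableEq ι] (J : Finset ι) (R : ι → Finset E)
    (hdisj : ∀ i ∈ J, ∀ j ∈ J, i ≠ j → Disjoint (R i) (R j)) (g : ι → Finset E → ℝ)
    (hg0 : ∀ j ∈ J, ∀ S, 0 ≤ g j S) (hg : ∀ j ∈ J, ∀ S, g j S = g j (S ∩ R j))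
    (c : ι → ℝ) (hc : ∀ j ∈ J, G.ex (R j) (g j) ≤ c j) :
    G.ex (J.biUnion R) (fun S => ∏ j ∈ J, g j S) ≤ ∏ j ∈ J, c j := by
  induction J using Finset.induction_on with
  | empty => simp
  | insert j J hj ih =>
    have hJ : ∀ i ∈ J, i ∈ insert j J := fun i hi => Finset.mem_insert_of_mem hi
    have hjJ : j ∈ insert j J := Finset.mem_insert_self _ _
    have ih' := ih (fun i hi k hk h => hdisj i (hJ i hi) k (hJ k hk) h)
      (fun i hi => hg0 i (hJ i hi)) (fun i hi => hg i (hJ i hi)) (fun i hi => hc i (hJ i hi))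
    have hd : Disjoint (R j) (J.biUnion R) := by
      rw [Finset.disjoint_biUnion_right]
      intro i hi
      exact hdisj j hjJ i (hJ i hi) (fun h => hj (h ▸ hi))
    have hc0 : 0 ≤ c j := (G.ex_nonneg fun S _ => hg0 j hjJ S).trans (hc j hjJ)
    rw [Finset.biUnion_insert, G.ex_union hd, Finset.prod_insert hj]
    have h1 : G.ex (R j) (fun S => G.ex (J.biUnion R) (fun T => ∏ i ∈ insert j J, g i (S ∪ T)))
        = G.ex (R j) (g j) * G.ex (J.biUnion R) (fun T => ∏ i ∈ J, g i T) := by
      rw [← G.ex_mul_right]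
      refine G.ex_congr fun S hS => ?_
      rw [← G.ex_mul_left]
      refine G.ex_congr fun T hT => ?_
      rw [Finset.prod_insert hj]
      congr 1
      · rw [hg j hjJ (S ∪ T), hg j hjJ S]
        congr 1
        rw [Finset.union_inter_distrib_right]
        have : T ∩ R j = ∅ := by
          rw [← Finset.disjoint_iff_inter_eq_empty]
          exact (Finset.disjoint_of_subset_right hT hd).symm
        rw [this, Finset.union_empty]
      · refine Finset.prod_congr rfl fun i hi => ?_
        rw [hg i (hJ i hi) (S ∪ T), hg i (hJ i hi) T]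
        congr 1
        rw [Finset.union_inter_distrib_right]
        have : S ∩ R i = ∅ := by
          rw [← Finset.disjoint_iff_inter_eq_empty]
          exact Finset.disjoint_of_subset_left hS
            (hdisj j hjJ i (hJ i hi) (fun h => hj (h ▸ hi)))
        rw [this, Finset.empty_union]
    rw [h1]
    exact mul_le_mul (hc j hjJ) ih' (G.ex_nonneg fun S _ => Finset.prod_nonneg
      fun i hi => hg0 i (hJ i hi) S) hc0

/-- probability that all hyperedges of `A` are open -/
noncomputable def pr (A : Finset E) : ℝ := ∏ e ∈ A, G.p e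

theorem pr_nonneg (A : Finset E) : 0 ≤ pr G A := Finset.prod_nonneg fun e _ => G.p_nonneg e

theorem pr_le_one (A : Finset E) : pr G A ≤ 1 :=
  Finset.prod_le_one (fun e _ => G.p_nonneg e) fun e _ => (G.p_lt e).le

/-- `E[1{A ⊆ S} f(S)]` over `A` -/
theorem ex_ind_full (A : Finset E) (f : Finset E → ℝ) :
    G.ex A (fun S => if A ⊆ S then f S else 0) = pr G A * f A := by
  unfold HG.ex
  rw [Finset.sum_eq_single A]
  · beta_reduce
    rw [if_pos (Finset.Subset.refl _)]
    unfold HG.wt pr
    simp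
  · intro S hS hne
    have hS' : S ⊆ A := Finset.mem_powerset.1 hS
    beta_reduce
    rw [if_neg (fun h => hne (Finset.Subset.antisymm hS' h)), mul_zero]
  · intro h
    exact absurd (Finset.mem_powerset_self A) h

/-- conditioning on the block `b` being open, decreasing `f` -/
theorem ex_ind_le {L b : Finset E} (hb : b ⊆ L) {f : Finset E → ℝ}
    (hf : ∀ S T, S ⊆ T → f T ≤ f S) :
    G.ex L (fun S => if b ⊆ S then f S else 0) ≤ pr G b * G.ex L f := by
  have hL : L = b ∪ (L \ b) := by rw [Finset.union_sdiff_of_subset hb]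
  have hd : Disjoint b (L \ b) := Finset.disjoint_sdiff
  have hL' : L = (L \ b) ∪ b := by rw [Finset.sdiff_union_of_subset hb]
  rw [hL', G.ex_union hd.symm, G.ex_union hd.symm, ← G.ex_mul_left]
  refine G.ex_mono fun S hS => ?_
  have h1 : G.ex b (fun T => if b ⊆ S ∪ T then f (S ∪ T) else 0)
      = G.ex b (fun T => if b ⊆ T then (fun T => f (S ∪ T)) T else 0) := by
    refine G.ex_congr fun T _ => ?_
    have : b ⊆ S ∪ T ↔ b ⊆ T := by
      constructor
      · intro h x hx
        rcases Finset.mem_union.1 (h hx) with h1 | h1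
        · exact absurd hx (Finset.mem_sdiff.1 (hS h1)).2
        · exact h1
      · intro h
        exact h.trans Finset.subset_union_right
    simp only [this]
  rw [h1, ex_ind_full]
  refine mul_le_mul_of_nonneg_left ?_ (pr_nonneg G b)
  refine G.le_ex_of_le fun T hT => ?_
  exact hf _ _ (Finset.union_subset_union (Finset.Subset.refl _) hT)

theorem ex_ind_eq {L b : Finset E} (hb : b ⊆ L) :
    G.ex L (fun S => if b ⊆ S then (1 : ℝ) else 0) = pr G b := by
  have h := G.ex_sub_config hb (fun S => if b ⊆ S then (1 : ℝ) else 0)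
  have h1 : (fun S : Finset E => if b ⊆ S ∩ b then (1 : ℝ) else 0)
      = (fun S => if b ⊆ S then (1 : ℝ) else 0) := by
    funext S
    have : b ⊆ S ∩ b ↔ b ⊆ S := by
      rw [Finset.subset_inter_iff]
      exact ⟨fun h => h.1, fun h => ⟨h, Finset.Subset.refl _⟩⟩
    simp only [this]
  rw [h1] at h
  rw [h]
  have := ex_ind_full G b (fun _ => 1)
  rw [this, mul_one]

end Crest.Agent.R147.Sc
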