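import Crest.Agent.R147.KN.PKN

/-!
# Product Kozma–Nitzan inequality for general monotone targets

Same as `KN/PKN.lean`, with the target vertex `b` replaced by a monotone predicate `Q` of the
cluster.
-/

set_option autoImplicit false
set_option linter.unusedSectionVars false

open Finset Filter Topology

namespace Crest.Agent.R147.Sc

open Crest.Agent.R147.KN Crest.Agent.R147.KN.HG

variable {V E : Type*} [DecidableEq V] [DecidableEq E] [Fintype V] (G : HG V E)

/-- indicator of the failure of the target -/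
noncomputable def bad (Q : Finset V → Prop) (C : Finset V) : ℝ :=
  open Classical in if Q C then 0 else 1

theorem bad_nonneg (Q : Finset V → Prop) (C : Finset V) : 0 ≤ bad Q C := by
  unfold bad; split_ifs <;> norm_num

theorem bad_le_one (Q : Finset V → Prop) (C : Finset V) : bad Q C ≤ 1 := by
  unfold bad; split_ifs <;> norm_num

theorem bad_of {Q : Finset V → Prop} {C : Finset V} (h : Q C) : bad Q C = 0 := by
  unfold bad; rw [if_pos h]

theorem bad_of_not {Q : Finset V → Prop} {C : Finset V} (h : ¬ Q C) : bad Q C = 1 := by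
  unfold bad; rw [if_neg h]

theorem bad_anti {Q : Finset V → Prop} (hQ : ∀ F F', F ⊆ F' → Q F → Q F') {C C' : Finset V}
    (h : C ⊆ C') : bad Q C' ≤ bad Q C := by
  by_cases h1 : Q C
  · rw [bad_of h1, bad_of (hQ _ _ h h1)]
  · rw [bad_of_not h1]; exact bad_le_one _ _

/-- **adaptive Kozma–Nitzan** for a monotone target -/
theorem adaptive_KNQ (Ω : Finset E) (B : Finset V) (Q : Finset V → Prop)
    (hQ : ∀ F F', F ⊆ F' → Q F → Q F') {ε : ℝ} (hε0 : 0 ≤ ε)
    (hε : ∀ y ∈ B, G.ex Ω (fun S => bad Q (G.cl S {y})) ≤ ε)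
    (q : ℕ → Finset V → Option V) (n : ℕ) :
    G.run Ω B q (fun _ => 0) (fun C D => bad Q (C ∪ D)) n ∅ ≤ ε := by
  obtain ⟨ℓ, hℓ0, hℓu, hℓ1⟩ := G.Tstar Ω B q n B ∅ (Finset.disjoint_empty_right _)
    (Finset.union_empty B).symm
  have humono : Monotone (fun R : Finset V => 1 - bad Q R) := by
    intro R R' h
    have := bad_anti hQ h
    simp only
    linarith
  have h1 := hℓu _ humono
  have h2 := G.run_sub (Ω := Ω) (Z := B) (q := q) (Φ₀ := fun _ => 0)
        (Φ₁ := fun _ D => if Disjoint D ∅ then 1 else 0) (Φ₀' := fun _ => 0)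
        (Φ₁' := fun C D => if Disjoint D ∅ then (1 - bad Q (C ∪ D)) else 0) 1 n ∅
  have h3 : G.run Ω B q (fun _ => (0 : ℝ) - 1 * 0)
        (fun C D => (if Disjoint D ∅ then 1 else 0)
          - 1 * (if Disjoint D ∅ then (1 - bad Q (C ∪ D)) else 0)) n ∅
      = G.run Ω B q (fun _ => 0) (fun C D => bad Q (C ∪ D)) n ∅ := by
    refine G.run_congr (fun _ _ => by ring) (fun C D _ _ => ?_) n ∅
      (Finset.disjoint_empty_left _)
    rw [if_pos (Finset.disjoint_empty_right _), if_pos (Finset.disjoint_empty_right _)]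
    ring
  have h4 : G.run Ω B q (fun _ => 0) (fun _ D => if Disjoint D ∅ then 1 else 0) n ∅ ≤ 1 :=
    G.run_le_one (fun _ => zero_le_one) (fun _ D => by split_ifs <;> norm_num) n ∅
  have h5 : ∀ i, G.cE Ω ∅ i (fun _ => 1) = 1 := by
    intro i
    unfold HG.cE
    simp only [Finset.disjoint_empty_right, if_true]
    rw [G.ex_const]
  have h6 : ∀ i ∈ B, 1 - ε ≤ G.cE Ω ∅ i (fun R => 1 - bad Q R) := by
    intro i hi
    have h7 := hε i hi
    have h8 : G.cE Ω ∅ i (fun R => 1 - bad Q R)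
        = 1 - G.ex Ω (fun S => bad Q (G.cl S {i})) := by
      have h11 := G.ex_sub Ω (fun _ => (1 : ℝ)) (fun S => bad Q (G.cl S {i}))
      rw [G.ex_const] at h11
      rw [← h11]
      unfold HG.cE
      refine G.ex_congr fun S _ => ?_
      simp only [Finset.disjoint_empty_right, if_true]
    linarith
  have h9 : (1 - ε) * ∑ i ∈ B, ℓ i
      ≤ ∑ i ∈ B, ℓ i * G.cE Ω ∅ i (fun R => 1 - bad Q R) := by
    rw [Finset.mul_sum]
    refine Finset.sum_le_sum fun i hi => ?_
    have := mul_le_mul_of_nonneg_left (h6 i hi) (hℓ0 i)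
    linarith
  have h10 : ∑ i ∈ B, ℓ i * G.cE Ω ∅ i (fun _ => 1) = ∑ i ∈ B, ℓ i := by
    refine Finset.sum_congr rfl fun i _ => ?_
    rw [h5, mul_one]
  rw [h10] at hℓ1
  rw [← hℓ1] at h4 h2
  rw [h3] at h2
  rw [h2]
  nlinarith

/-- dynamic programming value of the game -/
noncomputable def valQ (Ω : Finset E) (B : Finset V) (Q : Finset V → Prop) :
    ℕ → Finset V → ℝ
  | 0, _ => 0
  | n + 1, C => Finset.univ.sup' ⟨(none : Option V), Finset.mem_univ _⟩ (fun o =>
      match o with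
      | none => 0
      | some x => G.ex (G.off Ω C) (fun S =>
          if Disjoint (G.cl S {x}) B then valQ Ω B Q n (C ∪ G.cl S {x})
          else bad Q (C ∪ G.cl S {x})))

theorem valQ_succ_ge (Ω : Finset E) (B : Finset V) (Q : Finset V → Prop) (n : ℕ)
    (C : Finset V) (x : V) :
    G.ex (G.off Ω C) (fun S =>
          if Disjoint (G.cl S {x}) B then valQ G Ω B Q n (C ∪ G.cl S {x})
          else bad Q (C ∪ G.cl S {x})) ≤ valQ G Ω B Q (n + 1) C := by
  simp only [valQ]
  exact Finset.le_sup' (f := fun o : Option V =>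
      match o with
      | none => (0 : ℝ)
      | some x => G.ex (G.off Ω C) (fun S =>
          if Disjoint (G.cl S {x}) B then valQ G Ω B Q n (C ∪ G.cl S {x})
          else bad Q (C ∪ G.cl S {x}))) (Finset.mem_univ (some x))

theorem valQ_succ_nonneg (Ω : Finset E) (B : Finset V) (Q : Finset V → Prop) (n : ℕ)
    (C : Finset V) : 0 ≤ valQ G Ω B Q (n + 1) C := by
  simp only [valQ]
  exact Finset.le_sup' (f := fun o : Option V =>
      match o with
      | none => (0 : ℝ)
      | some x => G.ex (G.off Ω C) (fun S =>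
          if Disjoint (G.cl S {x}) B then valQ G Ω B Q n (C ∪ G.cl S {x})
          else bad Q (C ∪ G.cl S {x}))) (Finset.mem_univ none)

theorem valQ_succ_le (Ω : Finset E) (B : Finset V) (Q : Finset V → Prop) (n : ℕ)
    (C : Finset V) {M : ℝ}
    (h0 : 0 ≤ M) (h : ∀ x, G.ex (G.off Ω C) (fun S =>
          if Disjoint (G.cl S {x}) B then valQ G Ω B Q n (C ∪ G.cl S {x})
          else bad Q (C ∪ G.cl S {x})) ≤ M) :
    valQ G Ω B Q (n + 1) C ≤ M := by
  simp only [valQ]
  refine Finset.sup'_le _ _ fun o _ => ?_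
  cases o with
  | none => exact h0
  | some x => exact h x

theorem exists_strategyQ (Ω : Finset E) (B : Finset V) (Q : Finset V → Prop) :
    ∃ q : ℕ → Finset V → Option V, ∀ n C,
      valQ G Ω B Q n C = G.run Ω B q (fun _ => 0) (fun C D => bad Q (C ∪ D)) n C := by
  have h : ∀ n C, ∃ o : Option V, valQ G Ω B Q (n + 1) C = (match o with
      | none => (0 : ℝ)
      | some x => G.ex (G.off Ω C) (fun S =>
          if Disjoint (G.cl S {x}) B then valQ G Ω B Q n (C ∪ G.cl S {x})
          else bad Q (C ∪ G.cl S {x}))) := by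
    intro n C
    obtain ⟨o, _, ho⟩ := Finset.exists_mem_eq_sup' (s := (Finset.univ : Finset (Option V)))
      ⟨(none : Option V), Finset.mem_univ _⟩ (fun o =>
      match o with
      | none => (0 : ℝ)
      | some x => G.ex (G.off Ω C) (fun S =>
          if Disjoint (G.cl S {x}) B then valQ G Ω B Q n (C ∪ G.cl S {x})
          else bad Q (C ∪ G.cl S {x})))
    exact ⟨o, ho⟩
  choose q hq using h
  refine ⟨q, fun n => ?_⟩
  induction n with
  | zero => intro C; rfl
  | succ n ih =>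
    intro C
    rw [hq n C]
    simp only [HG.run]
    cases q n C with
    | none => rfl
    | some x =>
      simp only
      refine G.ex_congr fun S _ => ?_
      split_ifs
      · exact ih _
      · rfl

theorem valQ_nonneg (Ω : Finset E) (B : Finset V) (Q : Finset V → Prop) (n : ℕ)
    (C : Finset V) : 0 ≤ valQ G Ω B Q n C := by
  cases n with
  | zero => exact le_refl _
  | succ n => exact valQ_succ_nonneg G Ω B Q n C

theorem valQ_mono (Ω : Finset E) (B : Finset V) (Q : Finset V → Prop) (n : ℕ) :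
    ∀ C, valQ G Ω B Q n C ≤ valQ G Ω B Q (n + 1) C := by
  induction n with
  | zero => intro C; exact valQ_nonneg G Ω B Q 1 C
  | succ n ih =>
    intro C
    refine valQ_succ_le G Ω B Q n C (valQ_nonneg G _ _ _ _ _) fun x => ?_
    refine le_trans ?_ (valQ_succ_ge G Ω B Q (n + 1) C x)
    refine G.ex_mono fun S _ => ?_
    split_ifs
    · exact ih _
    · exact le_refl _

theorem valQ_le_one (Ω : Finset E) (B : Finset V) (Q : Finset V → Prop) (n : ℕ)
    (C : Finset V) : valQ G Ω B Q n C ≤ 1 := by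
  obtain ⟨q, hq⟩ := exists_strategyQ G Ω B Q
  rw [hq]
  exact G.run_le_one (fun _ => zero_le_one) (fun _ _ => bad_le_one _ _) n C

/-- **superharmonic potential** of the adaptive Kozma–Nitzan game with a monotone target -/
theorem exists_potentialQ (Ω : Finset E) (B : Finset V) (Q : Finset V → Prop)
    (hQ : ∀ F F', F ⊆ F' → Q F → Q F') {ε : ℝ} (hε0 : 0 ≤ ε)
    (hε : ∀ y ∈ B, G.ex Ω (fun S => bad Q (G.cl S {y})) ≤ ε) :
    ∃ W : Finset V → ℝ, (∀ C, 0 ≤ W C) ∧ (∀ C, W C ≤ 1) ∧ W ∅ ≤ ε ∧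
      (∀ C, ¬ Disjoint C B → ¬ Q C → W C = 1) ∧
      ∀ C x, G.ex (G.off Ω C) (fun S => W (C ∪ G.cl S {x})) ≤ W C := by
  have hlim : ∀ C, Tendsto (fun n => valQ G Ω B Q n C) atTop (𝓝 (⨆ n, valQ G Ω B Q n C)) := by
    intro C
    refine tendsto_atTop_ciSup (monotone_nat_of_le_succ fun n => valQ_mono G Ω B Q n C) ?_
    exact ⟨1, by rintro _ ⟨n, rfl⟩; exact valQ_le_one G Ω B Q n C⟩
  set v : Finset V → ℝ := fun C => ⨆ n, valQ G Ω B Q n C with hv
  have hvle : ∀ C n, valQ G Ω B Q n C ≤ v C := by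
    intro C n
    exact le_ciSup (f := fun n => valQ G Ω B Q n C)
      ⟨1, by rintro _ ⟨n, rfl⟩; exact valQ_le_one G Ω B Q n C⟩ n
  have hv0 : ∀ C, 0 ≤ v C := fun C => (valQ_nonneg G Ω B Q 0 C).trans (hvle C 0)
  have hv1 : ∀ C, v C ≤ 1 := fun C => ciSup_le fun n => valQ_le_one G Ω B Q n C
  refine ⟨fun C => if Disjoint C B then v C else bad Q C, ?_, ?_, ?_, ?_, ?_⟩
  · intro C; simp only; split_ifs
    · exact hv0 C
    · exact bad_nonneg _ _
  · intro C; simp only; split_ifs
    · exact hv1 C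
    · exact bad_le_one _ _
  · simp only [Finset.disjoint_empty_left, if_true]
    refine ciSup_le fun n => ?_
    obtain ⟨q, hq⟩ := exists_strategyQ G Ω B Q
    rw [hq]
    exact adaptive_KNQ G Ω B Q hQ hε0 hε q n
  · intro C h1 h2
    simp only [if_neg h1, bad_of_not h2]
  · intro C x
    by_cases hC : Disjoint C B
    · simp only [if_pos hC]
      have hlim2 : Tendsto (fun n => G.ex (G.off Ω C) (fun S =>
          if Disjoint (G.cl S {x}) B then valQ G Ω B Q n (C ∪ G.cl S {x})
          else bad Q (C ∪ G.cl S {x}))) atTop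
          (𝓝 (G.ex (G.off Ω C) (fun S => if Disjoint (C ∪ G.cl S {x}) B then
            v (C ∪ G.cl S {x}) else bad Q (C ∪ G.cl S {x})))) := by
        unfold HG.ex
        refine tendsto_finsetSum _ fun S _ => ?_
        refine Tendsto.const_mul _ ?_
        by_cases hd : Disjoint (G.cl S {x}) B
        · have hd' : Disjoint (C ∪ G.cl S {x}) B := Finset.disjoint_union_left.2 ⟨hC, hd⟩
          simp only [if_pos hd, if_pos hd']
          exact hlim _
        · have hd' : ¬ Disjoint (C ∪ G.cl S {x}) B := fun h =>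
            hd (Finset.disjoint_union_left.1 h).2
          simp only [if_neg hd, if_neg hd']
          exact tendsto_const_nhds
      refine le_of_tendsto' hlim2 fun n => ?_
      exact (valQ_succ_ge G Ω B Q n C x).trans (hvle C (n + 1))
    · simp only [if_neg hC]
      refine G.ex_le_of_le fun S _ => ?_
      have hd' : ¬ Disjoint (C ∪ G.cl S {x}) B := fun h =>
            hC (Finset.disjoint_union_left.1 h).1
      rw [if_neg hd']
      exact bad_anti hQ Finset.subset_union_left

/-- **PKN with monotone targets** and a fixed outside configuration `S₀`. -/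
theorem PKNQ_cond {ι : Type*} [DecidableEq ι] (J : Finset ι) (Reg : ι → Finset E)
    (hdisj : ∀ i ∈ J, ∀ j ∈ J, i ≠ j → Disjoint (Reg i) (Reg j)) (S₀ : Finset E)
    (B : ι → Finset V) (Q : ι → Finset V → Prop)
    (hQ : ∀ j ∈ J, ∀ F F', F ⊆ F' → Q j F → Q j F') (ε : ι → ℝ) (hε0 : ∀ j ∈ J, 0 ≤ ε j)
    (hε : ∀ j ∈ J, ∀ y ∈ B j, G.ex (Reg j) (fun S => bad (Q j) (G.cl S {y})) ≤ ε j)
    (A : Finset V) (f : Finset V → ℝ)
    (hf0 : ∀ F, f F ≤ 1)
    (hf : ∀ F, (∃ j ∈ J, Disjoint F (B j) ∨ Q j F) → f F ≤ 0) :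
    G.ex (J.biUnion Reg) (fun S => f (G.cl (S₀ ∪ S) A)) ≤ ∏ j ∈ J, ε j := by
  classical
  have hex : ∀ j : ι, ∃ W : Finset V → ℝ, j ∈ J → ((∀ C, 0 ≤ W C) ∧ (∀ C, W C ≤ 1) ∧ W ∅ ≤ ε j ∧
      (∀ C, ¬ Disjoint C (B j) → ¬ Q j C → W C = 1) ∧
      ∀ C x, G.ex (G.off (Reg j) C) (fun S => W (C ∪ G.cl S {x})) ≤ W C) := by
    intro j
    by_cases hj : j ∈ J
    · obtain ⟨W, hW⟩ := exists_potentialQ G (Reg j) (B j) (Q j) (hQ j hj) (hε0 j hj) (hε j hj)
      exact ⟨W, fun _ => hW⟩
    · exact ⟨fun _ => 0, fun h => absurd h hj⟩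
  choose W hW using hex
  have h1 := G.product_bound J Reg hdisj S₀ W (fun j hj C => (hW j hj).1 C)
    (fun j hj => (hW j hj).2.2.2.2) f ?_ _
    (fun _ => ∅) A (fun _ _ => Finset.empty_subset _) rfl
  · simp only [HG.off_empty] at h1
    refine h1.trans ?_
    exact Finset.prod_le_prod (fun j hj => (hW j hj).1 ∅) (fun j hj => (hW j hj).2.2.1)
  · intro F
    by_cases h : ∃ j ∈ J, Disjoint F (B j) ∨ Q j F
    · exact (hf F h).trans (Finset.prod_nonneg fun j hj => (hW j hj).1 F)
    · push Not at h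
      refine (hf0 F).trans (le_of_eq ?_)
      symm
      exact Finset.prod_eq_one fun j hj => (hW j hj).2.2.2.1 F (h j hj).1 (h j hj).2

end Crest.Agent.R147.Sc
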