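import Crest.Agent.R147.Sc113One

/-!
# Screens: a large set of touched blocks contains a good block (type 2 estimate)
-/

set_option autoImplicit false
set_option linter.unusedSectionVars false

open Finset

namespace Crest.Agent.R147.Sc

open Crest.Agent.R147.KN Crest.Agent.R147.KN.HG

/-- greedy choice of pairwise non-conflicting elements -/
theorem exists_indep {ι : Type*} [DecidableEq ι] (r : ι → ι → Prop) [DecidableRel r]
    (hrefl : ∀ a, r a a) (hsymm : ∀ a b, r a b → r b a) (K : ℕ) (hK1 : 1 ≤ K) (M : ℕ) :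
    ∀ T : Finset ι, (∀ b ∈ T, (T.filter (fun b' => r b b')).card ≤ K) → M * K ≤ T.card →
      ∃ T' : Finset ι, T' ⊆ T ∧ T'.card = M ∧ ∀ a ∈ T', ∀ b ∈ T', a ≠ b → ¬ r a b := by
  induction M with
  | zero => intro T _ _; exact ⟨∅, Finset.empty_subset _, rfl, fun a ha => by simp at ha⟩
  | succ M ih =>
    intro T hK hT
    have hne : T.Nonempty := by
      rw [← Finset.card_pos]
      have : 1 ≤ (M + 1) * K := Nat.one_le_iff_ne_zero.2 (by positivity)
      omega
    obtain ⟨a, ha⟩ := hne
    set T₁ := T.filter (fun b => ¬ r a b) with hT1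
    have hsub : T₁ ⊆ T := Finset.filter_subset _ _
    have hcard : M * K ≤ T₁.card := by
      have h1 := Finset.card_filter_add_card_filter_not (s := T) (fun b => r a b)
      have h2 := hK a ha
      have h3 : (M + 1) * K = M * K + K := by ring
      rw [h3] at hT
      have h4 : (T.filter (fun b => r a b)).card + T₁.card = T.card := h1
      omega
    obtain ⟨T', h1, h2, h3⟩ := ih T₁ (fun b hb => (Finset.card_le_card
      (Finset.filter_subset_filter _ hsub)).trans (hK b (hsub hb))) hcard
    have haT' : a ∉ T' := fun h => (Finset.mem_filter.1 (h1 h)).2 (hrefl a)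
    refine ⟨insert a T', ?_, ?_, ?_⟩
    · exact Finset.insert_subset ha (h1.trans hsub)
    · rw [Finset.card_insert_of_notMem haT', h2]
    · intro x hx y hy hxy
      rcases Finset.mem_insert.1 hx with hx' | hx'
      · rcases Finset.mem_insert.1 hy with hy' | hy'
        · exact absurd (hx'.trans hy'.symm) hxy
        · rw [hx']
          exact (Finset.mem_filter.1 (h1 hy')).2
      · rcases Finset.mem_insert.1 hy with hy' | hy'
        · rw [hy']
          intro h
          exact (Finset.mem_filter.1 (h1 hx')).2 (hsymm _ _ h)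
        · exact h3 x hx' y hy' hxy

variable {V E : Type*} [DecidableEq V] [DecidableEq E] [Fintype V] (G : HG V E)

theorem pr_union {a b : Finset E} (h : Disjoint a b) : pr G (a ∪ b) = pr G a * pr G b := by
  unfold pr; rw [Finset.prod_union h]

/-- Chebyshev for the number of open blocks among disjoint ones -/
theorem ex_var {ι : Type*} [DecidableEq ι] (L : Finset E) (T : Finset ι) (blk : ι → Finset E)
    (hblk : ∀ b ∈ T, blk b ⊆ L) (hdis : ∀ a ∈ T, ∀ b ∈ T, a ≠ b → Disjoint (blk a) (blk b)) :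
    G.ex L (fun S => ((∑ b ∈ T, (if blk b ⊆ S then (1 : ℝ) else 0)) - ∑ b ∈ T, pr G (blk b)) ^ 2)
      ≤ ∑ b ∈ T, pr G (blk b) := by
  have h1 : ∀ S : Finset E,
      ((∑ b ∈ T, (if blk b ⊆ S then (1 : ℝ) else 0)) - ∑ b ∈ T, pr G (blk b)) ^ 2
      = ∑ a ∈ T, ∑ b ∈ T, ((if blk a ⊆ S then (1 : ℝ) else 0) - pr G (blk a))
          * ((if blk b ⊆ S then (1 : ℝ) else 0) - pr G (blk b)) := by
    intro S
    rw [← Finset.sum_sub_distrib, sq, Finset.sum_mul_sum]
  simp only [h1]
  rw [G.ex_sum]
  refine Finset.sum_le_sum fun a ha => ?_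
  rw [G.ex_sum]
  have h2 : ∀ b ∈ T, b ≠ a → G.ex L (fun S => ((if blk a ⊆ S then (1 : ℝ) else 0) - pr G (blk a))
          * ((if blk b ⊆ S then (1 : ℝ) else 0) - pr G (blk b))) = 0 := by
    intro b hb hba
    have h3 : ∀ S : Finset E, ((if blk a ⊆ S then (1 : ℝ) else 0) - pr G (blk a))
          * ((if blk b ⊆ S then (1 : ℝ) else 0) - pr G (blk b))
        = (if blk a ∪ blk b ⊆ S then (1 : ℝ) else 0)
          - (if blk a ⊆ S then (1 : ℝ) else 0) * pr G (blk b)
          - ((if blk b ⊆ S then (1 : ℝ) else 0) * pr G (blk a)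
            - pr G (blk a) * pr G (blk b)) := by
      intro S
      by_cases ha' : blk a ⊆ S <;> by_cases hb' : blk b ⊆ S
      · rw [if_pos ha', if_pos hb', if_pos (Finset.union_subset ha' hb')]; ring
      · rw [if_pos ha', if_neg hb', if_neg (fun h => hb' (Finset.union_subset_right h))]; ring
      · rw [if_neg ha', if_pos hb', if_neg (fun h => ha' (Finset.union_subset_left h))]; ring
      · rw [if_neg ha', if_neg hb', if_neg (fun h => ha' (Finset.union_subset_left h))]; ring
    simp only [h3]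
    rw [G.ex_sub, G.ex_sub, G.ex_sub, G.ex_mul_right, G.ex_mul_right, G.ex_const,
      ex_ind_eq G (Finset.union_subset (hblk a ha) (hblk b hb)), ex_ind_eq G (hblk a ha),
      ex_ind_eq G (hblk b hb), pr_union G (hdis a ha b hb (Ne.symm hba))]
    ring
  rw [Finset.sum_eq_single_of_mem a ha h2]
  have h4 : ∀ S : Finset E, ((if blk a ⊆ S then (1 : ℝ) else 0) - pr G (blk a))
          * ((if blk a ⊆ S then (1 : ℝ) else 0) - pr G (blk a))
      = (if blk a ⊆ S then (1 : ℝ) else 0) * (1 - 2 * pr G (blk a)) + pr G (blk a) ^ 2 := by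
    intro S
    split_ifs <;> ring
  simp only [h4]
  rw [G.ex_add, G.ex_mul_right, G.ex_const, ex_ind_eq G (hblk a ha)]
  nlinarith [pr_nonneg G (blk a)]

/-- **type 2 estimate**. `T` = touched blocks, `φ b i` = quenched failure probabilities of the
block `b`, a block is good if it is open and all its quenched failure probabilities are `≤ s`. -/
theorem type2 {ι κ : Type*} [DecidableEq ι] (L : Finset E) (T : Finset ι) (blk : ι → Finset E)
    (hblk : ∀ b ∈ T, blk b ⊆ L) (K M : ℕ) (hK1 : 1 ≤ K)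
    (hK : ∀ b ∈ T, (T.filter (fun b' => b = b' ∨ ¬ Disjoint (blk b) (blk b'))).card ≤ K)
    (hT : M * K ≤ T.card) (q s β : ℝ) (hq : 0 < q) (hs : 0 < s) (hM : 0 < M)
    (hpr : ∀ b ∈ T, q ≤ pr G (blk b)) (I : Finset κ) (φ : ι → κ → Finset E → ℝ)
    (hφ0 : ∀ b ∈ T, ∀ i ∈ I, ∀ S, 0 ≤ φ b i S)
    (hφ : ∀ b ∈ T, ∀ i ∈ I, ∀ S S', S ⊆ S' → φ b i S' ≤ φ b i S)
    (hφβ : ∀ b ∈ T, ∀ i ∈ I, G.ex L (φ b i) ≤ β) (z : Finset E → ℝ) (hz : ∀ S, z S ≤ 1)
    (hz' : ∀ S, (∃ b ∈ T, blk b ⊆ S ∧ ∀ i ∈ I, φ b i S ≤ s) → z S ≤ 0) :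
    G.ex L z ≤ 4 / (q * M) + 2 * I.card * β / s := by
  classical
  obtain ⟨T', hsub, hcard, hind⟩ := exists_indep
    (fun b b' : ι => b = b' ∨ ¬ Disjoint (blk b) (blk b')) (fun a => Or.inl rfl)
    (fun a b h => by
      rcases h with h | h
      · exact Or.inl h.symm
      · exact Or.inr fun h' => h h'.symm) K hK1 M T hK hT
  have hdis : ∀ a ∈ T', ∀ b ∈ T', a ≠ b → Disjoint (blk a) (blk b) := by
    intro a ha b hb hab
    have := hind a ha b hb hab
    push Not at this
    exact this.2
  set μ : ℝ := ∑ b ∈ T', pr G (blk b) with hμ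
  have hMr : (0 : ℝ) < M := Nat.cast_pos.2 hM
  have hμM : q * M ≤ μ := by
    have : ∑ _b ∈ T', q ≤ μ := Finset.sum_le_sum fun b hb => hpr b (hsub hb)
    rw [Finset.sum_const, hcard, nsmul_eq_mul] at this
    linarith
  have hqM : 0 < q * M := mul_pos hq hMr
  have hμ0 : 0 < μ := lt_of_lt_of_le hqM hμM
  set X : Finset E → ℝ := fun S => ∑ b ∈ T', (if blk b ⊆ S then (1 : ℝ) else 0) with hX
  set Y : Finset E → ℝ := fun S => ∑ b ∈ T', ∑ i ∈ I, (if blk b ⊆ S then φ b i S else 0) / s
    with hY
  have hY0 : ∀ S, 0 ≤ Y S := by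
    intro S
    refine Finset.sum_nonneg fun b hb => Finset.sum_nonneg fun i hi => ?_
    refine div_nonneg ?_ hs.le
    split_ifs
    · exact hφ0 b (hsub hb) i hi S
    · exact le_refl _
  have hpoint : ∀ S, z S ≤ (4 / μ ^ 2) * (X S - μ) ^ 2 + (2 / μ) * Y S := by
    intro S
    by_cases hg : ∃ b ∈ T, blk b ⊆ S ∧ ∀ i ∈ I, φ b i S ≤ s
    · refine (hz' S hg).trans ?_
      have := hY0 S
      positivity
    · refine (hz S).trans ?_
      by_cases hXs : X S ≤ μ / 2
      · have h1 : (μ / 2) ^ 2 ≤ (X S - μ) ^ 2 := by nlinarith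
        have h2 : (4 / μ ^ 2) * (μ / 2) ^ 2 = 1 := by field_simp; norm_num
        have h3 : 1 ≤ (4 / μ ^ 2) * (X S - μ) ^ 2 := by
          rw [← h2]
          exact mul_le_mul_of_nonneg_left h1 (by positivity)
        have := hY0 S
        have h4 : 0 ≤ (2 / μ) * Y S := by positivity
        linarith
      · push Not at hXs
        have h1 : X S ≤ Y S := by
          refine Finset.sum_le_sum fun b hb => ?_
          by_cases hbS : blk b ⊆ S
          · rw [if_pos hbS]
            have h2 : ∃ i ∈ I, s < φ b i S := by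
              by_contra hcon
              push Not at hcon
              exact hg ⟨b, hsub hb, hbS, hcon⟩
            obtain ⟨i, hi, h3⟩ := h2
            have h4 : (1 : ℝ) ≤ φ b i S / s := by
              rw [le_div_iff₀ hs]; linarith
            refine h4.trans ?_
            have h5 : ∀ i ∈ I, 0 ≤ (if blk b ⊆ S then φ b i S else 0) / s := by
              intro i hi
              rw [if_pos hbS]
              exact div_nonneg (hφ0 b (hsub hb) i hi S) hs.le
            have h6 := Finset.single_le_sum h5 hi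
            rwa [if_pos hbS] at h6
          · rw [if_neg hbS]
            refine Finset.sum_nonneg fun i _ => ?_
            rw [if_neg hbS, zero_div]
        have h2 : (1 : ℝ) ≤ (2 / μ) * Y S := by
          have h3 : (2 / μ) * (μ / 2) = 1 := by field_simp
          rw [← h3]
          exact mul_le_mul_of_nonneg_left (by linarith) (by positivity)
        have h4 : 0 ≤ (4 / μ ^ 2) * (X S - μ) ^ 2 := by positivity
        linarith
  refine (G.ex_mono fun S _ => hpoint S).trans ?_
  rw [G.ex_add, G.ex_mul_left, G.ex_mul_left]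
  have hvar := ex_var G L T' blk (fun b hb => hblk b (hsub hb)) hdis
  have hYe : G.ex L Y ≤ I.card * β / s * μ := by
    have h1 : G.ex L Y = ∑ b ∈ T', ∑ i ∈ I,
        G.ex L (fun S => if blk b ⊆ S then φ b i S else 0) / s := by
      simp only [hY]
      rw [G.ex_sum]
      refine Finset.sum_congr rfl fun b _ => ?_
      rw [G.ex_sum]
      refine Finset.sum_congr rfl fun i _ => ?_
      simp only [div_eq_mul_inv]
      rw [G.ex_mul_right]
    rw [h1, hμ, Finset.mul_sum]
    refine Finset.sum_le_sum fun b hb => ?_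
    have h2 : ∀ i ∈ I, G.ex L (fun S => if blk b ⊆ S then φ b i S else 0) / s
        ≤ β / s * pr G (blk b) := by
      intro i hi
      have h3 := ex_ind_le G (hblk b (hsub hb)) (hφ b (hsub hb) i hi)
      have h4 := mul_le_mul_of_nonneg_left (hφβ b (hsub hb) i hi) (pr_nonneg G (blk b))
      rw [div_le_iff₀ hs]
      have h5 : β / s * pr G (blk b) * s = pr G (blk b) * β := by field_simp
      rw [h5]
      exact h3.trans h4
    refine (Finset.sum_le_sum h2).trans (le_of_eq ?_)
    rw [Finset.sum_const, nsmul_eq_mul]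
    ring
  have h5 : (4 / μ ^ 2) * G.ex L (fun S => (X S - μ) ^ 2) ≤ 4 / (q * M) := by
    have h6 : (4 / μ ^ 2) * G.ex L (fun S => (X S - μ) ^ 2) ≤ (4 / μ ^ 2) * μ :=
      mul_le_mul_of_nonneg_left hvar (by positivity)
    have h7 : (4 / μ ^ 2) * μ = 4 / μ := by field_simp
    have h8 : 4 / μ ≤ 4 / (q * M) := div_le_div_of_nonneg_left (by norm_num) hqM hμM
    linarith
  have h6 : (2 / μ) * G.ex L Y ≤ 2 * I.card * β / s := by
    have h7 : (2 / μ) * G.ex L Y ≤ (2 / μ) * (I.card * β / s * μ) :=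
      mul_le_mul_of_nonneg_left hYe (by positivity)
    have h8 : (2 / μ) * (I.card * β / s * μ) = 2 * I.card * β / s := by field_simp
    linarith
  linarith

end Crest.Agent.R147.Sc
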