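import Crest.Agent.R147.StGraph
import Crest.Agent.R147.Cl684Cut

/-!
R147, structure block (helper505), part 16: for `p_c < 1` and weakly polynomial growth there is an
equivariant Lipschitz map to `ℤ²` (the two-ended case is excluded by helper684's cutset theorem).
-/

set_option autoImplicit false
set_option linter.unusedSectionVars false

universe u

namespace Crest.Agent.R147.St

open Filter Function Crest.ProbabilityR.Percolation

variable {V : Type u} {G : SimpleGraph V}

/-- balls have bounded cardinality -/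
theorem exists_ball_bound (hconn : G.Connected) (hloc : ∀ v : V, (G.neighborSet v).Finite)
    (hqt : IsQuasiTransitive G) (D : ℕ) : ∃ m : ℕ, ∀ v, {w | G.dist v w ≤ D}.ncard ≤ m := by
  classical
  obtain ⟨F, hF⟩ := hqt
  refine ⟨F.sup (fun f => {w | G.dist f w ≤ D}.ncard), fun v => ?_⟩
  obtain ⟨φ, hφ⟩ := hF v
  refine le_trans ?_ (Finset.le_sup (f := fun f => {w | G.dist f w ≤ D}.ncard) hφ)
  refine Set.ncard_le_ncard_of_injOn (fun w => φ w) ?_ φ.injective.injOn
    (gball_finite hconn hloc _ _)
  intro w hw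
  show G.dist (φ v) (φ w) ≤ D
  rw [iso_dist hconn]
  exact hw

/-- the two-ended case -/
theorem Z1Data.pc_eq_one [Infinite V] (hconn : G.Connected)
    (hloc : ∀ v : V, (G.neighborSet v).Finite) (hqt : IsQuasiTransitive G) (Z : Z1Data G) :
    bondCriticalValue G = 1 := by
  classical
  obtain ⟨m, hm⟩ := exists_ball_bound hconn hloc hqt Z.D
  obtain ⟨D, hD⟩ := Cl.exists_degree_bound hloc hqt
  have key : ∀ i, (Z.Φ ⁻¹' {i}).Finite ∧ (Z.Φ ⁻¹' {i}).ncard ≤ m := by
    intro i
    rcases (Z.Φ ⁻¹' {i}).eq_empty_or_nonempty with h | ⟨x, hx⟩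
    · rw [h]; simp
    · have hsub : Z.Φ ⁻¹' {i} ⊆ {w | G.dist x w ≤ Z.D} := by
        intro w hw
        have h1 : Z.Φ x = i := hx
        have h2 : Z.Φ w = i := hw
        exact Z.fib x w (h1.trans h2.symm)
      exact ⟨(gball_finite hconn hloc _ _).subset hsub,
        (Set.ncard_le_ncard hsub (gball_finite hconn hloc _ _)).trans (hm x)⟩
  exact Cl.pc_eq_one_of_strip hconn hloc hD Z.Φ Z.jump (fun i => (key i).1) (fun i => (key i).2)

/-- **Weakly polynomial growth and `p_c < 1` give an equivariant Lipschitz map to `ℤ²`.** -/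
theorem exists_Z2Data [Infinite V] (hconn : G.Connected)
    (hloc : ∀ v : V, (G.neighborSet v).Finite) (hqt : IsQuasiTransitive G)
    (hlt : bondCriticalValue G < 1) (o : V) {C d : ℕ} (hgr : WGrowth G o C d) :
    Nonempty (Z2Data G) := by
  rcases structure_theorem G hconn hloc hqt o hgr with ⟨⟨Z⟩⟩ | h
  · rw [Z.pc_eq_one hconn hloc hqt] at hlt
    exact absurd hlt (lt_irrefl _)
  · exact h

/-- **The dichotomy**: for `p_c < 1`, either there is an equivariant Lipschitz map to `ℤ²` or the
growth is superpolynomial at all scales. -/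
theorem Z2Data_or_superpolynomial [Infinite V] (hconn : G.Connected)
    (hloc : ∀ v : V, (G.neighborSet v).Finite) (hqt : IsQuasiTransitive G)
    (hlt : bondCriticalValue G < 1) (o : V) :
    Nonempty (Z2Data G) ∨ ∀ C d : ℕ, ∀ᶠ n in atTop,
      C * (n + 1) ^ d < {v | G.dist o v ≤ n}.ncard := by
  by_cases h : ∃ C d : ℕ, WGrowth G o C d
  · obtain ⟨C, d, h⟩ := h
    exact Or.inl (exists_Z2Data hconn hloc hqt hlt o h)
  · right
    push Not at h
    intro C d
    have h1 := h C d
    rw [WGrowth, not_frequently] at h1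
    exact h1.mono fun n hn => not_le.1 hn

end Crest.Agent.R147.St
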