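import Crest.Agent.R147.Sp58Big
import Crest.Agent.R147.Cl684Exp

/-!
Row 147, superpolynomial growth (helper58): the second moment (mesoscopic) estimate.

`meso_sq`: if `S` is a finite set of vertices, all with the same probability `r` of having a
cluster of size in `[M, M')`, and `Q_M ≤ q` on `S`, then `r² |S| ≤ M' + q |S|`.
-/

set_option autoImplicit false

open Crest.ProbabilityR.Percolation MeasureTheory ProbabilityTheory unitInterval Filter
open Crest.Agent.R159 Crest.Agent.R159.Sharp Crest.Agent.R147.Cl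
open scoped Topology

namespace Crest.Agent.R147.Sp

section general
variable {Ω : Type*} [MeasurableSpace Ω] {κ : Type*}

/-- Cauchy–Schwarz for counting variables -/
theorem sq_sum_le (μ : Measure Ω) [IsProbabilityMeasure μ] (s : Finset κ) (A : κ → Set Ω)
    (hA : ∀ k ∈ s, MeasurableSet (A k)) :
    (∑ k ∈ s, μ.real (A k)) ^ 2 ≤ ∑ k ∈ s, ∑ l ∈ s, μ.real (A k ∩ A l) := by
  classical
  set c : ℝ := ∑ k ∈ s, μ.real (A k) with hc
  set f : Ω → ℝ := fun ω => ∑ k ∈ s, (A k).indicator (fun _ => (1 : ℝ)) ω with hf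
  have hi1 : ∀ k ∈ s, Integrable ((A k).indicator (fun _ => (1 : ℝ))) μ := fun k hk =>
    (integrable_const (1 : ℝ)).indicator (hA k hk)
  have hi2 : ∀ k ∈ s, ∀ l ∈ s, Integrable ((A k ∩ A l).indicator (fun _ => (1 : ℝ))) μ :=
    fun k hk l hl => (integrable_const (1 : ℝ)).indicator ((hA k hk).inter (hA l hl))
  have hint1 : ∫ ω, f ω ∂μ = c := by
    rw [hf, integral_finsetSum s hi1, hc]
    refine Finset.sum_congr rfl fun k hk => ?_
    rw [integral_indicator (hA k hk)]
    simp
  have hff : ∀ ω, f ω ^ 2 = ∑ k ∈ s, ∑ l ∈ s, (A k ∩ A l).indicator (fun _ => (1 : ℝ)) ω := by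
    intro ω
    rw [hf, sq, Finset.sum_mul_sum]
    refine Finset.sum_congr rfl fun k _ => Finset.sum_congr rfl fun l _ => ?_
    simp only [Set.indicator_apply, Set.mem_inter_iff]
    by_cases h1 : ω ∈ A k <;> by_cases h2 : ω ∈ A l <;> simp [h1, h2]
  have hif : Integrable f μ := integrable_finsetSum s hi1
  have hif2 : Integrable (fun ω => f ω ^ 2) μ := by
    simp_rw [hff]
    exact integrable_finsetSum s fun k hk => integrable_finsetSum s fun l hl => hi2 k hk l hl
  have hint2 : ∫ ω, f ω ^ 2 ∂μ = ∑ k ∈ s, ∑ l ∈ s, μ.real (A k ∩ A l) := by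
    simp_rw [hff]
    rw [integral_finsetSum s fun k hk => integrable_finsetSum s fun l hl => hi2 k hk l hl]
    refine Finset.sum_congr rfl fun k hk => ?_
    rw [integral_finsetSum s fun l hl => hi2 k hk l hl]
    refine Finset.sum_congr rfl fun l hl => ?_
    rw [integral_indicator ((hA k hk).inter (hA l hl))]
    simp
  have h0 : 0 ≤ ∫ ω, (f ω - c) ^ 2 ∂μ := integral_nonneg fun ω => sq_nonneg _
  have h1 : ∫ ω, (f ω - c) ^ 2 ∂μ = ∫ ω, f ω ^ 2 ∂μ - 2 * c * ∫ ω, f ω ∂μ + c ^ 2 := by
    have e1 : ∀ ω, (f ω - c) ^ 2 = (f ω ^ 2 - 2 * c * f ω) + c ^ 2 := by intro ω; ring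
    have i1 : Integrable (fun ω => 2 * c * f ω) μ := hif.const_mul _
    have i2 : Integrable (fun ω => f ω ^ 2 - 2 * c * f ω) μ := hif2.sub i1
    have i3 : ∫ ω, (f ω - c) ^ 2 ∂μ = ∫ ω, ((f ω ^ 2 - 2 * c * f ω) + c ^ 2) ∂μ := by
      congr 1
      funext ω
      exact e1 ω
    rw [i3, integral_add i2 (integrable_const _), integral_sub hif2 i1, integral_const_mul]
    simp
  rw [h1, hint1, hint2] at h0
  nlinarith

/-- if at most `m` of the events `B k` can occur simultaneously then `∑ μ(B k) ≤ m` -/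
theorem sum_real_le_of_card (μ : Measure Ω) [IsProbabilityMeasure μ] (s : Finset κ)
    (B : κ → Set Ω) (hB : ∀ k ∈ s, MeasurableSet (B k)) (m : ℝ)
    (h : ∀ ω, ∑ k ∈ s, (B k).indicator (fun _ => (1 : ℝ)) ω ≤ m) :
    ∑ k ∈ s, μ.real (B k) ≤ m := by
  have hi1 : ∀ k ∈ s, Integrable ((B k).indicator (fun _ => (1 : ℝ))) μ := fun k hk =>
    (integrable_const (1 : ℝ)).indicator (hB k hk)
  have hint1 : ∫ ω, ∑ k ∈ s, (B k).indicator (fun _ => (1 : ℝ)) ω ∂μ = ∑ k ∈ s, μ.real (B k) := by
    rw [integral_finsetSum s hi1]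
    refine Finset.sum_congr rfl fun k hk => ?_
    rw [integral_indicator (hB k hk)]
    simp
  rw [← hint1]
  calc ∫ ω, ∑ k ∈ s, (B k).indicator (fun _ => (1 : ℝ)) ω ∂μ ≤ ∫ _, m ∂μ :=
        integral_mono (integrable_finsetSum s hi1) (integrable_const _) h
    _ = m := by simp

end general

universe u
variable {V : Type u} {G : SimpleGraph V}

/-- mesoscopic: the cluster of `x` has size in `[M, M')` -/
def Meso (G : SimpleGraph V) (M M' : ℕ) (x : V) (ω : Set (Sym2 V)) : Prop :=
  Big G M x ω ∧ ¬ Big G M' x ω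

/-- its probability -/
noncomputable def rho (G : SimpleGraph V) (p : I) (M M' : ℕ) (x : V) : ℝ :=
  (setBernoulli G.edgeSet p).real {ω | Meso G M M' x ω}

theorem rho_nonneg (p : I) (M M' : ℕ) (x : V) : 0 ≤ rho G p M M' x := measureReal_nonneg

variable [Countable V]

theorem measurableSet_meso (G : SimpleGraph V) (M M' : ℕ) (x : V) :
    MeasurableSet {ω : Set (Sym2 V) | Meso G M M' x ω} :=
  (measurableSet_big G M x).inter (measurableSet_big G M' x).compl

theorem rho_aut (p : I) (φ : G ≃g G) (M M' : ℕ) (x : V) :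
    rho G p M M' (φ x) = rho G p M M' x := by
  unfold rho
  rw [← Inf.setBernoulli_aut G φ p (measurableSet_meso G M M' x)]
  congr 1
  ext ω
  simp only [Set.mem_ofPred_eq]
  unfold Meso
  rw [big_openIso, big_openIso]

/-- the second moment estimate -/
theorem meso_sq (p : I) (M M' : ℕ) (S : Finset V) (r q : ℝ)
    (hr : ∀ x ∈ S, rho G p M M' x = r) (hq : ∀ x ∈ S, ∀ y ∈ S, Q G p M x y ≤ q) :
    r ^ 2 * S.card ≤ M' + q * S.card := by
  classical
  set μ := setBernoulli G.edgeSet p with hμ
  rcases S.eq_empty_or_nonempty with rfl | hS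
  · simp
  have hcard : (0 : ℝ) < S.card := by exact_mod_cast hS.card_pos
  have h1 := sq_sum_le μ S (fun x => {ω | Meso G M M' x ω})
    (fun x _ => measurableSet_meso G M M' x)
  have h2 : ∑ x ∈ S, μ.real {ω | Meso G M M' x ω} = r * S.card := by
    have h0 : ∀ x ∈ S, μ.real {ω | Meso G M M' x ω} = r := hr
    rw [Finset.sum_congr rfl h0, Finset.sum_const, nsmul_eq_mul, mul_comm]
  rw [h2] at h1
  have h3 : ∀ x ∈ S, ∑ y ∈ S, μ.real ({ω | Meso G M M' x ω} ∩ {ω | Meso G M M' y ω}) ≤
      M' + q * S.card := by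
    intro x hx
    have h4 : ∀ y ∈ S, μ.real ({ω | Meso G M M' x ω} ∩ {ω | Meso G M M' y ω}) ≤
        μ.real {ω | Meso G M M' x ω ∧ (openSubgraph G ω).Reachable x y} + q := by
      intro y hy
      have h5 : {ω | Meso G M M' x ω} ∩ {ω | Meso G M M' y ω} ⊆
          {ω | Meso G M M' x ω ∧ (openSubgraph G ω).Reachable x y} ∪ {ω | TwoM G M x y ω} := by
        rintro ω ⟨hx1, hy1⟩
        by_cases h : (openSubgraph G ω).Reachable x y
        · exact Or.inl ⟨hx1, h⟩
        · exact Or.inr ⟨hx1.1, hy1.1, h⟩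
      calc _ ≤ μ.real ({ω | Meso G M M' x ω ∧ (openSubgraph G ω).Reachable x y} ∪
              {ω | TwoM G M x y ω}) := measureReal_mono h5 (measure_ne_top _ _)
        _ ≤ _ + _ := measureReal_union_le _ _
        _ ≤ _ := add_le_add le_rfl (hq x hx y hy)
    refine (Finset.sum_le_sum h4).trans ?_
    rw [Finset.sum_add_distrib, Finset.sum_const, nsmul_eq_mul, mul_comm (S.card : ℝ) q]
    refine add_le_add ?_ le_rfl
    apply sum_real_le_of_card μ S
    · intro y _
      exact (measurableSet_meso G M M' x).inter (Inf.measurableSet_reachable G x y)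
    · intro ω
      by_cases hm : Meso G M M' x ω
      · have h6 : ∑ k ∈ S, ({ω | Meso G M M' x ω ∧ (openSubgraph G ω).Reachable x k} :
            Set (Set (Sym2 V))).indicator (fun _ => (1 : ℝ)) ω =
            ((S.filter (fun k => (openSubgraph G ω).Reachable x k)).card : ℝ) := by
          rw [Finset.card_filter]
          push_cast
          refine Finset.sum_congr rfl fun k _ => ?_
          rw [Set.indicator_apply]
          by_cases h : (openSubgraph G ω).Reachable x k
          · rw [if_pos h, if_pos]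
            exact ⟨hm, h⟩
          · rw [if_neg h, if_neg]
            exact fun h' => h h'.2
        rw [h6]
        have h7 := card_lt_of_not_big hm.2
          (S := S.filter (fun k => (openSubgraph G ω).Reachable x k))
          (fun y hy => (Finset.mem_filter.1 hy).2)
        exact_mod_cast h7.le
      · have h6 : ∑ k ∈ S, ({ω | Meso G M M' x ω ∧ (openSubgraph G ω).Reachable x k} :
            Set (Set (Sym2 V))).indicator (fun _ => (1 : ℝ)) ω = 0 := by
          refine Finset.sum_eq_zero fun k _ => ?_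
          rw [Set.indicator_apply, if_neg]
          exact fun h' => hm h'.1
        rw [h6]
        exact Nat.cast_nonneg _
  have h8 := h1.trans (Finset.sum_le_sum h3)
  rw [Finset.sum_const, nsmul_eq_mul] at h8
  have h9 : S.card * (r ^ 2 * S.card) ≤ S.card * ((M' : ℝ) + q * S.card) := by
    calc S.card * (r ^ 2 * S.card) = (r * S.card) ^ 2 := by ring
      _ ≤ _ := h8
  exact le_of_mul_le_mul_left h9 hcard

/-- second moment estimate along the orbit of `x` near a finite set `A` -/
theorem meso_orbit (hloc : ∀ v : V, (G.neighborSet v).Finite) {D : ℕ}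
    (hD : ∀ v, (nb hloc v).card ≤ D) (p : I) (M M' : ℕ) (x : V) {L : ℕ}
    (φ : V → (G ≃g G)) (hφ : ∀ v, φ v x ∈ th hloc L {v}) (A : Finset V) (hA : A.Nonempty)
    {q : ℝ} (hq : ∀ y ∈ th hloc L A, ∀ z ∈ th hloc L A, Q G p M y z ≤ q) :
    rho G p M M' x ^ 2 ≤ (D + 1 : ℝ) ^ L * M' / A.card + q := by
  classical
  set f : V → V := fun v => φ v x with hf
  have h1 : ∀ y ∈ A.image f, rho G p M M' y = rho G p M M' x := by
    intro y hy
    obtain ⟨v, _, rfl⟩ := Finset.mem_image.1 hy
    exact rho_aut p (φ v) M M' x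
  have h2 : ∀ y ∈ A.image f, y ∈ th hloc L A := by
    intro y hy
    obtain ⟨v, hv, rfl⟩ := Finset.mem_image.1 hy
    exact th_mono hloc L (Finset.singleton_subset_iff.2 hv) (hφ v)
  have h3 := meso_sq p M M' (A.image f) (rho G p M M' x) q h1
    (fun y hy z hz => hq y (h2 y hy) z (h2 z hz))
  have h4 : A.card ≤ (D + 1) ^ L * (A.image f).card := by
    apply Finset.card_le_mul_card_image
    intro c _
    have h6 : A.filter (fun v => f v = c) ⊆ th hloc L {c} := by
      intro v hv
      rw [Finset.mem_filter] at hv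
      have h7 := hφ v
      rw [mem_th_singleton_comm] at h7
      have h8 : φ v x = c := hv.2
      rwa [h8] at h7
    calc (A.filter (fun v => f v = c)).card ≤ (th hloc L {c}).card := Finset.card_le_card h6
      _ ≤ (D + 1) ^ L * 1 := by simpa using card_th_le hloc hD L {c}
      _ = (D + 1) ^ L := by ring
  have h4' : (A.card : ℝ) ≤ (D + 1 : ℝ) ^ L * (A.image f).card := by exact_mod_cast h4
  have hA0 : (0 : ℝ) < A.card := by exact_mod_cast hA.card_pos
  have hI0 : (0 : ℝ) < (A.image f).card := by exact_mod_cast (hA.image f).card_pos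
  have h5 : rho G p M M' x ^ 2 ≤ M' / (A.image f).card + q := by
    rw [div_add' _ _ _ hI0.ne', le_div_iff₀ hI0]
    exact h3
  refine h5.trans (add_le_add ?_ le_rfl)
  rw [div_le_div_iff₀ hI0 hA0]
  calc (M' : ℝ) * A.card ≤ M' * ((D + 1 : ℝ) ^ L * (A.image f).card) :=
        mul_le_mul_of_nonneg_left h4' (Nat.cast_nonneg _)
    _ = _ := by ring

end Crest.Agent.R147.Sp
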