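import Crest.Agent.R147.StVH

/-!
R147, structure block (helper505), part 13: the action on the virtual homomorphisms of the kernel
of a homomorphism onto `ℤ` has a periodic vector.
-/

set_option autoImplicit false
set_option linter.unusedSectionVars false

universe u

namespace Crest.Agent.R147.St

open Filter Function Polynomial

section action

variable {G : Type u} [Group G] {l : G → ℕ} {d : ℕ}

/-- the length on the kernel -/
abbrev kl (l : G → ℕ) (φ : G →* Multiplicative ℤ) : φ.ker → ℕ := fun k => l (k : G)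

theorem conj_mem_VH {d' : ℕ} (φ : G →* Multiplicative ℤ) (hl : PLen l) (hN : WLen (kl l φ) d')
    (g : G) {f : φ.ker → ℚ} (hf : f ∈ VH (kl l φ)) :
    (fun x => f (MulAut.conjNormal g x)) ∈ VH (kl l φ) := by
  refine ⟨fun x k => ?_, ?_, fun x hx => ?_⟩
  · show f (MulAut.conjNormal g (x ^ k)) = _
    rw [map_pow, hf.1]
  · obtain ⟨H, hH, hadd⟩ := hf.2.1
    refine ⟨H.comap (MulAut.conjNormal g : φ.ker ≃* φ.ker).toMonoidHom, ?_, ?_⟩
    · rw [Subgroup.finiteIndex_iff, Subgroup.index_comap_of_surjective]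
      · exact hH.index_ne_zero
      · exact (MulAut.conjNormal g : φ.ker ≃* φ.ker).surjective
    intro x hx y hy
    show f (MulAut.conjNormal g (x * y)) = _
    rw [map_mul]
    exact hadd _ hx _ hy
  · apply VH_bdd_zero hN hf (B := 2 * l g)
    intro k
    have h1 : ((MulAut.conjNormal g x ^ k : φ.ker) : G) = g * (x : G) ^ k * g⁻¹ := by
      rw [← map_pow, MulAut.conjNormal_apply, Subgroup.coe_pow]
    show l ((MulAut.conjNormal g x ^ k : φ.ker) : G) ≤ _
    rw [h1]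
    have h2 := hl.conj g ((x : G) ^ k)
    have h3 := hl.pow (x : G) k
    have h4 : l (x : G) = 0 := hx
    rw [h4, mul_zero] at h3
    omega

/-- the action of `g` on the virtual homomorphisms of the kernel. -/
noncomputable def TT {d' : ℕ} (φ : G →* Multiplicative ℤ) (hl : PLen l) (hN : WLen (kl l φ) d')
    (g : G) : VH (kl l φ) →ₗ[ℚ] VH (kl l φ) where
  toFun f := ⟨fun x => (f : φ.ker → ℚ) (MulAut.conjNormal g x), conj_mem_VH φ hl hN g f.2⟩
  map_add' _ _ := rfl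
  map_smul' _ _ := rfl

variable {d' : ℕ} (φ : G →* Multiplicative ℤ) (hl : PLen l) (hN : WLen (kl l φ) d')

lemma TT_apply (g : G) (f : VH (kl l φ)) (x : φ.ker) :
    (TT φ hl hN g f : φ.ker → ℚ) x = (f : φ.ker → ℚ) (MulAut.conjNormal g x) := rfl

lemma TT_mul (g h : G) (f : VH (kl l φ)) : TT φ hl hN (g * h) f = TT φ hl hN h (TT φ hl hN g f) := by
  apply Subtype.ext
  funext x
  rw [TT_apply, TT_apply, TT_apply, map_mul]
  rfl

lemma TT_one : TT φ hl hN 1 = 1 := by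
  apply LinearMap.ext
  intro f
  apply Subtype.ext
  funext x
  rw [TT_apply, map_one]
  rfl

lemma TT_pow (g : G) (n : ℕ) : TT φ hl hN (g ^ n) = TT φ hl hN g ^ n := by
  induction n with
  | zero => rw [pow_zero, pow_zero, TT_one]
  | succ n ih =>
    apply LinearMap.ext
    intro f
    rw [pow_succ, TT_mul, ih, pow_succ']
    rfl

lemma TT_injective (g : G) : Injective (TT φ hl hN g) := by
  intro f f' h
  have h1 : TT φ hl hN g⁻¹ (TT φ hl hN g f) = TT φ hl hN g⁻¹ (TT φ hl hN g f') := by rw [h]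
  rw [← TT_mul, ← TT_mul, mul_inv_cancel, TT_one] at h1
  exact h1

/-- the polynomial of a coincidence. -/
noncomputable def cP (A B : Finset ℕ) : ℤ[X] := ∑ j ∈ B, X ^ j - ∑ j ∈ A, X ^ j

lemma cP_coeff (A B : Finset ℕ) (i : ℕ) :
    (cP A B).coeff i = (if i ∈ B then 1 else 0) - (if i ∈ A then 1 else 0) := by
  simp [cP, coeff_X_pow]

lemma cP_LP {A B : Finset ℕ} (h : A ≠ B) : LP (cP A B) := by
  apply LP.of_coeff
  · intro h0
    apply h
    ext i
    have h1 := cP_coeff A B i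
    rw [h0, coeff_zero] at h1
    by_cases hA : i ∈ A <;> by_cases hB : i ∈ B <;> simp [hA, hB] at h1 ⊢
  · intro i
    rw [cP_coeff]
    by_cases hA : i ∈ A <;> by_cases hB : i ∈ B <;> simp [hA, hB]

/-- evaluation of a virtual homomorphism on a word. -/
lemma map_wd {N : Type u} [Group N] {f : N → ℚ} (hf1 : f 1 = 0) {H : Subgroup N} (hadd : AddOn f H)
    (t : G) (e : ℕ → G) (i : N →* G) (c : ℕ → N) (hc : ∀ j, i (c j) = cj t e j)
    (hcH : ∀ j, c j ∈ H) (A : Finset ℕ) (m : ℕ) :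
    ∃ w ∈ H, i w = wd t e A m ∧ f w = ∑ j ∈ Finset.range m, if j ∈ A then f (c j) else 0 := by
  classical
  induction m with
  | zero => exact ⟨1, H.one_mem, by rw [map_one]; rfl, by simpa using hf1⟩
  | succ m ih =>
    obtain ⟨w, hw, h1, h2⟩ := ih
    have h3 : (if m ∈ A then c m else 1) ∈ H := by
      split
      · exact hcH m
      · exact H.one_mem
    refine ⟨(if m ∈ A then c m else 1) * w, H.mul_mem h3 hw, ?_, ?_⟩
    · rw [map_mul, h1, wd]
      congr 1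
      by_cases hm : m ∈ A
      · rw [if_pos hm, if_pos hm, hc]
      · rw [if_neg hm, if_neg hm, map_one]
    · rw [hadd _ h3 _ hw, h2, Finset.sum_range_succ, add_comm]
      congr 1
      by_cases hm : m ∈ A
      · rw [if_pos hm, if_pos hm]
      · rw [if_neg hm, if_neg hm, hf1]

/-- **The relation at one element.** -/
theorem exists_rel (hG : WLen l d) (s : G) (e : φ.ker) :
    ∃ P : ℤ[X], LP P ∧ ∀ f : VH (kl l φ),
      (aeval (TT φ hl hN s) (P.map (Int.castRingHom ℚ)) f : φ.ker → ℚ) e = 0 := by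
  classical
  obtain ⟨H, hHn, hH, hadd⟩ := exists_common hN
  set m0 := H.index with hm0
  have hm0' : m0 ≠ 0 := hH.index_ne_zero
  have hpow : ∀ x : φ.ker, x ^ m0 ∈ H := fun x => H.pow_index_mem x
  obtain ⟨m, A, B, hA, hB, hne, hAB⟩ := exists_coinc s (fun _ => ((e ^ m0 : φ.ker) : G)) hG
    (R := l ((e ^ m0 : φ.ker) : G)) (fun _ => le_rfl)
  refine ⟨cP A B, cP_LP hne, fun f => ?_⟩
  -- the conjugates
  let c : ℕ → φ.ker := fun j => MulAut.conjNormal (s ^ j) (e ^ m0)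
  have hc : ∀ j, φ.ker.subtype (c j) = cj s (fun _ => ((e ^ m0 : φ.ker) : G)) j := by
    intro j
    show ((MulAut.conjNormal (s ^ j) (e ^ m0) : φ.ker) : G) = _
    rw [MulAut.conjNormal_apply]
    rfl
  have hcH : ∀ j, c j ∈ H := by
    intro j
    show MulAut.conjNormal (s ^ j) (e ^ m0) ∈ H
    rw [map_pow]
    exact hpow _
  have hf := f.2
  obtain ⟨wA, hA1, hA2, hA3⟩ := map_wd hf.1.one (hadd f f.2) s
    (fun _ => ((e ^ m0 : φ.ker) : G)) φ.ker.subtype c hc hcH A m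
  obtain ⟨wB, hB1, hB2, hB3⟩ := map_wd hf.1.one (hadd f f.2) s
    (fun _ => ((e ^ m0 : φ.ker) : G)) φ.ker.subtype c hc hcH B m
  rw [← hA2, ← hB2] at hAB
  have h1 : (f : φ.ker → ℚ) (wA⁻¹ * wB) = 0 := hf.2.2 _ hAB
  have h2 : (f : φ.ker → ℚ) wB = (f : φ.ker → ℚ) wA := by
    have h3 := hadd f f.2 wA hA1 (wA⁻¹ * wB) (H.mul_mem (H.inv_mem hA1) hB1)
    rw [mul_inv_cancel_left, h1, add_zero] at h3
    exact h3
  have hfc : ∀ j, (f : φ.ker → ℚ) (c j) = m0 * ((TT φ hl hN s ^ j) f : φ.ker → ℚ) e := by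
    intro j
    show (f : φ.ker → ℚ) (MulAut.conjNormal (s ^ j) (e ^ m0)) = _
    rw [← TT_pow, TT_apply, map_pow, hf.1]
  have hsum : ∀ C : Finset ℕ, C ⊆ Finset.range m →
      (∑ j ∈ Finset.range m, if j ∈ C then (f : φ.ker → ℚ) (c j) else 0)
        = m0 * ∑ j ∈ C, ((TT φ hl hN s ^ j) f : φ.ker → ℚ) e := by
    intro C hC
    rw [← Finset.sum_filter, Finset.mul_sum]
    have : (Finset.range m).filter (fun j => j ∈ C) = C := by
      ext j
      simp only [Finset.mem_filter]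
      exact ⟨fun h => h.2, fun h => ⟨hC h, h⟩⟩
    rw [this]
    exact Finset.sum_congr rfl fun j _ => hfc j
  rw [hA3, hB3, hsum A hA, hsum B hB] at h2
  have h3 : (m0 : ℚ) ≠ 0 := by exact_mod_cast hm0'
  have h4 := mul_left_cancel₀ h3 h2
  have h5 : aeval (TT φ hl hN s) ((cP A B).map (Int.castRingHom ℚ))
      = ∑ j ∈ B, TT φ hl hN s ^ j - ∑ j ∈ A, TT φ hl hN s ^ j := by
    simp [cP, Polynomial.map_sub, Polynomial.map_sum]
  rw [h5, LinearMap.sub_apply, LinearMap.sum_apply, LinearMap.sum_apply]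
  show ((∑ j ∈ B, (TT φ hl hN s ^ j) f : VH (kl l φ)) : φ.ker → ℚ) e
    - ((∑ j ∈ A, (TT φ hl hN s ^ j) f : VH (kl l φ)) : φ.ker → ℚ) e = 0
  rw [AddSubmonoidClass.coe_finsetSum, AddSubmonoidClass.coe_finsetSum, Finset.sum_apply,
    Finset.sum_apply, h4, sub_self]

/-- **The relation.** -/
theorem exists_annih (hG : WLen l d) (hNg : CGen (kl l φ)) (s : G) :
    ∃ P : ℤ[X], LP P ∧ aeval (TT φ hl hN s) (P.map (Int.castRingHom ℚ)) = 0 := by
  classical
  obtain ⟨E, hE⟩ := exists_separating hN hNg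
  have key : ∀ E : Finset φ.ker, ∃ P : ℤ[X], LP P ∧ ∀ e ∈ E, ∀ f : VH (kl l φ),
      (aeval (TT φ hl hN s) (P.map (Int.castRingHom ℚ)) f : φ.ker → ℚ) e = 0 := by
    intro E
    induction E using Finset.induction_on with
    | empty => exact ⟨1, LP.one, by simp⟩
    | insert e E _ ih =>
      obtain ⟨P, hP1, hP2⟩ := ih
      obtain ⟨Q, hQ1, hQ2⟩ := exists_rel φ hl hN hG s e
      refine ⟨P * Q, hP1.mul hQ1, fun e' he' f => ?_⟩
      rcases Finset.mem_insert.1 he' with rfl | he'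
      · rw [mul_comm, Polynomial.map_mul, map_mul]
        exact hQ2 _
      · rw [Polynomial.map_mul, map_mul]
        exact hP2 e' he' _
  obtain ⟨P, hP1, hP2⟩ := key E
  refine ⟨P, hP1, LinearMap.ext fun f => Subtype.ext ?_⟩
  exact hE _ (Subtype.property _) fun e he => hP2 e he f

include hl hN in
/-- **A periodic virtual homomorphism.** -/
theorem exists_periodic (hG : WLen l d) (hNg : CGen (kl l φ)) (hne : ∃ f ∈ VH (kl l φ), f ≠ 0)
    (t : G) : ∃ n : ℕ, 0 < n ∧ ∃ f ∈ VH (kl l φ), f ≠ 0 ∧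
      ∀ x, f (MulAut.conjNormal (t ^ n) x) = f x := by
  have hfd := VH_finite hN
  obtain ⟨f0, hf0, hf0'⟩ := hne
  have hnt : Nontrivial (VH (kl l φ)) :=
    ⟨⟨⟨f0, hf0⟩, 0, fun h => hf0' (congrArg Subtype.val h)⟩⟩
  obtain ⟨n, hn, v, hv, hTv⟩ := exists_fixed (TT φ hl hN t) (TT_injective φ hl hN t) (by
    intro k _
    rw [← TT_pow]
    exact exists_annih φ hl hN hG hNg (t ^ k))
  refine ⟨n, hn, v, v.2, fun h => hv (Subtype.ext h), fun x => ?_⟩
  rw [← TT_pow] at hTv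
  have := congrFun (congrArg Subtype.val hTv) x
  exact this

end action

/-- an unbounded group has a nonzero virtual homomorphism. -/
theorem exists_VH_ne {N : Type u} [Group N] {l : N → ℕ} {d : ℕ} (hl : WLen l d) (hg : CGen l)
    (hinf : ∀ b, ∃ g, b < l g) : ∃ f ∈ VH l, f ≠ 0 := by
  obtain ⟨N1, hN1, ψ, hψ, hK⟩ := onto_int hl hg hinf
  set m := N1.normalCore.index with hm
  have hm0 : m ≠ 0 := (inferInstance : N1.normalCore.FiniteIndex).index_ne_zero
  have hm0' : (m : ℚ) ≠ 0 := by exact_mod_cast hm0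
  have hpow : ∀ x : N, x ^ m ∈ N1 := fun x => N1.normalCore_le (N1.normalCore.pow_index_mem x)
  let f : N → ℚ := fun x => (Multiplicative.toAdd (ψ ⟨x ^ m, hpow x⟩) : ℤ) / m
  have hf : ∀ (x : N) (hx : x ∈ N1), f x = (Multiplicative.toAdd (ψ ⟨x, hx⟩) : ℤ) := by
    intro x hx
    have h1 : (⟨x ^ m, hpow x⟩ : N1) = ⟨x, hx⟩ ^ m := Subtype.ext rfl
    show ((Multiplicative.toAdd (ψ ⟨x ^ m, hpow x⟩) : ℤ) : ℚ) / m = _
    rw [h1, map_pow, toAdd_pow, nsmul_eq_mul]
    push_cast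
    field_simp
  refine ⟨f, ⟨fun x k => ?_, ⟨N1, hN1, fun x hx y hy => ?_⟩, fun x hx => ?_⟩, ?_⟩
  · have h1 : (⟨(x ^ k) ^ m, hpow _⟩ : N1) = ⟨x ^ m, hpow x⟩ ^ k := by
      apply Subtype.ext
      show (x ^ k) ^ m = (x ^ m) ^ k
      rw [← pow_mul, ← pow_mul, mul_comm]
    show ((Multiplicative.toAdd (ψ ⟨(x ^ k) ^ m, hpow _⟩) : ℤ) : ℚ) / m
      = k * (((Multiplicative.toAdd (ψ ⟨x ^ m, hpow x⟩) : ℤ) : ℚ) / m)
    rw [h1, map_pow, toAdd_pow, nsmul_eq_mul]
    push_cast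
    ring
  · rw [hf _ (N1.mul_mem hx hy), hf _ hx, hf _ hy]
    have h1 : (⟨x * y, N1.mul_mem hx hy⟩ : N1) = ⟨x, hx⟩ * ⟨y, hy⟩ := rfl
    rw [h1, map_mul, toAdd_mul]
    push_cast
    ring
  · have h1 := hl.pow x m
    rw [hx, mul_zero] at h1
    have h2 := hK ⟨x ^ m, hpow x⟩ (by show l (x ^ m) = 0; omega)
    show ((Multiplicative.toAdd (ψ ⟨x ^ m, hpow x⟩) : ℤ) : ℚ) / m = 0
    rw [h2]
    simp
  · obtain ⟨⟨x, hx⟩, hx'⟩ := hψ (Multiplicative.ofAdd 1)
    intro h0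
    have h1 := hf x hx
    rw [h0, hx'] at h1
    simp at h1

end Crest.Agent.R147.St
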