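import Crest.Agent.R147.StLin
import Crest.Agent.R147.Sp58Boot
import Crest.Agent.R147.DustFin
import Crest.Agent.R147.Cl684Non

/-!
R147 (helper505): assembly. S0207 is reduced to the case of an equivariant Lipschitz map to `ℤ²`
on an amenable graph (nonamenable: helper684; superpolynomial growth: helper58/326/856/642;
structure theorem: St*).
-/

set_option autoImplicit false

open Crest.Agent.R159
open Crest.ProbabilityR.Percolation MeasureTheory ProbabilityTheory unitInterval Filter

namespace Crest.Agent.R147.St

universe u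
variable {V : Type u} {G : SimpleGraph V}

theorem ncard_ball_eq_card_th (hconn : G.Connected) (hloc : ∀ v : V, (G.neighborSet v).Finite)
    (o : V) (n : ℕ) : {v | G.dist o v ≤ n}.ncard = (Cl.th hloc n {o}).card := by
  classical
  rw [← Set.ncard_coe_finset]
  congr 1
  ext v
  rw [Finset.mem_coe, Cl.mem_th]
  constructor
  · intro hv
    obtain ⟨w, hw⟩ := hconn.exists_walk_length_eq_dist o v
    exact ⟨o, Finset.mem_singleton_self o, w, by rw [hw]; exact hv⟩
  · rintro ⟨a, ha, w, hw⟩
    rw [Finset.mem_singleton] at ha
    subst ha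
    exact (SimpleGraph.dist_le w).trans hw

/-- **The reduction** of S0207 to graphs with an equivariant Lipschitz map to `ℤ²`. -/
theorem reduction [Infinite V] (hconn : G.Connected)
    (hloc : ∀ v : V, (G.neighborSet v).Finite) (hqt : IsQuasiTransitive G)
    (hlt : bondCriticalValue G < 1) (p : I) (hp : (p : ℝ) = bondCriticalValue G)
    (hZ : ¬ IsVertexNonamenable G → Z2Data G →
      setBernoulli G.edgeSet p {ω | HasInfiniteCluster G ω} = 0) :
    setBernoulli G.edgeSet p {ω | HasInfiniteCluster G ω} = 0 := by
  have : Countable V := Inf.countable_of_connected G hconn hloc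
  by_cases hna : IsVertexNonamenable G
  · exact Cl.nonamenable_case hconn hloc hqt hna hlt p hp
  obtain ⟨o⟩ : Nonempty V := inferInstance
  rcases Z2Data_or_superpolynomial hconn hloc hqt hlt o with ⟨⟨Z⟩⟩ | h
  · exact hZ hna Z
  · refine Sp.superpoly_zero_of_dust (Dust.dustFin V) hconn hloc hqt hna o (fun d => ?_) hlt p hp
    obtain ⟨n₀, hn₀⟩ := eventually_atTop.1 (h 1 d)
    refine ⟨n₀, fun n hn => ?_⟩
    have h1 := hn₀ n hn
    rw [ncard_ball_eq_card_th hconn hloc, one_mul] at h1
    exact (Nat.pow_le_pow_left (Nat.le_succ n) d).trans h1.le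

end Crest.Agent.R147.St
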