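import Crest.Agent.R147.StLen
import Crest.Agent.R182.GromovCompact

/-!
R147, structure block (helper505), part 8: a group of isometries of a finite-dimensional space whose
image has weakly polynomial growth has a finite index subgroup with commutative image.
-/

set_option autoImplicit false
set_option linter.unusedSectionVars false

open scoped commutatorElement

namespace Crest.Agent.R147.St

open Filter Crest.Agent.R182.Gromov.Compact

variable {W : Type*} [NormedAddCommGroup W] [NormedSpace ℝ W]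

/-- weakly polynomial growth of the image of `ρ`. -/
def ImGrowth {G U : Type*} (l : G → ℕ) (ρ : G → U) (C d : ℕ) : Prop :=
  ∃ᶠ n in atTop, ∀ F : Finset G, (∀ g ∈ F, l g ≤ n) → Set.InjOn ρ F → F.card ≤ C * (n + 1) ^ d

theorem l_P_le' {G : Type*} [Group G] {l : G → ℕ} (hl : PLen l)
    {s : ℕ → G} {M E : ℕ} (hs : ∀ k, l (s k) ≤ M * 4 ^ k) (K : ℕ) (i : Fin K → ℕ)
    (hi : ∀ k, i k ≤ E) : l (P s K i) + E * M ≤ 2 * (E * M) * 4 ^ K := by
  induction K generalizing s M with
  | zero =>
    simp only [P, hl.one, pow_zero]; omega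
  | succ K ih =>
    have h1 := ih (s := fun k => s (k + 1)) (M := 4 * M)
      (fun k => by
        have h := hs (k + 1)
        have h' : M * 4 ^ (k + 1) = 4 * M * 4 ^ k := by ring
        rw [h'] at h
        exact h)
      (fun k => i k.succ) (fun k => hi _)
    have h2 : l (s 0 ^ i 0) ≤ E * M := by
      refine (hl.pow _ _).trans ?_
      have h3 := hs 0
      simp only [pow_zero, mul_one] at h3
      exact Nat.mul_le_mul (hi 0) h3
    have h3 : l (P s (K + 1) i) ≤ l (s 0 ^ i 0) + l (P (fun k => s (k + 1)) K (fun k => i k.succ)) :=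
      hl.mul _ _
    have h4 : 2 * (E * (4 * M)) * 4 ^ K = 2 * (E * M) * 4 ^ (K + 1) := by ring
    rw [h4] at h1
    have h5 : E * (4 * M) = 4 * (E * M) := by ring
    omega

theorem l_comm_le' {G : Type*} [Group G] {l : G → ℕ} (hl : PLen l) (x t : G) :
    l ⁅x, t⁆ ≤ 2 * l x + 2 * l t := by
  rw [commutatorElement_def]
  have h1 := hl.mul (x * t * x⁻¹) t⁻¹
  have h2 := hl.mul (x * t) x⁻¹
  have h3 := hl.mul x t
  rw [hl.inv] at h1 h2
  omega

/-- near-identity elements have commuting images -/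
theorem comm_of_small' {G : Type*} [Group G] {l : G → ℕ} {C d : ℕ} (hl : PLen l)
    (ρ : G →* (W ≃ₗᵢ[ℝ] W)) (hgr : ImGrowth l ρ C d) {g h : G}
    (hg : δ (ρ g) < 1 / (32 * ((4 : ℝ) ^ d) ^ 2)) (hh : δ (ρ h) < 1 / (32 * ((4 : ℝ) ^ d) ^ 2)) :
    ρ ⁅g, h⁆ = 1 := by
  classical
  by_contra hne
  set E : ℕ := 4 ^ d with hE
  have hE1 : 1 ≤ E := Nat.one_le_pow _ _ (by norm_num)
  have hE1' : (1 : ℝ) ≤ E := by exact_mod_cast hE1
  have hEr : ((4 : ℝ) ^ d) = (E : ℝ) := by rw [hE]; push_cast; rfl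
  rw [hEr] at hg hh
  set ε : ℝ := 1 / (32 * (E : ℝ) ^ 2) with hε
  have hεpos : 0 < ε := by positivity
  have hE2 : (1 : ℝ) ≤ (E : ℝ) ^ 2 := one_le_pow₀ hE1'
  have hε1 : ε * (E : ℝ) ^ 2 = 1 / 32 := by rw [hε]; field_simp
  have hεE : ε * E ≤ 1 / 32 := by nlinarith
  have hε32 : ε ≤ 1 / 32 := by nlinarith
  obtain ⟨s, hs0, hs1, hs2⟩ := exists_chain ρ (hg.trans (by linarith)) (hh.trans (by linarith)) hne
  have ht : ∀ t, (t = g ∨ t = h) → δ (ρ t) < ε := by
    rintro t (rfl | rfl) <;> assumption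
  have hdec : ∀ k, δ (ρ (s (k + 1))) ≤ (2 * ε) * δ (ρ (s k)) := by
    intro k
    obtain ⟨t, ht1, ht2⟩ := hs2 k
    rw [ht2, map_commutatorElement]
    refine (δ_comm _ _).trans ?_
    have h1 := ht t ht1
    have h2 := δ_nonneg (ρ (s k))
    nlinarith
  have hs0' : δ (ρ (s 0)) ≤ 2 * ε ^ 2 := by
    rw [hs0, map_commutatorElement]
    refine (δ_comm _ _).trans ?_
    have := δ_nonneg (ρ g)
    have := δ_nonneg (ρ h)
    nlinarith
  have hsk : ∀ k, δ (ρ (s k)) ≤ 2 * ε ^ 2 := by
    intro k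
    induction k with
    | zero => exact hs0'
    | succ k ih =>
      have := hdec k
      have := δ_nonneg (ρ (s k))
      nlinarith
  have hEk : ∀ k, 2 * (E : ℝ) ^ 2 * δ (ρ (s k)) ≤ 1 := by
    intro k
    have h1 := hsk k
    have h2 : 2 * (E : ℝ) ^ 2 * δ (ρ (s k)) ≤ 2 * (E : ℝ) ^ 2 * (2 * ε ^ 2) := by gcongr
    have h3 : 2 * (E : ℝ) ^ 2 * (2 * ε ^ 2) = 4 * (ε * (E : ℝ) ^ 2) * ε := by ring
    rw [h3, hε1] at h2
    linarith
  -- lengths
  set L : ℕ := max (max (l g) (l h)) 1 with hL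
  have hL1 : 1 ≤ L := le_max_right _ _
  have htl : ∀ t, (t = g ∨ t = h) → l t ≤ L := by
    rintro t (rfl | rfl)
    · exact (le_max_left _ _).trans (le_max_left _ _)
    · exact (le_max_right _ _).trans (le_max_left _ _)
  have hlen : ∀ k, l (s k) ≤ (4 * L) * 4 ^ k := by
    intro k
    induction k with
    | zero =>
      rw [hs0]
      have h1 := l_comm_le' hl g h
      have h2 := htl g (Or.inl rfl)
      have h3 := htl h (Or.inr rfl)
      omega
    | succ k ih =>
      obtain ⟨t, ht1, ht2⟩ := hs2 k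
      rw [ht2]
      have h1 := l_comm_le' hl (s k) t
      have h2 := htl t ht1
      have h3 : 1 ≤ 4 ^ k := Nat.one_le_pow _ _ (by norm_num)
      have h4 : L ≤ L * 4 ^ k := by nlinarith
      have h5 : (4 * L) * 4 ^ (k + 1) = 4 * ((4 * L) * 4 ^ k) := by ring
      have h6 : (4 * L) * 4 ^ k = 4 * (L * 4 ^ k) := by ring
      omega
  set D : ℕ := 2 * (E * (4 * L)) with hD
  have hD1 : 1 ≤ D := by
    have h1 : 1 ≤ E * (4 * L) := Nat.one_le_iff_ne_zero.2 (by positivity)
    omega
  -- counting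
  have hcount : ∀ n K : ℕ, (∀ F : Finset G, (∀ g ∈ F, l g ≤ n) → Set.InjOn ρ F →
      F.card ≤ C * (n + 1) ^ d) → D * 4 ^ K ≤ n → (E + 1) ^ K ≤ C * (n + 1) ^ d := by
    intro n K hn hK
    let f : (Fin K → Fin (E + 1)) → G := fun i => P s K (fun k => (i k : ℕ))
    have hinjρ : Function.Injective (fun i => ρ (f i)) := by
      intro i j hij
      have h1 : P (fun k => ρ (s k)) K (fun k => (i k : ℕ))
          = P (fun k => ρ (s k)) K (fun k => (j k : ℕ)) := by
        rw [← P_map, ← P_map]; exact hij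
      have h2 := P_inj (s := fun k => ρ (s k)) (η := 2 * ε) (E := E) (by linarith) (by linarith)
        hdec (fun k => δ_pos (hs1 k)) hEk K _ _ (fun k => Nat.le_of_lt_succ (i k).2)
        (fun k => Nat.le_of_lt_succ (j k).2) h1
      funext k
      exact Fin.ext (congrFun h2 k)
    have hinj : Function.Injective f := fun i j hij => hinjρ (congrArg ρ hij)
    have h1 := hn (Finset.univ.image f) (by
        intro g hg
        obtain ⟨i, _, rfl⟩ := Finset.mem_image.1 hg
        have := l_P_le' hl hlen K (fun k => (i k : ℕ)) (fun k => Nat.le_of_lt_succ (i k).2)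
        exact (le_trans (Nat.le_add_right _ _) this).trans hK) (by
        intro a ha b hb hab
        rw [Finset.mem_coe] at ha hb
        obtain ⟨i, _, rfl⟩ := Finset.mem_image.1 ha
        obtain ⟨j, _, rfl⟩ := Finset.mem_image.1 hb
        rw [hinjρ hab])
    rw [Finset.card_image_of_injective _ hinj] at h1
    simpa using h1
  -- contradiction
  set B : ℝ := C * (8 * D : ℝ) ^ d with hB
  have hfr : ∃ᶠ K in atTop, ((E : ℝ) + 1) ^ K ≤ B * (E : ℝ) ^ K := by
    rw [frequently_atTop]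
    intro a
    rw [ImGrowth, frequently_atTop] at hgr
    obtain ⟨n, hna, hn⟩ := hgr (D * 4 ^ a)
    -- the largest `K` with `D * 4 ^ K ≤ n`
    obtain ⟨K, hK1, hK2, hK3⟩ : ∃ K, a ≤ K ∧ D * 4 ^ K ≤ n ∧ n < D * 4 ^ (K + 1) := by
      have hex : ∃ K, n < D * 4 ^ (K + 1) := by
        refine ⟨n, ?_⟩
        calc n < 4 ^ n := Nat.lt_pow_self (by norm_num)
          _ ≤ 4 ^ (n + 1) := Nat.pow_le_pow_right (by norm_num) (by omega)
          _ ≤ D * 4 ^ (n + 1) := Nat.le_mul_of_pos_left _ (by omega)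
      have h1 := Nat.find_spec hex
      have hle : a ≤ Nat.find hex := by
        by_contra hlt
        push Not at hlt
        have h2 : D * 4 ^ (Nat.find hex + 1) ≤ D * 4 ^ a :=
          Nat.mul_le_mul_left _ (Nat.pow_le_pow_right (by norm_num) (by omega))
        omega
      refine ⟨Nat.find hex, hle, ?_, h1⟩
      rcases Nat.eq_zero_or_pos (Nat.find hex) with h0 | hpos
      · rw [h0]
        have h2 : D * 4 ^ 0 ≤ D * 4 ^ a :=
          Nat.mul_le_mul_left _ (Nat.pow_le_pow_right (by norm_num) (by omega))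
        omega
      · have h3 := Nat.find_min hex (m := Nat.find hex - 1) (by omega)
        rw [Nat.sub_add_cancel hpos] at h3
        omega
    refine ⟨K, hK1, ?_⟩
    have h1 := hcount n K hn hK2
    have h2 : n + 1 ≤ 8 * D * 4 ^ K := by
      have : D * 4 ^ (K + 1) = 4 * (D * 4 ^ K) := by ring
      have h3 : 8 * D * 4 ^ K = 8 * (D * 4 ^ K) := by ring
      have h4 : 1 ≤ D * 4 ^ K := by
        have : 1 ≤ 4 ^ K := Nat.one_le_pow _ _ (by norm_num)
        nlinarith
      omega
    have h3 : ((n : ℝ) + 1) ≤ (8 * D) * 4 ^ K := by exact_mod_cast h2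
    have h4 : (((E + 1) ^ K : ℕ) : ℝ) ≤ ((C * (n + 1) ^ d : ℕ) : ℝ) := by exact_mod_cast h1
    push_cast at h4
    refine h4.trans ?_
    calc (C : ℝ) * ((n : ℝ) + 1) ^ d ≤ C * ((8 * D : ℝ) * 4 ^ K) ^ d := by gcongr
      _ = B * (E : ℝ) ^ K := by
          rw [hB, mul_pow, ← hEr, ← pow_mul, ← pow_mul, mul_comm K d]; ring
  have htend : Tendsto (fun K : ℕ => (((E : ℝ) + 1) / E) ^ K) atTop atTop := by
    apply tendsto_pow_atTop_atTop_of_one_lt
    rw [lt_div_iff₀ (by linarith)]
    linarith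
  obtain ⟨K, hKK, hK⟩ := (hfr.and_eventually (htend.eventually_gt_atTop B)).exists
  rw [div_pow, lt_div_iff₀ (by positivity)] at hK
  linarith

/-- **Compact part.** -/
theorem compact_part' {G : Type*} [Group G] {l : G → ℕ} {C d : ℕ} (hl : PLen l)
    [FiniteDimensional ℝ W] (ρ : G →* (W ≃ₗᵢ[ℝ] W)) (hgr : ImGrowth l ρ C d) :
    ∃ G0 : Subgroup G, G0.FiniteIndex ∧ ∀ g ∈ G0, ∀ h ∈ G0, ρ (g * h) = ρ (h * g) := by
  classical
  set ε : ℝ := 1 / (32 * ((4 : ℝ) ^ d) ^ 2) with hε
  have hεpos : 0 < ε := by positivity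
  set N : Set G := {g | δ (ρ g) < ε} with hN
  refine ⟨Subgroup.closure N, ?_, ?_⟩
  · -- finite index
    have hbdd : Bornology.IsBounded (Set.range (fun g : G => op (ρ g))) := by
      rw [isBounded_iff_forall_norm_le]
      exact ⟨1, by rintro _ ⟨g, rfl⟩; exact norm_op_le _⟩
    have htb : TotallyBounded (Set.range (fun g : G => op (ρ g))) := by
      have hc : IsCompact (closure (Set.range (fun g : G => op (ρ g)))) := hbdd.isCompact_closure
      exact hc.totallyBounded.subset subset_closure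
    obtain ⟨T, hTsub, hTfin, hT⟩ := Metric.finite_approx_of_totallyBounded htb ε hεpos
    have hchoose : ∀ y : T, ∃ g : G, op (ρ g) = y.1 := fun y => hTsub y.2
    choose r hr using hchoose
    have : Finite T := hTfin
    have hsurj : Function.Surjective (fun y : T => (QuotientGroup.mk (r y) : G ⧸ Subgroup.closure N)) := by
      intro q
      obtain ⟨g, rfl⟩ := QuotientGroup.mk_surjective q
      have h1 : op (ρ g) ∈ ⋃ y ∈ T, Metric.ball y ε := hT ⟨g, rfl⟩
      simp only [Set.mem_iUnion, Metric.mem_ball, exists_prop] at h1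
      obtain ⟨y, hyT, hy⟩ := h1
      refine ⟨⟨y, hyT⟩, ?_⟩
      rw [QuotientGroup.eq]
      apply Subgroup.subset_closure
      show δ (ρ ((r ⟨y, hyT⟩)⁻¹ * g)) < ε
      have h2 : op (ρ ((r ⟨y, hyT⟩)⁻¹ * g)) - 1
          = op (ρ (r ⟨y, hyT⟩))⁻¹ * (op (ρ g) - op (ρ (r ⟨y, hyT⟩))) := by
        rw [map_mul, map_inv, op_mul, mul_sub, ← op_mul _ (ρ (r ⟨y, hyT⟩)), inv_mul_cancel, op_one]
      rw [δ, h2, norm_op_mul, hr, ← dist_eq_norm]
      exact hy
    have : Finite (G ⧸ Subgroup.closure N) := Finite.of_surjective _ hsurj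
    exact Subgroup.finiteIndex_of_finite_quotient
  · have hcomm : ∀ g ∈ N, ∀ h ∈ N, ρ g * ρ h = ρ h * ρ g := by
      intro g hg h hh
      have h1 := comm_of_small' hl ρ hgr hg hh
      rw [map_commutatorElement, commutatorElement_eq_one_iff_mul_comm] at h1
      exact h1
    intro g hg h hh
    rw [map_mul, map_mul]
    have h1 : ∀ g ∈ N, ∀ h ∈ Subgroup.closure N, ρ g * ρ h = ρ h * ρ g := by
      intro g hg h hh
      have hle : Subgroup.closure N ≤ (Subgroup.centralizer {ρ g}).comap ρ := by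
        rw [Subgroup.closure_le]
        intro v hv
        rw [SetLike.mem_coe, Subgroup.mem_comap, Subgroup.mem_centralizer_singleton_iff]
        exact (hcomm g hg v hv).symm
      have := hle hh
      rw [Subgroup.mem_comap, Subgroup.mem_centralizer_singleton_iff] at this
      exact this.symm
    have hle : Subgroup.closure N ≤ (Subgroup.centralizer {ρ h}).comap ρ := by
      rw [Subgroup.closure_le]
      intro v hv
      rw [SetLike.mem_coe, Subgroup.mem_comap, Subgroup.mem_centralizer_singleton_iff]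
      exact h1 v hv h hh
    have := hle hg
    rw [Subgroup.mem_comap, Subgroup.mem_centralizer_singleton_iff] at this
    exact this

end Crest.Agent.R147.St
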