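import Crest.Agent.R147.StNet

/-!
R147, structure block (helper505), part 2: entropy of the walk on a transitive graph of weakly
polynomial growth; `D n x y ≤ K / (n + 1)` for neighbours and infinitely many `n`.
-/

set_option autoImplicit false
set_option linter.unusedSectionVars false
set_option linter.unusedSimpArgs false

namespace Crest.Agent.R147.St

open Function Finset

namespace Net

variable {X : Type*} (A : Net X)

/-- Pointwise entropy inequality. -/
lemma pointwise (p : X → ℝ) (hp : ∀ i, 0 ≤ p i) (x : X) :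
    A.P (fun i => (Real.sqrt (p i) - Real.sqrt (A.P p x)) ^ 2) x
      ≤ Real.negMulLog (A.P p x) - A.P (fun i => Real.negMulLog (p i)) x := by
  set r := A.P p x with hr
  have hr0 : 0 ≤ r := A.P_nonneg hp x
  have e1 : ∀ i, (Real.sqrt (p i) - Real.sqrt r) ^ 2
      = p i + (r - 2 * (Real.sqrt (p i) * Real.sqrt r)) := by
    intro i
    have h1 := Real.sq_sqrt (hp i)
    have h2 := Real.sq_sqrt hr0
    linear_combination h1 + h2
  have e2 : A.P (fun i => (Real.sqrt (p i) - Real.sqrt r) ^ 2) x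
      = A.P (fun i => 2 * p i - 2 * (Real.sqrt (p i) * Real.sqrt r)) x := by
    have ea : A.P (fun i => (Real.sqrt (p i) - Real.sqrt r) ^ 2) x
        = r + (r - 2 * A.P (fun i => Real.sqrt (p i) * Real.sqrt r) x) := by
      simp_rw [e1]
      rw [P_add, P_sub, P_const, P_smul]
    have eb : A.P (fun i => 2 * p i - 2 * (Real.sqrt (p i) * Real.sqrt r)) x
        = 2 * r - 2 * A.P (fun i => Real.sqrt (p i) * Real.sqrt r) x := by
      rw [P_sub, P_smul, P_smul]
    rw [ea, eb]
    ring
  rw [e2]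
  rcases hr0.eq_or_lt with h0 | hpos
  · have hp0 : ∀ i ∈ A.nb x, p i = 0 := by
      intro i hi
      have := A.le_N_mul_P hp hi
      rw [← hr, ← h0, mul_zero] at this
      exact le_antisymm this (hp i)
    have h1 : A.P (fun i => 2 * p i - 2 * (Real.sqrt (p i) * Real.sqrt r)) x = 0 := by
      rw [A.P_congr (g := fun _ => (0 : ℝ)) (fun i hi => by rw [hp0 i hi]; simp), P_const]
    have h2 : A.P (fun i => Real.negMulLog (p i)) x = 0 := by
      rw [A.P_congr (g := fun _ => (0 : ℝ)) (fun i hi => by rw [hp0 i hi]; simp), P_const]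
    rw [h1, h2, ← h0]
    simp
  · have e3 : Real.negMulLog r = A.P (fun i => -(Real.log r) * p i) x := by
      rw [P_smul, ← hr, Real.negMulLog]; ring
    rw [e3, ← P_sub]
    apply P_mono
    intro i _
    rcases (hp i).eq_or_lt with hi | hi
    · rw [← hi]; simp
    · have hs : 0 < Real.sqrt (r / p i) := Real.sqrt_pos.mpr (div_pos hpos hi)
      have h1 := Real.log_le_sub_one_of_pos hs
      rw [Real.log_sqrt (div_pos hpos hi).le, Real.log_div hpos.ne' hi.ne'] at h1
      have h2 : p i * Real.sqrt (r / p i) = Real.sqrt (p i) * Real.sqrt r := by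
        rw [Real.sqrt_div hr0]
        have h3 := Real.mul_self_sqrt (hp i)
        have h4 : Real.sqrt (p i) ≠ 0 := (Real.sqrt_pos.mpr hi).ne'
        field_simp
        rw [sq, h3]
      have h5 : p i * ((Real.log r - Real.log (p i)) / 2) ≤ p i * (Real.sqrt (r / p i) - 1) :=
        mul_le_mul_of_nonneg_left h1 (hp i)
      rw [mul_sub, h2] at h5
      rw [Real.negMulLog]
      nlinarith

/-- Entropy of the walk. -/
noncomputable def H (n : ℕ) (x : X) : ℝ := ∑' z, Real.negMulLog (A.p n x z)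

lemma nml_fs {f : X → ℝ} (hf : FS f) : FS (fun x => Real.negMulLog (f x)) :=
  hf.mono fun x hx => by simp [hx]

lemma H_succ_sub (n : ℕ) (x : X) :
    A.P (fun y => ∑' z, (Real.sqrt (A.p n y z) - Real.sqrt (A.p (n + 1) x z)) ^ 2) x
      ≤ A.H (n + 1) x - A.P (A.H n) x := by
  have f1 : ∀ y, FS fun z => (Real.sqrt (A.p n y z) - Real.sqrt (A.p (n + 1) x z)) ^ 2 :=
    fun y => sq_sub_fs (A.p_fs n y) (A.p_fs (n + 1) x)
  rw [← A.tsum_P (fun y _ => f1 y)]
  have f2 : ∀ y, FS fun z => Real.negMulLog (A.p n y z) := fun y => nml_fs (A.p_fs n y)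
  have e1 : A.P (A.H n) x = ∑' z, A.P (fun y => Real.negMulLog (A.p n y z)) x := by
    rw [A.tsum_P (fun y _ => f2 y)]
    rfl
  have f3 : FS fun z => A.P (fun y => Real.negMulLog (A.p n y z)) x := A.P_fs (fun y _ => f2 y)
  have f4 : FS fun z => A.P (fun y => (Real.sqrt (A.p n y z)
        - Real.sqrt (A.p (n + 1) x z)) ^ 2) x := A.P_fs (fun y _ => f1 y)
  have f5 : FS fun z => Real.negMulLog (A.p (n + 1) x z) := nml_fs (A.p_fs _ _)
  rw [e1, H, ← f5.summable.tsum_sub f3.summable]
  apply f4.summable.tsum_le_tsum _ (f5.summable.sub f3.summable)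
  intro z
  have := A.pointwise (fun y => A.p n y z) (fun y => A.p_nonneg n _ _) x
  rw [← p_succ] at this
  exact this

lemma nml_le {w N : ℝ} (hw : 0 ≤ w) (hN : 0 < N) :
    Real.negMulLog w ≤ w * Real.log N + (N⁻¹ - w) := by
  rcases hw.eq_or_lt with h | h
  · rw [← h]; simp; positivity
  · have h1 := Real.log_le_sub_one_of_pos (x := (N * w)⁻¹) (by positivity)
    rw [Real.log_inv, Real.log_mul hN.ne' h.ne'] at h1
    have h2 := mul_le_mul_of_nonneg_left h1 hw
    have h3 : w * ((N * w)⁻¹ - 1) = N⁻¹ - w := by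
      field_simp
    rw [h3] at h2
    rw [Real.negMulLog]
    nlinarith

lemma H_le (n : ℕ) (x : X) (F : Finset X) (hF : ∀ z ∉ F, A.p n x z = 0) :
    A.H n x ≤ Real.log F.card := by
  have hs : ∑ z ∈ F, A.p n x z = 1 := by
    rw [← A.p_sum n x, tsum_eq_sum (s := F) (fun z hz => hF z hz)]
  have hne : F.Nonempty := by
    rw [Finset.nonempty_iff_ne_empty]
    intro h
    rw [h] at hs
    simp at hs
  have hN : (0 : ℝ) < F.card := by exact_mod_cast hne.card_pos
  unfold H
  rw [tsum_eq_sum (s := F) (fun z hz => by simp [hF z hz])]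
  calc ∑ z ∈ F, Real.negMulLog (A.p n x z)
      ≤ ∑ z ∈ F, (A.p n x z * Real.log F.card + ((F.card : ℝ)⁻¹ - A.p n x z)) :=
        Finset.sum_le_sum fun z _ => nml_le (A.p_nonneg n x z) hN
    _ = Real.log F.card := by
      rw [Finset.sum_add_distrib, ← Finset.sum_mul, Finset.sum_sub_distrib, hs,
        Finset.sum_const, nsmul_eq_mul, mul_inv_cancel₀ hN.ne']
      ring

/-- exhaustion: `B n` contains the ball of radius `n` about `o`. -/
def Exh (o : X) (B : ℕ → Finset X) : Prop :=
  o ∈ B 0 ∧ ∀ n x, x ∈ B n → ∀ y ∈ A.nb x, y ∈ B (n + 1)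

lemma p_supp {o : X} {B : ℕ → Finset X} (hB : A.Exh o B) (n : ℕ) :
    ∀ z, A.p n o z ≠ 0 → z ∈ B n := by
  classical
  induction n with
  | zero =>
    intro z hz
    have : o = z := by
      by_contra h
      apply hz
      rw [p_zero, if_neg h]
    rw [← this]; exact hB.1
  | succ n ih =>
    intro z hz
    by_contra hcon
    apply hz
    rw [p_succ', A.P_congr (g := fun _ => (0 : ℝ)), P_const]
    intro y hy
    by_contra h
    exact hcon (hB.2 n y (ih y h) z (A.symm hy))

/-- A sequence with logarithmic growth has small increments infinitely often. -/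
lemma exists_small_increment {u : ℕ → ℝ} {a : ℝ} {d : ℕ}
    (hu : ∃ᶠ n in Filter.atTop, u n ≤ a + d * Real.log ((n : ℝ) + 1)) (N : ℕ) :
    ∃ n ≥ N, u (n + 1) - u n ≤ (d + 1) / (n + 1) := by
  by_contra hcon
  push Not at hcon
  have h1 : ∀ k : ℕ, u N + (d + 1) * (Real.log (((N + k : ℕ) : ℝ) + 1) - Real.log (N + 1))
      ≤ u (N + k) := by
    intro k
    induction k with
    | zero => simp
    | succ k ih =>
      have h2 := hcon (N + k) (by omega)
      have h3 : Real.log (((N + (k + 1) : ℕ) : ℝ) + 1) - Real.log (((N + k : ℕ) : ℝ) + 1)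
          ≤ 1 / (((N + k : ℕ) : ℝ) + 1) := by
        have hpos : (0 : ℝ) < ((N + k : ℕ) : ℝ) + 1 := by positivity
        rw [← Real.log_div (by positivity) hpos.ne']
        refine (Real.log_le_sub_one_of_pos (by positivity)).trans (le_of_eq ?_)
        push_cast
        field_simp
        ring
      have h4 : (d + 1 : ℝ) * (Real.log (((N + (k + 1) : ℕ) : ℝ) + 1)
          - Real.log (((N + k : ℕ) : ℝ) + 1)) ≤ (d + 1) / (((N + k : ℕ) : ℝ) + 1) := by
        have := mul_le_mul_of_nonneg_left h3 (by positivity : (0 : ℝ) ≤ d + 1)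
        rwa [mul_one_div] at this
      rw [← add_assoc N k 1]
      rw [← add_assoc N k 1] at h4
      linarith
  have h7 : Filter.Tendsto (fun n : ℕ => Real.log ((n : ℝ) + 1)) Filter.atTop Filter.atTop := by
    apply Real.tendsto_log_atTop.comp
    apply Filter.tendsto_atTop_add_const_right
    exact tendsto_natCast_atTop_atTop
  obtain ⟨n, hn1, hn2, hn3⟩ := (hu.and_eventually ((h7.eventually (Filter.eventually_gt_atTop
    (a - u N + (d + 1) * Real.log (N + 1)))).and (Filter.eventually_ge_atTop N))).exists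
  obtain ⟨k, rfl⟩ := Nat.exists_eq_add_of_le hn3
  have h6 := (h1 k).trans hn1
  linarith

section action

variable {G : Type*} [Group G] [MulAction G X]

/-- the group acts by automorphisms. -/
def Equivar (G : Type*) [Group G] [MulAction G X] : Prop :=
  ∀ (g : G) (x y : X), y ∈ A.nb x → g • y ∈ A.nb (g • x)

variable {A} (hG : A.Equivar G)
include hG

lemma mem_smul_iff (g : G) (x y : X) : g • y ∈ A.nb (g • x) ↔ y ∈ A.nb x := by
  constructor
  · intro h
    have := hG g⁻¹ _ _ h
    simpa using this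
  · exact hG g x y

lemma P_act (f : X → ℝ) (g : G) (x : X) : A.P f (g • x) = A.P (fun y => f (g • y)) x := by
  unfold P
  congr 1
  symm
  refine Finset.sum_bij (fun y _ => g • y) ?_ ?_ ?_ ?_
  · intro y hy; exact hG g x y hy
  · intro a _ b _ hab; exact MulAction.injective g hab
  · intro b hb
    refine ⟨g⁻¹ • b, ?_, by simp⟩
    rw [← mem_smul_iff hG g]
    simpa using hb
  · intro y _; rfl

lemma p_act (n : ℕ) (g : G) (x z : X) : A.p n (g • x) (g • z) = A.p n x z := by
  classical
  induction n generalizing x z with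
  | zero =>
    rw [p_zero, p_zero]
    simp
  | succ n ih =>
    rw [p_succ, p_succ, P_act hG]
    exact A.P_congr fun y _ => ih y z

lemma E_act (n : ℕ) (f : X → ℝ) (g : G) (x : X) :
    A.E n f (g • x) = A.E n (fun y => f (g • y)) x := by
  induction n generalizing x with
  | zero => rfl
  | succ n ih =>
    rw [E_succ_left, E_succ_left, P_act hG]
    exact A.P_congr fun y _ => ih y

lemma tsum_act (f : X → ℝ) (g : G) : ∑' x, f (g • x) = ∑' x, f x :=
  (MulAction.toPerm g).tsum_eq f

lemma D_act (n : ℕ) (g : G) (x y : X) : A.D n (g • x) (g • y) = A.D n x y := by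
  unfold D
  rw [← tsum_act hG _ g]
  exact tsum_congr fun z => by rw [p_act hG, p_act hG]

lemma H_act (n : ℕ) (g : G) (x : X) : A.H n (g • x) = A.H n x := by
  unfold H
  rw [← tsum_act hG _ g]
  exact tsum_congr fun z => by rw [p_act hG]

lemma H_eq [MulAction.IsPretransitive G X] (n : ℕ) (x y : X) : A.H n x = A.H n y := by
  obtain ⟨g, rfl⟩ := MulAction.exists_smul_eq G y x
  exact H_act hG n g y

lemma D_le [MulAction.IsPretransitive G X] (n : ℕ) {x y : X} (hy : y ∈ A.nb x) :
    A.D n x y ≤ 4 * A.N * (A.H (n + 1) x - A.H n x) := by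
  set T : X → ℝ := fun y => ∑' z, (Real.sqrt (A.p n y z) - Real.sqrt (A.p (n + 1) x z)) ^ 2 with hT
  have hT0 : ∀ i, 0 ≤ T i := fun i => tsum_nonneg fun _ => sq_nonneg _
  have hHx : A.P (A.H n) x = A.H n x := by
    rw [A.P_congr (g := fun _ => A.H n x) (fun y _ => H_eq hG n y x), P_const]
  have h2 : ∀ j ∈ A.nb x, T j ≤ A.N * (A.H (n + 1) x - A.H n x) := fun j hj =>
    (A.le_N_mul_P hT0 hj).trans
      (mul_le_mul_of_nonneg_left (by rw [← hHx]; exact A.H_succ_sub n x) (A.N_pos x).le)
  have f1 : ∀ y, FS fun z => (Real.sqrt (A.p n y z) - Real.sqrt (A.p (n + 1) x z)) ^ 2 :=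
    fun y => sq_sub_fs (A.p_fs n y) (A.p_fs (n + 1) x)
  have f2 : FS fun z => (Real.sqrt (A.p n y z) - Real.sqrt (A.p n x z)) ^ 2 :=
    sq_sub_fs (A.p_fs n y) (A.p_fs n x)
  have h3 : A.D n x y ≤ 2 * T y + 2 * T x := by
    rw [hT]
    simp only
    rw [← tsum_mul_left, ← tsum_mul_left,
      ← ((f1 y).const_mul 2).summable.tsum_add ((f1 x).const_mul 2).summable]
    apply f2.summable.tsum_le_tsum _
      (((f1 y).const_mul 2).summable.add ((f1 x).const_mul 2).summable)
    intro z
    nlinarith [sq_nonneg ((Real.sqrt (A.p n y z) - Real.sqrt (A.p (n + 1) x z))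
      + (Real.sqrt (A.p n x z) - Real.sqrt (A.p (n + 1) x z)))]
  nlinarith [h2 y hy, h2 x (A.self x)]

/-- Main estimate. -/
theorem exists_good [MulAction.IsPretransitive G X] {o : X} {B : ℕ → Finset X} {C d : ℕ}
    (hB : A.Exh o B) (hC : ∃ᶠ n in Filter.atTop, (B n).card ≤ C * (n + 1) ^ d) :
    ∃ K : ℝ, 0 < K ∧ ∀ M : ℕ, ∃ n ≥ M, ∀ x, ∀ y ∈ A.nb x, A.D n x y ≤ K / (n + 1) := by
  have hu : ∃ᶠ n in Filter.atTop, A.H n o ≤ Real.log C + d * Real.log ((n : ℝ) + 1) := by
    refine hC.mono fun n hn => ?_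
    have h1 := A.H_le n o (B n) (fun z hz => by
      by_contra h
      exact hz (A.p_supp hB n z h))
    have hpos : (0 : ℝ) < (B n).card := by
      have hs : ∃ z, A.p n o z ≠ 0 := by
        by_contra h
        push Not at h
        have := A.p_sum n o
        simp [h] at this
      obtain ⟨z, hz⟩ := hs
      exact_mod_cast Finset.card_pos.2 ⟨z, A.p_supp hB n z hz⟩
    have hle : ((B n).card : ℝ) ≤ C * ((n : ℝ) + 1) ^ d := by exact_mod_cast hn
    have hCpos : (0 : ℝ) < C := by
      by_contra h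
      push Not at h
      have : (C : ℝ) * ((n : ℝ) + 1) ^ d ≤ 0 := mul_nonpos_of_nonpos_of_nonneg h (by positivity)
      linarith
    calc A.H n o ≤ Real.log (B n).card := h1
      _ ≤ Real.log (C * ((n : ℝ) + 1) ^ d) := Real.log_le_log hpos hle
      _ = Real.log C + d * Real.log ((n : ℝ) + 1) := by
        rw [Real.log_mul hCpos.ne' (by positivity), Real.log_pow]
  have hN := A.N_pos o
  refine ⟨4 * A.N * (d + 1), by positivity, fun M => ?_⟩
  obtain ⟨n, hn, hsmall⟩ := exists_small_increment hu M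
  refine ⟨n, hn, fun x y hy => ?_⟩
  calc A.D n x y ≤ 4 * A.N * (A.H (n + 1) x - A.H n x) := D_le hG n hy
    _ = 4 * A.N * (A.H (n + 1) o - A.H n o) := by rw [H_eq hG (n + 1) x o, H_eq hG n x o]
    _ ≤ 4 * A.N * ((d + 1) / (n + 1)) := by gcongr
    _ = 4 * A.N * (d + 1) / (n + 1) := by ring

end action

end Net

end Crest.Agent.R147.St
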