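import Crest.Agent.R147.StEnt

/-!
R147, structure block (helper505), part 4: an infinite transitive graph of weakly polynomial growth
carries a non-constant Lipschitz harmonic function.
-/

set_option autoImplicit false
set_option linter.unusedSectionVars false
set_option linter.unusedSimpArgs false

namespace Crest.Agent.R147.St

open Function Finset

section ip

variable {X : Type*}

/-- scalar product of functions. -/
noncomputable def ip (u v : X → ℝ) : ℝ := ∑' x, u x * v x

lemma ip_comm (u v : X → ℝ) : ip u v = ip v u := tsum_congr fun _ => mul_comm _ _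

lemma ip_summable {u v : X → ℝ} (hv : FS v) : Summable fun x => u x * v x :=
  (hv.mul_left u).summable

lemma ip_sub_left {u v w : X → ℝ} (hw : FS w) : ip (u - v) w = ip u w - ip v w := by
  unfold ip
  rw [← (ip_summable hw).tsum_sub (ip_summable hw)]
  exact tsum_congr fun x => by simp only [Pi.sub_apply]; ring

lemma ip_add_left {u v w : X → ℝ} (hw : FS w) : ip (u + v) w = ip u w + ip v w := by
  unfold ip
  rw [← (ip_summable hw).tsum_add (ip_summable hw)]
  exact tsum_congr fun x => by simp only [Pi.add_apply]; ring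

lemma ip_smul_left (c : ℝ) (u w : X → ℝ) : ip (c • u) w = c * ip u w := by
  unfold ip
  rw [← tsum_mul_left]
  exact tsum_congr fun x => by simp only [Pi.smul_apply, smul_eq_mul]; ring

lemma ip_sum_left {κ : Type*} (s : Finset κ) (u : κ → X → ℝ) {w : X → ℝ} (hw : FS w) :
    ip (∑ i ∈ s, u i) w = ∑ i ∈ s, ip (u i) w := by
  classical
  induction s using Finset.induction_on with
  | empty => simp [ip]
  | insert a s ha ih => rw [Finset.sum_insert ha, Finset.sum_insert ha, ip_add_left hw, ih]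

lemma ip_self_nonneg (u : X → ℝ) : 0 ≤ ip u u := tsum_nonneg fun _ => mul_self_nonneg _

lemma ip_cs {u v : X → ℝ} (hu : FS u) (hv : FS v) : ip u v ^ 2 ≤ ip u u * ip v v := by
  have h := tsum_cs hu hv
  simp only [sq] at h ⊢
  exact h

lemma fs_sub {u v : X → ℝ} (hu : FS u) (hv : FS v) : FS (u - v) := hu.sub hv
lemma fs_add {u v : X → ℝ} (hu : FS u) (hv : FS v) : FS (u + v) := hu.add hv

lemma ip_sub_self {u v : X → ℝ} (hu : FS u) (hv : FS v) :
    ip (u - v) (u - v) = ip u u + ip v v - 2 * ip u v := by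
  have h1 := fs_sub hu hv
  rw [ip_sub_left h1, ip_comm u (u - v), ip_comm v (u - v), ip_sub_left hu, ip_sub_left hv,
    ip_comm v u]
  ring

lemma ip_add_self {u v : X → ℝ} (hu : FS u) (hv : FS v) :
    ip (u + v) (u + v) = ip u u + ip v v + 2 * ip u v := by
  have h1 := fs_add hu hv
  rw [ip_add_left h1, ip_comm u (u + v), ip_comm v (u + v), ip_add_left hu, ip_add_left hv,
    ip_comm v u]
  ring

end ip

namespace Net

variable {X : Type*} (A : Net X)

/-- Markov operator as a linear map. -/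
noncomputable def PL : (X → ℝ) →ₗ[ℝ] (X → ℝ) where
  toFun f := A.P f
  map_add' f g := funext fun x => A.P_add f g x
  map_smul' c f := funext fun x => A.P_smul c f x

lemma PL_apply (f : X → ℝ) (x : X) : A.PL f x = A.P f x := rfl

/-- lazy Markov operator. -/
noncomputable def Q : (X → ℝ) →ₗ[ℝ] (X → ℝ) := (2⁻¹ : ℝ) • (LinearMap.id + A.PL)

lemma Q_apply (f : X → ℝ) : A.Q f = (2⁻¹ : ℝ) • (f + A.PL f) := rfl

lemma PL_fs {f : X → ℝ} (hf : FS f) : FS (A.PL f) := by
  refine Set.Finite.subset (hf.biUnion fun x _ => (A.nb x).finite_toSet) ?_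
  intro z hz
  by_contra hcon
  apply hz
  show A.P f z = 0
  rw [A.P_congr (g := fun _ => (0 : ℝ)), P_const]
  intro y hy
  by_contra h
  exact hcon (Set.mem_biUnion (x := y) h (A.symm hy))

lemma Q_fs {f : X → ℝ} (hf : FS f) : FS (A.Q f) :=
  (fs_add hf (A.PL_fs hf)).const_mul _

lemma ip_PL {u v : X → ℝ} (hu : FS u) (hv : FS v) : ip (A.PL u) v = ip u (A.PL v) := by
  classical
  set F : Finset X := hu.toFinset ∪ hv.toFinset with hF
  have hu0 : ∀ x ∉ F, u x = 0 := by
    intro x hx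
    by_contra h
    exact hx (Finset.mem_union.2 (Or.inl ((Set.Finite.mem_toFinset hu).2 h)))
  have hv0 : ∀ x ∉ F, v x = 0 := by
    intro x hx
    by_contra h
    exact hx (Finset.mem_union.2 (Or.inr ((Set.Finite.mem_toFinset hv).2 h)))
  have key : ∀ f : X → ℝ, (∀ x ∉ F, f x = 0) → ∀ x,
      A.P f x = (A.N : ℝ)⁻¹ * ∑ y ∈ F, if y ∈ A.nb x then f y else 0 := by
    intro f hf x
    unfold P
    congr 1
    rw [← Finset.sum_filter]
    symm
    refine Finset.sum_subset ?_ ?_ |>.trans rfl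
    · intro y hy
      exact (Finset.mem_filter.1 hy).2
    · intro y hy hy'
      apply hf
      intro hyF
      exact hy' (Finset.mem_filter.2 ⟨hyF, hy⟩)
  unfold ip
  rw [tsum_eq_sum (s := F) (fun x hx => by rw [hv0 x hx, mul_zero]),
    tsum_eq_sum (s := F) (fun x hx => by rw [hu0 x hx, zero_mul])]
  simp only [PL_apply]
  simp_rw [key u hu0, key v hv0]
  simp_rw [Finset.mul_sum, Finset.sum_mul]
  rw [Finset.sum_comm]
  refine Finset.sum_congr rfl fun x _ => ?_
  refine Finset.sum_congr rfl fun y _ => ?_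
  by_cases h : x ∈ A.nb y
  · rw [if_pos h, if_pos (A.symm h)]; ring
  · rw [if_neg h, if_neg (fun h' => h (A.symm h'))]; ring

lemma ip_Q {u v : X → ℝ} (hu : FS u) (hv : FS v) : ip (A.Q u) v = ip u (A.Q v) := by
  rw [ip_comm u (A.Q v), Q_apply, Q_apply, ip_smul_left, ip_add_left hv, ip_smul_left,
    ip_add_left hu, A.ip_PL hu hv, ip_comm v u, ip_comm (A.PL v) u]

/-- Schur test for `P`. -/
lemma ip_PL_abs {u : X → ℝ} (hu : FS u) : 0 ≤ ip u u + ip (A.PL u) u := by
  classical
  -- `∑_x ∑_{y ∈ nb x} (u x + u y)^2 ≥ 0`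
  have h1 : ∀ x, 0 ≤ A.P (fun y => (u x + u y) ^ 2) x := fun x => A.P_nonneg (fun y => sq_nonneg _) x
  have e : ∀ x, A.P (fun y => (u x + u y) ^ 2) x
      = u x * u x + 2 * (A.PL u x * u x) + A.PL (fun y => u y * u y) x := by
    intro x
    have : A.P (fun y => (u x + u y) ^ 2) x
        = A.P (fun y => (u x * u x + (2 * u x) * u y) + u y * u y) x :=
      A.P_congr fun y _ => by ring
    rw [this, P_add, P_add, P_const, P_smul, PL_apply, PL_apply]
    ring
  have hf1 : FS (fun x => u x * u x) := hu.mul_left u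
  have hf2 : FS (fun x => 2 * (A.PL u x * u x)) := (hu.mul_left _).const_mul 2
  have hf3 : FS (A.PL (fun y => u y * u y)) := A.PL_fs hf1
  have h2 : 0 ≤ ∑' x, (u x * u x + 2 * (A.PL u x * u x) + A.PL (fun y => u y * u y) x) :=
    tsum_nonneg fun x => by rw [← e]; exact h1 x
  rw [(hf1.add hf2).summable.tsum_add hf3.summable, hf1.summable.tsum_add hf2.summable,
    tsum_mul_left] at h2
  -- `∑ PL f = ∑ f`
  have h3 : ∑' x, A.PL (fun y => u y * u y) x = ∑' x, u x * u x := by
    -- compare with the indicator of a big finite set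
    have h4 : ∀ x, A.PL (fun y => u y * u y) x = ∑' z, A.P (fun y => if y = z then u z * u z else 0) x := by
      intro x
      rw [A.tsum_P (f := fun y z => if y = z then u z * u z else 0)]
      · rw [PL_apply]
        exact A.P_congr fun y _ => by rw [tsum_eq_single y (fun z hz => if_neg (fun h => hz h.symm)),
          if_pos rfl]
      · intro y _
        refine Set.Finite.subset (Set.finite_singleton y) ?_
        intro z hz
        by_contra h
        exact hz (if_neg (fun h' => h h'.symm))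
    set F : Finset X := hu.toFinset with hF
    have hu0 : ∀ x ∉ F, u x = 0 := by
      intro x hx
      by_contra h
      exact hx ((Set.Finite.mem_toFinset hu).2 h)
    set F' : Finset X := F.biUnion A.nb with hF'
    have hP0 : ∀ x ∉ F', A.PL (fun y => u y * u y) x = 0 := by
      intro x hx
      rw [PL_apply, A.P_congr (g := fun _ => (0 : ℝ)), P_const]
      intro y hy
      have : y ∉ F := by
        intro hyF
        exact hx (Finset.mem_biUnion.2 ⟨y, hyF, A.symm hy⟩)
      rw [hu0 y this, mul_zero]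
    rw [tsum_eq_sum (s := F') hP0, tsum_eq_sum (s := F) (fun x hx => by rw [hu0 x hx, mul_zero])]
    have h5 : ∀ x, A.PL (fun y => u y * u y) x
        = (A.N : ℝ)⁻¹ * ∑ y ∈ F, if y ∈ A.nb x then u y * u y else 0 := by
      intro x
      rw [PL_apply]
      unfold P
      congr 1
      rw [← Finset.sum_filter]
      symm
      refine Finset.sum_subset ?_ ?_ |>.trans rfl
      · intro y hy
        exact (Finset.mem_filter.1 hy).2
      · intro y hy hy'
        have : y ∉ F := fun hyF => hy' (Finset.mem_filter.2 ⟨hyF, hy⟩)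
        rw [hu0 y this, mul_zero]
    simp_rw [h5]
    rw [← Finset.mul_sum, Finset.sum_comm]
    rw [Finset.mul_sum]
    refine Finset.sum_congr rfl fun y hy => ?_
    have h6 : ∑ x ∈ F', (if y ∈ A.nb x then u y * u y else 0) = A.N * (u y * u y) := by
      rw [← Finset.sum_filter]
      have : F'.filter (fun x => y ∈ A.nb x) = A.nb y := by
        ext x
        rw [Finset.mem_filter]
        constructor
        · rintro ⟨_, h⟩; exact A.symm h
        · intro h
          exact ⟨Finset.mem_biUnion.2 ⟨y, hy, h⟩, A.symm h⟩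
      rw [this, Finset.sum_const, A.card, nsmul_eq_mul]
    rw [h6, ← mul_assoc, inv_mul_cancel₀ (A.N_pos y).ne', one_mul]
  rw [h3] at h2
  have h7 : ip (A.PL u) u = ∑' x, A.PL u x * u x := rfl
  have h8 : ip u u = ∑' x, u x * u x := rfl
  rw [h7, h8]
  linarith

lemma ip_Q_self_nonneg {u : X → ℝ} (hu : FS u) : 0 ≤ ip (A.Q u) u := by
  rw [Q_apply, ip_smul_left, ip_add_left hu]
  have := A.ip_PL_abs hu
  linarith

/-- Dirac mass. -/
noncomputable def dl (x : X) : X → ℝ := A.p 0 x

lemma dl_fs (x : X) : FS (A.dl x) := A.p_fs 0 x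

lemma ip_dl (u : X → ℝ) (x : X) : ip u (A.dl x) = u x := by
  classical
  unfold ip dl
  rw [tsum_eq_single x]
  · rw [p_zero, if_pos rfl, mul_one]
  · intro z hz
    rw [p_zero, if_neg (fun h => hz h.symm), mul_zero]

/-- law of the lazy walk started at `x`. -/
noncomputable def q (n : ℕ) (x : X) : X → ℝ := (A.Q ^ n) (A.dl x)

lemma q_zero (x : X) : A.q 0 x = A.dl x := rfl

lemma q_succ (n : ℕ) (x : X) : A.q (n + 1) x = A.Q (A.q n x) := by
  unfold q
  rw [pow_succ']
  rfl

lemma Qn_fs {u : X → ℝ} (hu : FS u) (n : ℕ) : FS ((A.Q ^ n) u) := by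
  induction n with
  | zero => exact hu
  | succ n ih => rw [pow_succ']; exact A.Q_fs ih

lemma q_fs (n : ℕ) (x : X) : FS (A.q n x) := A.Qn_fs (A.dl_fs x) n

lemma PL_dl (x : X) : A.PL (A.dl x) = (A.N : ℝ)⁻¹ • ∑ y ∈ A.nb x, A.dl y := by
  classical
  ext z
  rw [PL_apply, Pi.smul_apply, Finset.sum_apply, smul_eq_mul]
  unfold P dl
  congr 1
  simp only [p_zero]
  by_cases h : x ∈ A.nb z
  · rw [Finset.sum_ite_eq (A.nb z) x, if_pos h, Finset.sum_ite_eq' (A.nb x) z, if_pos (A.symm h)]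
  · rw [Finset.sum_ite_eq (A.nb z) x, if_neg h, Finset.sum_ite_eq' (A.nb x) z,
      if_neg (fun h' => h (A.symm h'))]

lemma q_succ_left (n : ℕ) (x : X) :
    A.q (n + 1) x = (2⁻¹ : ℝ) • (A.q n x + (A.N : ℝ)⁻¹ • ∑ y ∈ A.nb x, A.q n y) := by
  unfold q
  rw [pow_succ]
  show (A.Q ^ n) (A.Q (A.dl x)) = _
  rw [Q_apply, PL_dl, map_smul, map_add, map_smul, map_sum]

lemma ip_Qn {u v : X → ℝ} (hu : FS u) (hv : FS v) (n : ℕ) :
    ip ((A.Q ^ n) u) v = ip u ((A.Q ^ n) v) := by
  induction n generalizing v with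
  | zero => rfl
  | succ n ih =>
    have h1 : (A.Q ^ (n + 1)) u = A.Q ((A.Q ^ n) u) := by rw [pow_succ']; rfl
    have h2 : (A.Q ^ (n + 1)) v = (A.Q ^ n) (A.Q v) := by rw [pow_succ]; rfl
    rw [h1, h2, A.ip_Q (A.Qn_fs hu n) hv, ih (A.Q_fs hv)]

lemma ip_q (i j : ℕ) (x y : X) : ip (A.q i x) (A.q j y) = A.q (i + j) x y := by
  unfold q
  rw [← A.ip_Qn (A.Qn_fs (A.dl_fs x) i) (A.dl_fs y) j]
  have : (A.Q ^ j) ((A.Q ^ i) (A.dl x)) = (A.Q ^ (i + j)) (A.dl x) := by
    rw [add_comm i j, pow_add]; rfl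
  rw [this, ip_dl]

lemma q_symm (n : ℕ) (x y : X) : A.q n x y = A.q n y x := by
  have h1 := A.ip_q n 0 x y
  have h2 := A.ip_q 0 n y x
  rw [zero_add] at h2
  rw [add_zero] at h1
  rw [← h1, ← h2, ip_comm]

lemma q_nonneg (n : ℕ) (x z : X) : 0 ≤ A.q n x z := by
  induction n generalizing z with
  | zero => exact A.p_nonneg 0 x z
  | succ n ih =>
    rw [q_succ, Q_apply]
    show 0 ≤ (2⁻¹ : ℝ) * (A.q n x z + A.P (A.q n x) z)
    have := ih z
    have := A.P_nonneg (fun y => ih y) z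
    positivity

lemma q_sum (n : ℕ) (x : X) : ∑' z, A.q n x z = 1 := by
  induction n generalizing x with
  | zero => exact A.p_sum 0 x
  | succ n ih =>
    have h1 : ∀ z, A.q (n + 1) x z = (2⁻¹ : ℝ) * (A.q n x z + A.P (fun y => A.q n y z) x) := by
      intro z
      rw [q_succ_left]
      simp only [Pi.smul_apply, Pi.add_apply, smul_eq_mul, Finset.sum_apply]
      rfl
    rw [tsum_congr h1, tsum_mul_left,
      (A.q_fs n x).summable.tsum_add (A.P_fs (fun y _ => A.q_fs n y)).summable,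
      A.tsum_P (fun y _ => A.q_fs n y), ih, A.P_congr (g := fun _ => (1 : ℝ)) (fun y _ => ih y),
      P_const]
    norm_num

lemma q_supp {o : X} {B : ℕ → Finset X} (hB : A.Exh o B) (n : ℕ) :
    ∀ z, A.q n o z ≠ 0 → z ∈ B n := by
  induction n with
  | zero => exact A.p_supp hB 0
  | succ n ih =>
    intro z hz
    by_contra hcon
    apply hz
    rw [q_succ, Q_apply]
    show (2⁻¹ : ℝ) * (A.q n o z + A.P (A.q n o) z) = 0
    have h1 : A.q n o z = 0 := by
      by_contra h
      exact hcon (hB.2 n z (ih z h) z (A.self z))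
    have h2 : A.P (A.q n o) z = 0 := by
      rw [A.P_congr (g := fun _ => (0 : ℝ)), P_const]
      intro y hy
      by_contra h
      exact hcon (hB.2 n y (ih y h) z (A.symm hy))
    rw [h1, h2]; ring

/-- squared distance of the laws started at two points. -/
noncomputable def dst (k : ℕ) (x y : X) : ℝ := ip (A.q k x - A.q k y) (A.q k x - A.q k y)

lemma dst_nonneg (k : ℕ) (x y : X) : 0 ≤ A.dst k x y := ip_self_nonneg _

lemma dst_self (k : ℕ) (x : X) : A.dst k x x = 0 := by
  unfold dst; simp [ip]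

lemma dst_tri (k : ℕ) (x y z : X) : A.dst k x z ≤ 2 * A.dst k x y + 2 * A.dst k y z := by
  have hx := A.q_fs k x
  have hy := A.q_fs k y
  have hz := A.q_fs k z
  have f1 := fs_sub hx hy
  have f2 := fs_sub hy hz
  have e : A.q k x - A.q k z = (A.q k x - A.q k y) + (A.q k y - A.q k z) := by abel
  unfold dst
  rw [e, ip_add_self f1 f2]
  have h := ip_self_nonneg ((A.q k x - A.q k y) - (A.q k y - A.q k z))
  rw [ip_sub_self f1 f2] at h
  linarith

section action

variable {A} {G : Type*} [Group G] [MulAction G X] (hG : A.Equivar G)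
include hG

lemma PL_act (f : X → ℝ) (g : G) : A.PL (fun x => f (g • x)) = fun x => A.PL f (g • x) := by
  ext x
  rw [PL_apply, PL_apply, P_act hG]

lemma Q_act (f : X → ℝ) (g : G) : A.Q (fun x => f (g • x)) = fun x => A.Q f (g • x) := by
  rw [Q_apply, Q_apply, PL_act hG]
  rfl

lemma q_act (n : ℕ) (g : G) (x z : X) : A.q n (g • x) (g • z) = A.q n x z := by
  have h : (fun z => A.q n (g • x) (g • z)) = A.q n x := by
    induction n with
    | zero =>
      ext z
      exact p_act hG 0 g x z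
    | succ n ih =>
      rw [q_succ, q_succ, ← Q_act hG, ih]
  exact congrFun h z

lemma ip_act (g : G) (u v : X → ℝ) : ip (fun x => u (g • x)) (fun x => v (g • x)) = ip u v :=
  tsum_act hG (fun x => u x * v x) g

lemma dst_act (k : ℕ) (g : G) (x y : X) : A.dst k (g • x) (g • y) = A.dst k x y := by
  unfold dst
  rw [← ip_act hG g]
  have : (fun z => (A.q k (g • x) - A.q k (g • y)) (g • z)) = A.q k x - A.q k y := by
    ext z
    simp only [Pi.sub_apply]
    rw [q_act hG, q_act hG]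
  rw [this]

variable [MulAction.IsPretransitive G X]

lemma q_diag (n : ℕ) (x y : X) : A.q n x x = A.q n y y := by
  obtain ⟨g, rfl⟩ := MulAction.exists_smul_eq G y x
  exact q_act hG n g y y

end action

/-- return probabilities. -/
noncomputable def r (o : X) (n : ℕ) : ℝ := A.q n o o

/-- energies. -/
noncomputable def en (o : X) (n : ℕ) : ℝ := A.r o n - A.r o (n + 1)

variable (o : X)

lemma r_even (k : ℕ) : A.r o (2 * k) = ip (A.q k o) (A.q k o) := by
  rw [ip_q]; unfold r; congr 1; omega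

lemma r_nonneg (n : ℕ) : 0 ≤ A.r o n := A.q_nonneg n o o

lemma r_zero : A.r o 0 = 1 := by
  classical
  show A.p 0 o o = 1
  rw [p_zero, if_pos rfl]

lemma diff_fs (k : ℕ) (x : X) : FS (A.q k x - A.q (k + 1) x) :=
  fs_sub (A.q_fs k x) (A.q_fs (k + 1) x)

lemma ip_diff (j k : ℕ) :
    ip (A.q j o - A.q (j + 1) o) (A.q k o - A.q (k + 1) o)
      = A.en o (j + k) - A.en o (j + k + 1) := by
  rw [ip_sub_left (A.diff_fs k o), ip_comm (A.q j o), ip_comm (A.q (j + 1) o),
    ip_sub_left (A.q_fs j o), ip_sub_left (A.q_fs (j + 1) o), ip_q, ip_q, ip_q, ip_q]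
  unfold en r
  rw [show k + j = j + k by omega, show k + 1 + j = j + k + 1 by omega,
    show k + (j + 1) = j + k + 1 by omega, show k + 1 + (j + 1) = j + k + 1 + 1 by omega]

lemma Q_diff (k : ℕ) :
    A.Q (A.q k o - A.q (k + 1) o) = A.q (k + 1) o - A.q (k + 2) o := by
  rw [map_sub, ← q_succ, ← q_succ]

lemma en_anti (n : ℕ) : A.en o (n + 1) ≤ A.en o n := by
  obtain ⟨k, rfl | rfl⟩ := Nat.even_or_odd' n
  · have h1 := A.ip_diff o k k
    have h2 := ip_self_nonneg (A.q k o - A.q (k + 1) o)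
    rw [h1, show k + k = 2 * k by omega] at h2
    linarith
  · have h1 := A.ip_Q_self_nonneg (A.diff_fs k o)
    rw [Q_diff, ip_diff A o (k + 1) k, show k + 1 + k = 2 * k + 1 by omega] at h1
    linarith

section action2

variable {A} {G : Type*} [Group G] [MulAction G X] (hG : A.Equivar G)
  [MulAction.IsPretransitive G X]
include hG

lemma ip_q_self (k : ℕ) (x : X) : ip (A.q k x) (A.q k x) = A.r o (2 * k) := by
  rw [r_even, ip_q, ip_q]; exact q_diag hG _ x o

lemma en_even (k : ℕ) (x : X) : A.P (fun y => A.dst k x y) x = 4 * A.en o (2 * k) := by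
  have h1 : ∀ y, A.dst k x y = 2 * A.r o (2 * k) - 2 * ip (A.q k y) (A.q k x) := by
    intro y
    unfold dst
    rw [ip_sub_self (A.q_fs k x) (A.q_fs k y), ip_q_self o hG, ip_q_self o hG,
      ip_comm (A.q k x) (A.q k y)]
    ring
  simp_rw [h1]
  rw [P_sub, P_const, P_smul]
  have h2 : A.P (fun y => ip (A.q k y) (A.q k x)) x
      = ip ((A.N : ℝ)⁻¹ • ∑ y ∈ A.nb x, A.q k y) (A.q k x) := by
    rw [ip_smul_left, ip_sum_left _ _ (A.q_fs k x)]
    rfl
  have h3 : (A.N : ℝ)⁻¹ • ∑ y ∈ A.nb x, A.q k y = (2 : ℝ) • A.q (k + 1) x - A.q k x := by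
    rw [q_succ_left, smul_smul]
    norm_num
  rw [h2, h3, ip_sub_left (A.q_fs k x), ip_smul_left, ip_q, ip_q_self o hG]
  have h4 : A.q (k + 1 + k) x x = A.r o (2 * k + 1) := by
    rw [show k + 1 + k = 2 * k + 1 by omega]
    exact q_diag hG _ x o
  rw [h4]
  unfold en
  ring

lemma en_even_nonneg (k : ℕ) : 0 ≤ A.en o (2 * k) := by
  have h1 := en_even o hG k o
  have h2 : 0 ≤ A.P (fun y => A.dst k o y) o := A.P_nonneg (fun y => A.dst_nonneg k o y) o
  linarith

lemma en_nonneg (n : ℕ) : 0 ≤ A.en o n := by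
  obtain ⟨k, rfl | rfl⟩ := Nat.even_or_odd' n
  · exact en_even_nonneg o hG k
  · have h1 := en_even_nonneg o hG (k + 1)
    have h2 := A.en_anti o (2 * k + 1)
    rw [show 2 * (k + 1) = 2 * k + 1 + 1 by ring] at h1
    linarith

lemma en_le (n : ℕ) : (n : ℝ) * A.en o n ≤ 1 := by
  have h1 : ∀ m, ∑ j ∈ Finset.range m, A.en o j = A.r o 0 - A.r o m := by
    intro m
    induction m with
    | zero => simp
    | succ m ih => rw [Finset.sum_range_succ, ih]; unfold en; ring
  have hanti : Antitone (A.en o) := antitone_nat_of_succ_le (A.en_anti o)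
  have h2 : ∑ j ∈ Finset.range n, A.en o n ≤ ∑ j ∈ Finset.range n, A.en o j :=
    Finset.sum_le_sum fun j hj => hanti (Finset.mem_range.1 hj).le
  rw [Finset.sum_const, Finset.card_range, nsmul_eq_mul, h1, r_zero] at h2
  have := A.r_nonneg o n
  linarith

lemma dst_edge_le (k : ℕ) {x y : X} (hy : y ∈ A.nb x) :
    A.dst k x y ≤ 4 * A.N * A.en o (2 * k) := by
  have h1 := A.le_N_mul_P (f := fun y => A.dst k x y) (fun y => A.dst_nonneg k x y) hy
  rw [en_even o hG] at h1
  linarith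

lemma dst_le (x : X) : ∃ C : ℝ, ∀ k, A.dst k o x ≤ C * A.en o (2 * k) := by
  refine A.conn_induction (q := fun x => ∃ C : ℝ, ∀ k, A.dst k o x ≤ C * A.en o (2 * k))
    (x := o) ?_ ?_ x
  · exact ⟨0, fun k => by rw [dst_self]; simp⟩
  · rintro y ⟨C, hC⟩ z hz
    refine ⟨2 * C + 8 * A.N, fun k => ?_⟩
    have h1 := A.dst_tri k o y z
    have h2 := hC k
    have h3 := dst_edge_le o hG k hz
    linarith

lemma card_mul_r_le (k : ℕ) (F : Finset X) :
    F.card * A.r o (2 * k) ≤ 1 + ∑ x ∈ F, A.dst k o x := by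
  classical
  have h1 : ∑ x ∈ F, ip (A.q k x) (A.q k o) ≤ 1 := by
    unfold ip
    rw [← Summable.tsum_finsetSum (fun x _ => ((A.q_fs k o).mul_left _).summable)]
    have h2 : ∀ z, ∑ x ∈ F, A.q k x z * A.q k o z ≤ A.q k o z := by
      intro z
      rw [← Finset.sum_mul]
      have h3 : ∑ x ∈ F, A.q k x z ≤ 1 := by
        have e : ∑ x ∈ F, A.q k x z = ∑ x ∈ F, A.q k z x :=
          Finset.sum_congr rfl fun x _ => A.q_symm k x z
        rw [e, ← A.q_sum k z]
        exact (A.q_fs k z).summable.sum_le_tsum F (fun x _ => A.q_nonneg k z x)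
      calc (∑ x ∈ F, A.q k x z) * A.q k o z ≤ 1 * A.q k o z :=
            mul_le_mul_of_nonneg_right h3 (A.q_nonneg k o z)
        _ = A.q k o z := one_mul _
    have hs1 : FS (fun z => ∑ x ∈ F, A.q k x z * A.q k o z) := by
      apply FS.sum
      intro x _
      exact (A.q_fs k o).mul_left _
    calc ∑' z, ∑ x ∈ F, A.q k x z * A.q k o z ≤ ∑' z, A.q k o z :=
          hs1.summable.tsum_le_tsum h2 (A.q_fs k o).summable
      _ = 1 := A.q_sum k o
  have h2 : ∀ x ∈ F, ip (A.q k x) (A.q k o) = A.r o (2 * k) - A.dst k o x / 2 := by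
    intro x _
    unfold dst
    rw [ip_sub_self (A.q_fs k o) (A.q_fs k x), ip_q_self o hG, ip_q_self o hG,
      ip_comm (A.q k o) (A.q k x)]
    ring
  rw [Finset.sum_congr rfl h2, Finset.sum_sub_distrib, Finset.sum_const, nsmul_eq_mul] at h1
  have h3 : ∑ x ∈ F, A.dst k o x / 2 ≤ ∑ x ∈ F, A.dst k o x :=
    Finset.sum_le_sum fun x _ => by have := A.dst_nonneg k o x; linarith
  linarith

lemma r_anti : Antitone (A.r o) :=
  antitone_nat_of_succ_le fun n => by
    have := en_nonneg o hG n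
    unfold en at this
    linarith

lemma r_small [Infinite X] {ε : ℝ} (hε : 0 < ε) : ∃ k, A.r o (2 * k) < ε := by
  obtain ⟨N, hN⟩ := exists_nat_gt (2 / ε)
  have hN0 : 0 < (N : ℝ) := lt_trans (by positivity) hN
  obtain ⟨F, hF⟩ := Infinite.exists_subset_card_eq X N
  choose C hC using fun x => dst_le (A := A) o hG x
  set D : ℝ := ∑ x ∈ F, |C x| with hD
  have hDn : 0 ≤ D := Finset.sum_nonneg fun _ _ => abs_nonneg _
  obtain ⟨k, hk⟩ := exists_nat_gt D
  refine ⟨k, ?_⟩
  have hk0 : 0 < (k : ℝ) := lt_of_le_of_lt hDn hk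
  have h1 := card_mul_r_le o hG k F
  have h2 : ∑ x ∈ F, A.dst k o x ≤ D * A.en o (2 * k) := by
    rw [hD, Finset.sum_mul]
    refine Finset.sum_le_sum fun x _ => (hC x k).trans ?_
    exact mul_le_mul_of_nonneg_right (le_abs_self _) (en_nonneg o hG _)
  have h3 := en_le o hG (2 * k)
  have h4 : D * A.en o (2 * k) ≤ 1 := by
    have h5 : D * A.en o (2 * k) ≤ (2 * k : ℕ) * A.en o (2 * k) := by
      refine mul_le_mul_of_nonneg_right ?_ (en_nonneg o hG _)
      push_cast; linarith
    linarith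
  rw [hF] at h1
  have h6 : (N : ℝ) * A.r o (2 * k) ≤ 2 := by linarith
  have h7 : A.r o (2 * k) ≤ 2 / N := by
    rw [le_div_iff₀ hN0]; linarith
  have h8 : 2 / (N : ℝ) < ε := by
    rw [div_lt_iff₀ hN0]
    rw [div_lt_iff₀ hε] at hN
    linarith
  linarith

end action2

lemma r_lower {B : ℕ → Finset X} (hB : A.Exh o B) (k : ℕ) :
    1 ≤ A.r o (2 * k) * (B k).card := by
  classical
  have h0 : ∀ x ∉ B k, A.q k o x = 0 := by
    intro x hx
    by_contra h
    exact hx (A.q_supp hB k x h)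
  have h1 : ∑ x ∈ B k, A.q k o x = 1 := by
    rw [← A.q_sum k o, tsum_eq_sum (s := B k) h0]
  have h2 : A.r o (2 * k) = ∑ x ∈ B k, A.q k o x ^ 2 := by
    rw [r_even]
    unfold ip
    rw [tsum_eq_sum (s := B k) (fun x hx => by rw [h0 x hx, zero_mul])]
    exact Finset.sum_congr rfl fun x _ => by ring
  have h3 := Finset.sum_mul_sq_le_sq_mul_sq (B k) (fun x => A.q k o x) (fun _ => 1)
  simp only [mul_one, one_pow, Finset.sum_const, nsmul_eq_mul] at h3
  rw [h1, one_pow, ← h2] at h3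
  exact h3

section action3

variable {A} {G : Type*} [Group G] [MulAction G X] (hG : A.Equivar G)
  [MulAction.IsPretransitive G X]
include hG

/-- the key spectral statement: small defect relative to the energy. -/
lemma exists_good_scale [Infinite X] {B : ℕ → Finset X} {C d : ℕ}
    (hB : A.Exh o B) (hC : ∃ᶠ n in Filter.atTop, (B n).card ≤ C * (n + 1) ^ d)
    {ε : ℝ} (hε : 0 < ε) (hε1 : ε < 1) :
    ∃ k, 0 < A.en o (2 * k) ∧ A.en o (2 * k) - A.en o (2 * k + 1) ≤ ε * A.en o (2 * k) := by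
  by_contra hcon
  push Not at hcon
  have hstep : ∀ k, A.en o (2 * (k + 1)) ≤ (1 - ε) * A.en o (2 * k) := by
    intro k
    have h1 := A.en_anti o (2 * k + 1)
    have h2 := A.en_anti o (2 * k)
    rw [show 2 * (k + 1) = 2 * k + 1 + 1 by ring]
    rcases (en_nonneg o hG (2 * k)).lt_or_eq with h | h
    · have h3 := hcon k h
      linarith
    · rw [← h] at h2 ⊢
      linarith
  have hgeom : ∀ k, A.en o (2 * k) ≤ (1 - ε) ^ k * A.en o 0 := by
    intro k
    induction k with
    | zero => simp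
    | succ k ih =>
      have h1 := hstep k
      have h2 : (1 - ε) * A.en o (2 * k) ≤ (1 - ε) * ((1 - ε) ^ k * A.en o 0) :=
        mul_le_mul_of_nonneg_left ih (by linarith)
      rw [pow_succ]
      linarith
  have hen0 : A.en o 0 ≤ 1 := by
    unfold en
    rw [r_zero]
    have := A.r_nonneg o 1
    simp only [zero_add]
    linarith
  have htel : ∀ k m, A.r o (2 * k) - A.r o (2 * (k + m))
      ≤ 2 / ε * ((1 - ε) ^ k - (1 - ε) ^ (k + m)) := by
    intro k m
    induction m with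
    | zero => simp
    | succ m ih =>
      have h1 : A.r o (2 * (k + m)) - A.r o (2 * (k + (m + 1))) =
          A.en o (2 * (k + m)) + A.en o (2 * (k + m) + 1) := by
        unfold en
        rw [show 2 * (k + (m + 1)) = 2 * (k + m) + 1 + 1 by ring]; ring
      have h2 := A.en_anti o (2 * (k + m))
      have h3 := hgeom (k + m)
      have h4 : (1 - ε) ^ (k + m) * A.en o 0 ≤ (1 - ε) ^ (k + m) * 1 :=
        mul_le_mul_of_nonneg_left hen0 (pow_nonneg (by linarith) _)
      have h5 : 2 / ε * ((1 - ε) ^ k - (1 - ε) ^ (k + (m + 1))) =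
          2 / ε * ((1 - ε) ^ k - (1 - ε) ^ (k + m)) + 2 * (1 - ε) ^ (k + m) := by
        rw [← add_assoc, pow_succ]; field_simp; ring
      rw [h5]
      linarith
  have hpk : ∀ k, A.r o (2 * k) ≤ 2 / ε * (1 - ε) ^ k := by
    intro k
    by_contra h
    push Not at h
    obtain ⟨m, hm⟩ := r_small o hG (sub_pos.2 h)
    have h1 := htel k m
    have h2 : A.r o (2 * (k + m)) ≤ A.r o (2 * m) := r_anti o hG (by omega)
    have h3 : 0 ≤ 2 / ε * (1 - ε) ^ (k + m) :=
      mul_nonneg (by positivity) (pow_nonneg (by linarith) _)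
    rw [mul_sub] at h1
    linarith
  -- contradiction with the polynomial lower bound
  have hr : Filter.Tendsto (fun n : ℕ => (n : ℝ) ^ d / ((1 - ε)⁻¹) ^ n) Filter.atTop (nhds 0) :=
    tendsto_pow_const_div_const_pow_of_one_lt d (one_lt_inv_iff₀.2 ⟨by linarith, by linarith⟩)
  have h1ε : 0 < 1 - ε := by linarith
  set K : ℝ := 2 / ε * (1 - ε)⁻¹ * C + 1 with hK
  have hKpos : 0 < K := by positivity
  have h2 := (hr.comp (Filter.tendsto_add_atTop_nat 1)).eventually
    (gt_mem_nhds (show (0 : ℝ) < 1 / K by positivity))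
  obtain ⟨k, hk1, hk2⟩ := (hC.and_eventually h2).exists
  have h3 := A.r_lower o hB k
  have h4 := hpk k
  have hk2' : ((k + 1 : ℕ) : ℝ) ^ d * (1 - ε) ^ (k + 1) < 1 / K := by
    have h7 : ((k + 1 : ℕ) : ℝ) ^ d / ((1 - ε)⁻¹) ^ (k + 1)
        = ((k + 1 : ℕ) : ℝ) ^ d * (1 - ε) ^ (k + 1) := by
      rw [inv_pow, div_inv_eq_mul]
    rw [← h7]; exact hk2
  have h5 : ((B k).card : ℝ) ≤ C * ((k + 1 : ℕ) : ℝ) ^ d := by exact_mod_cast hk1
  have h6 : 1 ≤ 2 / ε * (1 - ε) ^ k * (C * ((k + 1 : ℕ) : ℝ) ^ d) := by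
    calc (1 : ℝ) ≤ A.r o (2 * k) * (B k).card := h3
      _ ≤ (2 / ε * (1 - ε) ^ k) * (C * ((k + 1 : ℕ) : ℝ) ^ d) := by
          apply mul_le_mul h4 h5 (Nat.cast_nonneg _)
          positivity
  have h8 : 2 / ε * (1 - ε) ^ k * (C * ((k + 1 : ℕ) : ℝ) ^ d) =
      (2 / ε * (1 - ε)⁻¹ * C) * (((k + 1 : ℕ) : ℝ) ^ d * (1 - ε) ^ (k + 1)) := by
    rw [pow_succ]; field_simp
  rw [h8] at h6
  have h9 : (2 / ε * (1 - ε)⁻¹ * C) * (((k + 1 : ℕ) : ℝ) ^ d * (1 - ε) ^ (k + 1))
      ≤ K * (((k + 1 : ℕ) : ℝ) ^ d * (1 - ε) ^ (k + 1)) := by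
    apply mul_le_mul_of_nonneg_right _ (by positivity)
    rw [hK]; linarith
  have h10 : K * (((k + 1 : ℕ) : ℝ) ^ d * (1 - ε) ^ (k + 1)) < K * (1 / K) :=
    mul_lt_mul_of_pos_left hk2' hKpos
  rw [mul_one_div_cancel hKpos.ne'] at h10
  linarith

/-- approximate harmonic functions. -/
lemma exists_approx [Infinite X] {B : ℕ → Finset X} {C d : ℕ}
    (hB : A.Exh o B) (hC : ∃ᶠ n in Filter.atTop, (B n).card ≤ C * (n + 1) ^ d)
    {ε : ℝ} (hε : 0 < ε) (hε1 : ε < 1) :
    ∃ f : X → ℝ, f o = 0 ∧ A.Lip 1 f ∧ (∃ y ∈ A.nb o, f y = 1) ∧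
      ∀ x, |A.P f x - f x| ≤ ε := by
  obtain ⟨k, hk, hk2⟩ := exists_good_scale o hG hB hC (ε := ε ^ 2) (by positivity) (by nlinarith)
  obtain ⟨y0, hy0, hmax⟩ := Finset.exists_max_image (A.nb o) (fun y => A.dst k o y) ⟨o, A.self o⟩
  set m := A.dst k o y0 with hm
  have hm4 : 4 * A.en o (2 * k) ≤ m := by
    rw [← en_even o hG k o]
    calc A.P (fun y => A.dst k o y) o ≤ A.P (fun _ => m) o := A.P_mono hmax
      _ = m := A.P_const _ _
  have hmpos : 0 < m := by linarith
  set w : X → ℝ := A.q k o - A.q k y0 with hw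
  have hwf : FS w := fs_sub (A.q_fs k o) (A.q_fs k y0)
  have hww : ip w w = m := rfl
  refine ⟨fun x => ip (A.q k o - A.q k x) w / m, ?_, ?_, ⟨y0, hy0, ?_⟩, ?_⟩
  · show ip (A.q k o - A.q k o) w / m = 0
    rw [sub_self]
    simp [ip]
  · intro x z hz
    have h1 : ip (A.q k o - A.q k z) w / m - ip (A.q k o - A.q k x) w / m
        = ip (A.q k x - A.q k z) w / m := by
      rw [← sub_div, ← ip_sub_left hwf]
      congr 2
      abel
    show |ip (A.q k o - A.q k z) w / m - ip (A.q k o - A.q k x) w / m| ≤ 1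
    rw [h1, abs_div, abs_of_pos hmpos, div_le_one hmpos]
    have h2 := ip_cs (fs_sub (A.q_fs k x) (A.q_fs k z)) hwf
    rw [hww] at h2
    have h3 : ip (A.q k x - A.q k z) (A.q k x - A.q k z) ≤ m := by
      obtain ⟨g, hg⟩ := MulAction.exists_smul_eq G o x
      have hz' : g⁻¹ • z ∈ A.nb o := by
        have := hG g⁻¹ x z hz
        rwa [← hg, inv_smul_smul] at this
      have h4 := hmax _ hz'
      have h5 : A.dst k o (g⁻¹ • z) = A.dst k x z := by
        rw [← dst_act hG k g o (g⁻¹ • z), hg, smul_inv_smul]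
      rw [h5] at h4
      exact h4
    have h4 : ip (A.q k x - A.q k z) w ^ 2 ≤ m ^ 2 := by
      refine h2.trans ?_
      rw [sq]
      exact mul_le_mul_of_nonneg_right h3 hmpos.le
    exact abs_le_of_sq_le_sq h4 hmpos.le
  · show ip w w / m = 1
    rw [hww, div_self hmpos.ne']
  · intro x
    have h1 : A.P (fun z => ip (A.q k o - A.q k z) w / m) x - ip (A.q k o - A.q k x) w / m
        = 2 * ip (A.q k x - A.q (k + 1) x) w / m := by
      have e1 : A.P (fun z => ip (A.q k o - A.q k z) w / m) x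
          = (ip (A.q k o) w - ip ((A.N : ℝ)⁻¹ • ∑ y ∈ A.nb x, A.q k y) w) / m := by
        have e0 : A.P (fun z => ip (A.q k o - A.q k z) w / m) x
            = A.P (fun z => m⁻¹ * (ip (A.q k o) w - ip (A.q k z) w)) x :=
          A.P_congr fun z _ => by rw [ip_sub_left hwf]; ring
        have e2 : ip ((A.N : ℝ)⁻¹ • ∑ y ∈ A.nb x, A.q k y) w = A.P (fun z => ip (A.q k z) w) x := by
          rw [ip_smul_left, ip_sum_left _ _ hwf]
          rfl
        rw [e0, P_smul, P_sub, P_const, e2]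
        ring
      have h3 : (A.N : ℝ)⁻¹ • ∑ y ∈ A.nb x, A.q k y = (2 : ℝ) • A.q (k + 1) x - A.q k x := by
        rw [q_succ_left, smul_smul]
        norm_num
      rw [e1, h3, ip_sub_left hwf, ip_sub_left hwf, ip_sub_left hwf, ip_smul_left]
      ring
    show |A.P (fun z => ip (A.q k o - A.q k z) w / m) x - ip (A.q k o - A.q k x) w / m| ≤ ε
    rw [h1]
    have h2 := ip_cs (A.diff_fs k x) hwf
    have h2' : ip (A.q k x - A.q (k + 1) x) (A.q k x - A.q (k + 1) x)
        = A.en o (2 * k) - A.en o (2 * k + 1) := by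
      rw [ip_diff A x k k, show k + k = 2 * k by omega]
      unfold en r
      rw [q_diag hG _ x o, q_diag hG _ x o, q_diag hG _ x o]
    rw [hww, h2'] at h2
    apply abs_le_of_sq_le_sq _ hε.le
    rw [div_pow, mul_pow, div_le_iff₀ (by positivity)]
    calc 2 ^ 2 * ip (A.q k x - A.q (k + 1) x) w ^ 2
        ≤ 2 ^ 2 * ((A.en o (2 * k) - A.en o (2 * k + 1)) * m) := by gcongr
      _ ≤ 2 ^ 2 * ((ε ^ 2 * A.en o (2 * k)) * m) := by gcongr
      _ = ε ^ 2 * ((4 * A.en o (2 * k)) * m) := by ring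
      _ ≤ ε ^ 2 * (m * m) := by gcongr
      _ = ε ^ 2 * m ^ 2 := by ring

end action3

lemma lip_bound (x : X) : ∃ R : ℝ, ∀ f : X → ℝ, A.Lip 1 f → |f x - f o| ≤ R := by
  refine A.conn_induction (q := fun x => ∃ R : ℝ, ∀ f : X → ℝ, A.Lip 1 f → |f x - f o| ≤ R)
    (x := o) ?_ ?_ x
  · exact ⟨0, fun f _ => by simp⟩
  · rintro y ⟨R, hR⟩ z hz
    refine ⟨R + 1, fun f hf => ?_⟩
    have h1 := hR f hf
    have h2 := hf y z hz
    calc |f z - f o| = |(f z - f y) + (f y - f o)| := by ring_nf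
      _ ≤ |f z - f y| + |f y - f o| := abs_add_le _ _
      _ ≤ R + 1 := by linarith

/-- **Existence of a non-constant Lipschitz harmonic function.** -/
theorem exists_harm {A : Net X} {G : Type*} [Group G] [MulAction G X] (hG : A.Equivar G)
    [MulAction.IsPretransitive G X] [Infinite X] {B : ℕ → Finset X} {C d : ℕ}
    (hB : A.Exh o B) (hC : ∃ᶠ n in Filter.atTop, (B n).card ≤ C * (n + 1) ^ d) :
    ∃ h : X → ℝ, A.Harm h ∧ A.Lip 1 h ∧ h o = 0 ∧ ∃ x, h x ≠ 0 := by
  have hex : ∀ n : ℕ, ∃ f : X → ℝ, f o = 0 ∧ A.Lip 1 f ∧ (∃ y ∈ A.nb o, f y = 1) ∧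
      ∀ x, |A.P f x - f x| ≤ 1 / ((n : ℝ) + 2) := by
    intro n
    refine exists_approx o hG hB hC (by positivity) ?_
    rw [div_lt_one (by positivity)]
    have : (0 : ℝ) ≤ n := Nat.cast_nonneg n
    linarith
  choose f hf1 hfL hfi hfd using hex
  let U : Ultrafilter ℕ := Filter.hyperfilter ℕ
  have hU : (U : Filter ℕ) ≤ Filter.atTop := Nat.hyperfilter_le_atTop
  have hlim : ∀ x, ∃ y, Filter.Tendsto (fun n => f n x) U (nhds y) := by
    intro x
    obtain ⟨R, hR⟩ := A.lip_bound o x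
    have hb : ∀ n, f n x ∈ Set.Icc (-R) R := by
      intro n
      have := hR (f n) (hfL n)
      rw [hf1, sub_zero] at this
      exact abs_le.1 this
    have hmem : Set.Icc (-R) R ∈ U.map (fun n => f n x) :=
      Filter.Eventually.of_forall (f := (U : Filter ℕ)) hb
    obtain ⟨y, _, hy⟩ := isCompact_Icc.ultrafilter_le_nhds' _ hmem
    exact ⟨y, hy⟩
  choose h hh using hlim
  refine ⟨h, ?_, ?_, ?_, ?_⟩
  · intro x
    have h1 : Filter.Tendsto (fun n => A.P (f n) x - f n x) U
        (nhds (A.P h x - h x)) := by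
      refine Filter.Tendsto.sub ?_ (hh x)
      unfold P
      exact Filter.Tendsto.const_mul _ (tendsto_finsetSum _ fun i _ => hh _)
    have h2 : Filter.Tendsto (fun n => A.P (f n) x - f n x) U (nhds 0) := by
      rw [tendsto_zero_iff_abs_tendsto_zero]
      have h3 : Filter.Tendsto (fun n : ℕ => 1 / ((n : ℝ) + 2)) U (nhds 0) := by
        have h4 : Filter.Tendsto (fun n : ℕ => 1 / ((n : ℝ) + 2)) Filter.atTop (nhds 0) := by
          have h5 : Filter.Tendsto (fun n : ℕ => ((n : ℝ) + 2)) Filter.atTop Filter.atTop :=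
            Filter.tendsto_atTop_add_const_right _ _ tendsto_natCast_atTop_atTop
          have h6 := h5.inv_tendsto_atTop
          refine h6.congr fun n => ?_
          simp [one_div]
        exact h4.mono_left hU
      exact squeeze_zero (fun n => abs_nonneg _) (fun n => hfd n x) h3
    have := tendsto_nhds_unique h1 h2
    linarith
  · intro x y hy
    have h1 : Filter.Tendsto (fun n => |f n y - f n x|) U
        (nhds |h y - h x|) := ((hh _).sub (hh _)).abs
    exact le_of_tendsto h1 (Filter.Eventually.of_forall fun n => hfL n x y hy)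
  · have h1 : Filter.Tendsto (fun n => f n o) U (nhds 0) := by
      simp_rw [hf1]; exact tendsto_const_nhds
    exact tendsto_nhds_unique (hh o) h1
  · by_contra hcon
    push Not at hcon
    have h1 : ∀ y ∈ A.nb o, ∀ᶠ n in (U : Filter ℕ), f n y ≠ 1 := by
      intro y _
      have h2 := hh y
      rw [hcon] at h2
      have h3 := h2.eventually (gt_mem_nhds (show (0 : ℝ) < 1 by norm_num))
      exact h3.mono fun n hn => hn.ne
    have h2 : ∀ᶠ n in (U : Filter ℕ), ∀ y ∈ A.nb o, f n y ≠ 1 :=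
      (Filter.eventually_all_finset (A.nb o)).2 h1
    obtain ⟨n, hn⟩ := h2.exists
    obtain ⟨y, hy, hy1⟩ := hfi n
    exact hn y hy hy1

end Net

end Crest.Agent.R147.St
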