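import Crest.Agent.R147.StEnt

/-!
R147, structure block (helper505), part 3: the invariant quadratic form on Lipschitz harmonic
functions and finite-dimensionality.
-/

set_option autoImplicit false
set_option linter.unusedSectionVars false
set_option linter.unusedSimpArgs false

universe u

namespace Crest.Agent.R147.St

open Function Finset Filter Topology

namespace Net

variable {X : Type*} (A : Net X)

/-- Lipschitz harmonic functions vanishing at `o`. -/
def harmSub (o : X) : Submodule ℝ (X → ℝ) where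
  carrier := {h | A.Harm h ∧ (∃ L, A.Lip L h) ∧ h o = 0}
  zero_mem' := ⟨fun x => by
    show A.P (fun _ => (0 : ℝ)) x = 0
    exact A.P_const 0 x, ⟨0, fun x y _ => by simp⟩, rfl⟩
  add_mem' := by
    rintro h k ⟨h1, ⟨L, h2⟩, h3⟩ ⟨k1, ⟨M, k2⟩, k3⟩
    refine ⟨fun x => ?_, ⟨L + M, fun x y hy => ?_⟩, ?_⟩
    · have := A.P_add h k x
      rw [h1 x, k1 x] at this
      exact this
    · have e : (h + k) y - (h + k) x = (h y - h x) + (k y - k x) := by
        simp only [Pi.add_apply]; ring
      rw [e]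
      exact (abs_add_le _ _).trans (add_le_add (h2 x y hy) (k2 x y hy))
    · simp [h3, k3]
  smul_mem' := by
    rintro c h ⟨h1, ⟨L, h2⟩, h3⟩
    refine ⟨fun x => ?_, ⟨|c| * L, fun x y hy => ?_⟩, ?_⟩
    · have := A.P_smul c h x
      rw [h1 x] at this
      exact this
    · have e : (c • h) y - (c • h) x = c * (h y - h x) := by
        simp only [Pi.smul_apply, smul_eq_mul]; ring
      rw [e, abs_mul]
      exact mul_le_mul_of_nonneg_left (h2 x y hy) (abs_nonneg c)
    · simp [h3]

/-- The type of such functions. -/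
def HW (o : X) : Type _ := ↥(harmSub A o)

variable {A} {o : X}

noncomputable instance : AddCommGroup (HW A o) := inferInstanceAs (AddCommGroup ↥(harmSub A o))
noncomputable instance : Module ℝ (HW A o) := inferInstanceAs (Module ℝ ↥(harmSub A o))

/-- The underlying function. -/
def fn (h : HW A o) : X → ℝ := (show ↥(harmSub A o) from h).1

lemma fn_harm (h : HW A o) : A.Harm (fn h) := (show ↥(harmSub A o) from h).2.1
lemma fn_lip (h : HW A o) : ∃ L, A.Lip L (fn h) := (show ↥(harmSub A o) from h).2.2.1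
lemma fn_base (h : HW A o) : fn h o = 0 := (show ↥(harmSub A o) from h).2.2.2

lemma fn_add (h k : HW A o) (x : X) : fn (h + k) x = fn h x + fn k x := rfl
lemma fn_smul (c : ℝ) (h : HW A o) (x : X) : fn (c • h) x = c * fn h x := rfl
lemma fn_zero (x : X) : fn (0 : HW A o) x = 0 := rfl

lemma fn_sum {κ : Type*} (s : Finset κ) (f : κ → HW A o) (x : X) :
    fn (∑ j ∈ s, f j) x = ∑ j ∈ s, fn (f j) x := by
  classical
  induction s using Finset.induction_on with
  | empty => simp [fn_zero]
  | insert j s hj ih => rw [Finset.sum_insert hj, Finset.sum_insert hj, fn_add, ih]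

lemma fn_ext {h k : HW A o} (e : ∀ x, fn h x = fn k x) : h = k :=
  Subtype.ext (funext e)

/-- make an element -/
def hmk (h : X → ℝ) (h1 : A.Harm h) (h2 : ∃ L, A.Lip L h) (h3 : h o = 0) : HW A o :=
  (⟨h, h1, h2, h3⟩ : ↥(harmSub A o))

lemma fn_hmk (h : X → ℝ) (h1 : A.Harm h) (h2 : ∃ L, A.Lip L h) (h3 : h o = 0) (x : X) :
    fn (hmk h h1 h2 h3 : HW A o) x = h x := rfl

lemma exists_lim {ω : Ultrafilter ℕ} (u : ℕ → ℝ) (hb : ∃ M, ∀ n, |u n| ≤ M) :
    ∃ x, Tendsto u (ω : Filter ℕ) (𝓝 x) := by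
  obtain ⟨M, hM⟩ := hb
  have hc : IsCompact (Set.Icc (-M) M) := isCompact_Icc
  obtain ⟨x, _, hx⟩ := hc.ultrafilter_le_nhds (ω.map u) (by
    rw [Ultrafilter.coe_map, le_principal_iff]
    exact Filter.mem_map.2 (Filter.univ_mem' fun n => abs_le.mp (hM n)))
  exact ⟨x, hx⟩

variable (A) in
/-- the approximate form at the point `x`. -/
noncomputable def Bn (n : ℕ) (x : X) (h k : X → ℝ) : ℝ :=
  A.E n (fun z => (h z - h x) * (k z - k x)) x / (n + 1)

lemma Bn_self_le {h : X → ℝ} {L : ℝ} (h1 : A.Harm h) (h2 : A.Lip L h) (n : ℕ) (x : X) :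
    A.Bn n x h h ≤ L ^ 2 := by
  unfold Bn
  rw [div_le_iff₀ (by positivity)]
  have := h1.E_sq_le h2 n x
  have e : A.E n (fun z => (h z - h x) * (h z - h x)) x = A.E n (fun z => (h z - h x) ^ 2) x :=
    A.E_congr n (fun z => by ring) x
  rw [e]
  nlinarith [sq_nonneg L]

lemma Bn_self_nonneg (h : X → ℝ) (n : ℕ) (x : X) : 0 ≤ A.Bn n x h h :=
  div_nonneg (A.E_nonneg n (fun z => mul_self_nonneg _) x) (by positivity)

lemma Bn_abs_le (h k : X → ℝ) (n : ℕ) (x : X) :
    |A.Bn n x h k| ≤ A.Bn n x h h + A.Bn n x k k := by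
  unfold Bn
  rw [← add_div, abs_div, abs_of_pos (by positivity : (0 : ℝ) < (n : ℝ) + 1)]
  apply div_le_div_of_nonneg_right _ (by positivity)
  rw [← E_add, abs_le]
  constructor
  · have := A.E_mono n
      (f := fun z => -1 * ((h z - h x) * (h z - h x) + (k z - k x) * (k z - k x)))
      (g := fun z => (h z - h x) * (k z - k x))
      (fun z => by nlinarith [sq_nonneg ((h z - h x) + (k z - k x)), mul_self_nonneg (h z - h x),
        mul_self_nonneg (k z - k x)]) x
    rw [E_smul] at this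
    linarith
  · exact A.E_mono n (fun z => by
      nlinarith [sq_nonneg ((h z - h x) - (k z - k x)), mul_self_nonneg (h z - h x),
        mul_self_nonneg (k z - k x)]) x

lemma Bn_bdd (h k : HW A o) (x : X) : ∃ M, ∀ n, |A.Bn n x (fn h) (fn k)| ≤ M := by
  obtain ⟨L, hL⟩ := fn_lip h
  obtain ⟨M, hM⟩ := fn_lip k
  refine ⟨L ^ 2 + M ^ 2, fun n => (Bn_abs_le _ _ n x).trans (add_le_add ?_ ?_)⟩
  · exact Bn_self_le (fn_harm h) hL n x
  · exact Bn_self_le (fn_harm k) hM n x

/-- The limit form at `x`. -/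
noncomputable def B (ω : Ultrafilter ℕ) (x : X) (h k : HW A o) : ℝ :=
  limUnder (ω : Filter ℕ) fun n => A.Bn n x (fn h) (fn k)

variable {ω : Ultrafilter ℕ}

lemma B_tendsto (x : X) (h k : HW A o) :
    Tendsto (fun n => A.Bn n x (fn h) (fn k)) (ω : Filter ℕ) (𝓝 (B ω x h k)) :=
  tendsto_nhds_limUnder (exists_lim _ (Bn_bdd h k x))

lemma B_unique {x : X} {h k : HW A o} {c : ℝ}
    (hx : Tendsto (fun n => A.Bn n x (fn h) (fn k)) (ω : Filter ℕ) (𝓝 c)) : B ω x h k = c :=
  tendsto_nhds_unique (B_tendsto x h k) hx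

lemma B_symm (x : X) (h k : HW A o) : B ω x h k = B ω x k h := by
  apply B_unique
  refine (B_tendsto x k h).congr fun n => ?_
  unfold Bn
  congr 1
  exact A.E_congr n (fun z => by ring) x

lemma B_add_left (x : X) (h h' k : HW A o) : B ω x (h + h') k = B ω x h k + B ω x h' k := by
  apply B_unique
  refine ((B_tendsto x h k).add (B_tendsto x h' k)).congr fun n => ?_
  unfold Bn
  rw [← add_div, ← E_add]
  congr 1
  exact A.E_congr n (fun z => by rw [fn_add, fn_add]; ring) x

lemma B_smul_left (x : X) (c : ℝ) (h k : HW A o) : B ω x (c • h) k = c * B ω x h k := by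
  apply B_unique
  refine ((B_tendsto x h k).const_mul c).congr fun n => ?_
  unfold Bn
  rw [← mul_div_assoc, ← E_smul]
  congr 1
  exact A.E_congr n (fun z => by rw [fn_smul, fn_smul]; ring) x

lemma B_self_nonneg (x : X) (h : HW A o) : 0 ≤ B ω x h h :=
  ge_of_tendsto' (B_tendsto x h h) fun n => Bn_self_nonneg _ n x

variable (A) in
/-- The standing hypotheses on the ultrafilter. -/
structure Good (ω : Ultrafilter ℕ) (K : ℝ) : Prop where
  le : (ω : Filter ℕ) ≤ atTop
  bd : ∀ᶠ n in (ω : Filter ℕ), ∀ x, ∀ y ∈ A.nb x, A.D n x y ≤ K / (n + 1)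
  pos : 0 < K

lemma tendsto_inv (hg : (ω : Filter ℕ) ≤ atTop) (c : ℝ) :
    Tendsto (fun n : ℕ => c / ((n : ℝ) + 1)) (ω : Filter ℕ) (𝓝 0) := by
  have h1 : Tendsto (fun n : ℕ => c * (1 / ((n : ℝ) + 1))) atTop (𝓝 (c * 0)) :=
    tendsto_one_div_add_atTop_nhds_zero_nat.const_mul c
  rw [mul_zero] at h1
  refine (h1.mono_left hg).congr fun n => ?_
  rw [mul_one_div]

lemma E_shift_sq {h : X → ℝ} (hh : A.Harm h) (x y : X) (n : ℕ) :
    A.E n (fun z => (h z - h x) ^ 2) y
      = A.E n (fun z => (h z - h y) * (h z - h y)) y + (h y - h x) ^ 2 := by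
  have e1 : A.E n (fun z => (h z - h y) * (h z - h y)) y
      = A.E n (fun z => ((h z - h x) ^ 2 - 2 * (h y - h x) * h z)
        + (2 * (h y - h x) * h x + (h y - h x) ^ 2)) y :=
    A.E_congr n (fun z => by ring) y
  rw [e1, E_add, E_sub, E_smul, hh.E_eq', E_const]
  ring

/-- Evaluation is bounded by the form. -/
lemma eval_sq_le_aux {K : ℝ} (hg : A.Good ω K) (h : HW A o) {x y : X} (hy : y ∈ A.nb x) :
    (fn h y - fn h x) ^ 2 ≤ 2 * K * (B ω y h h + B ω x h h) := by
  have key : ∀ᶠ n in (ω : Filter ℕ), (fn h y - fn h x) ^ 2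
      ≤ 2 * K * (A.Bn n y (fn h) (fn h) + (fn h y - fn h x) ^ 2 / ((n : ℝ) + 1)
        + A.Bn n x (fn h) (fn h)) := by
    filter_upwards [hg.bd] with n hn
    have hD := hn x y hy
    have h1 := A.diff_sq_le n x y (fun z => fn h z - fn h x)
    rw [E_sub, E_sub, (fn_harm h).E_eq', (fn_harm h).E_eq', E_const, E_const, sub_self, sub_zero,
      E_shift_sq (fn_harm h)] at h1
    have e1 : A.E n (fun z => (fn h z - fn h x) ^ 2) x
        = A.E n (fun z => (fn h z - fn h x) * (fn h z - fn h x)) x :=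
      A.E_congr n (fun z => by ring) x
    rw [e1] at h1
    have hpos : (0 : ℝ) < (n : ℝ) + 1 := by positivity
    set A1 := A.E n (fun z => (fn h z - fn h y) * (fn h z - fn h y)) y with hA1
    set A2 := A.E n (fun z => (fn h z - fn h x) * (fn h z - fn h x)) x with hA2
    have hA1' : 0 ≤ A1 := A.E_nonneg n (fun z => mul_self_nonneg _) y
    have hA2' : 0 ≤ A2 := A.E_nonneg n (fun z => mul_self_nonneg _) x
    calc (fn h y - fn h x) ^ 2 ≤ A.D n x y * (2 * (A1 + (fn h y - fn h x) ^ 2 + A2)) := h1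
      _ ≤ (K / (n + 1)) * (2 * (A1 + (fn h y - fn h x) ^ 2 + A2)) := by
        apply mul_le_mul_of_nonneg_right hD
        positivity
      _ = 2 * K * (A.Bn n y (fn h) (fn h) + (fn h y - fn h x) ^ 2 / ((n : ℝ) + 1)
          + A.Bn n x (fn h) (fn h)) := by
        unfold Bn
        rw [← hA1, ← hA2]
        field_simp
  have lim : Tendsto (fun n : ℕ => 2 * K * (A.Bn n y (fn h) (fn h)
      + (fn h y - fn h x) ^ 2 / ((n : ℝ) + 1)
      + A.Bn n x (fn h) (fn h))) (ω : Filter ℕ) (𝓝 (2 * K * (B ω y h h + 0 + B ω x h h))) :=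
    (((B_tendsto y h h).add (tendsto_inv hg.le _)).add (B_tendsto x h h)).const_mul _
  have := ge_of_tendsto lim key
  simpa using this

/-- Invariance of the quadratic form along edges. -/
lemma q_inv_edge {K : ℝ} (hg : A.Good ω K) (h : HW A o) {x y : X} (hy : y ∈ A.nb x) :
    B ω y h h = B ω x h h := by
  obtain ⟨L, hL⟩ := fn_lip h
  set c := (fn h y - fn h x) ^ 2 with hc
  set C1 : ℝ := K * (2 * (36 * L ^ 4 + 8 * c ^ 2)) with hC1
  have hC1pos : 0 ≤ C1 := by have := hg.pos; positivity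
  have key : ∀ᶠ n in (ω : Filter ℕ),
      |A.Bn n y (fn h) (fn h) + c / ((n : ℝ) + 1) - A.Bn n x (fn h) (fn h)|
        ≤ Real.sqrt (C1 / ((n : ℝ) + 1)) := by
    filter_upwards [hg.bd] with n hn
    have hD := hn x y hy
    have h1 := A.diff_sq_le n x y (fun z => (fn h z - fn h x) ^ 2)
    rw [E_shift_sq (fn_harm h)] at h1
    have e1 : A.E n (fun z => (fn h z - fn h x) ^ 2) x
        = A.E n (fun z => (fn h z - fn h x) * (fn h z - fn h x)) x :=
      A.E_congr n (fun z => by ring) x
    rw [e1] at h1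
    have hpos : (0 : ℝ) < (n : ℝ) + 1 := by positivity
    have hn0 : (0 : ℝ) ≤ n := Nat.cast_nonneg n
    have m1 : A.E n (fun z => ((fn h z - fn h x) ^ 2) ^ 2) x ≤ 4 * n ^ 2 * L ^ 4 := by
      have := (fn_harm h).E_four_le hL n x
      rwa [A.E_congr n (g := fun z => (fn h z - fn h x) ^ 4) (fun z => by ring) x]
    have m2 : A.E n (fun z => ((fn h z - fn h x) ^ 2) ^ 2) y
        ≤ 8 * (4 * n ^ 2 * L ^ 4) + 8 * c ^ 2 := by
      have h4 := (fn_harm h).E_four_le hL n y
      have : A.E n (fun z => ((fn h z - fn h x) ^ 2) ^ 2) y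
          ≤ A.E n (fun z => 8 * ((fn h z - fn h y) ^ 4) + 8 * c ^ 2) y := by
        apply A.E_mono
        intro z
        set u := fn h z - fn h y
        set v := fn h y - fn h x
        have e : fn h z - fn h x = u + v := by simp only [u, v]; ring
        rw [e, hc]
        have s1 : (u + v) ^ 2 ≤ 2 * (u ^ 2 + v ^ 2) := by
          nlinarith [sq_nonneg (u - v)]
        have s2 : ((u + v) ^ 2) ^ 2 ≤ (2 * (u ^ 2 + v ^ 2)) ^ 2 :=
          pow_le_pow_left₀ (sq_nonneg _) s1 2
        nlinarith [sq_nonneg (u ^ 2 - v ^ 2)]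
      rw [E_add, E_smul, E_const] at this
      linarith
    set A1 := A.E n (fun z => (fn h z - fn h y) * (fn h z - fn h y)) y with hA1
    set A2 := A.E n (fun z => (fn h z - fn h x) * (fn h z - fn h x)) x with hA2
    have h5 : (A1 + c - A2) ^ 2 ≤ C1 * ((n : ℝ) + 1) := by
      calc (A1 + c - A2) ^ 2 ≤ A.D n x y * (2 * (A.E n (fun z => ((fn h z - fn h x) ^ 2) ^ 2) y
              + A.E n (fun z => ((fn h z - fn h x) ^ 2) ^ 2) x)) := h1
        _ ≤ (K / (n + 1)) * (2 * ((8 * (4 * n ^ 2 * L ^ 4) + 8 * c ^ 2) + 4 * n ^ 2 * L ^ 4)) := by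
            apply mul_le_mul hD _ _ (by have := hg.pos; positivity)
            · linarith
            · have t1 : 0 ≤ A.E n (fun z => ((fn h z - fn h x) ^ 2) ^ 2) y :=
                A.E_nonneg n (fun x => sq_nonneg _) y
              have t2 : 0 ≤ A.E n (fun z => ((fn h z - fn h x) ^ 2) ^ 2) x :=
                A.E_nonneg n (fun x => sq_nonneg _) x
              positivity
        _ ≤ (K / (n + 1)) * (2 * ((36 * L ^ 4 + 8 * c ^ 2) * (n + 1) ^ 2)) := by
            apply mul_le_mul_of_nonneg_left _ (by have := hg.pos; positivity)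
            have u1 : (n : ℝ) ^ 2 ≤ (n + 1) ^ 2 := by nlinarith
            have u2 : (1 : ℝ) ≤ (n + 1) ^ 2 := by nlinarith
            have v2 : 0 ≤ L ^ 4 := by positivity
            have v3 : 0 ≤ c ^ 2 := by positivity
            nlinarith [mul_le_mul_of_nonneg_right u1 v2,
              mul_le_mul_of_nonneg_right u2 v3]
        _ = C1 * ((n : ℝ) + 1) := by
            rw [hC1]; field_simp
    have h6 : |(A1 + c - A2) / ((n : ℝ) + 1)| ≤ Real.sqrt (C1 / ((n : ℝ) + 1)) := by
      apply Real.abs_le_sqrt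
      rw [div_pow, div_le_div_iff₀ (by positivity) (by positivity)]
      calc (A1 + c - A2) ^ 2 * ((n : ℝ) + 1) ≤ (C1 * ((n : ℝ) + 1)) * ((n : ℝ) + 1) :=
            mul_le_mul_of_nonneg_right h5 hpos.le
        _ = C1 * ((n : ℝ) + 1) ^ 2 := by ring
    have e2 : A.Bn n y (fn h) (fn h) + c / ((n : ℝ) + 1) - A.Bn n x (fn h) (fn h)
        = (A1 + c - A2) / ((n : ℝ) + 1) := by
      unfold Bn
      rw [← hA1, ← hA2]
      ring
    rw [e2]; exact h6
  have l1 : Tendsto (fun n : ℕ => |A.Bn n y (fn h) (fn h) + c / ((n : ℝ) + 1)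
      - A.Bn n x (fn h) (fn h)|) (ω : Filter ℕ) (𝓝 |B ω y h h + 0 - B ω x h h|) :=
    (((B_tendsto y h h).add (tendsto_inv hg.le _)).sub (B_tendsto x h h)).abs
  have l2 : Tendsto (fun n : ℕ => Real.sqrt (C1 / ((n : ℝ) + 1))) (ω : Filter ℕ) (𝓝 0) := by
    have := (Real.continuous_sqrt.tendsto 0).comp (tendsto_inv hg.le C1)
    rw [Real.sqrt_zero] at this
    exact this
  have h7 := le_of_tendsto_of_tendsto l1 l2 key
  have h8 : B ω y h h + 0 - B ω x h h = 0 := abs_nonpos_iff.mp h7
  linarith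

lemma q_inv {K : ℝ} (hg : A.Good ω K) (h : HW A o) (x y : X) : B ω y h h = B ω x h h := by
  refine A.conn_induction (q := fun y => B ω y h h = B ω x h h) (x := x) rfl ?_ y
  intro y hy z hz
  rw [q_inv_edge hg h hz]
  exact hy

lemma B_inv {K : ℝ} (hg : A.Good ω K) (h k : HW A o) (x y : X) : B ω y h k = B ω x h k := by
  have h1 := q_inv hg (h + k) x y
  rw [B_add_left, B_add_left, B_symm _ h (h + k), B_symm _ k (h + k), B_add_left, B_add_left,
    B_symm _ h (h + k), B_symm _ k (h + k), B_add_left, B_add_left, q_inv hg h x y,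
    q_inv hg k x y, B_symm y k h, B_symm x k h] at h1
  linarith

lemma eval_sq_le {K : ℝ} (hg : A.Good ω K) (h : HW A o) {x y : X} (hy : y ∈ A.nb x) :
    (fn h y - fn h x) ^ 2 ≤ 4 * K * B ω o h h := by
  have := eval_sq_le_aux hg h hy
  rw [q_inv hg h o y, q_inv hg h o x] at this
  linarith

lemma B_def {K : ℝ} (hg : A.Good ω K) (h : HW A o) (h0 : B ω o h h = 0) : h = 0 := by
  apply fn_ext
  intro x
  rw [fn_zero]
  refine A.conn_induction (q := fun y => fn h y = 0) (x := o) (fn_base h) ?_ x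
  intro y hy z hz
  have h2 := eval_sq_le hg h hz
  rw [h0, mul_zero] at h2
  have h3 : fn h z - fn h y = 0 := by
    have := le_antisymm h2 (sq_nonneg _)
    exact pow_eq_zero_iff (two_ne_zero) |>.mp this
  show fn h z = 0
  have hy' : fn h y = 0 := hy
  linarith

/-- The inner product. -/
@[reducible] noncomputable def core {K : ℝ} (hg : A.Good ω K) :
    InnerProductSpace.Core ℝ (HW A o) where
  inner h k := B ω o h k
  conj_inner_symm h k := by simp [B_symm o k h]
  re_inner_nonneg h := by simpa using B_self_nonneg o h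
  add_left h h' k := B_add_left o h h' k
  smul_left h k c := by simpa using B_smul_left o c h k
  definite h h0 := B_def hg h h0

lemma B_sum_left {m : ℕ} (s : Finset (Fin m)) (c : Fin m → ℝ) (e : Fin m → HW A o) (w : HW A o) :
    B ω o (∑ j ∈ s, c j • e j) w = ∑ j ∈ s, c j * B ω o (e j) w := by
  classical
  induction s using Finset.induction_on with
  | empty =>
    simp only [Finset.sum_empty]
    have := B_smul_left (ω := ω) o (0 : ℝ) (0 : HW A o) w
    simpa using this
  | insert j s hj ih => rw [Finset.sum_insert hj, B_add_left, B_smul_left, ih, Finset.sum_insert hj]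

lemma sum_eval_sq_le {K : ℝ} (hg : A.Good ω K) {m : ℕ} (e : Fin m → HW A o)
    (he : ∀ j k, B ω o (e j) (e k) = if j = k then 1 else 0) {x y : X} (hy : y ∈ A.nb x) :
    ∑ j, (fn (e j) y - fn (e j) x) ^ 2 ≤ 4 * K := by
  classical
  set c : Fin m → ℝ := fun j => fn (e j) y - fn (e j) x with hc
  set v : HW A o := ∑ j, c j • e j with hv
  have h1 : fn v y - fn v x = ∑ j, c j ^ 2 := by
    rw [hv, fn_sum, fn_sum, ← Finset.sum_sub_distrib]
    exact Finset.sum_congr rfl fun j _ => by rw [fn_smul, fn_smul, hc]; ring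
  have h2 : B ω o v v = ∑ j, c j ^ 2 := by
    rw [hv, B_sum_left]
    refine Finset.sum_congr rfl fun j _ => ?_
    rw [B_symm, B_sum_left]
    simp_rw [he]
    simp
    ring
  have h3 := eval_sq_le hg v hy
  rw [h1, h2] at h3
  set σ := ∑ j, c j ^ 2 with hσ
  have hσ0 : 0 ≤ σ := Finset.sum_nonneg fun j _ => sq_nonneg _
  rcases hσ0.eq_or_lt with h | h
  · rw [← h]; have := hg.pos; positivity
  · have : σ * σ ≤ (4 * K) * σ := by nlinarith
    exact le_of_mul_le_mul_right this h

lemma card_le {K : ℝ} (hg : A.Good ω K) {m : ℕ} (e : Fin m → HW A o)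
    (he : ∀ j k, B ω o (e j) (e k) = if j = k then 1 else 0) : (m : ℝ) ≤ 4 * K := by
  classical
  have h1 : ∀ n : ℕ, ∑ j, A.Bn n o (fn (e j)) (fn (e j)) ≤ 4 * K := by
    intro n
    have e1 : ∀ j, A.E n (fun z => (fn (e j) z - fn (e j) o) * (fn (e j) z - fn (e j) o)) o
        = ∑ k ∈ Finset.range n, A.E k (A.gr (fn (e j))) o := by
      intro j
      rw [← (fn_harm (e j)).E_sq n]
      exact A.E_congr n (fun z => by ring) o
    have e2 : ∀ k, ∑ j, A.E k (A.gr (fn (e j))) o ≤ 4 * K := by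
      intro k
      rw [← A.E_finset_sum Finset.univ k (fun j => A.gr (fn (e j))) o]
      calc _ ≤ A.E k (fun _ => 4 * K) o := by
            apply A.E_mono
            intro x
            have : ∑ j, A.gr (fn (e j)) x
                = A.P (fun y => ∑ j, (fn (e j) y - fn (e j) x) ^ 2) x :=
              (A.P_finset_sum Finset.univ (fun j y => (fn (e j) y - fn (e j) x) ^ 2) x).symm
            rw [this]
            calc _ ≤ A.P (fun _ => 4 * K) x := by
                  apply A.P_mono
                  intro y hy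
                  exact sum_eval_sq_le hg e he hy
              _ = 4 * K := A.P_const _ _
        _ = 4 * K := A.E_const k _ _
    unfold Bn
    rw [← Finset.sum_div, div_le_iff₀ (by positivity)]
    simp_rw [e1]
    rw [Finset.sum_comm]
    calc _ ≤ ∑ k ∈ Finset.range n, 4 * K := Finset.sum_le_sum fun k _ => e2 k
      _ = n * (4 * K) := by simp
      _ ≤ 4 * K * ((n : ℝ) + 1) := by
        have := hg.pos
        nlinarith
  have h2 : Tendsto (fun n : ℕ => ∑ j, A.Bn n o (fn (e j)) (fn (e j))) (ω : Filter ℕ)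
      (𝓝 (∑ j, B ω o (e j) (e j))) := tendsto_finsetSum _ fun j _ => B_tendsto o (e j) (e j)
  have h3 := le_of_tendsto' h2 h1
  simpa [he] using h3

theorem finite_dim {K : ℝ} (hg : A.Good ω K) : Module.Finite ℝ (HW A o) := by
  classical
  have hr : Module.rank ℝ (HW A o) ≤ (⌊4 * K⌋₊ : ℕ) := by
    apply rank_le
    intro s hs
    let c := core (o := o) hg
    let _ : NormedAddCommGroup (HW A o) := c.toNormedAddCommGroup
    let _ : InnerProductSpace ℝ (HW A o) := InnerProductSpace.ofCore c.toCore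
    let f : Fin s.card → HW A o := fun j => (s.equivFin.symm j : HW A o)
    have hf : LinearIndependent ℝ f := hs.comp _ s.equivFin.symm.injective
    have ho := InnerProductSpace.gramSchmidtNormed_orthonormal (𝕜 := ℝ) hf
    rw [orthonormal_iff_ite] at ho
    have hc := card_le hg (fun j => InnerProductSpace.gramSchmidtNormed ℝ f j) (fun j k => by
      have := ho j k
      exact this)
    exact Nat.le_floor hc
  exact Module.rank_lt_aleph0_iff.mp (lt_of_le_of_lt hr (Cardinal.natCast_lt_aleph0))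

end Net

end Crest.Agent.R147.St
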