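import Crest.Agent.R147.StTwo
import Crest.Prelude.Def_BondPerc

/-!
R147, structure block (helper505), part 15: quasi-transitive graphs of weakly polynomial growth.
Either some quasi-transitive group of automorphisms surjects onto `ℤ²` (with an equivariant
Lipschitz map `V → ℤ²`), or there is an equivariant Lipschitz map `V → ℤ` with fibres of bounded
diameter.
-/

set_option autoImplicit false
set_option linter.unusedSectionVars false

universe u

namespace Crest.Agent.R147.St

open Filter Function Crest.ProbabilityR.Percolation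

section

variable {V : Type u} {G : SimpleGraph V}

lemma iso_dist_le (hconn : G.Connected) (g : G ≃g G) (x y : V) :
    G.dist (g x) (g y) ≤ G.dist x y := by
  obtain ⟨w, hw⟩ := hconn.exists_walk_length_eq_dist x y
  rw [← hw]
  have h1 := SimpleGraph.dist_le (w.map g.toHom)
  rw [SimpleGraph.Walk.length_map] at h1
  exact h1

lemma iso_dist (hconn : G.Connected) (g : G ≃g G) (x y : V) :
    G.dist (g x) (g y) = G.dist x y := by
  apply le_antisymm (iso_dist_le hconn g x y)
  have h1 := iso_dist_le hconn g⁻¹ (g x) (g y)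
  have h2 : ∀ z, g⁻¹ (g z) = z := fun z => g.symm_apply_apply z
  rw [h2, h2] at h1
  exact h1

/-- the displacement of the root. -/
noncomputable def len (o : V) (g : G ≃g G) : ℕ := G.dist o (g o)

lemma mul_app (g h : G ≃g G) (x : V) : (g * h) x = g (h x) := rfl

lemma inv_app_self (g : G ≃g G) (x : V) : g⁻¹ (g x) = x := g.symm_apply_apply x

lemma app_inv_self (g : G ≃g G) (x : V) : g (g⁻¹ x) = x := g.apply_symm_apply x

lemma len_plen (hconn : G.Connected) (o : V) : PLen (len (G := G) o) where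
  one := by
    show G.dist o o = 0
    exact SimpleGraph.dist_self
  mul g h := by
    show G.dist o (g (h o)) ≤ G.dist o (g o) + G.dist o (h o)
    have h1 := hconn.dist_triangle (u := o) (v := g o) (w := g (h o))
    rw [iso_dist hconn] at h1
    exact h1
  inv g := by
    show G.dist o (g⁻¹ o) = G.dist o (g o)
    rw [← iso_dist hconn g o (g⁻¹ o), app_inv_self, SimpleGraph.dist_comm]

lemma gball_finite (hconn : G.Connected) (hloc : ∀ v : V, (G.neighborSet v).Finite) (o : V)
    (n : ℕ) : {v | G.dist o v ≤ n}.Finite := by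
  induction n with
  | zero =>
    refine (Set.finite_singleton o).subset ?_
    intro v hv
    have h1 : G.dist o v = 0 := Nat.le_zero.1 hv
    exact ((hconn.dist_eq_zero_iff).1 h1).symm
  | succ n ih =>
    refine (ih.union (ih.biUnion fun v _ => hloc v)).subset ?_
    intro v hv
    by_cases h : G.dist o v ≤ n
    · exact Or.inl h
    · right
      have hv' : G.dist o v ≤ n + 1 := hv
      have h1 : G.dist o v = n + 1 := by omega
      obtain ⟨w, hw⟩ := hconn.exists_walk_length_eq_dist v o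
      rw [SimpleGraph.dist_comm, h1] at hw
      cases w with
      | nil => simp at hw
      | cons hadj w' =>
        rename_i y
        rw [SimpleGraph.Walk.length_cons] at hw
        simp only [Set.mem_iUnion]
        refine ⟨y, ?_, hadj.symm⟩
        have h2 := SimpleGraph.dist_le w'
        show G.dist o y ≤ n
        rw [SimpleGraph.dist_comm]
        omega

lemma len_cov (hconn : G.Connected) (hloc : ∀ v : V, (G.neighborSet v).Finite) (o : V) (n : ℕ) :
    Cov (len (G := G) o) n {v | G.dist o v ≤ n}.ncard := by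
  classical
  intro F hF1 hF2
  have hinj : Set.InjOn (fun g : G ≃g G => g o) F := by
    intro g hg h hh hgh
    by_contra hne
    apply hF2 g hg h hh hne
    show G.dist o ((g⁻¹ * h) o) = 0
    have h1 : g o = h o := hgh
    rw [mul_app, ← h1, inv_app_self, SimpleGraph.dist_self]
  rw [← Finset.card_image_of_injOn hinj, ← Set.ncard_coe_finset]
  refine Set.ncard_le_ncard ?_ (gball_finite hconn hloc o n)
  intro v hv
  rw [Finset.coe_image] at hv
  obtain ⟨g, hg, rfl⟩ := hv
  exact hF1 g hg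

/-- weakly polynomial growth of a graph. -/
def WGrowth (G : SimpleGraph V) (o : V) (C d : ℕ) : Prop :=
  ∃ᶠ n in atTop, {v | G.dist o v ≤ n}.ncard ≤ C * (n + 1) ^ d

lemma len_wlen (hconn : G.Connected) (hloc : ∀ v : V, (G.neighborSet v).Finite) (o : V)
    {C d : ℕ} (hgr : WGrowth G o C d) : WLen (len (G := G) o) d where
  toPLen := len_plen hconn o
  fin n := ⟨_, len_cov hconn hloc o n⟩
  gr := ⟨C, hgr.mono fun n hn => (len_cov hconn hloc o n).mono le_rfl hn⟩

/-- every vertex is close to the orbit of the root. -/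
lemma exists_near (hconn : G.Connected) (hqt : IsQuasiTransitive G) (o : V) :
    ∃ R : ℕ, ∀ v, ∃ g : G ≃g G, G.dist v (g o) ≤ R := by
  classical
  obtain ⟨F, hF⟩ := hqt
  refine ⟨F.sup (fun f => G.dist f o), fun v => ?_⟩
  obtain ⟨φ, hφ⟩ := hF v
  refine ⟨φ⁻¹, ?_⟩
  rw [← iso_dist hconn φ v (φ⁻¹ o), app_inv_self]
  exact Finset.le_sup (f := fun f => G.dist f o) hφ

lemma len_cgen (hconn : G.Connected) (hqt : IsQuasiTransitive G) (o : V) :
    CGen (len (G := G) o) := by
  obtain ⟨R, hR⟩ := exists_near hconn hqt o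
  refine ⟨2 * R + 1, ?_⟩
  rw [eq_top_iff]
  intro g _
  set S : Subgroup (G ≃g G) := Subgroup.closure {g : G ≃g G | len o g ≤ 2 * R + 1} with hS
  have hSmem : ∀ g h : G ≃g G, h ∈ S → G.dist (h o) (g o) ≤ 2 * R + 1 → g ∈ S := by
    intro g h hh hd
    have h1 : h⁻¹ * g ∈ S := by
      apply Subgroup.subset_closure
      show G.dist o ((h⁻¹ * g) o) ≤ 2 * R + 1
      rw [← iso_dist hconn h o ((h⁻¹ * g) o), mul_app, app_inv_self]
      exact hd
    have h2 := S.mul_mem hh h1
    rwa [mul_inv_cancel_left] at h2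
  -- along a walk
  have key : ∀ (x y : V) (w : G.Walk x y) (h : G ≃g G), h ∈ S → G.dist x (h o) ≤ R →
      ∃ h' ∈ S, G.dist y (h' o) ≤ R := by
    intro x y w
    induction w with
    | nil => intro h hh hd; exact ⟨h, hh, hd⟩
    | cons hadj w' ih =>
      rename_i a b c
      intro h hh hd
      obtain ⟨h', hd'⟩ := hR b
      refine ih h' (hSmem h' h hh ?_) hd'
      have h1 := hconn.dist_triangle (u := h o) (v := a) (w := h' o)
      have h2 := hconn.dist_triangle (u := a) (v := b) (w := h' o)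
      have h3 : G.dist a b = 1 := SimpleGraph.dist_eq_one_iff_adj.2 hadj
      rw [SimpleGraph.dist_comm (u := h o) (v := a)] at h1
      omega
  obtain ⟨w, _⟩ := hconn.exists_walk_length_eq_dist o (g o)
  obtain ⟨h', hh', hd'⟩ := key _ _ w 1 S.one_mem (by
    show G.dist o o ≤ R
    rw [SimpleGraph.dist_self]; exact Nat.zero_le _)
  refine hSmem g h' hh' ?_
  rw [SimpleGraph.dist_comm]
  omega

lemma len_unbounded [Infinite V] (hconn : G.Connected)
    (hloc : ∀ v : V, (G.neighborSet v).Finite) (hqt : IsQuasiTransitive G) (o : V) (b : ℕ) :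
    ∃ g : G ≃g G, b < len o g := by
  obtain ⟨R, hR⟩ := exists_near hconn hqt o
  by_contra hcon
  push Not at hcon
  have h1 : (Set.univ : Set V) ⊆ {v | G.dist o v ≤ b + R} := by
    intro v _
    obtain ⟨g, hg⟩ := hR v
    have h2 := hconn.dist_triangle (u := o) (v := g o) (w := v)
    have h3 := hcon g
    rw [SimpleGraph.dist_comm (u := g o) (v := v)] at h2
    show G.dist o v ≤ b + R
    have h4 : len o g = G.dist o (g o) := rfl
    omega
  exact Set.infinite_univ ((gball_finite hconn hloc o _).subset h1)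

/-- quasi-transitive groups of automorphisms. -/
def QT (H : Subgroup (G ≃g G)) : Prop := ∃ F : Finset V, ∀ v, ∃ h : H, (h : G ≃g G) v ∈ F

lemma QT.of_finiteIndex (hqt : IsQuasiTransitive G) (H : Subgroup (G ≃g G)) (hH : H.FiniteIndex) :
    QT H := by
  classical
  obtain ⟨F, hF⟩ := hqt
  have : Fintype ((G ≃g G) ⧸ H) := H.fintypeQuotientOfFiniteIndex
  refine ⟨((Finset.univ : Finset ((G ≃g G) ⧸ H)) ×ˢ F).image
    (fun p => (Quotient.out p.1 : G ≃g G)⁻¹ p.2), fun v => ?_⟩
  obtain ⟨φ, hφ⟩ := hF v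
  have h1 : (Quotient.out (QuotientGroup.mk φ : (G ≃g G) ⧸ H) : G ≃g G)⁻¹ * φ ∈ H := by
    rw [← QuotientGroup.eq]
    exact Quotient.out_eq' _
  refine ⟨⟨_, h1⟩, ?_⟩
  rw [Finset.mem_image]
  exact ⟨(QuotientGroup.mk φ, φ v), by simp [hφ], rfl⟩

/-- the equivariant map of a homomorphism which is trivial on stabilisers. -/
theorem exists_equivariant (H : Subgroup (G ≃g G)) (φ : H →* Multiplicative ℤ)
    (hstab : ∀ (h : H) (v : V), (h : G ≃g G) v = v → φ h = 1) :
    ∃ Φ : V → ℤ, ∀ (h : H) (v : V), Φ ((h : G ≃g G) v) = Multiplicative.toAdd (φ h) + Φ v := by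
  classical
  let r : Setoid V :=
    { r := fun x y => ∃ h : H, (h : G ≃g G) x = y
      iseqv :=
        { refl := fun x => ⟨1, rfl⟩
          symm := by
            rintro x y ⟨h, rfl⟩
            exact ⟨h⁻¹, inv_app_self _ _⟩
          trans := by
            rintro x y z ⟨h, rfl⟩ ⟨k, rfl⟩
            exact ⟨k * h, rfl⟩ } }
  let rep : V → V := fun v => Quotient.out (Quotient.mk r v)
  have hrep : ∀ v, ∃ h : H, (h : G ≃g G) (rep v) = v := fun v =>
    Quotient.exact (Quotient.out_eq (Quotient.mk r v))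
  choose hh hhh using hrep
  refine ⟨fun v => Multiplicative.toAdd (φ (hh v)), fun h v => ?_⟩
  have h1 : rep ((h : G ≃g G) v) = rep v := by
    show Quotient.out (Quotient.mk r ((h : G ≃g G) v)) = Quotient.out (Quotient.mk r v)
    congr 1
    apply Quotient.sound
    exact ⟨h⁻¹, inv_app_self _ _⟩
  have h2 : (((hh ((h : G ≃g G) v))⁻¹ * (h * hh v) : H) : G ≃g G) (rep v) = rep v := by
    show ((hh ((h : G ≃g G) v) : G ≃g G))⁻¹ ((h : G ≃g G) ((hh v : G ≃g G) (rep v))) = rep v
    rw [hhh v]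
    have h3 := hhh ((h : G ≃g G) v)
    rw [h1] at h3
    calc ((hh ((h : G ≃g G) v) : G ≃g G))⁻¹ ((h : G ≃g G) v)
        = ((hh ((h : G ≃g G) v) : G ≃g G))⁻¹ ((hh ((h : G ≃g G) v) : G ≃g G) (rep v)) := by rw [h3]
      _ = rep v := inv_app_self _ _
  have h3 := hstab _ _ h2
  rw [map_mul, map_inv, inv_mul_eq_one, map_mul] at h3
  show Multiplicative.toAdd (φ (hh ((h : G ≃g G) v))) = _
  rw [h3, toAdd_mul]

/-- a homomorphism killing the null elements is trivial on stabilisers. -/
theorem stab_one (hconn : G.Connected) (hloc : ∀ v : V, (G.neighborSet v).Finite) (o : V)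
    (H : Subgroup (G ≃g G)) (φ : H →* Multiplicative ℤ)
    (hK : ∀ g : H, len o (g : G ≃g G) = 0 → φ g = 1) (h : H) (v : V)
    (hv : (h : G ≃g G) v = v) : φ h = 1 := by
  refine eq_one_of_finite φ {k : H | (k : G ≃g G) v = v} ?_ ?_ h hv
  · intro k hk n
    induction n with
    | zero => rfl
    | succ n ih =>
      have hk' : (k : G ≃g G) v = v := hk
      have ih' : ((k ^ n : H) : G ≃g G) v = v := ih
      show ((k ^ (n + 1) : H) : G ≃g G) v = v
      rw [pow_succ, Subgroup.coe_mul, mul_app, hk', ih']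
  · have h1 := (image_ball_finite ((len_plen hconn o).subgroup H) φ (by
      refine (Set.finite_singleton 1).subset ?_
      rintro _ ⟨k, hk, rfl⟩
      exact hK k hk) ((len_cov hconn hloc o (2 * G.dist o v)).subgroup H)).1
    refine h1.subset ?_
    rintro _ ⟨k, hk, rfl⟩
    refine ⟨k, ?_, rfl⟩
    have hk' : (k : G ≃g G) v = v := hk
    show G.dist o ((k : G ≃g G) o) ≤ 2 * G.dist o v
    have h2 := hconn.dist_triangle (u := o) (v := v) (w := (k : G ≃g G) o)
    have h3 := iso_dist hconn (k : G ≃g G) v o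
    rw [hk'] at h3
    rw [h3, SimpleGraph.dist_comm (u := v) (v := o)] at h2
    omega

/-- equivariant maps are Lipschitz. -/
theorem exists_jump (hloc : ∀ v : V, (G.neighborSet v).Finite) {H : Subgroup (G ≃g G)}
    (hQ : QT H) (φ : H →* Multiplicative ℤ) (Φ : V → ℤ)
    (hΦ : ∀ (h : H) (v : V), Φ ((h : G ≃g G) v) = Multiplicative.toAdd (φ h) + Φ v) :
    ∃ C : ℕ, ∀ x y, G.Adj x y → |Φ x - Φ y| ≤ C := by
  classical
  obtain ⟨F, hF⟩ := hQ
  have hfin : (⋃ f ∈ F, (fun w => (Φ f - Φ w).natAbs) '' G.neighborSet f).Finite :=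
    F.finite_toSet.biUnion fun f _ => (hloc f).image _
  obtain ⟨C, hC⟩ := hfin.bddAbove
  refine ⟨C, fun x y hxy => ?_⟩
  obtain ⟨h, hh⟩ := hF x
  have h1 : (Φ ((h : G ≃g G) x) - Φ ((h : G ≃g G) y)).natAbs ≤ C := by
    apply hC
    simp only [Set.mem_iUnion]
    exact ⟨_, hh, (h : G ≃g G) y, (h : G ≃g G).map_adj_iff.2 hxy, rfl⟩
  rw [hΦ, hΦ] at h1
  have h2 : Multiplicative.toAdd (φ h) + Φ x - (Multiplicative.toAdd (φ h) + Φ y) = Φ x - Φ y := by
    ring
  rw [h2] at h1
  rw [Int.abs_eq_natAbs]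
  exact_mod_cast h1

end

/-- An equivariant Lipschitz map to `ℤ²`. -/
structure Z2Data {V : Type u} (G : SimpleGraph V) where
  /-- the group -/
  H : Subgroup (G ≃g G)
  /-- meets every orbit -/
  F : Finset V
  cov : ∀ v, ∃ h : H, (h : G ≃g G) v ∈ F
  /-- the homomorphism -/
  φ : H →* Multiplicative (ℤ × ℤ)
  surj : Surjective φ
  /-- the map -/
  Φ : V → ℤ × ℤ
  equi : ∀ (h : H) (v : V), Φ ((h : G ≃g G) v) = Multiplicative.toAdd (φ h) + Φ v
  /-- the Lipschitz constant -/
  C : ℕ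
  jump : ∀ x y, G.Adj x y → |(Φ x).1 - (Φ y).1| ≤ C ∧ |(Φ x).2 - (Φ y).2| ≤ C

/-- An equivariant Lipschitz map to `ℤ` with fibres of bounded diameter. -/
structure Z1Data {V : Type u} (G : SimpleGraph V) where
  /-- the group -/
  H : Subgroup (G ≃g G)
  /-- meets every orbit -/
  F : Finset V
  cov : ∀ v, ∃ h : H, (h : G ≃g G) v ∈ F
  /-- the homomorphism -/
  φ : H →* Multiplicative ℤ
  surj : Surjective φ
  /-- the map -/
  Φ : V → ℤ
  equi : ∀ (h : H) (v : V), Φ ((h : G ≃g G) v) = Multiplicative.toAdd (φ h) + Φ v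
  /-- the Lipschitz constant -/
  C : ℕ
  jump : ∀ x y, G.Adj x y → |Φ x - Φ y| ≤ C
  /-- the diameter of the fibres -/
  D : ℕ
  fib : ∀ x y, Φ x = Φ y → G.dist x y ≤ D

/-- **The structure theorem** for infinite connected locally finite quasi-transitive graphs of
weakly polynomial growth. -/
theorem structure_theorem {V : Type u} [Infinite V] (G : SimpleGraph V) (hconn : G.Connected)
    (hloc : ∀ v : V, (G.neighborSet v).Finite) (hqt : IsQuasiTransitive G) (o : V) {C d : ℕ}
    (hgr : WGrowth G o C d) : Nonempty (Z1Data G) ∨ Nonempty (Z2Data G) := by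
  classical
  rcases dichotomy (len_wlen hconn hloc o hgr) (len_cgen hconn hqt o)
    (len_unbounded hconn hloc hqt o) with
    ⟨H, hH, φ, hφ, hK, B, hB⟩ | ⟨H, hH, φ₁, φ₂, hs, hK⟩
  · left
    have hQ := QT.of_finiteIndex hqt H hH
    obtain ⟨Φ, hΦ⟩ := exists_equivariant H φ (stab_one hconn hloc o H φ hK)
    obtain ⟨C', hC'⟩ := exists_jump hloc hQ φ Φ hΦ
    obtain ⟨F, hF⟩ := hQ
    -- the fibres
    obtain ⟨t, ht⟩ := hφ (Multiplicative.ofAdd 1)
    have hl := (len_plen hconn o).subgroup H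
    have hzl : ∀ n : ℤ, len o ((t ^ n : H) : G ≃g G) ≤ n.natAbs * len o (t : G ≃g G) := by
      intro n
      obtain ⟨k, rfl | rfl⟩ := n.eq_nat_or_neg
      · rw [zpow_natCast]; simpa using hl.pow t k
      · rw [zpow_neg, zpow_natCast]
        have h1 := hl.inv (t ^ k)
        have h2 := hl.pow t k
        rw [Int.natAbs_neg, Int.natAbs_natCast]
        exact h1.le.trans h2
    set M : ℕ := F.sup (fun f => (Φ f).natAbs) with hM
    set R : ℕ := F.sup (fun f => G.dist o f) with hR
    refine ⟨⟨H, F, hF, φ, hφ, Φ, hΦ, C', hC', R + (B + 2 * M * len o (t : G ≃g G)) + R, ?_⟩⟩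
    intro x y hxy
    obtain ⟨h, hh⟩ := hF x
    obtain ⟨k, hk⟩ := hF y
    -- `h x = f`, `k y = f'`; `d(x,y) = d(f, h k⁻¹ f')`
    have e1 : G.dist x y = G.dist ((h : G ≃g G) x) (((h * k⁻¹ : H) : G ≃g G) ((k : G ≃g G) y)) := by
      have : ((h * k⁻¹ : H) : G ≃g G) ((k : G ≃g G) y) = (h : G ≃g G) y := by
        show (h : G ≃g G) ((k : G ≃g G)⁻¹ ((k : G ≃g G) y)) = (h : G ≃g G) y
        rw [inv_app_self]
      rw [this, iso_dist hconn]
    have hx := hΦ h x
    have hy := hΦ k y
    have h1 : (Φ ((h : G ≃g G) x)).natAbs ≤ M := Finset.le_sup (f := fun f => (Φ f).natAbs) hh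
    have h2 : (Φ ((k : G ≃g G) y)).natAbs ≤ M := Finset.le_sup (f := fun f => (Φ f).natAbs) hk
    set n : ℤ := Multiplicative.toAdd (φ (h * k⁻¹)) with hn
    have hn1 : n = Multiplicative.toAdd (φ h) - Multiplicative.toAdd (φ k) := by
      rw [hn, map_mul, map_inv, toAdd_mul, toAdd_inv]; ring
    have hn2 : n.natAbs ≤ 2 * M := by omega
    have h3 : φ ((h * k⁻¹) * (t ^ n)⁻¹) = 1 := by
      rw [map_mul, map_inv, map_zpow, ht, ← ofAdd_zsmul, smul_eq_mul, mul_one, hn, ofAdd_toAdd,
        mul_inv_cancel]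
    have h4 := hB _ h3
    have h5 : len o ((h * k⁻¹ : H) : G ≃g G) ≤ B + 2 * M * len o (t : G ≃g G) := by
      have h6 := hl.mul ((h * k⁻¹) * (t ^ n)⁻¹) (t ^ n)
      have e2 : (h * k⁻¹) * (t ^ n)⁻¹ * t ^ n = h * k⁻¹ := by group
      rw [e2] at h6
      have h7 := hzl n
      have h8 : n.natAbs * len o (t : G ≃g G) ≤ 2 * M * len o (t : G ≃g G) :=
        Nat.mul_le_mul_right _ hn2
      have h6' : len o ((h * k⁻¹ : H) : G ≃g G) ≤ len o (((h * k⁻¹) * (t ^ n)⁻¹ : H) : G ≃g G)
          + len o ((t ^ n : H) : G ≃g G) := h6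
      omega
    rw [e1]
    set g : G ≃g G := ((h * k⁻¹ : H) : G ≃g G) with hg
    have h9 : G.dist o ((h : G ≃g G) x) ≤ R := Finset.le_sup (f := fun f => G.dist o f) hh
    have h10 : G.dist o ((k : G ≃g G) y) ≤ R := Finset.le_sup (f := fun f => G.dist o f) hk
    have h11 := hconn.dist_triangle (u := (h : G ≃g G) x) (v := o) (w := g ((k : G ≃g G) y))
    have h12 := hconn.dist_triangle (u := o) (v := g o) (w := g ((k : G ≃g G) y))
    rw [iso_dist hconn g] at h12
    rw [SimpleGraph.dist_comm (u := (h : G ≃g G) x) (v := o)] at h11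
    have h13 : len o g = G.dist o (g o) := rfl
    omega
  · right
    have hQ := QT.of_finiteIndex hqt H hH
    obtain ⟨Φ₁, hΦ₁⟩ := exists_equivariant H φ₁
      (stab_one hconn hloc o H φ₁ fun g hg => (hK g hg).1)
    obtain ⟨Φ₂, hΦ₂⟩ := exists_equivariant H φ₂
      (stab_one hconn hloc o H φ₂ fun g hg => (hK g hg).2)
    obtain ⟨C₁, hC₁⟩ := exists_jump hloc hQ φ₁ Φ₁ hΦ₁
    obtain ⟨C₂, hC₂⟩ := exists_jump hloc hQ φ₂ Φ₂ hΦ₂
    obtain ⟨F, hF⟩ := hQ
    refine ⟨⟨H, F, hF, MonoidHom.mk' (fun h => Multiplicative.ofAdd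
      (Multiplicative.toAdd (φ₁ h), Multiplicative.toAdd (φ₂ h))) ?_, ?_,
      fun v => (Φ₁ v, Φ₂ v), ?_, max C₁ C₂, ?_⟩⟩
    · intro a b
      simp only [map_mul, toAdd_mul]
      rfl
    · intro x
      obtain ⟨g, hg1, hg2⟩ := hs (Multiplicative.ofAdd (Multiplicative.toAdd x).1)
        (Multiplicative.ofAdd (Multiplicative.toAdd x).2)
      refine ⟨g, ?_⟩
      show Multiplicative.ofAdd (Multiplicative.toAdd (φ₁ g), Multiplicative.toAdd (φ₂ g)) = x
      rw [hg1, hg2]
      rfl
    · intro h v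
      exact Prod.ext (hΦ₁ h v) (hΦ₂ h v)
    · intro x y hxy
      have h1 := hC₁ x y hxy
      have h2 := hC₂ x y hxy
      push_cast
      exact ⟨h1.trans (le_max_left _ _), h2.trans (le_max_right _ _)⟩

end Crest.Agent.R147.St
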