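import Mathlib

/-!
R147, structure block (helper505), part 11: a Kronecker type lemma. If all powers of an injective
endomorphism of a finite dimensional rational vector space are annihilated by integral polynomials
with unit leading coefficient and all complex roots of modulus less than two, then some power has a
nonzero fixed vector.
-/

set_option autoImplicit false
set_option linter.unusedSectionVars false

namespace Crest.Agent.R147.St

open Polynomial Function

/-- unit leading coefficient, all roots of modulus less than two. -/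
def LP (Q : ℤ[X]) : Prop := IsUnit Q.leadingCoeff ∧ ∀ z : ℂ, aeval z Q = 0 → ‖z‖ < 2

lemma LP.one : LP 1 := ⟨by simp, fun z hz => by simp at hz⟩

lemma LP.mul {P Q : ℤ[X]} (hP : LP P) (hQ : LP Q) : LP (P * Q) := by
  refine ⟨?_, fun z hz => ?_⟩
  · rw [leadingCoeff_mul]; exact hP.1.mul hQ.1
  · rw [map_mul, mul_eq_zero] at hz
    rcases hz with hz | hz
    · exact hP.2 z hz
    · exact hQ.2 z hz

/-- nonzero polynomials with coefficients in `{-1,0,1}`. -/
lemma LP.of_coeff {P : ℤ[X]} (h0 : P ≠ 0) (h : ∀ i, |P.coeff i| ≤ 1) : LP P := by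
  have hlc : |P.leadingCoeff| = 1 := by
    apply le_antisymm (h _)
    have : P.leadingCoeff ≠ 0 := leadingCoeff_ne_zero.2 h0
    exact Int.one_le_abs this
  refine ⟨Int.isUnit_iff_abs_eq.2 hlc, fun z hz => ?_⟩
  by_contra hcon
  push Not at hcon
  rw [aeval_eq_sum_range, Finset.sum_range_succ] at hz
  have h1 : ‖(P.leadingCoeff : ℂ) * z ^ P.natDegree‖
      ≤ ∑ i ∈ Finset.range P.natDegree, ‖z‖ ^ i := by
    have e1 : (P.leadingCoeff : ℂ) * z ^ P.natDegree
        = - ∑ i ∈ Finset.range P.natDegree, P.coeff i • z ^ i := by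
      rw [eq_neg_iff_add_eq_zero, add_comm, ← hz]
      congr 1
      rw [zsmul_eq_mul]
      rfl
    rw [e1, norm_neg]
    refine (norm_sum_le _ _).trans (Finset.sum_le_sum fun i _ => ?_)
    rw [zsmul_eq_mul, norm_mul, norm_pow]
    have h2 : ‖((P.coeff i : ℤ) : ℂ)‖ ≤ 1 := by
      rw [Complex.norm_intCast]
      exact_mod_cast h i
    calc ‖((P.coeff i : ℤ) : ℂ)‖ * ‖z‖ ^ i ≤ 1 * ‖z‖ ^ i :=
          mul_le_mul_of_nonneg_right h2 (by positivity)
      _ = _ := one_mul _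
  have h2 : ‖(P.leadingCoeff : ℂ) * z ^ P.natDegree‖ = ‖z‖ ^ P.natDegree := by
    rw [norm_mul, norm_pow, Complex.norm_intCast]
    have : |(P.leadingCoeff : ℝ)| = 1 := by exact_mod_cast hlc
    rw [this, one_mul]
  have h3 : (∑ i ∈ Finset.range P.natDegree, ‖z‖ ^ i) * (‖z‖ - 1) = ‖z‖ ^ P.natDegree - 1 :=
    geom_sum_mul _ _
  have h4 : (0 : ℝ) ≤ ∑ i ∈ Finset.range P.natDegree, ‖z‖ ^ i :=
    Finset.sum_nonneg fun i _ => by positivity
  rw [h2] at h1
  nlinarith

/-- **Kronecker.** -/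
theorem root_of_unity {M : ℚ[X]} (h1 : ∀ z : ℂ, aeval z M = 0 → ‖z‖ ≤ 1 ∧ IsIntegral ℤ z)
    {z : ℂ} (hz : aeval z M = 0) (hz0 : z ≠ 0) : ∃ n : ℕ, 0 < n ∧ z ^ n = 1 := by
  have hzi : IsIntegral ℤ z := (h1 z hz).2
  have hzq : IsIntegral ℚ z := hzi.tower_top
  have : FiniteDimensional ℚ (IntermediateField.adjoin ℚ {z}) :=
    IntermediateField.adjoin.finiteDimensional hzq
  have : NumberField (IntermediateField.adjoin ℚ {z}) := ⟨⟩
  set x : IntermediateField.adjoin ℚ {z} := IntermediateField.AdjoinSimple.gen ℚ z with hx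
  have hxz : algebraMap (IntermediateField.adjoin ℚ {z}) ℂ x = z :=
    IntermediateField.AdjoinSimple.algebraMap_gen ℚ z
  have hxi : IsIntegral ℤ x := by
    rw [← hxz] at hzi
    exact (isIntegral_algebraMap_iff (algebraMap (IntermediateField.adjoin ℚ {z}) ℂ).injective).1 hzi
  have hx0 : x ≠ 0 := by
    intro h
    rw [h, map_zero] at hxz
    exact hz0 hxz.symm
  have hxM : aeval x M = 0 := by
    apply (algebraMap (IntermediateField.adjoin ℚ {z}) ℂ).injective
    rw [← aeval_algebraMap_apply, hxz, hz, map_zero]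
  obtain ⟨n, hn, hxn⟩ := NumberField.Embeddings.pow_eq_one_of_norm_le_one
    (IntermediateField.adjoin ℚ {z}) ℂ hx0 hxi (by
      intro φ
      apply (h1 _ _).1
      have h2 : aeval (φ.toRatAlgHom x) M = φ.toRatAlgHom (aeval x M) :=
        aeval_algHom_apply _ _ _
      rw [hxM, map_zero] at h2
      exact h2)
  refine ⟨n, hn, ?_⟩
  rw [← hxz, ← map_pow, hxn, map_one]

theorem exists_fixed {V : Type*} [AddCommGroup V] [Module ℚ V] [FiniteDimensional ℚ V]
    [Nontrivial V] (T : V →ₗ[ℚ] V) (hT : Injective T)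
    (h : ∀ k : ℕ, 0 < k → ∃ Q : ℤ[X], LP Q ∧ aeval (T ^ k) (Q.map (Int.castRingHom ℚ)) = 0) :
    ∃ n : ℕ, 0 < n ∧ ∃ v : V, v ≠ 0 ∧ (T ^ n) v = v := by
  set M := minpoly ℚ T with hM
  have hTint : IsIntegral ℚ T := Algebra.IsIntegral.isIntegral T
  have hMdeg : M.degree ≠ 0 := (minpoly.degree_pos hTint).ne'
  -- all roots of `M`
  have hdvd : ∀ k : ℕ, 0 < k → ∃ Q : ℤ[X], LP Q ∧ ∀ z : ℂ, aeval z M = 0 → aeval (z ^ k) Q = 0 := by
    intro k hk
    obtain ⟨Q, hQ, hQT⟩ := h k hk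
    refine ⟨Q, hQ, fun z hz => ?_⟩
    have h1 : M ∣ expand ℚ k (Q.map (Int.castRingHom ℚ)) := by
      apply minpoly.dvd
      rw [expand_aeval]; exact hQT
    obtain ⟨R, hR⟩ := h1
    have h2 : aeval z (expand ℚ k (Q.map (Int.castRingHom ℚ))) = 0 := by
      rw [hR, map_mul, hz, zero_mul]
    rw [expand_aeval] at h2
    have h3 : aeval (z ^ k) (Q.map (Int.castRingHom ℚ)) = aeval (z ^ k) Q := by
      have := aeval_map_algebraMap (R := ℤ) ℚ (z ^ k) Q
      exact this
    rw [h3] at h2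
    exact h2
  have hroots : ∀ z : ℂ, aeval z M = 0 → ‖z‖ ≤ 1 ∧ IsIntegral ℤ z := by
    intro z hz
    refine ⟨?_, ?_⟩
    · by_contra hcon
      push Not at hcon
      obtain ⟨k, hk⟩ := ((tendsto_pow_atTop_atTop_of_one_lt hcon).eventually
        (Filter.eventually_ge_atTop 2)).and (Filter.eventually_gt_atTop 0) |>.exists
      obtain ⟨Q, hQ1, hQ2⟩ := hdvd k hk.2
      have h1 := hQ1.2 _ (hQ2 z hz)
      rw [norm_pow] at h1
      linarith [hk.1]
    · obtain ⟨Q, hQ1, hQ2⟩ := hdvd 1 one_pos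
      have h1 := hQ2 z hz
      rw [pow_one] at h1
      obtain ⟨u, hu⟩ := hQ1.1
      refine ⟨C ((u⁻¹ : ℤˣ) : ℤ) * Q, ?_, ?_⟩
      · rw [Monic.def, leadingCoeff_mul, leadingCoeff_C, ← hu]
        simp
      · rw [← aeval_def, map_mul, h1, mul_zero]
  obtain ⟨z, hz⟩ := IsAlgClosed.exists_aeval_eq_zero ℂ M hMdeg
  have hz0 : z ≠ 0 := by
    rintro rfl
    have h1 : M.coeff 0 = 0 := by
      have h2 : aeval (0 : ℂ) M = algebraMap ℚ ℂ (M.coeff 0) := by
        rw [aeval_def, eval₂_at_zero]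
      rw [hz] at h2
      exact (map_eq_zero (algebraMap ℚ ℂ)).1 h2.symm
    have h2 : (Module.End.HasEigenvalue T (0 : ℚ)) := by
      rw [Module.End.hasEigenvalue_iff_isRoot]
      rw [IsRoot.def, ← coeff_zero_eq_eval_zero]
      exact h1
    obtain ⟨v, hv⟩ := h2.exists_hasEigenvector
    have h3 : T v = T 0 := by rw [hv.apply_eq_smul, zero_smul, map_zero]
    exact hv.2 (hT h3)
  obtain ⟨n, hn, hzn⟩ := root_of_unity hroots hz hz0
  refine ⟨n, hn, ?_⟩
  -- the common factor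
  have hp1 : minpoly ℚ z ∣ M := minpoly.dvd ℚ z hz
  have hp2 : minpoly ℚ z ∣ (X ^ n - 1 : ℚ[X]) := by
    apply minpoly.dvd
    simp [hzn]
  obtain ⟨q, hq⟩ := hp1
  obtain ⟨r, hr⟩ := hp2
  have hM0 : M ≠ 0 := minpoly.ne_zero hTint
  have hzi : IsIntegral ℚ z := (hroots z hz).2.tower_top
  have hq0 : q ≠ 0 := by
    rintro rfl
    rw [mul_zero] at hq
    exact hM0 hq
  have hqT : aeval T q ≠ 0 := by
    intro hqT
    have h1 := minpoly.degree_le_of_ne_zero ℚ T hq0 hqT
    have h2 : M.natDegree = (minpoly ℚ z).natDegree + q.natDegree := by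
      rw [hq, natDegree_mul (minpoly.ne_zero hzi) hq0]
    have h3 := minpoly.natDegree_pos hzi
    have h4 := natDegree_le_natDegree h1
    rw [← hM] at h4
    omega
  obtain ⟨v, hv⟩ : ∃ v, aeval T q v ≠ 0 := by
    by_contra hcon
    push Not at hcon
    exact hqT (LinearMap.ext hcon)
  refine ⟨aeval T q v, hv, ?_⟩
  have h1 : aeval T (X ^ n - 1 : ℚ[X]) (aeval T q v) = 0 := by
    have e1 : (X ^ n - 1 : ℚ[X]) * q = r * M := by rw [hr, hq]; ring
    have e2 : aeval T (X ^ n - 1 : ℚ[X]) (aeval T q v) = aeval T ((X ^ n - 1 : ℚ[X]) * q) v := by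
      rw [map_mul]; rfl
    rw [e2, e1, map_mul, minpoly.aeval, mul_zero]; rfl
  simp only [map_sub, map_pow, aeval_X, map_one] at h1
  rw [LinearMap.sub_apply, sub_eq_zero] at h1
  exact h1

end Crest.Agent.R147.St
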