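import Mathlib

/-!
R147, structure block (helper505), part 5: pseudo-lengths of weakly polynomial growth on groups
(the null elements form a possibly infinite subgroup, "the compact open subgroup").
-/

set_option autoImplicit false
set_option linter.unusedSectionVars false

namespace Crest.Agent.R147.St

open Filter

/-- a pseudo-length. -/
structure PLen {G : Type*} [Group G] (l : G → ℕ) : Prop where
  one : l 1 = 0
  mul : ∀ g h : G, l (g * h) ≤ l g + l h
  inv : ∀ g : G, l g⁻¹ = l g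

/-- every null-separated finite set in the ball of radius `n` has at most `b` elements. -/
def Cov {G : Type*} [Group G] (l : G → ℕ) (n b : ℕ) : Prop :=
  ∀ F : Finset G, (∀ g ∈ F, l g ≤ n) → (∀ g ∈ F, ∀ h ∈ F, g ≠ h → l (g⁻¹ * h) ≠ 0) → F.card ≤ b

/-- weakly polynomial growth of degree `d`, modulo the null subgroup. -/
structure WLen {G : Type*} [Group G] (l : G → ℕ) (d : ℕ) : Prop extends PLen l where
  fin : ∀ n, ∃ b, Cov l n b
  gr : ∃ C, ∃ᶠ n in atTop, Cov l n (C * (n + 1) ^ d)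

/-- the group is generated by a ball. -/
def CGen {G : Type*} [Group G] (l : G → ℕ) : Prop :=
  ∃ r : ℕ, Subgroup.closure {g : G | l g ≤ r} = ⊤

section basic

variable {G : Type*} [Group G] {l : G → ℕ}

lemma Cov.mono {n n' b b' : ℕ} (h : Cov l n b) (hn : n' ≤ n) (hb : b ≤ b') : Cov l n' b' :=
  fun F h1 h2 => (h F (fun g hg => (h1 g hg).trans hn) h2).trans hb

namespace PLen

variable (hl : PLen l)
include hl

lemma mul_null {g k : G} (hk : l k = 0) : l (g * k) = l g := by
  apply le_antisymm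
  · have := hl.mul g k; omega
  · have h1 := hl.mul (g * k) k⁻¹
    rw [mul_inv_cancel_right, hl.inv] at h1
    omega

lemma null_mul {g k : G} (hk : l k = 0) : l (k * g) = l g := by
  apply le_antisymm
  · have := hl.mul k g; omega
  · have h1 := hl.mul k⁻¹ (k * g)
    rw [inv_mul_cancel_left, hl.inv] at h1
    omega

lemma pow (g : G) (n : ℕ) : l (g ^ n) ≤ n * l g := by
  induction n with
  | zero => simp [hl.one]
  | succ n ih =>
    rw [pow_succ]
    calc l (g ^ n * g) ≤ l (g ^ n) + l g := hl.mul _ _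
      _ ≤ n * l g + l g := by omega
      _ = (n + 1) * l g := by ring

lemma conj (g h : G) : l (g * h * g⁻¹) ≤ 2 * l g + l h := by
  have h1 := hl.mul (g * h) g⁻¹
  have h2 := hl.mul g h
  rw [hl.inv] at h1
  omega

/-- the null subgroup. -/
def K : Subgroup G where
  carrier := {g | l g = 0}
  one_mem' := hl.one
  mul_mem' {a b} ha hb := by
    have := hl.mul a b
    have ha' : l a = 0 := ha
    have hb' : l b = 0 := hb
    show l (a * b) = 0
    omega
  inv_mem' {a} ha := by
    show l a⁻¹ = 0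
    rw [hl.inv]; exact ha

lemma mem_K {g : G} : g ∈ hl.K ↔ l g = 0 := Iff.rfl

lemma subgroup (H : Subgroup G) : PLen (fun h : H => l (h : G)) where
  one := by simpa using hl.one
  mul g k := by simpa using hl.mul (g : G) (k : G)
  inv g := by simpa using hl.inv (g : G)

end PLen

lemma Cov.subgroup {n b : ℕ} (h : Cov l n b) (H : Subgroup G) :
    Cov (fun h : H => l (h : G)) n b := by
  classical
  intro F h1 h2
  rw [← Finset.card_image_of_injective F (Subtype.val_injective : Function.Injective ((↑) : H → G))]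
  apply h
  · intro g hg
    obtain ⟨x, hx, rfl⟩ := Finset.mem_image.1 hg
    exact h1 x hx
  · intro g hg g' hg' hne
    obtain ⟨x, hx, rfl⟩ := Finset.mem_image.1 hg
    obtain ⟨y, hy, rfl⟩ := Finset.mem_image.1 hg'
    exact h2 x hx y hy (fun h => hne (by rw [h]))

lemma WLen.subgroup {d : ℕ} (hl : WLen l d) (H : Subgroup G) :
    WLen (fun h : H => l (h : G)) d where
  toPLen := hl.toPLen.subgroup H
  fin n := by
    obtain ⟨b, hb⟩ := hl.fin n
    exact ⟨b, hb.subgroup H⟩
  gr := by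
    obtain ⟨C, hC⟩ := hl.gr
    exact ⟨C, hC.mono fun n hn => hn.subgroup H⟩

/-- maximal separated sets. -/
lemma exists_net (hl : PLen l) {n b : ℕ} (h : Cov l n b) :
    ∃ F : Finset G, F.card ≤ b ∧ (∀ g ∈ F, l g ≤ n) ∧
      (∀ g ∈ F, ∀ h ∈ F, g ≠ h → l (g⁻¹ * h) ≠ 0) ∧
      ∀ g, l g ≤ n → ∃ f ∈ F, l (f⁻¹ * g) = 0 := by
  classical
  -- take a separated set of maximal cardinality
  let S : Set ℕ := {m | ∃ F : Finset G, F.card = m ∧ (∀ g ∈ F, l g ≤ n) ∧
    (∀ g ∈ F, ∀ h ∈ F, g ≠ h → l (g⁻¹ * h) ≠ 0)}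
  have hS0 : S.Nonempty := ⟨0, ∅, by simp⟩
  have hSb : ∀ m ∈ S, m ≤ b := by
    rintro m ⟨F, rfl, h1, h2⟩
    exact h F h1 h2
  have hbdd : BddAbove S := ⟨b, hSb⟩
  obtain ⟨F, hF1, hF2, hF3⟩ := Nat.sSup_mem hS0 hbdd
  refine ⟨F, hSb _ ⟨F, rfl, hF2, hF3⟩, hF2, hF3, ?_⟩
  intro g hg
  by_contra hcon
  push Not at hcon
  have hgF : g ∉ F := by
    intro hgF
    have := hcon g hgF
    rw [inv_mul_cancel, hl.one] at this
    exact this rfl
  have h1 : (insert g F).card ∈ S := by
    refine ⟨insert g F, rfl, ?_, ?_⟩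
    · intro x hx
      rcases Finset.mem_insert.1 hx with rfl | hx
      · exact hg
      · exact hF2 x hx
    · intro x hx y hy hxy
      rcases Finset.mem_insert.1 hx with hx' | hx'
      · rcases Finset.mem_insert.1 hy with hy' | hy'
        · exact absurd (hx'.trans hy'.symm) hxy
        · have h3 := hcon y hy'
          rw [← hl.inv, mul_inv_rev, inv_inv, hx']
          exact h3
      · rcases Finset.mem_insert.1 hy with hy' | hy'
        · rw [hy']; exact hcon x hx'
        · exact hF3 x hx' y hy' hxy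
  have h2 := le_csSup hbdd h1
  rw [Finset.card_insert_of_notMem hgF, hF1] at h2
  omega

/-- frequently many scales, divided by a constant. -/
lemma freq_div {Q R : ℕ → Prop} {r : ℕ} (hr : 0 < r) (h : ∃ᶠ n in atTop, Q n)
    (hQR : ∀ n, Q n → R (n / r)) : ∃ᶠ n in atTop, R n := by
  rw [frequently_atTop] at h ⊢
  intro a
  obtain ⟨n, hn, hQ⟩ := h (a * r)
  exact ⟨n / r, (Nat.le_div_iff_mul_le hr).2 hn, hQR n hQ⟩

lemma succ_le_of_div {n r : ℕ} (hr : 0 < r) : n + 1 ≤ r * (n / r + 1) := by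
  have h1 := Nat.div_add_mod n r
  have h2 := Nat.mod_lt n hr
  nlinarith

end basic

section finiteIndex

variable {G : Type*} [Group G] {l : G → ℕ}

lemma exists_list_of_closure {S : Set G} {g : G} (h : g ∈ Subgroup.closure S) :
    ∃ L : List G, (∀ x ∈ L, x ∈ S ∨ x⁻¹ ∈ S) ∧ L.prod = g := by
  have h' : g ∈ Submonoid.closure (S ∪ S⁻¹) := by
    rw [← Subgroup.closure_toSubmonoid]; exact h
  obtain ⟨L, h1, h2⟩ := Submonoid.exists_list_of_mem_closure h'
  exact ⟨L, fun x hx => h1 x hx, h2⟩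

/-- a finite index subgroup of a boundedly generated group is boundedly generated. -/
theorem CGen.subgroup (hl : PLen l) (hg : CGen l) (H : Subgroup G) (hH : H.FiniteIndex) :
    CGen (fun h : H => l (h : G)) := by
  classical
  obtain ⟨r, hr⟩ := hg
  -- right coset representatives
  have hfin : Finite (G ⧸ H) := inferInstance
  have : Fintype (G ⧸ H) := Fintype.ofFinite _
  -- `τ g ∈ H g`, i.e. `g * (τ g)⁻¹ ∈ H`, with bounded length
  let τ : G → G := fun g => (Quotient.out (QuotientGroup.mk g⁻¹ : G ⧸ H))⁻¹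
  have hτ : ∀ g, g * (τ g)⁻¹ ∈ H := by
    intro g
    have h1 : (QuotientGroup.mk (Quotient.out (QuotientGroup.mk g⁻¹ : G ⧸ H)) : G ⧸ H)
        = QuotientGroup.mk g⁻¹ := Quotient.out_eq' _
    have h2 := QuotientGroup.eq.1 h1.symm
    simpa [τ] using h2
  have hτc : ∀ g h, g * h⁻¹ ∈ H → τ g = τ h := by
    intro g h hgh
    have : (QuotientGroup.mk g⁻¹ : G ⧸ H) = QuotientGroup.mk h⁻¹ := by
      rw [QuotientGroup.eq]
      simpa using hgh
    simp only [τ, this]
  set M : ℕ := Finset.univ.sup (fun q : G ⧸ H => l (Quotient.out q)) with hM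
  have hτM : ∀ g, l (τ g) ≤ M := by
    intro g
    simp only [τ]
    rw [hl.inv]
    exact Finset.le_sup (f := fun q : G ⧸ H => l (Quotient.out q)) (Finset.mem_univ _)
  refine ⟨2 * M + r + 2 * M, ?_⟩
  rw [eq_top_iff]
  rintro ⟨g, hg⟩ _
  set S : Set H := {h : H | l (h : G) ≤ 2 * M + r + 2 * M} with hS
  -- for every list
  have key : ∀ L : List G, (∀ x ∈ L, l x ≤ r) → ∀ g0 : G,
      ∃ h ∈ Subgroup.closure S, (h : G) = τ g0 * L.prod * (τ (g0 * L.prod))⁻¹ := by
    intro L
    induction L with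
    | nil =>
      intro _ g0
      exact ⟨1, Subgroup.one_mem _, by simp⟩
    | cons a L ih =>
      intro hL g0
      obtain ⟨h, hh1, hh2⟩ := ih (fun x hx => hL x (List.mem_cons_of_mem _ hx)) (g0 * a)
      have hmem : τ g0 * a * (τ (g0 * a))⁻¹ ∈ H := by
        have h1 := H.mul_mem (H.inv_mem (hτ g0)) (hτ (g0 * a))
        have e : (g0 * (τ g0)⁻¹)⁻¹ * (g0 * a * (τ (g0 * a))⁻¹) = τ g0 * a * (τ (g0 * a))⁻¹ := by
          group
        rwa [e] at h1
      refine ⟨⟨_, hmem⟩ * h, Subgroup.mul_mem _ (Subgroup.subset_closure ?_) hh1, ?_⟩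
      · show l (τ g0 * a * (τ (g0 * a))⁻¹) ≤ 2 * M + r + 2 * M
        have h1 := hl.mul (τ g0 * a) (τ (g0 * a))⁻¹
        have h2 := hl.mul (τ g0) a
        rw [hl.inv] at h1
        have h3 := hτM g0
        have h4 := hτM (g0 * a)
        have h5 := hL a List.mem_cons_self
        omega
      · rw [Subgroup.coe_mul, hh2, List.prod_cons]
        simp only [mul_assoc, inv_mul_cancel_left]
  have hgc : g ∈ Subgroup.closure {g : G | l g ≤ r} := by rw [hr]; trivial
  obtain ⟨L, hL1, hL2⟩ := exists_list_of_closure hgc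
  obtain ⟨h, hh1, hh2⟩ := key L (fun x hx => by
    rcases hL1 x hx with h | h
    · exact h
    · have : l x⁻¹ ≤ r := h
      rwa [hl.inv] at this) 1
  rw [one_mul, hL2] at hh2
  have hτ1 : τ g = τ 1 := hτc g 1 (by simpa using hg)
  rw [hτ1] at hh2
  have ht1 : τ 1 ∈ H := by
    have := H.inv_mem (hτ 1)
    simpa using this
  have e : (⟨g, hg⟩ : H) = (⟨τ 1, ht1⟩ : H)⁻¹ * h * ⟨τ 1, ht1⟩ := by
    apply Subtype.ext
    show g = (τ 1)⁻¹ * (h : G) * τ 1
    rw [hh2]; group
  rw [e]
  have ht : (⟨τ 1, ht1⟩ : H) ∈ Subgroup.closure S := Subgroup.subset_closure (by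
    show l (τ 1) ≤ 2 * M + r + 2 * M
    have := hτM 1
    omega)
  exact Subgroup.mul_mem _ (Subgroup.mul_mem _ (Subgroup.inv_mem _ ht) hh1) ht

end finiteIndex

end Crest.Agent.R147.St
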