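import Crest.Agent.R147.StOnto

/-!
R147, structure block (helper505), part 10: Milnor's lemma for pseudo-lengths (the kernel of a
homomorphism onto `ℤ` is boundedly generated and loses one degree of growth), and the relations
forced by weakly polynomial growth.
-/

set_option autoImplicit false
set_option linter.unusedSectionVars false

universe u

namespace Crest.Agent.R147.St

open Filter Function

section words

variable {G : Type*} [Group G]

/-- conjugates of `e j` by powers of `t`. -/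
def cj (t : G) (e : ℕ → G) (j : ℕ) : G := t ^ j * e j * (t ^ j)⁻¹

open Classical in
/-- the product of the conjugates over a set of indices, in decreasing order. -/
noncomputable def wd (t : G) (e : ℕ → G) (A : Finset ℕ) : ℕ → G
  | 0 => 1
  | m + 1 => (if m ∈ A then cj t e m else 1) * wd t e A m

variable (t : G) (e : ℕ → G)

lemma wd_mem (A : Finset ℕ) (m : ℕ) (S : Subgroup G) (h : ∀ j < m, cj t e j ∈ S) :
    wd t e A m ∈ S := by
  induction m with
  | zero => exact S.one_mem
  | succ m ih =>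
    rw [wd]
    refine S.mul_mem ?_ (ih fun j hj => h j (by omega))
    split
    · exact h m (by omega)
    · exact S.one_mem

lemma wd_len {l : G → ℕ} (hl : PLen l) {R : ℕ} (he : ∀ j, l (e j) ≤ R) (A : Finset ℕ) (m : ℕ) :
    l ((t ^ m)⁻¹ * wd t e A m) ≤ m * (R + l t) + l t := by
  classical
  -- sharper: `t^{-(m-1)} w` has length `≤ m R + (m-1) l t`
  induction m with
  | zero => simp [wd, hl.one]
  | succ m ih =>
    have e1 : (t ^ (m + 1))⁻¹ * wd t e A (m + 1)
        = t⁻¹ * (if m ∈ A then e m else 1) * ((t ^ m)⁻¹ * wd t e A m) := by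
      rw [wd, pow_succ]
      by_cases hm : m ∈ A
      · rw [if_pos hm, if_pos hm, cj]; group
      · rw [if_neg hm, if_neg hm]; group
    rw [e1]
    have h1 := hl.mul (t⁻¹ * (if m ∈ A then e m else 1)) ((t ^ m)⁻¹ * wd t e A m)
    have h2 := hl.mul t⁻¹ (if m ∈ A then e m else 1)
    rw [hl.inv] at h2
    have h3 : l (if m ∈ A then e m else 1) ≤ R := by
      split
      · exact he m
      · rw [hl.one]; exact Nat.zero_le _
    have h4 : (m + 1) * (R + l t) = m * (R + l t) + (R + l t) := by ring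
    omega

/-- words with different index sets are separated, if the conjugates are independent. -/
lemma wd_sep {l : G → ℕ} {S : ℕ → Subgroup G} (hmono : Monotone S)
    (hK : ∀ j, ∀ g, l g = 0 → g ∈ S j) (hin : ∀ j, cj t e j ∈ S (j + 1))
    (hout : ∀ j, cj t e j ∉ S j) (A B : Finset ℕ) (m : ℕ)
    (h : l ((wd t e A m)⁻¹ * wd t e B m) = 0) : ∀ j < m, j ∈ A ↔ j ∈ B := by
  classical
  induction m with
  | zero => intro j hj; omega
  | succ m ih =>
    have hA := wd_mem t e A m (S m) fun j hj => hmono (by omega : j + 1 ≤ m) (hin j)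
    have hB := wd_mem t e B m (S m) fun j hj => hmono (by omega : j + 1 ≤ m) (hin j)
    rw [wd, wd] at h
    have hk := hK m _ h
    by_cases hmA : m ∈ A <;> by_cases hmB : m ∈ B
    · rw [if_pos hmA, if_pos hmB] at h
      have e1 : (cj t e m * wd t e A m)⁻¹ * (cj t e m * wd t e B m)
          = (wd t e A m)⁻¹ * wd t e B m := by group
      rw [e1] at h
      intro j hj
      rcases Nat.lt_succ_iff_lt_or_eq.1 hj with hj' | rfl
      · exact ih h j hj'
      · exact ⟨fun _ => hmB, fun _ => hmA⟩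
    · exfalso
      rw [if_pos hmA, if_neg hmB, one_mul] at hk
      apply hout m
      have h1 := (S m).mul_mem ((S m).mul_mem hB ((S m).inv_mem hk)) ((S m).inv_mem hA)
      have e1 : wd t e B m * ((cj t e m * wd t e A m)⁻¹ * wd t e B m)⁻¹ * (wd t e A m)⁻¹
          = cj t e m := by group
      rwa [e1] at h1
    · exfalso
      rw [if_neg hmA, if_pos hmB, one_mul] at hk
      apply hout m
      have h1 := (S m).mul_mem ((S m).mul_mem hA hk) ((S m).inv_mem hB)
      have e1 : wd t e A m * ((wd t e A m)⁻¹ * (cj t e m * wd t e B m)) * (wd t e B m)⁻¹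
          = cj t e m := by group
      rwa [e1] at h1
    · rw [if_neg hmA, if_neg hmB, one_mul, one_mul] at h
      intro j hj
      rcases Nat.lt_succ_iff_lt_or_eq.1 hj with hj' | rfl
      · exact ih h j hj'
      · exact ⟨fun hh => absurd hh hmA, fun hh => absurd hh hmB⟩

theorem pow_lt_two_pow (C d : ℕ) : ∀ᶠ m : ℕ in atTop, C * (m + 1) ^ d < 2 ^ m := by
  have h1 := tendsto_pow_const_div_const_pow_of_one_lt d (r := (2 : ℝ)) (by norm_num)
  have hpos : (0 : ℝ) < 1 / (2 * ((C : ℝ) + 1)) := by positivity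
  have h2 := (tendsto_add_atTop_nat 1).eventually (h1.eventually (gt_mem_nhds hpos))
  filter_upwards [h2] with m hm
  rw [div_lt_div_iff₀ (by positivity) (by positivity)] at hm
  have h6 : ((m + 1 : ℕ) : ℝ) ^ d * (2 * ((C : ℝ) + 1)) < 1 * 2 ^ (m + 1) := hm
  push_cast at h6
  have h7 : (0 : ℝ) < ((m : ℝ) + 1) ^ d := by positivity
  have h3 : ((C : ℝ) * (m + 1) ^ d) < 2 ^ m := by
    rw [pow_succ] at h6
    nlinarith
  exact_mod_cast h3

/-- two different words agree modulo the null subgroup. -/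
theorem exists_coinc {l : G → ℕ} {d : ℕ} (hl : WLen l d) {R : ℕ} (he : ∀ j, l (e j) ≤ R) :
    ∃ (m : ℕ) (A B : Finset ℕ), A ⊆ Finset.range m ∧ B ⊆ Finset.range m ∧ A ≠ B ∧
      l ((wd t e A m)⁻¹ * wd t e B m) = 0 := by
  classical
  by_contra hcon
  push Not at hcon
  obtain ⟨C, hC⟩ := hl.gr
  set r : ℕ := R + l t + l t + 1 with hr
  have hr0 : 0 < r := by omega
  have h1 : ∃ᶠ m in atTop, Cov l (m * r) (C * r ^ d * (m + 1) ^ d) := by
    refine freq_div hr0 hC fun n hn => hn.mono (Nat.div_mul_le_self n r) ?_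
    have h2 := succ_le_of_div (n := n) hr0
    calc C * (n + 1) ^ d ≤ C * (r * (n / r + 1)) ^ d :=
          Nat.mul_le_mul_left _ (Nat.pow_le_pow_left h2 d)
      _ = C * r ^ d * (n / r + 1) ^ d := by rw [mul_pow]; ring
  obtain ⟨m, hm1, hm2, hm3⟩ := (h1.and_eventually
    ((pow_lt_two_pow (C * r ^ d) d).and (eventually_ge_atTop 1))).exists
  have hinj : Set.InjOn (fun A : Finset ℕ => (t ^ m)⁻¹ * wd t e A m)
      ((Finset.range m).powerset : Set (Finset ℕ)) := by
    intro A hA B hB hAB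
    by_contra hne
    apply hcon m A B (Finset.mem_powerset.1 hA) (Finset.mem_powerset.1 hB) hne
    have h2 : wd t e A m = wd t e B m := mul_left_cancel hAB
    rw [h2, inv_mul_cancel, hl.one]
  have h2 := hm1 ((Finset.range m).powerset.image (fun A : Finset ℕ => (t ^ m)⁻¹ * wd t e A m))
    (by
      intro g hg
      obtain ⟨A, hA, rfl⟩ := Finset.mem_image.1 hg
      refine (wd_len t e hl.toPLen he A m).trans ?_
      have h3 : m * r = m * (R + l t) + m * l t + m := by rw [hr]; ring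
      have h4 : l t ≤ m * l t := Nat.le_mul_of_pos_left _ hm3
      omega)
    (by
      intro g hg h hh hne
      obtain ⟨A, hA, rfl⟩ := Finset.mem_image.1 hg
      obtain ⟨B, hB, rfl⟩ := Finset.mem_image.1 hh
      have e1 : ((t ^ m)⁻¹ * wd t e A m)⁻¹ * ((t ^ m)⁻¹ * wd t e B m)
          = (wd t e A m)⁻¹ * wd t e B m := by group
      rw [e1]
      exact hcon m A B (Finset.mem_powerset.1 hA) (Finset.mem_powerset.1 hB)
        (fun hAB => hne (by rw [hAB])))
  rw [Finset.card_image_of_injOn hinj, Finset.card_powerset, Finset.card_range] at h2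
  omega

end words

section chain

variable {G : Type*} [Group G] {l : G → ℕ} {d : ℕ}

/-- the conjugates of `S` by `t ^ i`, `i < J`. -/
def TS (t : G) (S : Set G) (J : ℕ) : Set G := {y | ∃ i < J, ∃ x ∈ S, y = t ^ i * x * (t ^ i)⁻¹}

lemma TS_mono (t : G) (S : Set G) {J J' : ℕ} (h : J ≤ J') : TS t S J ⊆ TS t S J' := by
  rintro y ⟨i, hi, x, hx, rfl⟩
  exact ⟨i, by omega, x, hx, rfl⟩

theorem exists_chain (hl : WLen l d) (t : G) (S : Set G) {R : ℕ} (hS : ∀ x ∈ S, l x ≤ R)
    (hK : ∀ x, l x = 0 → x ∈ S) :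
    ∃ J, 0 < J ∧ ∀ x ∈ S, t ^ J * x * (t ^ J)⁻¹ ∈ Subgroup.closure (TS t S J) := by
  by_contra hcon
  push Not at hcon
  have h1 : ∀ j, ∃ x ∈ S, t ^ (j + 1) * x * (t ^ (j + 1))⁻¹ ∉ Subgroup.closure (TS t S (j + 1)) :=
    fun j => hcon (j + 1) (by omega)
  choose e he1 he2 using h1
  -- use the conjugates `t * (...) * t⁻¹` shifted by one
  obtain ⟨m, A, B, hA, hB, hne, hAB⟩ := exists_coinc t (fun j => t * e j * t⁻¹) hl
    (R := 2 * l t + R) (fun j => (hl.conj t (e j)).trans (by
      have := hS _ (he1 j); omega))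
  have hcj : ∀ j, cj t (fun j => t * e j * t⁻¹) j = t ^ (j + 1) * e j * (t ^ (j + 1))⁻¹ := by
    intro j; rw [cj, pow_succ]; group
  have h2 := wd_sep t (fun j => t * e j * t⁻¹) (l := l)
    (S := fun j => Subgroup.closure (TS t S (j + 1)))
    (fun i j hij => Subgroup.closure_mono (TS_mono t S (by omega)))
    (fun j g hg => Subgroup.subset_closure ⟨0, by omega, g, hK g hg, by simp⟩)
    (fun j => by
      rw [hcj]
      exact Subgroup.subset_closure ⟨j + 1, by omega, e j, he1 j, rfl⟩)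
    (fun j => by rw [hcj]; exact he2 j) A B m hAB
  apply hne
  ext j
  constructor
  · intro hj
    exact (h2 j (Finset.mem_range.1 (hA hj))).1 hj
  · intro hj
    exact (h2 j (Finset.mem_range.1 (hB hj))).2 hj

lemma conj_mem_closure {S T : Set G} (g : G)
    (h : ∀ x ∈ S, g * x * g⁻¹ ∈ (Subgroup.closure T : Subgroup G)) {x : G}
    (hx : x ∈ (Subgroup.closure S : Subgroup G)) :
    g * x * g⁻¹ ∈ (Subgroup.closure T : Subgroup G) := by
  have h1 : (Subgroup.closure S : Subgroup G) ≤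
      (Subgroup.closure T : Subgroup G).comap (MulAut.conj g).toMonoidHom := by
    rw [Subgroup.closure_le]
    intro y hy
    exact h y hy
  exact h1 hx

theorem chain_all {t : G} {S : Set G} {J : ℕ}
    (hJ : ∀ x ∈ S, t ^ J * x * (t ^ J)⁻¹ ∈ Subgroup.closure (TS t S J)) (j : ℕ) :
    ∀ x ∈ S, t ^ j * x * (t ^ j)⁻¹ ∈ Subgroup.closure (TS t S J) := by
  induction j using Nat.strong_induction_on with
  | _ j ih =>
    intro x hx
    rcases lt_or_ge j J with hj | hj
    · exact Subgroup.subset_closure ⟨j, hj, x, hx, rfl⟩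
    · have h1 : t ^ j * x * (t ^ j)⁻¹
          = t ^ (j - J) * (t ^ J * x * (t ^ J)⁻¹) * (t ^ (j - J))⁻¹ := by
        have : t ^ j = t ^ (j - J) * t ^ J := by rw [← pow_add]; congr 1; omega
        rw [this]; group
      rw [h1]
      refine conj_mem_closure _ ?_ (hJ x hx)
      rintro _ ⟨i, hi, y, hy, rfl⟩
      have h2 : t ^ (j - J) * (t ^ i * y * (t ^ i)⁻¹) * (t ^ (j - J))⁻¹
          = t ^ (j - J + i) * y * (t ^ (j - J + i))⁻¹ := by
        rw [pow_add]; group
      rw [h2]
      exact ih _ (by omega) y hy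

/-- the conjugates by all integral powers are generated by those of bounded length. -/
theorem exists_bdd_conj (hl : WLen l d) (t : G) (S : Set G) {R : ℕ} (hS : ∀ x ∈ S, l x ≤ R)
    (hK : ∀ x, l x = 0 → x ∈ S) :
    ∃ R', ∀ x ∈ S, ∀ j : ℤ, t ^ j * x * (t ^ j)⁻¹ ∈
      Subgroup.closure {y | (∃ i : ℤ, ∃ z ∈ S, y = t ^ i * z * (t ^ i)⁻¹) ∧ l y ≤ R'} := by
  obtain ⟨J, -, hJ⟩ := exists_chain hl t S hS hK
  obtain ⟨J', -, hJ'⟩ := exists_chain hl t⁻¹ S hS hK
  refine ⟨2 * (J * l t) + 2 * (J' * l t) + R, fun x hx j => ?_⟩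
  obtain ⟨n, rfl | rfl⟩ := j.eq_nat_or_neg
  · have h1 := chain_all hJ n x hx
    rw [zpow_natCast]
    refine Subgroup.closure_mono ?_ h1
    rintro _ ⟨i, hi, y, hy, rfl⟩
    refine ⟨⟨i, y, hy, by rw [zpow_natCast]⟩, ?_⟩
    have h2 := hl.conj (t ^ i) y
    have h3 := hl.pow t i
    have h4 : i * l t ≤ J * l t := Nat.mul_le_mul_right _ hi.le
    have h5 := hS y hy
    omega
  · have h1 := chain_all hJ' n x hx
    rw [zpow_neg, zpow_natCast, ← inv_pow]
    refine Subgroup.closure_mono ?_ h1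
    rintro _ ⟨i, hi, y, hy, rfl⟩
    refine ⟨⟨-i, y, hy, by rw [zpow_neg, zpow_natCast, inv_pow]⟩, ?_⟩
    have h2 := hl.conj (t⁻¹ ^ i) y
    have h3 := hl.pow t⁻¹ i
    rw [hl.inv] at h3
    have h4 : i * l t ≤ J' * l t := Nat.mul_le_mul_right _ hi.le
    have h5 := hS y hy
    omega

end chain

section kernel

variable {G : Type*} [Group G] {l : G → ℕ} {d : ℕ}

lemma map_zpow_ofAdd {φ : G →* Multiplicative ℤ} {t : G} (ht : φ t = Multiplicative.ofAdd 1)
    (n : ℤ) : φ (t ^ n) = Multiplicative.ofAdd n := by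
  rw [map_zpow, ht, ← ofAdd_zsmul]; simp

/-- **Milnor's lemma, generation.** -/
theorem ker_cgen (hl : WLen l d) (hg : CGen l) (φ : G →* Multiplicative ℤ) (hφ : Surjective φ)
    (hK : ∀ g, l g = 0 → φ g = 1) : CGen (fun k : φ.ker => l (k : G)) := by
  classical
  obtain ⟨r, hr⟩ := hg
  obtain ⟨t, ht⟩ := hφ (Multiplicative.ofAdd 1)
  have hφt := map_zpow_ofAdd ht
  -- the image of the ball is finite, hence bounded
  obtain ⟨b, hb⟩ := hl.fin r
  have hfin : (φ '' {g | l g ≤ r}).Finite := by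
    refine (image_ball_finite hl.toPLen φ ?_ hb).1
    refine (Set.finite_singleton 1).subset ?_
    rintro _ ⟨k, hk, rfl⟩
    exact hK k hk
  obtain ⟨M, hM⟩ : ∃ M : ℕ, ∀ g, l g ≤ r → (Multiplicative.toAdd (φ g)).natAbs ≤ M := by
    obtain ⟨M, hM⟩ := (hfin.image (fun x => (Multiplicative.toAdd x).natAbs)).bddAbove
    exact ⟨M, fun g hg => hM ⟨φ g, ⟨g, hg, rfl⟩, rfl⟩⟩
  have hzl : ∀ n : ℤ, l (t ^ n) ≤ n.natAbs * l t := by
    intro n
    obtain ⟨k, rfl | rfl⟩ := n.eq_nat_or_neg
    · rw [zpow_natCast]; simpa using hl.pow t k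
    · rw [zpow_neg, zpow_natCast, hl.inv]; simpa using hl.pow t k
  set R : ℕ := r + M * l t with hR
  set S : Set G := {x | φ x = 1 ∧ l x ≤ R} with hS
  obtain ⟨R', hR'⟩ := exists_bdd_conj hl t S (R := R) (fun x hx => hx.2)
    (fun x hx => ⟨hK x hx, by rw [hx]; exact Nat.zero_le _⟩)
  let T : Set G := {y | (∃ i : ℤ, ∃ z ∈ S, y = t ^ i * z * (t ^ i)⁻¹) ∧ l y ≤ R'}
  let N : Subgroup G := Subgroup.closure T
  have hcj : ∀ s ∈ S, ∀ j : ℤ, t ^ j * s * (t ^ j)⁻¹ ∈ N := hR'
  have hconj : ∀ k : ℤ, ∀ x ∈ N, t ^ k * x * (t ^ k)⁻¹ ∈ N := by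
    intro k x hx
    refine conj_mem_closure _ ?_ hx
    rintro _ ⟨⟨j, y, hy, rfl⟩, -⟩
    have : t ^ k * (t ^ j * y * (t ^ j)⁻¹) * (t ^ k)⁻¹ = t ^ (k + j) * y * (t ^ (k + j))⁻¹ := by
      rw [zpow_add]; group
    rw [this]
    exact hcj y hy _
  have hsub : T ⊆ φ.ker := by
    rintro _ ⟨⟨j, y, hy, rfl⟩, -⟩
    rw [SetLike.mem_coe, MonoidHom.mem_ker, map_mul, map_mul, map_inv, hy.1]
    simp
  have hNle : N ≤ φ.ker := (Subgroup.closure_le _).2 hsub
  -- every element of `G` is `n t^j`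
  have hall : ∀ g : G, ∃ n ∈ N, ∃ j : ℤ, g = n * t ^ j := by
    intro g
    have hgc : g ∈ Subgroup.closure {g : G | l g ≤ r} := by rw [hr]; trivial
    obtain ⟨L, hL1, hL2⟩ := exists_list_of_closure hgc
    rw [← hL2]
    clear hL2 hgc
    induction L with
    | nil => exact ⟨1, N.one_mem, 0, by simp⟩
    | cons a L ih =>
      obtain ⟨n, hn, j, hj⟩ := ih (fun x hx => hL1 x (List.mem_cons_of_mem _ hx))
      have ha : l a ≤ r := by
        rcases hL1 a List.mem_cons_self with h | h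
        · exact h
        · have : l a⁻¹ ≤ r := h
          rwa [hl.inv] at this
      set q : ℤ := Multiplicative.toAdd (φ a) with hq
      have haS : a * (t ^ q)⁻¹ ∈ S := by
        refine ⟨?_, ?_⟩
        · rw [map_mul, map_inv, hφt, hq, ofAdd_toAdd, mul_inv_cancel]
        · have h1 := hl.mul a (t ^ q)⁻¹
          rw [hl.inv] at h1
          have h2 := hzl q
          have h3 : q.natAbs * l t ≤ M * l t := Nat.mul_le_mul_right _ (hM a ha)
          omega
      have haN : a * (t ^ q)⁻¹ ∈ N := by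
        have := hcj _ haS 0
        simpa using this
      refine ⟨a * (t ^ q)⁻¹ * (t ^ q * n * (t ^ q)⁻¹), N.mul_mem haN (hconj q n hn), q + j, ?_⟩
      rw [List.prod_cons, hj, zpow_add]; group
  have hker : ∀ g : G, φ g = 1 → g ∈ N := by
    intro g hg
    obtain ⟨n, hn, j, rfl⟩ := hall g
    have h2 : φ n = 1 := hNle hn
    rw [map_mul, h2, one_mul, hφt] at hg
    have h3 : j = 0 := by
      have := congrArg Multiplicative.toAdd hg
      simpa using this
    rw [h3]; simpa using hn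
  refine ⟨R', ?_⟩
  rw [eq_top_iff]
  rintro ⟨g, hg⟩ _
  have hgN := hker g hg
  -- transport the closure
  have h1 : N ≤ (Subgroup.closure {k : φ.ker | l (k : G) ≤ R'}).map φ.ker.subtype := by
    refine (Subgroup.closure_le _).2 ?_
    rintro y hy
    exact ⟨⟨y, hsub hy⟩, Subgroup.subset_closure hy.2, rfl⟩
  obtain ⟨k, hk1, hk2⟩ := h1 hgN
  have : k = ⟨g, hg⟩ := Subtype.ext hk2
  rwa [this] at hk1

/-- **Growth drop.** -/
theorem ker_gr {U : Type*} [Group U] (hl : WLen l (d + 1)) (φ : G →* U)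
    {t : G} (ht : ∀ n : ℕ, 0 < n → φ (t ^ n) ≠ 1) (hK : ∀ g, l g = 0 → φ g = 1) :
    WLen (fun k : φ.ker => l (k : G)) d := by
  classical
  have h0 := hl.subgroup φ.ker
  refine ⟨h0.toPLen, h0.fin, ?_⟩
  obtain ⟨C, hC⟩ := hl.gr
  set b : ℕ := 1 + l t with hb
  refine ⟨C * b ^ (d + 1), freq_div (r := b) (by omega) hC fun n hn F hF1 hF2 => ?_⟩
  set m : ℕ := n / b with hm
  have hmn : m * b ≤ n := Nat.div_mul_le_self n b
  let f : ℕ × φ.ker → G := fun p => t ^ p.1 * (p.2 : G)
  have hpow : ∀ i j : ℕ, φ (t ^ i) = φ (t ^ j) → i = j := by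
    intro i j hij
    rcases lt_trichotomy i j with h | h | h
    · exfalso
      apply ht (j - i) (by omega)
      have : t ^ j = t ^ i * t ^ (j - i) := by rw [← pow_add]; congr 1; omega
      rw [this, map_mul] at hij
      exact (mul_eq_left.1 hij.symm)
    · exact h
    · exfalso
      apply ht (i - j) (by omega)
      have : t ^ i = t ^ j * t ^ (i - j) := by rw [← pow_add]; congr 1; omega
      rw [this, map_mul] at hij
      exact (mul_eq_left.1 hij)
  have hphi : ∀ p, φ (f p) = φ (t ^ p.1) := by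
    intro p
    show φ (t ^ p.1 * (p.2 : G)) = _
    rw [map_mul, (p.2.2 : φ (p.2 : G) = 1), mul_one]
  have key : ∀ p ∈ Finset.range (m + 1) ×ˢ F, ∀ q ∈ Finset.range (m + 1) ×ˢ F, p ≠ q →
      l ((f p)⁻¹ * f q) ≠ 0 := by
    rintro ⟨i, x⟩ hp ⟨j, y⟩ hq hne h0
    have h1 := hK _ h0
    rw [map_mul, map_inv, hphi, hphi] at h1
    have h2 : i = j := hpow i j (inv_mul_eq_one.1 h1)
    subst h2
    have h3 : (f (i, x))⁻¹ * f (i, y) = (x : G)⁻¹ * (y : G) := by
      show (t ^ i * (x : G))⁻¹ * (t ^ i * (y : G)) = _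
      group
    rw [h3] at h0
    rw [Finset.mem_product] at hp hq
    refine hF2 x hp.2 y hq.2 (fun hxy => hne (by rw [hxy])) ?_
    exact h0
  have hinj : Set.InjOn f (Finset.range (m + 1) ×ˢ F : Finset (ℕ × φ.ker)) := by
    intro p hp q hq hpq
    by_contra hne
    apply key p hp q hq hne
    rw [hpq, inv_mul_cancel, hl.one]
  have h1 := hn ((Finset.range (m + 1) ×ˢ F).image f)
    (by
      intro g hg
      obtain ⟨p, hp, rfl⟩ := Finset.mem_image.1 hg
      rw [Finset.mem_product, Finset.mem_range] at hp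
      have h2 := hl.mul (t ^ p.1) (p.2 : G)
      have h3 := hl.pow t p.1
      have h4 : p.1 * l t ≤ m * l t := Nat.mul_le_mul_right _ (by omega)
      have h5 := hF1 p.2 hp.2
      have h6 : m * b = m + m * l t := by rw [hb]; ring
      show l (t ^ p.1 * (p.2 : G)) ≤ n
      have h5' : l (p.2 : G) ≤ m := h5
      omega)
    (by
      intro g hg h hh hne
      obtain ⟨p, hp, rfl⟩ := Finset.mem_image.1 hg
      obtain ⟨q, hq, rfl⟩ := Finset.mem_image.1 hh
      exact key p hp q hq (fun hpq => hne (by rw [hpq])))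
  rw [Finset.card_image_of_injOn hinj, Finset.card_product, Finset.card_range] at h1
  have h2 : n + 1 ≤ b * (m + 1) := succ_le_of_div (by omega)
  have h3 : C * (n + 1) ^ (d + 1) ≤ (C * b ^ (d + 1) * (m + 1) ^ d) * (m + 1) := by
    calc C * (n + 1) ^ (d + 1) ≤ C * (b * (m + 1)) ^ (d + 1) :=
          Nat.mul_le_mul_left _ (Nat.pow_le_pow_left h2 _)
      _ = _ := by rw [mul_pow]; ring
  have h4 : F.card * (m + 1) ≤ (C * b ^ (d + 1) * (m + 1) ^ d) * (m + 1) := by
    rw [mul_comm]; exact h1.trans h3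
  exact Nat.le_of_mul_le_mul_right h4 (Nat.succ_pos m)

/-- a group with an unbounded "torsion-free direction" has degree at least one. -/
theorem not_wlen_zero {U : Type*} [Group U] (hl : WLen l 0) (φ : G →* U)
    {t : G} (ht : ∀ n : ℕ, 0 < n → φ (t ^ n) ≠ 1) (hK : ∀ g, l g = 0 → φ g = 1) : False := by
  classical
  obtain ⟨C, hC⟩ := hl.gr
  obtain ⟨n, hn1, hn2⟩ := (hC.and_eventually (eventually_ge_atTop ((C + 1) * l t))).exists
  have hpow : ∀ i j : ℕ, i < j → l ((t ^ i)⁻¹ * t ^ j) ≠ 0 := by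
    intro i j hij h0
    apply ht (j - i) (by omega)
    have h1 := hK _ h0
    have : (t ^ i)⁻¹ * t ^ j = t ^ (j - i) := by
      have : t ^ j = t ^ i * t ^ (j - i) := by rw [← pow_add]; congr 1; omega
      rw [this]; group
    rwa [this] at h1
  have key : ∀ i j : ℕ, i ≠ j → l ((t ^ i)⁻¹ * t ^ j) ≠ 0 := by
    intro i j hij
    rcases lt_or_gt_of_ne hij with h | h
    · exact hpow i j h
    · have h1 := hpow j i h
      rw [← hl.inv, mul_inv_rev, inv_inv]
      exact h1
  have hinj : Set.InjOn (fun i : ℕ => t ^ i) (Finset.range (C + 2) : Set ℕ) := by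
    intro i _ j _ hij
    by_contra hne
    apply key i j hne
    have : t ^ i = t ^ j := hij
    rw [this, inv_mul_cancel, hl.one]
  have h1 := hn1 ((Finset.range (C + 2)).image (fun i : ℕ => t ^ i))
    (by
      intro g hg
      obtain ⟨i, hi, rfl⟩ := Finset.mem_image.1 hg
      rw [Finset.mem_range] at hi
      have h3 := hl.pow t i
      have h4 : i * l t ≤ (C + 1) * l t := Nat.mul_le_mul_right _ (by omega)
      omega)
    (by
      intro g hg h hh hne
      obtain ⟨i, hi, rfl⟩ := Finset.mem_image.1 hg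
      obtain ⟨j, hj, rfl⟩ := Finset.mem_image.1 hh
      exact key i j (fun hij => hne (by rw [hij])))
  rw [Finset.card_image_of_injOn hinj, Finset.card_range] at h1
  simp at h1

end kernel

end Crest.Agent.R147.St
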