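import Crest.Agent.R147.StLen
import Crest.Agent.R147.StEnt

/-!
R147, structure block (helper505), part 6: the transitive graph attached to a pseudo-length.
-/

set_option autoImplicit false
set_option linter.unusedSectionVars false

namespace Crest.Agent.R147.St

open Filter

section

variable {G : Type*} [Group G] {l : G → ℕ}

/-- distance on the coset space. -/
noncomputable def dq (hl : PLen l) (x y : G ⧸ hl.K) : ℕ := l (x.out⁻¹ * y.out)

lemma dq_mk (hl : PLen l) (g h : G) : dq hl (g : G ⧸ hl.K) (h : G ⧸ hl.K) = l (g⁻¹ * h) := by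
  unfold dq
  obtain ⟨k, hk⟩ := QuotientGroup.mk_out_eq_mul hl.K g
  obtain ⟨k', hk'⟩ := QuotientGroup.mk_out_eq_mul hl.K h
  rw [hk, hk']
  have e : (g * (k : G))⁻¹ * (h * (k' : G)) = ((k : G)⁻¹ * (g⁻¹ * h)) * (k' : G) := by group
  rw [e, hl.mul_null k'.2, hl.null_mul (hl.K.inv_mem k.2)]

lemma dq_smul (hl : PLen l) (g : G) (x y : G ⧸ hl.K) : dq hl (g • x) (g • y) = dq hl x y := by
  obtain ⟨a, rfl⟩ := QuotientGroup.mk_surjective x
  obtain ⟨b, rfl⟩ := QuotientGroup.mk_surjective y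
  rw [MulAction.Quotient.smul_coe, MulAction.Quotient.smul_coe, dq_mk, dq_mk]
  congr 1
  simp only [smul_eq_mul]
  group

lemma dq_comm (hl : PLen l) (x y : G ⧸ hl.K) : dq hl x y = dq hl y x := by
  obtain ⟨a, rfl⟩ := QuotientGroup.mk_surjective x
  obtain ⟨b, rfl⟩ := QuotientGroup.mk_surjective y
  rw [dq_mk, dq_mk, ← hl.inv]
  congr 1
  group

lemma dq_self (hl : PLen l) (x : G ⧸ hl.K) : dq hl x x = 0 := by
  obtain ⟨a, rfl⟩ := QuotientGroup.mk_surjective x
  rw [dq_mk, inv_mul_cancel, hl.one]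

lemma dq_tri (hl : PLen l) (x y z : G ⧸ hl.K) : dq hl x z ≤ dq hl x y + dq hl y z := by
  obtain ⟨a, rfl⟩ := QuotientGroup.mk_surjective x
  obtain ⟨b, rfl⟩ := QuotientGroup.mk_surjective y
  obtain ⟨c, rfl⟩ := QuotientGroup.mk_surjective z
  rw [dq_mk, dq_mk, dq_mk]
  have := hl.mul (a⁻¹ * b) (b⁻¹ * c)
  rwa [show a⁻¹ * b * (b⁻¹ * c) = a⁻¹ * c by group] at this

/-- base point. -/
def bp (hl : PLen l) : G ⧸ hl.K := ((1 : G) : G ⧸ hl.K)

lemma dq_bp (hl : PLen l) (g : G) : dq hl (bp hl) (g : G ⧸ hl.K) = l g := by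
  unfold bp
  rw [dq_mk]
  simp

lemma smul_bp (hl : PLen l) (g : G) : g • bp hl = (g : G ⧸ hl.K) := by
  unfold bp
  rw [MulAction.Quotient.smul_coe]
  simp

lemma ball_finite (hl : PLen l) {n b : ℕ} (h : Cov l n b) (x : G ⧸ hl.K) :
    {y | dq hl x y ≤ n}.Finite ∧ {y | dq hl x y ≤ n}.ncard ≤ b := by
  classical
  obtain ⟨F, hF1, _, _, hF4⟩ := exists_net hl h
  obtain ⟨a, rfl⟩ := QuotientGroup.mk_surjective x
  have hsub : {y | dq hl (a : G ⧸ hl.K) y ≤ n} ⊆
      (F.image (fun f => ((a * f : G) : G ⧸ hl.K)) : Finset (G ⧸ hl.K)) := by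
    intro y hy
    obtain ⟨c, rfl⟩ := QuotientGroup.mk_surjective y
    have hy' : l (a⁻¹ * c) ≤ n := by
      have : dq hl (a : G ⧸ hl.K) (c : G ⧸ hl.K) ≤ n := hy
      rwa [dq_mk] at this
    obtain ⟨f, hf, hf2⟩ := hF4 _ hy'
    rw [Finset.coe_image]
    refine ⟨f, hf, ?_⟩
    show ((a * f : G) : G ⧸ hl.K) = (c : G ⧸ hl.K)
    rw [QuotientGroup.eq, hl.mem_K]
    rw [← hf2]
    congr 1
    group
  refine ⟨(Finset.finite_toSet _).subset hsub, ?_⟩
  refine (Set.ncard_le_ncard hsub (Finset.finite_toSet _)).trans ?_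
  rw [Set.ncard_coe_finset]
  exact Finset.card_image_le.trans hF1

end

section

variable {G : Type*} [Group G] {l : G → ℕ} {d : ℕ}

/-- the ball of radius `n` about `x`. -/
noncomputable def bq (hl : WLen l d) (n : ℕ) (x : G ⧸ hl.toPLen.K) : Finset (G ⧸ hl.toPLen.K) :=
  (ball_finite hl.toPLen (hl.fin n).choose_spec x).1.toFinset

lemma mem_bq (hl : WLen l d) {n : ℕ} {x y : G ⧸ hl.toPLen.K} :
    y ∈ bq hl n x ↔ dq hl.toPLen x y ≤ n := by
  unfold bq
  rw [Set.Finite.mem_toFinset]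
  rfl

lemma card_bq_le (hl : WLen l d) {n b : ℕ} (h : Cov l n b) (x : G ⧸ hl.toPLen.K) :
    (bq hl n x).card ≤ b := by
  have h1 := (ball_finite hl.toPLen h x).2
  have h2 : {y | dq hl.toPLen x y ≤ n} = (bq hl n x : Set (G ⧸ hl.toPLen.K)) := by
    ext y
    rw [Finset.mem_coe, mem_bq]
    rfl
  rwa [h2, Set.ncard_coe_finset] at h1

lemma card_bq_eq (hl : WLen l d) (n : ℕ) (x : G ⧸ hl.toPLen.K) :
    (bq hl n x).card = (bq hl n (bp hl.toPLen)).card := by
  obtain ⟨g, hg⟩ := MulAction.exists_smul_eq G (bp hl.toPLen) x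
  symm
  refine Finset.card_bij (fun y _ => g • y) ?_ ?_ ?_
  · intro y hy
    rw [mem_bq] at hy ⊢
    rw [← hg, dq_smul]; exact hy
  · intro a _ b _ hab; exact MulAction.injective g hab
  · intro b hb
    refine ⟨g⁻¹ • b, ?_, by simp⟩
    rw [mem_bq] at hb ⊢
    rw [← hg] at hb
    rw [← dq_smul _ g]
    simpa using hb

/-- the graph on the coset space. -/
noncomputable def net (hl : WLen l d) {r : ℕ} (hr : Subgroup.closure {g : G | l g ≤ r} = ⊤) :
    Net (G ⧸ hl.toPLen.K) where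
  nb := bq hl r
  N := (bq hl r (bp hl.toPLen)).card
  card x := card_bq_eq hl r x
  self x := by rw [mem_bq, dq_self]; exact Nat.zero_le _
  symm {x y} h := by
    rw [mem_bq] at h ⊢
    rwa [dq_comm]
  conn x y := by
    obtain ⟨a, rfl⟩ := QuotientGroup.mk_surjective x
    obtain ⟨b, rfl⟩ := QuotientGroup.mk_surjective y
    have key : ∀ g ∈ Subgroup.closure {g : G | l g ≤ r}, ∀ a : G,
        Relation.ReflTransGen (fun u v => v ∈ bq hl r u) (a : G ⧸ hl.toPLen.K)
          ((a * g : G) : G ⧸ hl.toPLen.K) := by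
      intro g hg
      obtain ⟨L, hL1, hL2⟩ := exists_list_of_closure hg
      rw [← hL2]
      clear hL2 hg
      induction L with
      | nil => intro a; simp only [List.prod_nil, mul_one]; exact Relation.ReflTransGen.refl
      | cons c L ih =>
        intro a
        rw [List.prod_cons, ← mul_assoc]
        refine Relation.ReflTransGen.head ?_ (ih (fun x hx => hL1 x (List.mem_cons_of_mem _ hx))
          (a * c))
        rw [mem_bq, dq_mk, inv_mul_cancel_left]
        rcases hL1 c List.mem_cons_self with h | h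
        · exact h
        · have : l c⁻¹ ≤ r := h
          rwa [hl.inv] at this
    have h1 := key (a⁻¹ * b) (by rw [hr]; trivial) a
    rwa [mul_inv_cancel_left] at h1

lemma net_equivar (hl : WLen l d) {r : ℕ} (hr : Subgroup.closure {g : G | l g ≤ r} = ⊤) :
    (net hl hr).Equivar G := by
  intro g x y hy
  have hy' : y ∈ bq hl r x := hy
  show g • y ∈ bq hl r (g • x)
  rw [mem_bq] at hy' ⊢
  rwa [dq_smul]

lemma net_exh (hl : WLen l d) {r : ℕ} (hr : Subgroup.closure {g : G | l g ≤ r} = ⊤) :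
    (net hl hr).Exh (bp hl.toPLen) (fun n => bq hl (n * r) (bp hl.toPLen)) := by
  refine ⟨?_, ?_⟩
  · rw [mem_bq, dq_self]; exact Nat.zero_le _
  · intro n x hx y hy
    have hy' : y ∈ bq hl r x := hy
    rw [mem_bq] at hx hy' ⊢
    have := dq_tri hl.toPLen (bp hl.toPLen) x y
    have e : (n + 1) * r = n * r + r := by ring
    omega

lemma net_growth (hl : WLen l d) {r : ℕ} (hr0 : 0 < r) :
    ∃ C : ℕ, ∃ᶠ n in atTop, (bq hl (n * r) (bp hl.toPLen)).card ≤ C * (n + 1) ^ d := by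
  obtain ⟨C, hC⟩ := hl.gr
  refine ⟨C * r ^ d, freq_div hr0 hC fun n hn => ?_⟩
  have h1 : Cov l (n / r * r) (C * (n + 1) ^ d) := hn.mono (Nat.div_mul_le_self n r) le_rfl
  refine (card_bq_le hl h1 _).trans ?_
  calc C * (n + 1) ^ d ≤ C * (r * (n / r + 1)) ^ d :=
        Nat.mul_le_mul_left _ (Nat.pow_le_pow_left (succ_le_of_div hr0) _)
    _ = C * r ^ d * (n / r + 1) ^ d := by rw [mul_pow]; ring

end

end Crest.Agent.R147.St
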