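import Crest.Agent.R147.StForm
import Crest.Agent.R147.StExist
import Crest.Agent.R147.StQuot

/-!
R147, structure block (helper505), part 7: the isometric representation on Lipschitz harmonic
functions; the null subgroup has finite image.
-/

set_option autoImplicit false
set_option linter.unusedSectionVars false
set_option linter.unusedSimpArgs false

universe u

namespace Crest.Agent.R147.St

open Function Filter Topology

namespace Net

section tr

variable {X : Type*} {A : Net X} {o : X} {G : Type*} [Group G] [MulAction G X]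

/-- translation. -/
def tr (hG : A.Equivar G) (g : G) (h : HW A o) : HW A o :=
  hmk (fun x => fn h (g⁻¹ • x) - fn h (g⁻¹ • o))
    (fun x => by
      rw [A.P_sub, P_const, ← P_act hG, fn_harm h])
    (by
      obtain ⟨L, hL⟩ := fn_lip h
      refine ⟨L, fun x y hy => ?_⟩
      have := hL _ _ (hG g⁻¹ x y hy)
      simpa using this)
    (by simp)

lemma fn_tr (hG : A.Equivar G) (g : G) (h : HW A o) (x : X) :
    fn (tr hG g h) x = fn h (g⁻¹ • x) - fn h (g⁻¹ • o) := rfl

lemma tr_mul (hG : A.Equivar G) (g k : G) (h : HW A o) :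
    tr hG (g * k) h = tr hG g (tr hG k h) := by
  apply fn_ext
  intro x
  simp only [fn_tr, mul_inv_rev, mul_smul]
  ring

lemma tr_one (hG : A.Equivar G) (h : HW A o) : tr hG 1 h = h := by
  apply fn_ext
  intro x
  simp [fn_tr, fn_base]

lemma tr_add (hG : A.Equivar G) (g : G) (h k : HW A o) :
    tr hG g (h + k) = tr hG g h + tr hG g k := by
  apply fn_ext
  intro x
  simp only [fn_tr, fn_add]; ring

lemma tr_smul (hG : A.Equivar G) (g : G) (c : ℝ) (h : HW A o) :
    tr hG g (c • h) = c • tr hG g h := by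
  apply fn_ext
  intro x
  simp only [fn_tr, fn_smul]; ring

lemma B_tr {ω : Ultrafilter ℕ} {K : ℝ} (hg : A.Good ω K) (hG : A.Equivar G) (g : G)
    (h k : HW A o) : B ω o (tr hG g h) (tr hG g k) = B ω o h k := by
  rw [← B_inv hg h k o (g⁻¹ • o)]
  symm
  apply B_unique
  refine (B_tendsto o (tr hG g h) (tr hG g k)).congr fun n => ?_
  unfold Bn
  rw [E_act hG]
  congr 1
  exact A.E_congr n (fun z => by simp only [fn_tr]; ring) o

/-- Translation as a linear equivalence. -/
def trEquiv (hG : A.Equivar G) (g : G) : HW A o ≃ₗ[ℝ] HW A o where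
  toFun := tr hG g
  invFun := tr hG g⁻¹
  map_add' := tr_add hG g
  map_smul' := tr_smul hG g
  left_inv h := by rw [← tr_mul, inv_mul_cancel, tr_one]
  right_inv h := by rw [← tr_mul, mul_inv_cancel, tr_one]

/-- a finite-dimensional space of functions is separated by finitely many points. -/
lemma exists_sep (hfd : Module.Finite ℝ (HW A o)) :
    ∃ F : Finset X, ∀ h k : HW A o, (∀ x ∈ F, fn h x = fn k x) → h = k := by
  classical
  -- choose `F` minimizing the dimension of the common kernel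
  let ker : Finset X → Submodule ℝ (HW A o) := fun F =>
    { carrier := {h | ∀ x ∈ F, fn h x = 0}
      zero_mem' := fun x _ => fn_zero x
      add_mem' := fun {a b} ha hb x hx => by
        rw [fn_add, ha x hx, hb x hx, add_zero]
      smul_mem' := fun c a ha x hx => by
        rw [fn_smul, ha x hx, mul_zero] }
  obtain ⟨F, hF⟩ : ∃ F : Finset X, ∀ F' : Finset X,
      Module.finrank ℝ (ker F) ≤ Module.finrank ℝ (ker F') := by
    have hex : ∃ n : ℕ, ∃ F : Finset X, Module.finrank ℝ (ker F) = n := ⟨_, ∅, rfl⟩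
    obtain ⟨F, hF⟩ := Nat.find_spec hex
    refine ⟨F, fun F' => ?_⟩
    rw [hF]
    exact Nat.find_min' hex ⟨F', rfl⟩
  have hker : ∀ h : HW A o, (∀ x ∈ F, fn h x = 0) → h = 0 := by
    intro h hh
    by_contra hne
    obtain ⟨x, hx⟩ : ∃ x, fn h x ≠ 0 := by
      by_contra hcon
      push Not at hcon
      exact hne (fn_ext fun x => by rw [hcon x, fn_zero])
    have hlt : ker (insert x F) < ker F := by
      refine lt_of_le_of_ne ?_ ?_
      · intro k hk y hy
        exact hk y (Finset.mem_insert_of_mem hy)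
      · intro heq
        have h1 : h ∈ ker F := hh
        rw [← heq] at h1
        exact hx (h1 x (Finset.mem_insert_self x F))
    have h2 := Submodule.finrank_lt_finrank_of_lt hlt
    exact absurd (hF (insert x F)) (not_le.2 h2)
  refine ⟨F, fun h k hhk => ?_⟩
  have h1 := hker (h + (-1 : ℝ) • k) (fun x hx => by
    rw [fn_add, fn_smul, hhk x hx]; ring)
  apply fn_ext
  intro x
  have h2 := congrArg (fun h => fn h x) h1
  simp only [fn_add, fn_smul, fn_zero] at h2
  linarith

lemma Harm.const_of_max {h : X → ℝ} (hh : A.Harm h) (x₀ : X) (hmax : ∀ x, h x ≤ h x₀) (x : X) :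
    h x = h x₀ := by
  refine A.conn_induction (q := fun x => h x = h x₀) (x := x₀) rfl ?_ x
  intro y hy z hz
  have e1 : A.P (fun z => h x₀ - h z) y = 0 := by
    rw [A.P_sub, P_const, hh y, hy, sub_self]
  have e2 := A.le_N_mul_P (f := fun z => h x₀ - h z) (fun z => sub_nonneg.mpr (hmax _)) hz
  rw [e1, mul_zero] at e2
  have := hmax z
  show h z = h x₀
  have e3 : h x₀ - h z ≤ 0 := e2
  linarith

/-- The algebraic part: a vector fixed by a finite-index subgroup is a homomorphism there. -/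
theorem hom_of_fixed [MulAction.IsPretransitive G X] (hG : A.Equivar G) (h : HW A o) (hh : h ≠ 0)
    (G1 : Subgroup G) (hfi : G1.FiniteIndex) (htriv : ∀ g ∈ G1, tr hG g h = h) :
    ∃ f : G1 →* Multiplicative ℝ, f ≠ 1 ∧ ∀ g : G1, (g : G) • o = o → f g = 1 := by
  classical
  have hadd : ∀ g ∈ G1, ∀ x, fn h (g • x) = fn h (g • o) + fn h x := by
    intro g hgm x
    have h2 := htriv g⁻¹ (G1.inv_mem hgm)
    have h3 := congrArg (fun k => fn k x) h2
    simp only [fn_tr, inv_inv] at h3
    linarith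
  let f : G1 →* Multiplicative ℝ :=
    { toFun := fun g => Multiplicative.ofAdd (fn h ((g : G) • o))
      map_one' := by simp [fn_base]
      map_mul' := fun g k => by
        rw [← ofAdd_add, Subgroup.coe_mul, mul_smul, hadd g g.2] }
  refine ⟨f, fun hf => hh ?_, fun g hg => ?_⟩
  · have hzero : ∀ g ∈ G1, fn h (g • o) = 0 := by
      intro g hgm
      have := DFunLike.congr_fun hf (⟨g, hgm⟩ : G1)
      exact this
    have hinv : ∀ g ∈ G1, ∀ x, fn h (g • x) = fn h x := by
      intro g hgm x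
      rw [hadd g hgm, hzero g hgm, zero_add]
    have hfin : Finite (G ⧸ G1) := inferInstance
    let φ : G ⧸ G1 → ℝ := fun q => Quotient.liftOn' q (fun y => fn h (y⁻¹ • o)) (by
      intro y z hyz
      have h1 : y⁻¹ * z ∈ G1 := QuotientGroup.leftRel_apply.mp hyz
      have h2 := hinv (y⁻¹ * z) h1 (z⁻¹ • o)
      rwa [← mul_smul, mul_inv_cancel_right] at h2)
    have hφ : ∀ y : G, φ (y : G ⧸ G1) = fn h (y⁻¹ • o) := fun y => rfl
    obtain ⟨q₀, hq₀⟩ := Finite.exists_max φ
    obtain ⟨y₀, rfl⟩ := QuotientGroup.mk_surjective q₀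
    have hmax : ∀ x, fn h x ≤ fn h (y₀⁻¹ • o) := by
      intro x
      obtain ⟨g, rfl⟩ := MulAction.exists_smul_eq G o x
      have := hq₀ ((g⁻¹ : G) : G ⧸ G1)
      rwa [hφ, hφ, inv_inv] at this
    have hconst := (fn_harm h).const_of_max (y₀⁻¹ • o) hmax
    apply fn_ext
    intro x
    rw [hconst x, ← hconst o, fn_base, fn_zero]
  · show Multiplicative.ofAdd (fn h ((g : G) • o)) = 1
    rw [hg, fn_base]
    rfl

end tr

/-- The analytic part, in abstract form. -/
theorem rep_of_core {G : Type*} [Group G] {V : Type u} [AddCommGroup V] [Module ℝ V]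
    (c : InnerProductSpace.Core ℝ V)
    (hfd : Module.Finite ℝ V) (T : G → V ≃ₗ[ℝ] V) (T1 : ∀ x, T 1 x = x)
    (Tmul : ∀ g h x, T (g * h) x = T g (T h x))
    (Tinner : ∀ g x y, c.inner (T g x) (T g y) = c.inner x y) :
    ∃ (W : Type u) (_ : NormedAddCommGroup W) (_ : InnerProductSpace ℝ W)
      (_ : FiniteDimensional ℝ W) (ρ : G →* (W ≃ₗᵢ[ℝ] W)) (e : W ≃ V),
      ∀ g x, e (ρ g x) = T g (e x) := by
  letI i1 : NormedAddCommGroup V := c.toNormedAddCommGroup
  letI i2 : InnerProductSpace ℝ V := InnerProductSpace.ofCore c.toCore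
  let ρ : G →* (V ≃ₗᵢ[ℝ] V) :=
    { toFun := fun g => (T g).isometryOfInner (fun x y => Tinner g x y)
      map_one' := LinearIsometryEquiv.ext fun x => T1 x
      map_mul' := fun g h => LinearIsometryEquiv.ext fun x => Tmul g h x }
  exact ⟨V, i1, i2, hfd, ρ, Equiv.refl V, fun g x => rfl⟩

end Net

/-- **The harmonic representation.** -/
theorem exists_rep {G : Type u} [Group G] {l : G → ℕ} {d : ℕ} (hl : WLen l d) (hg : CGen l)
    (hinf : ∀ b, ∃ g, b < l g) :
    ∃ (W : Type u) (_ : NormedAddCommGroup W) (_ : InnerProductSpace ℝ W)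
      (_ : FiniteDimensional ℝ W) (ρ : G →* (W ≃ₗᵢ[ℝ] W)),
      (ρ '' {k | l k = 0}).Finite ∧
      ∀ G1 : Subgroup G, G1.FiniteIndex → (∀ g ∈ G1, ρ g = 1) →
        ∃ f : G1 →* Multiplicative ℝ, f ≠ 1 ∧ ∀ g : G1, l (g : G) = 0 → f g = 1 := by
  classical
  obtain ⟨r0, hr0⟩ := hg
  have hr : Subgroup.closure {g : G | l g ≤ r0 + 1} = ⊤ := by
    rw [eq_top_iff, ← hr0]
    exact Subgroup.closure_mono fun g (hg : l g ≤ r0) => (by
      show l g ≤ r0 + 1
      omega)
  set A := net hl hr with hA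
  have hG : A.Equivar G := net_equivar hl hr
  have hB := net_exh hl hr
  obtain ⟨C, hC⟩ := net_growth hl (Nat.succ_pos r0)
  have hX : Infinite (G ⧸ hl.toPLen.K) := by
    by_contra hfin
    rw [not_infinite_iff_finite] at hfin
    have : Fintype (G ⧸ hl.toPLen.K) := Fintype.ofFinite _
    obtain ⟨g, hg⟩ := hinf (Finset.univ.sup fun x => dq hl.toPLen (bp hl.toPLen) x)
    have h1 := Finset.le_sup (f := fun x => dq hl.toPLen (bp hl.toPLen) x)
      (Finset.mem_univ (g : G ⧸ hl.toPLen.K))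
    rw [dq_bp] at h1
    omega
  set o := bp hl.toPLen with ho
  obtain ⟨h, h1, h2, h3, x0, hx0⟩ := Net.exists_harm (A := A) o hG hB hC
  obtain ⟨K, hK, hgood⟩ := Net.exists_good (A := A) hG hB hC
  -- the ultrafilter
  set S : Set ℕ := {n | ∀ x, ∀ y ∈ A.nb x, A.D n x y ≤ K / (n + 1)} with hS
  have hfr : ∃ᶠ n in atTop, n ∈ S := by
    rw [frequently_atTop]
    intro a
    obtain ⟨n, hn1, hn2⟩ := hgood a
    exact ⟨n, hn1, hn2⟩
  have hne : (atTop ⊓ 𝓟 S : Filter ℕ).NeBot := by
    rwa [← frequently_mem_iff_neBot]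
  let ω : Ultrafilter ℕ := Ultrafilter.of (atTop ⊓ 𝓟 S)
  have hω : (ω : Filter ℕ) ≤ atTop ⊓ 𝓟 S := Ultrafilter.of_le _
  have hgd : A.Good ω K :=
    { le := hω.trans inf_le_left
      bd := hω.trans inf_le_right (mem_principal_self S)
      pos := hK }
  set h' : Net.HW A o := Net.hmk h h1 ⟨1, h2⟩ h3 with hh'
  have hh'0 : h' ≠ 0 := by
    intro h0
    apply hx0
    have := congrArg (fun k => Net.fn k x0) h0
    exact this
  have hfd := Net.finite_dim (o := o) hgd
  obtain ⟨W, i1, i2, i3, ρ, e, he⟩ := Net.rep_of_core (G := G) (V := Net.HW A o)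
    (Net.core hgd) hfd
    (fun g => Net.trEquiv hG g) (fun x => Net.tr_one hG x) (fun g h x => Net.tr_mul hG g h x)
    (fun g x y => Net.B_tr hgd hG g x y)
  refine ⟨W, i1, i2, i3, ρ, ?_, ?_⟩
  · -- finite image of the null subgroup
    obtain ⟨F, hF⟩ := Net.exists_sep hfd
    have hfix : ∀ k : G, l k = 0 → k • o = o := by
      intro k hk
      rw [ho, smul_bp]
      unfold bp
      rw [QuotientGroup.eq, hl.toPLen.mem_K]
      simp [hl.inv, hk]
    have key : ∀ k k' : G, l k = 0 → l k' = 0 → (∀ x ∈ F, k⁻¹ • x = k'⁻¹ • x) → ρ k = ρ k' := by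
      intro k k' hk hk' hx
      apply LinearIsometryEquiv.ext
      intro w
      apply e.injective
      rw [he, he]
      apply hF
      intro x hxF
      show Net.fn (Net.tr hG k (e w)) x = Net.fn (Net.tr hG k' (e w)) x
      rw [Net.fn_tr, Net.fn_tr, hx x hxF, hfix k⁻¹ (by rw [hl.inv]; exact hk),
        hfix k'⁻¹ (by rw [hl.inv]; exact hk')]
    choose! s hs1 hs2 using fun (w : W ≃ₗᵢ[ℝ] W) (hw : w ∈ ρ '' {k | l k = 0}) => hw
    let Φ : (W ≃ₗᵢ[ℝ] W) → (F → G ⧸ hl.toPLen.K) := fun w x => (s w)⁻¹ • (x : G ⧸ hl.toPLen.K)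
    have hpi : (Set.pi Set.univ fun x : F =>
        {y : G ⧸ hl.toPLen.K | dq hl.toPLen o y ≤ dq hl.toPLen o x}).Finite := by
      apply Set.Finite.pi
      intro x
      obtain ⟨b, hb⟩ := hl.fin (dq hl.toPLen o x)
      exact (ball_finite hl.toPLen hb o).1
    refine Set.Finite.of_finite_image (f := Φ) (hpi.subset ?_) ?_
    · rintro _ ⟨w, hw, rfl⟩ x _
      show dq hl.toPLen o ((s w)⁻¹ • (x : G ⧸ hl.toPLen.K)) ≤ dq hl.toPLen o x
      have h5 := dq_smul hl.toPLen (s w) o ((s w)⁻¹ • (x : G ⧸ hl.toPLen.K))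
      rw [smul_inv_smul, hfix _ (hs1 w hw)] at h5
      rw [h5]
    · intro w hw w' hw' hww
      rw [← hs2 w hw, ← hs2 w' hw']
      apply key _ _ (hs1 w hw) (hs1 w' hw')
      intro x hx
      exact congrFun hww ⟨x, hx⟩
  · intro G1 hfi htriv
    obtain ⟨f, hf1, hf2⟩ := Net.hom_of_fixed hG h' hh'0 G1 hfi (fun g hgm => by
      have h5 := he g (e.symm h')
      rw [htriv g hgm, Equiv.apply_symm_apply] at h5
      have h6 : e ((1 : W ≃ₗᵢ[ℝ] W) (e.symm h')) = h' := by
        rw [show (1 : W ≃ₗᵢ[ℝ] W) (e.symm h') = e.symm h' from rfl, Equiv.apply_symm_apply]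
      rw [h6] at h5
      exact h5.symm)
    refine ⟨f, hf1, fun g hg => hf2 g ?_⟩
    rw [ho, smul_bp]
    unfold bp
    rw [QuotientGroup.eq, hl.toPLen.mem_K]
    simp [hl.inv, hg]

end Crest.Agent.R147.St
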