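import Crest.Agent.R147.StComp
import Crest.Agent.R147.StRep
import Crest.Agent.R182.GromovFinal

/-!
R147, structure block (helper505), part 9: an unbounded, boundedly generated group with a pseudo-length
of weakly polynomial growth virtually surjects onto `ℤ`, trivially on the null subgroup.
-/

set_option autoImplicit false
set_option linter.unusedSectionVars false

universe u

namespace Crest.Agent.R147.St

open Filter Function

section

variable {G : Type*} [Group G] {l : G → ℕ}

/-- the image of a ball is finite if the image of the null subgroup is. -/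
theorem image_ball_finite {U : Type*} [Group U] (hl : PLen l) (ρ : G →* U)
    (hK : (ρ '' {k | l k = 0}).Finite) {n b : ℕ} (hb : Cov l n b) :
    (ρ '' {g | l g ≤ n}).Finite ∧ (ρ '' {g | l g ≤ n}).ncard ≤ b * (ρ '' {k | l k = 0}).ncard := by
  classical
  obtain ⟨N, hN1, _, _, hN4⟩ := exists_net hl hb
  set T := hK.toFinset with hT
  have hsub : ρ '' {g | l g ≤ n} ⊆ ((N ×ˢ T).image (fun p => ρ p.1 * p.2) : Finset U) := by
    rintro _ ⟨g, hg, rfl⟩
    obtain ⟨f, hf, hf2⟩ := hN4 g hg
    rw [Finset.coe_image]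
    refine ⟨(f, ρ (f⁻¹ * g)), ?_, ?_⟩
    · rw [Finset.mem_coe, Finset.mem_product]
      refine ⟨hf, ?_⟩
      rw [hT, Set.Finite.mem_toFinset]
      exact ⟨_, hf2, rfl⟩
    · show ρ f * ρ (f⁻¹ * g) = ρ g
      rw [← map_mul, mul_inv_cancel_left]
  refine ⟨(Finset.finite_toSet _).subset hsub, ?_⟩
  refine (Set.ncard_le_ncard hsub (Finset.finite_toSet _)).trans ?_
  rw [Set.ncard_coe_finset]
  refine Finset.card_image_le.trans ?_
  rw [Finset.card_product, Set.ncard_eq_toFinset_card _ hK]
  exact Nat.mul_le_mul_right _ hN1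

theorem range_fg {U : Type*} [Group U] {d : ℕ} (hl : WLen l d) (hg : CGen l) (ρ : G →* U)
    (hK : (ρ '' {k | l k = 0}).Finite) : Group.FG ρ.range := by
  obtain ⟨r, hr⟩ := hg
  obtain ⟨b, hb⟩ := hl.fin r
  have h1 := (image_ball_finite hl.toPLen ρ hK hb).1
  rw [Group.fg_iff_subgroup_fg]
  refine ⟨h1.toFinset, ?_⟩
  rw [Set.Finite.coe_toFinset, ← MonoidHom.map_closure, hr, ← MonoidHom.range_eq_map]

theorem imGrowth {U : Type*} [Group U] {d : ℕ} (hl : WLen l d) (ρ : G →* U)
    (hK : (ρ '' {k | l k = 0}).Finite) : ∃ C, ImGrowth l ρ C d := by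
  classical
  obtain ⟨C, hC⟩ := hl.gr
  refine ⟨C * (ρ '' {k | l k = 0}).ncard, hC.mono fun n hn F hF1 hF2 => ?_⟩
  obtain ⟨h1, h2⟩ := image_ball_finite hl.toPLen ρ hK hn
  have h3 : F.card ≤ (ρ '' {g | l g ≤ n}).ncard := by
    rw [← Finset.card_image_of_injOn hF2, ← Set.ncard_coe_finset, Finset.coe_image]
    exact Set.ncard_le_ncard (Set.image_mono fun g hg => hF1 g hg) h1
  calc F.card ≤ (ρ '' {g | l g ≤ n}).ncard := h3
    _ ≤ C * (n + 1) ^ d * (ρ '' {k | l k = 0}).ncard := h2
    _ = _ := by ring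

/-- a homomorphism to `ℤ` with finite image on a subgroup is trivial there. -/
theorem eq_one_of_finite {H : Type*} [Group H] (ψ : H →* Multiplicative ℤ) (K : Set H)
    (hK : ∀ k ∈ K, ∀ n : ℕ, k ^ n ∈ K) (hfin : (ψ '' K).Finite) (k : H) (hk : k ∈ K) : ψ k = 1 := by
  by_contra hne
  have hinj : Injective (fun n : ℕ => ψ (k ^ n)) := by
    intro n m hnm
    have h1 : ψ (k ^ n) = ψ (k ^ m) := hnm
    rw [map_pow, map_pow] at h1
    have h2 := congrArg Multiplicative.toAdd h1
    rw [toAdd_pow, toAdd_pow] at h2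
    have h3 : Multiplicative.toAdd (ψ k) ≠ 0 := by
      intro h0
      exact hne (by rw [← ofAdd_toAdd (ψ k), h0]; rfl)
    simp only [nsmul_eq_mul] at h2
    exact_mod_cast mul_right_cancel₀ h3 h2
  have h1 : (Set.range (fun n : ℕ => ψ (k ^ n))).Infinite := Set.infinite_range_of_injective hinj
  apply h1
  refine hfin.subset ?_
  rintro _ ⟨n, rfl⟩
  exact ⟨k ^ n, hK k hk n, rfl⟩

end

/-- a group with an infinite, finitely generated commutative image surjects onto `ℤ`. -/
theorem onto_int_of_range' {Γ : Type*} {B : Type u} [Group Γ] [Group B] (f : Γ →* B)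
    (hfg : Group.FG f.range)
    (hcomm : ∀ x y, f (x * y) = f (y * x)) (hinf : Infinite f.range) :
    ∃ φ : f.range →* Multiplicative ℤ, Function.Surjective φ := by
  let _ : CommGroup f.range :=
    { (inferInstance : Group f.range) with
      mul_comm := by
        rintro ⟨_, x, rfl⟩ ⟨_, y, rfl⟩
        apply Subtype.ext
        show f x * f y = f y * f x
        rw [← map_mul, ← map_mul, hcomm] }
  obtain ⟨φ, hφ⟩ := Crest.Agent.R182.GromovFinal.onto_int_of_comm f.range
  exact ⟨φ, hφ⟩

/-- **Theorem A.** -/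
theorem onto_int {G : Type u} [Group G] {l : G → ℕ} {d : ℕ} (hl : WLen l d) (hg : CGen l)
    (hinf : ∀ b, ∃ g, b < l g) :
    ∃ G1 : Subgroup G, G1.FiniteIndex ∧ ∃ φ : G1 →* Multiplicative ℤ, Function.Surjective φ ∧
      ∀ g : G1, l (g : G) = 0 → φ g = 1 := by
  obtain ⟨W, i1, i2, i3, ρ, hK, hρ⟩ := exists_rep hl hg hinf
  obtain ⟨C, hC⟩ := imGrowth hl ρ hK
  obtain ⟨G0, hG0, hcomm⟩ := compact_part' hl.toPLen ρ hC
  have hl0 := hl.subgroup G0
  have hg0 := hg.subgroup hl.toPLen G0 hG0
  have hK0 : ((ρ.comp G0.subtype) '' {k : G0 | l (k : G) = 0}).Finite := by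
    refine hK.subset ?_
    rintro _ ⟨k, hk, rfl⟩
    exact ⟨(k : G), hk, rfl⟩
  by_cases hfin : Infinite (ρ.comp G0.subtype).range
  · have hfg := range_fg hl0 hg0 (ρ.comp G0.subtype) hK0
    obtain ⟨φ, hφ⟩ := onto_int_of_range' (ρ.comp G0.subtype) hfg
      (fun x y => hcomm x x.2 y y.2) hfin
    refine ⟨G0, hG0, φ.comp (ρ.comp G0.subtype).rangeRestrict,
      hφ.comp (ρ.comp G0.subtype).rangeRestrict_surjective, ?_⟩
    intro g hg
    refine eq_one_of_finite (φ.comp (ρ.comp G0.subtype).rangeRestrict) {k : G0 | l (k : G) = 0}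
      ?_ ?_ g hg
    · intro k hk n
      have h1 := hl0.toPLen.pow k n
      have h2 : l (k : G) = 0 := hk
      show l ((k ^ n : G0) : G) = 0
      simp only [h2, mul_zero, Nat.le_zero] at h1
      exact h1
    · -- the image factors through the finite image of `ρ`
      have h1 : ((ρ.comp G0.subtype).rangeRestrict '' {k : G0 | l (k : G) = 0}).Finite := by
        refine Set.Finite.of_finite_image (f := Subtype.val) ?_ Subtype.val_injective.injOn
        rw [← Set.image_comp]
        exact hK0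
      have h2 := h1.image φ
      rw [← Set.image_comp] at h2
      exact h2
  · have hfin' : Finite (ρ.comp G0.subtype).range := not_infinite_iff_finite.1 hfin
    have hker : (ρ.comp G0.subtype).ker.FiniteIndex := inferInstance
    let G1 : Subgroup G := (ρ.comp G0.subtype).ker.map G0.subtype
    have hG1 : G1.FiniteIndex := by
      rw [Subgroup.finiteIndex_iff]
      show ((ρ.comp G0.subtype).ker.map G0.subtype).index ≠ 0
      rw [Subgroup.index_map_subtype]
      exact Nat.mul_ne_zero hker.index_ne_zero hG0.index_ne_zero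
    obtain ⟨f, hf, hfK⟩ := hρ G1 hG1 (by
      rintro _ ⟨g, hg, rfl⟩
      exact hg)
    have hl1 := hl.subgroup G1
    have hg1 := hg.subgroup hl.toPLen G1 hG1
    have hfK' : (f '' {k : G1 | l (k : G) = 0}).Finite := by
      refine (Set.finite_singleton 1).subset ?_
      rintro _ ⟨k, hk, rfl⟩
      exact hfK k hk
    have hfg := range_fg hl1 hg1 f hfK'
    obtain ⟨φ, hφ⟩ := onto_int_of_range' f hfg (fun x y => by rw [map_mul, map_mul, mul_comm])
      (Crest.Agent.R182.GromovFinal.infinite_range_real f hf)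
    refine ⟨G1, hG1, φ.comp f.rangeRestrict, hφ.comp f.rangeRestrict_surjective, ?_⟩
    intro g hg
    have h1 : f.rangeRestrict g = 1 := Subtype.ext (hfK g hg)
    rw [MonoidHom.comp_apply, h1, map_one]

end Crest.Agent.R147.St
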