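import Crest.Agent.R147.StAct

/-!
R147, structure block (helper505), part 14: the dichotomy "virtually `ℤ` modulo a bounded kernel or
virtually onto `ℤ²`" for weakly polynomial growth.
-/

set_option autoImplicit false
set_option linter.unusedSectionVars false

universe u

namespace Crest.Agent.R147.St

open Filter Function Polynomial

section transfer

open MonoidHom Subgroup MulAction in
/-- a conjugation invariant homogeneous function which is additive on a subgroup of finite index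
is additive (transfer). -/
theorem add_of_conj {A : Type*} [Group A] {f : A → ℚ} (hf : Hgs f) (B : Subgroup A)
    (hB : B.FiniteIndex) (hadd : AddOn f B) (hconj : ∀ a x, f (a * x * a⁻¹) = f x) (x y : A) :
    f (x * y) = f x + f y := by
  classical
  have key : ∀ g : A, (transfer (toHom f B hadd) g) = Multiplicative.ofAdd ((B.index : ℚ) * f g) := by
    intro g
    have : Fintype (A ⧸ B) := B.fintypeQuotientOfFiniteIndex
    have : Fintype (Quotient (orbitRel (zpowers g) (A ⧸ B))) := Fintype.ofFinite _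
    rw [transfer_eq_prod_quotient_orbitRel_zpowers_quot]
    have h1 : ∀ q : Quotient (orbitRel (zpowers g) (A ⧸ B)),
        toHom f B hadd ⟨q.out.out⁻¹ * g ^ Function.minimalPeriod (g • ·) q.out * q.out.out,
          QuotientGroup.out_conj_pow_minimalPeriod_mem B g q.out⟩
        = Multiplicative.ofAdd (((Function.minimalPeriod (g • ·) q.out : ℕ) : ℚ) * f g) := by
      intro q
      rw [toHom_apply]
      congr 1
      show f (q.out.out⁻¹ * g ^ Function.minimalPeriod (g • ·) q.out * q.out.out) = _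
      have h2 := hconj q.out.out⁻¹ (g ^ Function.minimalPeriod (g • ·) q.out)
      rw [inv_inv] at h2
      rw [h2, hf]
    rw [Finset.prod_congr rfl fun q _ => h1 q, ← ofAdd_sum, ← Finset.sum_mul]
    congr 1
    congr 1
    rw [index_eq_sum_minimalPeriod B g]
    push_cast
    rfl
  have h1 := map_mul (transfer (toHom f B hadd)) x y
  rw [key, key, key, ← ofAdd_add] at h1
  have h2 : (B.index : ℚ) * f (x * y) = (B.index : ℚ) * f x + (B.index : ℚ) * f y :=
    Multiplicative.ofAdd.injective h1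
  have h3 : (B.index : ℚ) ≠ 0 := by exact_mod_cast hB.index_ne_zero
  apply mul_left_cancel₀ h3
  rw [h2]; ring

end transfer

section extension

variable {G : Type u} [Group G] {l : G → ℕ}

/-- **The extension.** -/
theorem exists_two {d' : ℕ} (φ : G →* Multiplicative ℤ)
    (hK : ∀ g, l g = 0 → φ g = 1) (hN : WLen (kl l φ) d')
    (hNg : CGen (kl l φ)) {t : G} (ht : φ t = Multiplicative.ofAdd 1) {n : ℕ} (hn : 0 < n)
    {f : φ.ker → ℚ} (hf : f ∈ VH (kl l φ)) (hf0 : f ≠ 0)
    (hinv : ∀ x, f (MulAut.conjNormal (t ^ n) x) = f x) :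
    ∃ H : Subgroup G, H.FiniteIndex ∧ ∃ φ₁ φ₂ : H →* Multiplicative ℤ,
      (∀ a b, ∃ g, φ₁ g = a ∧ φ₂ g = b) ∧ ∀ g : H, l (g : G) = 0 → φ₁ g = 1 ∧ φ₂ g = 1 := by
  classical
  have hφt := map_zpow_ofAdd ht
  set s : G := t ^ n with hs
  have hφs : φ s = Multiplicative.ofAdd (n : ℤ) := by
    rw [hs, ← zpow_natCast, hφt]
  have hn' : (n : ℤ) ≠ 0 := by exact_mod_cast hn.ne'
  -- the stabiliser in `G`
  let S : Subgroup G :=
    { carrier := {g | ∀ x, f (MulAut.conjNormal g x) = f x}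
      one_mem' := fun x => by rw [map_one]; rfl
      mul_mem' := by
        intro g h hg hh x
        have hg' : ∀ x, f (MulAut.conjNormal g x) = f x := hg
        have hh' : ∀ x, f (MulAut.conjNormal h x) = f x := hh
        rw [map_mul]
        show f (MulAut.conjNormal g (MulAut.conjNormal h x)) = f x
        rw [hg', hh']
      inv_mem' := by
        intro g hg x
        have hg' : ∀ x, f (MulAut.conjNormal g x) = f x := hg
        rw [← hg' (MulAut.conjNormal g⁻¹ x)]
        congr 1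
        rw [map_inv]
        exact MulEquiv.apply_symm_apply _ _ }
  have hS : ∀ g, g ∈ S ↔ ∀ x, f (MulAut.conjNormal g x) = f x := fun g => Iff.rfl
  have hsS : s ∈ S := hinv
  let D : Subgroup G := (Subgroup.zpowers (Multiplicative.ofAdd (n : ℤ))).comap φ
  have hD : ∀ g, g ∈ D ↔ ∃ q : ℤ, φ g = Multiplicative.ofAdd (n * q) := by
    intro g
    rw [Subgroup.mem_comap, Subgroup.mem_zpowers_iff]
    constructor
    · rintro ⟨q, hq⟩
      refine ⟨q, ?_⟩
      rw [← hq, ← ofAdd_zsmul, smul_eq_mul, mul_comm]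
    · rintro ⟨q, hq⟩
      refine ⟨q, ?_⟩
      rw [hq, ← ofAdd_zsmul, smul_eq_mul, mul_comm]
  -- the stabiliser in `N`
  let NS : Subgroup φ.ker := S.subgroupOf φ.ker
  obtain ⟨H0, hH0, hadd0⟩ := hf.2.1
  have hH0le : H0 ≤ NS := by
    intro e he
    show (e : G) ∈ S
    intro x
    obtain ⟨m, hm, hx⟩ := exists_pow_mem H0 hH0 x
    have h1 : MulAut.conjNormal (e : G) x = e * x * e⁻¹ := by
      apply Subtype.ext
      rw [MulAut.conjNormal_apply]; rfl
    rw [h1]
    have h2 : f ((e * x * e⁻¹) ^ m) = f (x ^ m) := by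
      rw [conj_pow, hadd0 _ (H0.mul_mem he hx) _ (H0.inv_mem he), hadd0 _ he _ hx]
      have h3 := hadd0 _ he _ (H0.inv_mem he)
      rw [mul_inv_cancel, hf.1.one] at h3
      linarith
    rw [hf.1, hf.1] at h2
    have h4 : (m : ℚ) ≠ 0 := by exact_mod_cast hm.ne'
    exact mul_left_cancel₀ h4 h2
  have hNS : NS.FiniteIndex := Subgroup.finiteIndex_of_le hH0le
  -- `f` is additive on the stabiliser
  have hfadd : AddOn f NS := by
    intro x hx y hy
    have h1 := add_of_conj (A := NS) (f := fun x => f x) (fun x k => hf.1 x k) (H0.subgroupOf NS)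
      inferInstance (fun x hx y hy => hadd0 _ hx _ hy) (by
        intro a x
        have h2 : f (MulAut.conjNormal ((a : φ.ker) : G) (x : φ.ker)) = f x := a.2 (x : φ.ker)
        have h3 : MulAut.conjNormal ((a : φ.ker) : G) (x : φ.ker) = a * x * (a : φ.ker)⁻¹ := by
          apply Subtype.ext
          rw [MulAut.conjNormal_apply]; rfl
        rw [h3] at h2
        exact h2) ⟨x, hx⟩ ⟨y, hy⟩
    exact h1
  -- the homomorphism onto `ℤ`
  have hlNS := hN.subgroup NS
  have hgNS := hNg.subgroup hN.toPLen NS hNS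
  obtain ⟨ψ, hψ⟩ : ∃ ψ : (toHom f NS hfadd).range →* Multiplicative ℤ, Surjective ψ := by
    apply onto_int_of_range'
    · refine range_fg hlNS hgNS _ ?_
      refine (Set.finite_singleton 1).subset ?_
      rintro _ ⟨k, hk, rfl⟩
      rw [toHom_apply, hf.2.2 _ hk, ofAdd_zero]
      rfl
    · intro x y
      rw [map_mul, map_mul, mul_comm]
    · -- infinite
      obtain ⟨x, hx⟩ : ∃ x, f x ≠ 0 := by
        by_contra hcon
        push Not at hcon
        exact hf0 (funext hcon)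
      obtain ⟨m, hm, hxm⟩ := exists_pow_mem NS hNS x
      have h1 : f (x ^ m) ≠ 0 := by
        rw [hf.1]
        exact mul_ne_zero (by exact_mod_cast hm.ne') hx
      refine Infinite.of_injective (fun k : ℕ => (⟨toHom f NS hfadd (⟨x ^ m, hxm⟩ ^ k),
        ⟨_, rfl⟩⟩ : (toHom f NS hfadd).range)) ?_
      intro a b hab
      have h2 : toHom f NS hfadd (⟨x ^ m, hxm⟩ ^ a) = toHom f NS hfadd (⟨x ^ m, hxm⟩ ^ b) :=
        congrArg Subtype.val hab
      rw [map_pow, map_pow] at h2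
      have h3 := congrArg Multiplicative.toAdd h2
      rw [toAdd_pow, toAdd_pow, toHom_apply, toAdd_ofAdd, nsmul_eq_mul, nsmul_eq_mul] at h3
      exact_mod_cast mul_right_cancel₀ h1 h3
  let ψ' : NS →* Multiplicative ℤ := ψ.comp (toHom f NS hfadd).rangeRestrict
  have hψ's : Surjective ψ' := hψ.comp (toHom f NS hfadd).rangeRestrict_surjective
  have hψ'e : ∀ x y : NS, f x = f y → ψ' x = ψ' y := by
    intro x y hxy
    show ψ ((toHom f NS hfadd).rangeRestrict x) = ψ ((toHom f NS hfadd).rangeRestrict y)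
    congr 1
    apply Subtype.ext
    show toHom f NS hfadd x = toHom f NS hfadd y
    rw [toHom_apply, toHom_apply, hxy]
  -- the group `H`
  let H : Subgroup G := S ⊓ D
  have hqH : ∀ g : H, ∃ q : ℤ, φ g = Multiplicative.ofAdd (n * q) := fun g => (hD g).1 g.2.2
  choose q hq using hqH
  have hqmul : ∀ g h : H, q (g * h) = q g + q h := by
    intro g h
    have h1 := hq (g * h)
    rw [Subgroup.coe_mul, map_mul, hq, hq, ← ofAdd_add] at h1
    have h2 : (n : ℤ) * q g + n * q h = n * q (g * h) := Multiplicative.ofAdd.injective h1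
    apply mul_left_cancel₀ hn'
    rw [← h2]; ring
  have hφsz : ∀ k : ℤ, φ (s ^ k) = Multiplicative.ofAdd (n * k) := by
    intro k
    rw [map_zpow, hφs, ← ofAdd_zsmul, smul_eq_mul, mul_comm]
  -- the `N` part
  have hnp : ∀ g : H, (g : G) * (s ^ q g)⁻¹ ∈ φ.ker := by
    intro g
    rw [MonoidHom.mem_ker, map_mul, map_inv, hq, hφsz, mul_inv_cancel]
  have hnpS : ∀ g : H, (⟨(g : G) * (s ^ q g)⁻¹, hnp g⟩ : φ.ker) ∈ NS := by
    intro g
    show (g : G) * (s ^ q g)⁻¹ ∈ S
    exact S.mul_mem g.2.1 (S.inv_mem (S.zpow_mem hsS _))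
  let np : H → NS := fun g => ⟨⟨(g : G) * (s ^ q g)⁻¹, hnp g⟩, hnpS g⟩
  have hφ1 : ∃ φ₁ : H →* Multiplicative ℤ, ∀ g, φ₁ g = Multiplicative.ofAdd (q g) :=
    ⟨MonoidHom.mk' (fun g => Multiplicative.ofAdd (q g)) (fun g h => by
      rw [hqmul, ofAdd_add]), fun g => rfl⟩
  obtain ⟨φ₁, hφ₁⟩ := hφ1
  have hφ2 : ∃ φ₂ : H →* Multiplicative ℤ, ∀ g, φ₂ g = ψ' (np g) := by
    refine ⟨MonoidHom.mk' (fun g => ψ' (np g)) (fun g h => ?_), fun g => rfl⟩
    rw [← map_mul]
    apply hψ'e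
    -- `np (g h) = np g * (s^{q g} np h s^{-q g})`
    have hsz : s ^ q g ∈ S := S.zpow_mem hsS _
    have hmem : MulAut.conjNormal (s ^ q g) (np h : φ.ker) ∈ NS := by
      show ((MulAut.conjNormal (s ^ q g) (np h : φ.ker) : φ.ker) : G) ∈ S
      rw [MulAut.conjNormal_apply]
      exact S.mul_mem (S.mul_mem hsz (np h).2) (S.inv_mem hsz)
    have h1 : ((np (g * h) : NS) : φ.ker) = (np g : φ.ker) * MulAut.conjNormal (s ^ q g) (np h : φ.ker) := by
      apply Subtype.ext
      rw [Subgroup.coe_mul, MulAut.conjNormal_apply]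
      show ((g * h : H) : G) * (s ^ q (g * h))⁻¹
        = (g : G) * (s ^ q g)⁻¹ * (s ^ q g * ((h : G) * (s ^ q h)⁻¹) * (s ^ q g)⁻¹)
      rw [hqmul, Subgroup.coe_mul, zpow_add]
      group
    rw [h1, hfadd _ (np g).2 _ hmem, hsz, Subgroup.coe_mul, hfadd _ (np g).2 _ (np h).2]
  obtain ⟨φ₂, hφ₂⟩ := hφ2
  refine ⟨H, ?_, φ₁, φ₂, ?_, ?_⟩
  · -- finite index
    have hfin : Finite (φ.ker ⧸ NS) := inferInstance
    rw [Subgroup.finiteIndex_iff_finite_quotient]
    refine Finite.of_surjective (fun p : Fin n × (φ.ker ⧸ NS) =>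
      (QuotientGroup.mk (t ^ (p.1 : ℕ) * ((Quotient.out p.2 : φ.ker) : G)) : G ⧸ H)) ?_
    intro x
    obtain ⟨g, rfl⟩ := QuotientGroup.mk_surjective x
    set k : ℤ := Multiplicative.toAdd (φ g) with hk
    have hφg : φ g = Multiplicative.ofAdd k := rfl
    have h1 := Int.emod_nonneg k hn'
    have h2 := Int.emod_lt_of_pos k (by exact_mod_cast hn : (0 : ℤ) < n)
    obtain ⟨r, hr⟩ := Int.eq_ofNat_of_zero_le h1
    have hrn : r < n := by omega
    have hkr : k = r + n * (k / n) := by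
      have := Int.emod_add_mul_ediv k n
      omega
    -- `g = t^r x s^{k/n}`
    set y : G := (t ^ r)⁻¹ * g * (s ^ (k / n))⁻¹ with hy
    have hyker : y ∈ φ.ker := by
      rw [MonoidHom.mem_ker, hy, map_mul, map_mul, map_inv, map_inv, hφsz, hφg, ← zpow_natCast, hφt,
        ← ofAdd_neg, ← ofAdd_neg, ← ofAdd_add, ← ofAdd_add]
      have : -(r : ℤ) + k + -(n * (k / n)) = 0 := by omega
      rw [this]; rfl
    refine ⟨(⟨r, hrn⟩, QuotientGroup.mk (⟨y, hyker⟩ : φ.ker)), ?_⟩
    show (QuotientGroup.mk (t ^ r * ((Quotient.out (QuotientGroup.mk (⟨y, hyker⟩ : φ.ker) : φ.ker ⧸ NS) : φ.ker) : G)) : G ⧸ H) = QuotientGroup.mk g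
    set o : φ.ker := Quotient.out (QuotientGroup.mk (⟨y, hyker⟩ : φ.ker) : φ.ker ⧸ NS) with ho
    have h3 : (QuotientGroup.mk o : φ.ker ⧸ NS) = QuotientGroup.mk ⟨y, hyker⟩ := Quotient.out_eq' _
    have h4 := QuotientGroup.eq.1 h3
    rw [QuotientGroup.eq]
    have h5 : (o : G)⁻¹ * y ∈ S := h4
    have h6 : (t ^ r * (o : G))⁻¹ * g = ((o : G)⁻¹ * y) * s ^ (k / n) := by
      rw [hy]; group
    rw [h6]
    refine H.mul_mem ⟨h5, ?_⟩ ⟨S.zpow_mem hsS _, ?_⟩
    · apply (hD _).2
      refine ⟨0, ?_⟩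
      have : φ ((o : G)⁻¹ * y) = 1 := by
        rw [map_mul, map_inv, (hyker : φ y = 1), (o.2 : φ o = 1)]; simp
      rw [this]; simp
    · apply (hD _).2
      exact ⟨_, hφsz _⟩
  · intro a b
    obtain ⟨x, hx⟩ := hψ's b
    set k : ℤ := Multiplicative.toAdd a with hk
    have hgS : ((x : φ.ker) : G) * s ^ k ∈ H := by
      refine ⟨S.mul_mem x.2 (S.zpow_mem hsS _), ?_⟩
      apply (hD _).2
      refine ⟨k, ?_⟩
      rw [map_mul, hφsz, ((x : φ.ker).2 : φ (x : φ.ker) = 1), one_mul]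
    have hqk : q ⟨_, hgS⟩ = k := by
      have h1 := hq ⟨_, hgS⟩
      have h2 : φ (((x : φ.ker) : G) * s ^ k) = Multiplicative.ofAdd (n * k) := by
        rw [map_mul, hφsz, ((x : φ.ker).2 : φ (x : φ.ker) = 1), one_mul]
      have h3 : φ ((⟨_, hgS⟩ : H) : G) = Multiplicative.ofAdd (n * k) := h2
      rw [h3] at h1
      exact (mul_left_cancel₀ hn' (Multiplicative.ofAdd.injective h1)).symm
    refine ⟨⟨_, hgS⟩, ?_, ?_⟩
    · rw [hφ₁, hqk]; rfl
    · rw [hφ₂, ← hx]
      apply hψ'e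
      congr 1
      apply Subtype.ext
      show ((x : φ.ker) : G) * s ^ k * (s ^ q ⟨_, hgS⟩)⁻¹ = _
      rw [hqk, mul_inv_cancel_right]
  · intro g hg0
    have h1 := hK _ hg0
    have hqg : q g = 0 := by
      have h2 := hq g
      rw [h1] at h2
      have h3 : (0 : ℤ) = n * q g := Multiplicative.ofAdd.injective h2
      rcases mul_eq_zero.1 h3.symm with h4 | h4
      · exact absurd h4 hn'
      · exact h4
    refine ⟨by rw [hφ₁, hqg]; rfl, ?_⟩
    rw [hφ₂, ← map_one ψ']
    apply hψ'e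
    have h4 : kl l φ (np g : φ.ker) = 0 := by
      show l ((g : G) * (s ^ q g)⁻¹) = 0
      rw [hqg]; simpa using hg0
    rw [hf.2.2 _ h4]
    exact hf.1.one.symm

end extension

/-- **The dichotomy** for boundedly generated groups with a pseudo-length of weakly polynomial
growth. -/
theorem dichotomy {G : Type u} [Group G] {l : G → ℕ} {d : ℕ} (hl : WLen l d) (hg : CGen l)
    (hinf : ∀ b, ∃ g, b < l g) :
    (∃ H : Subgroup G, H.FiniteIndex ∧ ∃ φ : H →* Multiplicative ℤ, Surjective φ ∧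
      (∀ g : H, l (g : G) = 0 → φ g = 1) ∧ ∃ B, ∀ g : H, φ g = 1 → l (g : G) ≤ B) ∨
    (∃ H : Subgroup G, H.FiniteIndex ∧ ∃ φ₁ φ₂ : H →* Multiplicative ℤ,
      (∀ a b, ∃ g, φ₁ g = a ∧ φ₂ g = b) ∧ ∀ g : H, l (g : G) = 0 → φ₁ g = 1 ∧ φ₂ g = 1) := by
  classical
  obtain ⟨G1, hG1, φ, hφ, hK⟩ := onto_int hl hg hinf
  have hl1 := hl.subgroup G1
  have hg1 := hg.subgroup hl.toPLen G1 hG1
  have hN := hl1.subgroup φ.ker
  have hNg := ker_cgen hl1 hg1 φ hφ hK
  by_cases hb : ∀ b, ∃ k : φ.ker, b < l ((k : G1) : G)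
  · right
    have hne := exists_VH_ne hN hNg hb
    obtain ⟨t, ht⟩ := hφ (Multiplicative.ofAdd 1)
    obtain ⟨n, hn, f, hf, hf0, hinv⟩ := exists_periodic φ hl1.toPLen hN hl1 hNg hne t
    obtain ⟨H, hH, φ₁, φ₂, h1, h2⟩ := exists_two φ hK hN hNg ht hn hf hf0 hinv
    let e : H ≃* H.map G1.subtype := H.equivMapOfInjective G1.subtype G1.subtype_injective
    refine ⟨H.map G1.subtype, ?_, φ₁.comp e.symm.toMonoidHom, φ₂.comp e.symm.toMonoidHom, ?_, ?_⟩
    · rw [Subgroup.finiteIndex_iff, Subgroup.index_map_subtype]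
      exact Nat.mul_ne_zero hH.index_ne_zero hG1.index_ne_zero
    · intro a b
      obtain ⟨g, hga, hgb⟩ := h1 a b
      refine ⟨e g, ?_, ?_⟩
      · show φ₁ (e.symm (e g)) = a
        rw [e.symm_apply_apply, hga]
      · show φ₂ (e.symm (e g)) = b
        rw [e.symm_apply_apply, hgb]
    · intro g hg0
      apply h2 (e.symm g)
      have h3 : ((e (e.symm g) : H.map G1.subtype) : G) = ((e.symm g : H) : G1) := rfl
      rw [← h3, e.apply_symm_apply]
      exact hg0
  · left
    push Not at hb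
    obtain ⟨B, hB⟩ := hb
    exact ⟨G1, hG1, φ, hφ, hK, B, fun g hg => hB ⟨g, hg⟩⟩

end Crest.Agent.R147.St
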