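import Crest.Agent.R147.StMil
import Crest.Agent.R147.StKron

/-!
R147, structure block (helper505), part 12: virtual homomorphisms to `ℚ`, as homogeneous functions.
They form a finite dimensional space if the growth is weakly polynomial.
-/

set_option autoImplicit false
set_option linter.unusedSectionVars false

universe u

namespace Crest.Agent.R147.St

open Filter Function Polynomial

section VH

variable {N : Type u} [Group N]

/-- `f` is additive on the subgroup `H`. -/
def AddOn (f : N → ℚ) (H : Subgroup N) : Prop := ∀ x ∈ H, ∀ y ∈ H, f (x * y) = f x + f y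

lemma AddOn.mono {f : N → ℚ} {H H' : Subgroup N} (h : AddOn f H) (hle : H' ≤ H) : AddOn f H' :=
  fun x hx y hy => h x (hle hx) y (hle hy)

/-- homogeneous functions -/
def Hgs (f : N → ℚ) : Prop := ∀ x (k : ℕ), f (x ^ k) = k * f x

lemma Hgs.one {f : N → ℚ} (h : Hgs f) : f 1 = 0 := by
  have := h 1 0
  simpa using this

lemma exists_pow_mem (H : Subgroup N) (hH : H.FiniteIndex) (x : N) : ∃ m : ℕ, 0 < m ∧ x ^ m ∈ H := by
  obtain ⟨m, hm, -, h⟩ := Subgroup.exists_pow_mem_of_index_ne_zero hH.index_ne_zero x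
  exact ⟨m, hm, h⟩

/-- virtual homomorphisms to `ℚ`, killing the null elements. -/
def VH (l : N → ℕ) : Submodule ℚ (N → ℚ) where
  carrier := {f | Hgs f ∧ (∃ H : Subgroup N, H.FiniteIndex ∧ AddOn f H) ∧ ∀ x, l x = 0 → f x = 0}
  zero_mem' := ⟨fun x k => by simp, ⟨⊤, inferInstance, fun x _ y _ => by simp⟩, fun x _ => rfl⟩
  add_mem' := by
    rintro f g ⟨hf1, ⟨H, hH, hf2⟩, hf3⟩ ⟨hg1, ⟨H', hH', hg2⟩, hg3⟩
    refine ⟨fun x k => ?_, ⟨H ⊓ H', inferInstance, fun x hx y hy => ?_⟩, fun x hx => ?_⟩
    · simp only [Pi.add_apply, hf1 x k, hg1 x k]; ring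
    · simp only [Pi.add_apply, hf2 x hx.1 y hy.1, hg2 x hx.2 y hy.2]; ring
    · simp only [Pi.add_apply, hf3 x hx, hg3 x hx, add_zero]
  smul_mem' := by
    rintro c f ⟨hf1, ⟨H, hH, hf2⟩, hf3⟩
    refine ⟨fun x k => ?_, ⟨H, hH, fun x hx y hy => ?_⟩, fun x hx => ?_⟩
    · simp only [Pi.smul_apply, smul_eq_mul, hf1 x k]; ring
    · simp only [Pi.smul_apply, smul_eq_mul, hf2 x hx y hy]; ring
    · simp only [Pi.smul_apply, smul_eq_mul, hf3 x hx, mul_zero]

lemma mem_VH {l : N → ℕ} {f : N → ℚ} : f ∈ VH l ↔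
    Hgs f ∧ (∃ H : Subgroup N, H.FiniteIndex ∧ AddOn f H) ∧ ∀ x, l x = 0 → f x = 0 := Iff.rfl

lemma VH.ext_on {l : N → ℕ} {f g : N → ℚ} (hf : f ∈ VH l) (hg : g ∈ VH l) (H : Subgroup N)
    (hH : H.FiniteIndex) (h : ∀ x ∈ H, f x = g x) : f = g := by
  funext x
  obtain ⟨m, hm, hx⟩ := exists_pow_mem H hH x
  have h1 := h _ hx
  rw [hf.1, hg.1] at h1
  have : (m : ℚ) ≠ 0 := by exact_mod_cast hm.ne'
  exact mul_left_cancel₀ this h1

/-- the homomorphism on a subgroup. -/
def toHom (f : N → ℚ) (H : Subgroup N) (h : AddOn f H) : H →* Multiplicative ℚ :=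
  MonoidHom.mk' (fun x => Multiplicative.ofAdd (f x)) (fun x y => by
    rw [Subgroup.coe_mul, h x x.2 y y.2, ofAdd_add])

@[simp] lemma toHom_apply (f : N → ℚ) (H : Subgroup N) (h : AddOn f H) (x : H) :
    toHom f H h x = Multiplicative.ofAdd (f x) := rfl

end VH

section rank

/-- independent homomorphisms to `ℚ` bound the degree of growth from below. -/
theorem indep_bound (b : ℕ) : ∀ (d : ℕ) {N : Type u} [Group N] {l : N → ℕ}, WLen l d →
    ∀ f : Fin b → N → ℚ, (∀ i x y, f i (x * y) = f i x + f i y) →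
    (∀ i x, l x = 0 → f i x = 0) → LinearIndependent ℚ f → b ≤ d := by
  induction b with
  | zero => intros; exact Nat.zero_le _
  | succ b ih =>
    intro d N _ l hl f hf hK hli
    have h0 : f 0 ≠ 0 := hli.ne_zero 0
    obtain ⟨t, ht⟩ : ∃ t, f 0 t ≠ 0 := by
      by_contra hcon
      push Not at hcon
      exact h0 (funext hcon)
    let φ : N →* Multiplicative ℚ := MonoidHom.mk' (fun x => Multiplicative.ofAdd (f 0 x))
      (fun x y => by rw [hf, ofAdd_add])
    have hφ : ∀ x, φ x = Multiplicative.ofAdd (f 0 x) := fun x => rfl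
    have hpow : ∀ (g : N → ℚ), (∀ x y, g (x * y) = g x + g y) → ∀ x (n : ℤ),
        g (x ^ n) = n * g x := by
      intro g hg x n
      let ψ : N →* Multiplicative ℚ := MonoidHom.mk' (fun x => Multiplicative.ofAdd (g x))
        (fun x y => by rw [hg, ofAdd_add])
      have h1 : ψ (x ^ n) = ψ x ^ n := map_zpow ψ x n
      have h2 := congrArg Multiplicative.toAdd h1
      rw [toAdd_zpow] at h2
      have h3 : Multiplicative.toAdd (ψ (x ^ n)) = g (x ^ n) := rfl
      have h4 : Multiplicative.toAdd (ψ x) = g x := rfl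
      rw [h3, h4, zsmul_eq_mul] at h2
      exact h2
    have htn : ∀ n : ℕ, 0 < n → φ (t ^ n) ≠ 1 := by
      intro n hn h1
      have h2 := hpow (f 0) (hf 0) t n
      rw [zpow_natCast] at h2
      rw [hφ, h2] at h1
      have h3 : ((n : ℤ) : ℚ) * f 0 t = 0 := by
        have := congrArg Multiplicative.toAdd h1
        simpa using this
      rcases mul_eq_zero.1 h3 with h4 | h4
      · have : n = 0 := by exact_mod_cast h4
        omega
      · exact ht h4
    have hφK : ∀ x, l x = 0 → φ x = 1 := by
      intro x hx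
      rw [hφ, hK 0 x hx, ofAdd_zero]
    cases d with
    | zero => exact (not_wlen_zero hl φ htn hφK).elim
    | succ d =>
      have hl' := ker_gr hl φ htn hφK
      have := ih d hl' (fun i (k : φ.ker) => f i.succ (k : N))
        (fun i x y => hf _ _ _) (fun i x hx => hK _ _ hx) (by
          rw [Fintype.linearIndependent_iff]
          intro c hc
          have hc' : ∀ k : N, φ k = 1 → ∑ i, c i * f i.succ k = 0 := by
            intro k hk
            have := congrFun hc ⟨k, hk⟩
            simpa using this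
          -- the combination is a multiple of `f 0`
          set h : N → ℚ := fun x => ∑ i, c i * f i.succ x with hh
          have hadd : ∀ x y, h (x * y) = h x + h y := by
            intro x y
            simp only [hh, hf, mul_add, Finset.sum_add_distrib]
          have hmul : ∀ x, h x * f 0 t = h t * f 0 x := by
            intro x
            obtain ⟨p, q, hq, hpq⟩ : ∃ p q : ℤ, q ≠ 0 ∧ (q : ℚ) * f 0 x = p * f 0 t := by
              refine ⟨(f 0 x / f 0 t).num, (f 0 x / f 0 t).den, ?_, ?_⟩
              · exact_mod_cast (f 0 x / f 0 t).den_nz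
              · have h1 := Rat.num_div_den (f 0 x / f 0 t)
                have h2 : (((f 0 x / f 0 t).den : ℤ) : ℚ) ≠ 0 := by
                  exact_mod_cast (f 0 x / f 0 t).den_nz
                have h3 : ((f 0 x / f 0 t).num : ℚ) = (f 0 x / f 0 t) * ((f 0 x / f 0 t).den : ℤ) := by
                  rw [← Rat.mul_den_eq_num]; simp
                rw [h3]
                field_simp
            have hk : φ (x ^ q * (t ^ p)⁻¹) = 1 := by
              rw [map_mul, map_inv, hφ, hφ, hpow (f 0) (hf 0), hpow (f 0) (hf 0), hpq,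
                mul_inv_cancel]
            have h1 := hc' _ hk
            have h2 : h (x ^ q * (t ^ p)⁻¹) = 0 := h1
            rw [← zpow_neg, hadd, hpow h hadd, hpow h hadd] at h2
            have hq' : (q : ℚ) ≠ 0 := by exact_mod_cast hq
            apply mul_left_cancel₀ hq'
            push_cast at h2
            linear_combination (f 0 t) * h2 - (h t) * hpq
          rw [Fintype.linearIndependent_iff] at hli
          have h1 := hli (Fin.cons (- (h t / f 0 t)) c) (by
            funext x
            rw [Finset.sum_apply, Fin.sum_univ_succ]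
            simp only [Fin.cons_zero, Fin.cons_succ, Pi.smul_apply, smul_eq_mul, Pi.zero_apply]
            have h2 := hmul x
            have h3 : ∑ i, c i * f i.succ x = h t * f 0 x / f 0 t := by
              rw [← h2]
              show h x = _
              field_simp
            rw [h3]
            field_simp
            ring)
          intro i
          have := h1 i.succ
          simpa using this)
      omega

variable {N : Type u} [Group N] {l : N → ℕ} {d : ℕ}

theorem VH_rank (hl : WLen l d) : Module.rank ℚ (VH l) ≤ d := by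
  classical
  refine rank_le fun s hs => ?_
  -- a common subgroup
  choose H hH hadd using fun f : (s : Set (VH l)) => (f : VH l).2.2.1
  let H0 : Subgroup N := ⨅ f, H f
  have hH0 : H0.FiniteIndex := by
    apply Subgroup.finiteIndex_iInf
    exact hH
  have hle : ∀ f, H0 ≤ H f := fun f => iInf_le _ _
  have hl0 := hl.subgroup H0
  let e := s.equivFin
  let F : Fin s.card → H0 → ℚ := fun i x => ((e.symm i : VH l) : N → ℚ) x
  refine indep_bound s.card d hl0 F ?_ ?_ ?_
  · intro i x y
    exact hadd (e.symm i) x (hle _ x.2) y (hle _ y.2)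
  · intro i x hx
    exact (e.symm i : VH l).2.2.2 x hx
  · rw [Fintype.linearIndependent_iff]
    intro c hc
    have hs' : LinearIndependent ℚ (fun i : Fin s.card => ((e.symm i : s) : VH l)) :=
      hs.comp _ e.symm.injective
    rw [Fintype.linearIndependent_iff] at hs'
    apply hs' c
    apply Subtype.ext
    refine VH.ext_on (l := l) (Subtype.property _) (Submodule.zero_mem _) H0 hH0 ?_
    intro x hx
    have h1 := congrFun hc ⟨x, hx⟩
    rw [Finset.sum_apply] at h1
    rw [AddSubmonoidClass.coe_finsetSum, Finset.sum_apply]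
    exact h1

theorem VH_finite (hl : WLen l d) : FiniteDimensional ℚ (VH l) :=
  Module.rank_lt_aleph0_iff.1 ((VH_rank hl).trans_lt (Cardinal.natCast_lt_aleph0))

/-- a common normal subgroup of finite index on which all virtual homomorphisms are additive. -/
theorem exists_common (hl : WLen l d) : ∃ H : Subgroup N, H.Normal ∧ H.FiniteIndex ∧
    ∀ f ∈ VH l, AddOn f H := by
  classical
  have hfd := VH_finite hl
  obtain ⟨s, hs⟩ := (inferInstance : Module.Finite ℚ (VH l)).fg_top
  choose H hH hadd using fun f : (s : Set (VH l)) => (f : VH l).2.2.1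
  let H0 : Subgroup N := ⨅ f, H f
  have hH0 : H0.FiniteIndex := by
    apply Subgroup.finiteIndex_iInf
    exact hH
  refine ⟨H0.normalCore, inferInstance, inferInstance, ?_⟩
  have key : ∀ f : VH l, AddOn (f : N → ℚ) H0 := by
    intro f
    have hf : f ∈ Submodule.span ℚ (s : Set (VH l)) := by rw [hs]; trivial
    refine Submodule.span_induction ?_ ?_ ?_ ?_ hf
    · intro f hf
      exact (hadd ⟨f, hf⟩).mono (iInf_le _ _)
    · intro x _ y _; simp
    · intro f g _ _ h1 h2 x hx y hy
      show (f : N → ℚ) (x * y) + (g : N → ℚ) (x * y) = _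
      rw [h1 x hx y hy, h2 x hx y hy]
      show _ = ((f : N → ℚ) x + (g : N → ℚ) x) + ((f : N → ℚ) y + (g : N → ℚ) y)
      ring
    · intro c f _ h1 x hx y hy
      show c * (f : N → ℚ) (x * y) = c * (f : N → ℚ) x + c * (f : N → ℚ) y
      rw [h1 x hx y hy]; ring
  intro f hf
  exact (key ⟨f, hf⟩).mono H0.normalCore_le

/-- the image of a ball under a virtual homomorphism, on the subgroup. -/
theorem image_VH_finite (hl : WLen l d) {f : N → ℚ} (hf : f ∈ VH l) {H : Subgroup N}
    (h : AddOn f H) (B : ℕ) : (f '' {x | x ∈ H ∧ l x ≤ B}).Finite := by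
  obtain ⟨b, hb⟩ := hl.fin B
  have h1 := (image_ball_finite (hl.toPLen.subgroup H) (toHom f H h) (by
    refine (Set.finite_singleton 1).subset ?_
    rintro _ ⟨k, hk, rfl⟩
    rw [toHom_apply, hf.2.2 k hk, ofAdd_zero]
    rfl) (hb.subgroup H)).1
  refine (h1.image Multiplicative.toAdd).subset ?_
  rintro _ ⟨x, ⟨hx1, hx2⟩, rfl⟩
  exact ⟨_, ⟨⟨x, hx1⟩, hx2, rfl⟩, rfl⟩

/-- virtual homomorphisms kill elements with bounded powers. -/
theorem VH_bdd_zero (hl : WLen l d) {f : N → ℚ} (hf : f ∈ VH l) {y : N} {B : ℕ}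
    (hy : ∀ k : ℕ, l (y ^ k) ≤ B) : f y = 0 := by
  obtain ⟨H, hH, hadd⟩ := hf.2.1
  obtain ⟨m, hm, hx⟩ := exists_pow_mem H hH y
  have h1 := image_VH_finite hl hf hadd B
  by_contra hne
  have hinj : Injective (fun k : ℕ => f (y ^ (m * k))) := by
    intro a b hab
    have h2 : f (y ^ (m * a)) = f (y ^ (m * b)) := hab
    rw [hf.1, hf.1] at h2
    have h3 := mul_right_cancel₀ hne h2
    have h4 : m * a = m * b := by exact_mod_cast h3
    exact Nat.eq_of_mul_eq_mul_left hm h4
  apply Set.infinite_range_of_injective hinj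
  refine h1.subset ?_
  rintro _ ⟨k, rfl⟩
  refine ⟨y ^ (m * k), ⟨?_, hy _⟩, rfl⟩
  rw [pow_mul]
  exact H.pow_mem hx k

/-- finitely many points separate the virtual homomorphisms. -/
theorem exists_separating (hl : WLen l d) (hg : CGen l) :
    ∃ E : Finset N, ∀ f ∈ VH l, (∀ e ∈ E, f e = 0) → f = 0 := by
  classical
  obtain ⟨H, hHn, hH, hadd⟩ := exists_common hl
  obtain ⟨r, hr⟩ := hg.subgroup hl.toPLen H hH
  obtain ⟨b, hb⟩ := hl.fin r
  obtain ⟨F, -, hF2, -, hF4⟩ := exists_net (hl.toPLen.subgroup H) (hb.subgroup H)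
  refine ⟨F.image (fun x : H => (x : N)), fun f hf hE => ?_⟩
  refine VH.ext_on hf (Submodule.zero_mem _) H hH ?_
  intro x hx
  have h1 : (⟨x, hx⟩ : H) ∈ Subgroup.closure {g : H | l (g : N) ≤ r} := by rw [hr]; trivial
  have h2 : Subgroup.closure {g : H | l (g : N) ≤ r} ≤ (toHom f H (hadd f hf)).ker := by
    rw [Subgroup.closure_le]
    intro g hg
    rw [SetLike.mem_coe, MonoidHom.mem_ker]
    obtain ⟨e, he, heg⟩ := hF4 g hg
    have e1 : g = e * (e⁻¹ * g) := by group
    rw [e1, map_mul, toHom_apply, toHom_apply, hE e (Finset.mem_image_of_mem _ he),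
      hf.2.2 _ heg]
    simp
  have h3 := h2 h1
  rw [MonoidHom.mem_ker, toHom_apply] at h3
  have h4 := congrArg Multiplicative.toAdd h3
  simpa using h4

end rank

end Crest.Agent.R147.St
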