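import Crest.Agent.R147.Cl684Contact

/-!
Row 147 (helper642): finite volume bound for the number of contact edges between two distinct
clusters having at least `M` vertices (random root set of density `1/M` in the AKN bound).
-/

set_option autoImplicit false

namespace Crest.Agent.R147.Tg

open Finset Crest.Agent.R159.FV Crest.Agent.R147.Cl
open scoped Classical

universe u
variable {V : Type u}

/-- Fubini for two product laws -/
theorem Ex_comm {α β : Type*} [DecidableEq α] [DecidableEq β] (E : Finset α) (F : Finset β)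
    (w : α → ℝ) (v : β → ℝ) (f : Finset α → Finset β → ℝ) :
    Ex E w (fun S => Ex F v (fun R => f S R)) = Ex F v (fun R => Ex E w (fun S => f S R)) := by
  unfold Ex
  simp_rw [Finset.mul_sum]
  rw [Finset.sum_comm]
  apply Finset.sum_congr rfl; intro R _
  apply Finset.sum_congr rfl; intro S _
  ring

/-- probability that a random set misses `A` -/
theorem Pr_disjoint {α : Type*} [DecidableEq α] {E A : Finset α} (hA : A ⊆ E) (r : ℝ) :
    Pr E (fun _ => r) (fun R => ∀ a ∈ A, a ∉ R) = (1 - r) ^ A.card := by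
  induction A using Finset.induction_on with
  | empty =>
    have : Pr E (fun _ => r) (fun R => ∀ a ∈ (∅ : Finset α), a ∉ R) = 1 := by
      unfold Pr
      rw [Ex_congr (g := fun _ => 1) (fun _ => r) (fun S _ => ind_true (by simp)), Ex_one]
    rw [this]; simp
  | insert a A ha ih =>
    have h1 : Pr E (fun _ => r) (fun R => ∀ b ∈ insert a A, b ∉ R) =
        Pr E (fun _ => r) (fun R => (a ∉ R) ∧ (∀ b ∈ A, b ∉ R)) := by
      apply Pr_congr
      intro S _
      simp [Finset.mem_insert]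
    have haE : a ∈ E := hA (Finset.mem_insert_self a A)
    have hAE : A ⊆ E := fun x hx => hA (Finset.mem_insert_of_mem hx)
    rw [h1, Pr_and_of_disjoint (D₁ := {a}) (D₂ := A) (Finset.singleton_subset_iff.2 haE) hAE
      (by simpa using ha) (fun _ => r), ih hAE, Finset.card_insert_of_notMem ha]
    · have h2 : Pr E (fun _ => r) (fun R => a ∉ R) = 1 - r := by
        rw [Pr_not, Pr_mem haE]
      rw [h2]; ring
    · intro S T h
      have h' := Finset.ext_iff.1 h a
      simp only [Finset.mem_inter, Finset.mem_singleton, and_true] at h'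
      simp only [eq_iff_iff, not_iff_not]
      exact h'
    · intro S T h
      have : ∀ b ∈ A, (b ∈ S ↔ b ∈ T) := by
        intro b hb
        have h' := Finset.ext_iff.1 h b
        simpa [hb] using h'
      simp only [eq_iff_iff]
      constructor
      · intro h2 b hb hbT; exact h2 b hb ((this b hb).2 hbT)
      · intro h2 b hb hbS; exact h2 b hb ((this b hb).1 hbS)

/-- closed edges of `E` joining two distinct clusters with at least `M` vertices each -/
def bigContact (Λ : Finset V) (M : ℕ) (e : Sym2 V) (S : Finset (Sym2 V)) : Prop :=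
  ∃ a b, e = s(a, b) ∧ M ≤ (clus Λ S a).card ∧ M ≤ (clus Λ S b).card ∧ ¬ conn S a b

theorem one_sub_pow_le {M n : ℕ} (hM : 0 < M) (hn : M ≤ n) :
    (1 - 1 / (M : ℝ)) ^ n ≤ 1 / 2 := by
  have hM0 : (0 : ℝ) < M := by exact_mod_cast hM
  have h1 : (0 : ℝ) ≤ 1 - 1 / M := by
    rw [sub_nonneg, div_le_one hM0]; exact_mod_cast hM
  have h2 : (1 - 1 / (M : ℝ)) ^ n ≤ (1 - 1 / (M : ℝ)) ^ M :=
    pow_le_pow_of_le_one h1 (by have : (0:ℝ) ≤ 1 / M := by positivity
                                linarith) hn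
  have h3 : 1 - 1 / (M : ℝ) ≤ Real.exp (-(1 / M)) := by
    have := Real.add_one_le_exp (-(1 / (M : ℝ)))
    linarith
  have h4 : (1 - 1 / (M : ℝ)) ^ M ≤ Real.exp (-1) := by
    calc (1 - 1 / (M : ℝ)) ^ M ≤ (Real.exp (-(1 / M))) ^ M := pow_le_pow_left₀ h1 h3 M
      _ = Real.exp (-1) := by
        rw [← Real.exp_nat_mul]
        congr 1
        field_simp
  have h5 : Real.exp (-1) ≤ 1 / 2 := by
    rw [Real.exp_neg, ← one_div]
    apply one_div_le_one_div_of_le (by norm_num)
    have := Real.add_one_le_exp (1 : ℝ)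
    linarith
  linarith

/-- for a big contact, a random root set of density `1/M` touches both clusters with probability
at least `1/4`. -/
theorem quarter_le {Λ : Finset V} {E S : Finset (Sym2 V)}
    {M : ℕ} (hM : 0 < M) {e : Sym2 V} (he : e ∈ E) (h : bigContact Λ M e S) :
    1 / 4 ≤ Pr Λ (fun _ => 1 / (M : ℝ)) (fun R => e ∈ contact E S (↑R : Set V)) := by
  have hM0 : (0 : ℝ) < M := by exact_mod_cast hM
  have h0 : ∀ v ∈ Λ, (0 : ℝ) ≤ (fun _ => 1 / (M : ℝ)) v := fun _ _ => by positivity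
  have h1 : ∀ v ∈ Λ, (fun _ => 1 / (M : ℝ)) v ≤ (1 : ℝ) := fun _ _ => by
    simp only
    rw [div_le_one hM0]; exact_mod_cast hM
  obtain ⟨a, b, rfl, hca, hcb, hn⟩ := h
  set A := clus Λ S a with hA
  set B := clus Λ S b with hB
  have hAB : Disjoint A B := by
    rw [Finset.disjoint_left]
    intro x hx hx'
    exact hn ((mem_clus.1 hx).2.trans (mem_clus.1 hx').2.symm)
  have hAΛ : A ⊆ Λ := fun x hx => (mem_clus.1 hx).1
  have hBΛ : B ⊆ Λ := fun x hx => (mem_clus.1 hx).1
  have hdep : ∀ C : Finset V, DependsOn C (fun R : Finset V => ¬ ∀ c ∈ C, c ∉ R) := by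
    intro C S T h
    have : ∀ b ∈ C, (b ∈ S ↔ b ∈ T) := by
      intro b hb
      have h' := Finset.ext_iff.1 h b
      simpa [hb] using h'
    simp only [eq_iff_iff, not_iff_not]
    constructor
    · intro h2 b hb hbT; exact h2 b hb ((this b hb).2 hbT)
    · intro h2 b hb hbS; exact h2 b hb ((this b hb).1 hbS)
  have h2 := Pr_and_of_disjoint (D₁ := A) (D₂ := B) hAΛ hBΛ hAB (fun _ => 1 / (M : ℝ))
    (hdep A) (hdep B)
  have h3 : ∀ C : Finset V, C ⊆ Λ → M ≤ C.card →
      1 / 2 ≤ Pr Λ (fun _ => 1 / (M : ℝ)) (fun R => ¬ ∀ c ∈ C, c ∉ R) := by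
    intro C hC hcard
    rw [Pr_not, Pr_disjoint hC]
    have := one_sub_pow_le hM hcard
    linarith
  have h4 : (1 / 4 : ℝ) ≤ Pr Λ (fun _ => 1 / (M : ℝ))
      (fun R => (¬ ∀ c ∈ A, c ∉ R) ∧ (¬ ∀ c ∈ B, c ∉ R)) := by
    rw [h2]
    nlinarith [h3 A hAΛ hca, h3 B hBΛ hcb]
  refine h4.trans (Pr_mono h0 h1 ?_)
  rintro R _ ⟨h5, h6⟩
  push Not at h5 h6
  obtain ⟨c, hc, hcR⟩ := h5
  obtain ⟨d, hd, hdR⟩ := h6
  unfold contact
  rw [Finset.mem_filter]
  refine ⟨he, a, b, rfl, ⟨c, hcR, (mem_clus.1 hc).2.symm⟩, ⟨d, hdR, (mem_clus.1 hd).2.symm⟩, hn⟩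

/-- **finite volume bound for contacts of big clusters** -/
theorem big_akn (w : Sym2 V → ℝ) {Λ : Finset V} {E : Finset (Sym2 V)}
    (h0 : ∀ e ∈ E, 0 ≤ w e) (h1 : ∀ e ∈ E, w e ≤ 1)
    (hE : ∀ e ∈ E, ∀ v ∈ e, v ∈ Λ)
    {D : ℕ} (hD : ∀ v ∈ Λ, (E.filter (fun e => v ∈ e)).card ≤ D) {K : ℕ} (hK : 0 < K)
    {M : ℕ} (hM : 0 < M) :
    ∑ e ∈ E, w e * Pr E w (bigContact Λ M e) ≤
      4 * (K * (Λ.card / M) + D * (Λ.card * Real.sqrt (1 / (2 * K)))) := by
  have hM0 : (0 : ℝ) < M := by exact_mod_cast hM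
  have g0 : ∀ v ∈ Λ, (0 : ℝ) ≤ (fun _ => 1 / (M : ℝ)) v := fun _ _ => by positivity
  have g1 : ∀ v ∈ Λ, (fun _ => 1 / (M : ℝ)) v ≤ (1 : ℝ) := fun _ _ => by
    simp only
    rw [div_le_one hM0]; exact_mod_cast hM
  have key : ∀ e ∈ E, Pr E w (bigContact Λ M e) ≤
      4 * Ex Λ (fun _ => 1 / (M : ℝ)) (fun R => Pr E w (fun S => e ∈ contact E S (↑R : Set V))) := by
    intro e he
    unfold Pr
    rw [← Ex_comm, ← Ex_mul_left]
    apply Ex_mono h0 h1
    intro S _
    by_cases hb : bigContact Λ M e S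
    · rw [ind_true hb]
      have := quarter_le hM he hb
      unfold Pr at this
      linarith
    · rw [ind_false hb]
      have : 0 ≤ Pr Λ (fun _ => 1 / (M : ℝ)) (fun R => e ∈ contact E S (↑R : Set V)) :=
        Pr_nonneg g0 g1 _
      unfold Pr at this
      linarith
  calc ∑ e ∈ E, w e * Pr E w (bigContact Λ M e)
      ≤ ∑ e ∈ E, w e * (4 * Ex Λ (fun _ => 1 / (M : ℝ))
          (fun R => Pr E w (fun S => e ∈ contact E S (↑R : Set V)))) :=
        Finset.sum_le_sum (fun e he => mul_le_mul_of_nonneg_left (key e he) (h0 e he))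
    _ = 4 * Ex Λ (fun _ => 1 / (M : ℝ)) (fun R => ∑ e ∈ E, w e *
          Pr E w (fun S => e ∈ contact E S (↑R : Set V))) := by
        rw [Ex_sum, Finset.mul_sum]
        apply Finset.sum_congr rfl
        intro e _
        rw [Ex_mul_left]; ring
    _ ≤ 4 * Ex Λ (fun _ => 1 / (M : ℝ)) (fun R => K * R.card +
          D * (Λ.card * Real.sqrt (1 / (2 * K)))) := by
        apply mul_le_mul_of_nonneg_left _ (by norm_num)
        apply Ex_mono g0 g1
        intro R hR
        exact akn w h0 h1 hE hR hD hK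
    _ = _ := by
        rw [Ex_add, Ex_const, Ex_mul_left]
        have : Ex Λ (fun _ => 1 / (M : ℝ)) (fun R => (R.card : ℝ)) = Λ.card / M := by
          have h3 : ∀ R, R ⊆ Λ → (R.card : ℝ) = ∑ v ∈ Λ, ind (v ∈ R) := by
            intro R hR
            have : ∑ v ∈ Λ, ind (v ∈ R) = ∑ v ∈ Λ, (if v ∈ R then (1 : ℝ) else 0) := by
              apply Finset.sum_congr rfl
              intro v _
              by_cases h : v ∈ R
              · rw [ind_true h, if_pos h]
              · rw [ind_false h, if_neg h]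
            rw [this, ← Finset.sum_filter, Finset.sum_const, nsmul_eq_mul, mul_one]
            congr 2
            ext v
            rw [Finset.mem_filter]
            exact ⟨fun h => ⟨hR h, h⟩, fun h => h.2⟩
          rw [Ex_congr _ h3, Ex_sum]
          have h4 : ∀ v ∈ Λ, Ex Λ (fun _ => 1 / (M : ℝ)) (fun R => ind (v ∈ R)) = 1 / M :=
            fun v hv => Pr_mem hv _
          rw [Finset.sum_congr rfl h4, Finset.sum_const, nsmul_eq_mul]
          ring
        rw [this]

end Crest.Agent.R147.Tg
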